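import Crest.Agent.R100.AdDV

/-! # Row 100, approximate duality: step (5) -/

set_option autoImplicit false

noncomputable section

namespace Crest.Agent.R100.Ent

open Finset

variable {G : Type*} [AddCommGroup G] {ι : Type*} [Fintype ι]
  {D : ι → ℝ} {a : ι → G} {s k : ℕ}

theorem sq_sub_le (u v : ℂ) {η : ℝ} (hη : 0 < η) :
    ‖u‖ ^ 2 - ‖v‖ ^ 2 ≤ η * ‖u‖ ^ 2 + ‖u - v‖ ^ 2 / η := by
  have h1 : ‖u‖ ≤ ‖v‖ + ‖u - v‖ := by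
    calc ‖u‖ = ‖v + (u - v)‖ := by ring_nf
      _ ≤ _ := norm_add_le _ _
  have h0 := norm_nonneg u
  have h2 := norm_nonneg v
  have h3 := norm_nonneg (u - v)
  have h4 : 2 * ‖u‖ * ‖u - v‖ ≤ η * ‖u‖ ^ 2 + ‖u - v‖ ^ 2 / η := by
    have : η * ‖u‖ ^ 2 + ‖u - v‖ ^ 2 / η - 2 * ‖u‖ * ‖u - v‖ = (η * ‖u‖ - ‖u - v‖) ^ 2 / η := by
      field_simp; ring
    have h5 : 0 ≤ (η * ‖u‖ - ‖u - v‖) ^ 2 / η := by positivity
    linarith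
  by_cases h : ‖v‖ ≤ ‖u‖
  · nlinarith
  · push Not at h
    have : 0 ≤ η * ‖u‖ ^ 2 + ‖u - v‖ ^ 2 / η := by positivity
    nlinarith

theorem min_div_le {X Y Y₀ : ℝ} (hX : 0 ≤ X) (hY : 0 ≤ Y) (hY₀ : 0 < Y₀) :
    min 1 (X / Y) ≤ X / Y₀ + max (1 - Y / Y₀) 0 := by
  have hXY : 0 ≤ X / Y₀ := by positivity
  rcases eq_or_lt_of_le hY with h | h
  · subst h
    simp only [div_zero, zero_div, sub_zero]
    have : min (1 : ℝ) 0 ≤ 0 := min_le_right _ _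
    have : (0 : ℝ) ≤ max 1 0 := le_max_right _ _
    linarith
  by_cases h1 : Y₀ ≤ Y
  · have : X / Y ≤ X / Y₀ := div_le_div_of_nonneg_left hX hY₀ h1
    have h2 : min 1 (X / Y) ≤ X / Y := min_le_right _ _
    have : (0 : ℝ) ≤ max (1 - Y / Y₀) 0 := le_max_right _ _
    linarith
  push Not at h1
  have h3 : 1 - Y / Y₀ ≤ max (1 - Y / Y₀) 0 := le_max_left _ _
  by_cases h2 : Y ≤ X
  · have : Y / Y₀ ≤ X / Y₀ := div_le_div_of_nonneg_right h2 hY₀.le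
    have h4 : min 1 (X / Y) ≤ 1 := min_le_left _ _
    linarith
  push Not at h2
  have h4 : min 1 (X / Y) ≤ X / Y := min_le_right _ _
  have h5 : X / Y ≤ X / Y₀ + (1 - Y / Y₀) := by
    rw [div_add' _ _ _ hY₀.ne', div_le_div_iff₀ h hY₀]
    have : (1 - Y / Y₀) * Y₀ = Y₀ - Y := by field_simp
    rw [this]
    nlinarith
  linarith

/-- the squared modulus -/
def hsq (Φ : G → ℂ) (z : G) : ℝ := ‖Φ z‖ ^ 2

omit [AddCommGroup G] in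
theorem hsq_nonneg (Φ : G → ℂ) (z : G) : 0 ≤ hsq Φ z := by unfold hsq; positivity

/-- `β² Z₀ - GA(a n) ≤ η β² Z₀ + e_n² / η` -/
theorem GA_low (hD : IsProb D) (Φ : G → ℂ) (B : ℂ) (z : G) {η : ℝ} (hη : 0 < η) :
    ‖B‖ ^ 2 * GA D a (hsq Φ) s 0 - GA D a (hsq Φ) s z ≤
      η * (‖B‖ ^ 2 * GA D a (hsq Φ) s 0) +
        (∑ ω, PA D s ω * ‖Φ (z + AA a s ω) - B * Φ (AA a s ω)‖ ^ 2) / η := by
  have hP := (hD.PA s).nn
  unfold GA hsq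
  simp only [zero_add, mul_sum, sum_div, ← sum_sub_distrib, ← sum_add_distrib]
  refine sum_le_sum fun ω _ => ?_
  have h := sq_sub_le (B * Φ (AA a s ω)) (Φ (z + AA a s ω)) hη
  rw [norm_mul, mul_pow, norm_sub_rev] at h
  have := mul_le_mul_of_nonneg_left h (hP ω)
  calc _ = PA D s ω * (‖B‖ ^ 2 * ‖Φ (AA a s ω)‖ ^ 2 - ‖Φ (z + AA a s ω)‖ ^ 2) := by ring
    _ ≤ _ := this
    _ = _ := by ring

theorem ZQ_low (hD : IsProb D) (Φ : G → ℂ) (B : ℂ) {δ' : ℝ} (hδ' : δ' ≤ 1 / 8)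
    (hZ : 0 ≤ GA D a (hsq Φ) s 0)
    (hN2 : ∑ n, D n * ∑ ω, PA D s ω * ‖Φ (a n + AA a s ω) - B * Φ (AA a s ω)‖ ^ 2 ≤
      δ' * (‖B‖ ^ 2 * GA D a (hsq Φ) s 0)) :
    ‖B‖ ^ 2 * GA D a (hsq Φ) s 0 / 4 ≤ ZQ D a (hsq Φ) s := by
  set Y := ‖B‖ ^ 2 * GA D a (hsq Φ) s 0 with hY
  have hY0 : 0 ≤ Y := by positivity
  have h1 : ∑ n, D n * (Y - GA D a (hsq Φ) s (a n)) ≤
      ∑ n, D n * ((1 / 2) * Y +
        (∑ ω, PA D s ω * ‖Φ (a n + AA a s ω) - B * Φ (AA a s ω)‖ ^ 2) / (1 / 2)) :=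
    sum_le_sum fun n _ => mul_le_mul_of_nonneg_left
      (GA_low hD Φ B (a n) (by norm_num)) (hD.nn n)
  have h2 : ∑ n, D n * (Y - GA D a (hsq Φ) s (a n)) = Y - ZQ D a (hsq Φ) s := by
    simp only [mul_sub, sum_sub_distrib, ← sum_mul, hD.one, one_mul, ZQ]
  have h3 : ∑ n, D n * ((1 / 2) * Y +
        (∑ ω, PA D s ω * ‖Φ (a n + AA a s ω) - B * Φ (AA a s ω)‖ ^ 2) / (1 / 2)) =
      (1 / 2) * Y + 2 * ∑ n, D n *
        ∑ ω, PA D s ω * ‖Φ (a n + AA a s ω) - B * Φ (AA a s ω)‖ ^ 2 := by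
    simp only [mul_add, sum_add_distrib, ← sum_mul, hD.one, one_mul]
    rw [mul_sum]
    congr 1
    refine sum_congr rfl fun n _ => by ring
  nlinarith

/-- the test function -/
def T5 (Φ : G → ℂ) (β c₀ : ℝ) (y z : G) : ℝ := min 1 (β ^ 2 * hsq Φ z / (c₀ ^ 2 * hsq Φ y))

omit [AddCommGroup G] in
theorem T5_nonneg (Φ : G → ℂ) (β c₀ : ℝ) (y z : G) : 0 ≤ T5 Φ β c₀ y z := by
  have := hsq_nonneg Φ y
  have := hsq_nonneg Φ z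
  unfold T5
  exact le_min zero_le_one (by positivity)

omit [AddCommGroup G] in
theorem T5_le (Φ : G → ℂ) (β c₀ : ℝ) (y z : G) : T5 Φ β c₀ y z ≤ 1 := min_le_left _ _

omit [AddCommGroup G] in
theorem mul_T5_le (Φ : G → ℂ) (β : ℝ) {c₀ : ℝ} (hc : 0 < c₀) (y z : G) :
    hsq Φ y * T5 Φ β c₀ y z ≤ β ^ 2 * hsq Φ z / c₀ ^ 2 := by
  have hy := hsq_nonneg Φ y
  have hz := hsq_nonneg Φ z
  rcases eq_or_lt_of_le hy with h | h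
  · rw [← h, zero_mul]; positivity
  · calc _ ≤ hsq Φ y * (β ^ 2 * hsq Φ z / (c₀ ^ 2 * hsq Φ y)) :=
          mul_le_mul_of_nonneg_left (min_le_right _ _) hy
      _ = _ := by field_simp

omit [AddCommGroup G] in
/-- the pointwise lower bound under the true law -/
theorem mul_T5_ge (Φ : G → ℂ) (B : ℂ) {c₀ η : ℝ} (hc : 0 < c₀) (hη : 0 < η) (y z w : G) :
    hsq Φ y - η * hsq Φ y - 2 / η * ‖Φ y - B * Φ w‖ ^ 2 -
        2 / η * (‖B‖ ^ 2 / c₀ ^ 2) * ‖Φ z - c₀ * Φ w‖ ^ 2 ≤ hsq Φ y * T5 Φ ‖B‖ c₀ y z := by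
  have hy := hsq_nonneg Φ y
  have hz := hsq_nonneg Φ z
  have e1 : 0 ≤ 2 / η * ‖Φ y - B * Φ w‖ ^ 2 := by positivity
  have e2 : 0 ≤ 2 / η * (‖B‖ ^ 2 / c₀ ^ 2) * ‖Φ z - c₀ * Φ w‖ ^ 2 := by positivity
  have e3 : 0 ≤ η * hsq Φ y := by positivity
  rcases eq_or_lt_of_le hy with h | h
  · rw [← h] at e3 ⊢; simp only [zero_mul, mul_zero]; linarith
  unfold T5
  rcases le_total 1 (‖B‖ ^ 2 * hsq Φ z / (c₀ ^ 2 * hsq Φ y)) with h1 | h1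
  · rw [min_eq_left h1]; linarith
  rw [min_eq_right h1]
  have e4 : hsq Φ y * (‖B‖ ^ 2 * hsq Φ z / (c₀ ^ 2 * hsq Φ y)) = ‖B / c₀ * Φ z‖ ^ 2 := by
    rw [norm_mul, norm_div, Complex.norm_real, Real.norm_of_nonneg hc.le]
    have e : (‖B‖ / c₀ * ‖Φ z‖) ^ 2 = ‖B‖ ^ 2 * hsq Φ z / c₀ ^ 2 := by unfold hsq; ring
    rw [e]
    field_simp
  rw [e4]
  have h2 := sq_sub_le (Φ y) (B / c₀ * Φ z) hη
  have hc' : (c₀ : ℂ) ≠ 0 := by exact_mod_cast hc.ne'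
  have e5 : Φ y - B / c₀ * Φ z = (Φ y - B * Φ w) - B / c₀ * (Φ z - c₀ * Φ w) := by
    field_simp; ring
  have h3 : ‖Φ y - B / c₀ * Φ z‖ ≤ ‖Φ y - B * Φ w‖ + ‖B‖ / c₀ * ‖Φ z - c₀ * Φ w‖ := by
    rw [e5]
    refine (norm_sub_le _ _).trans (le_of_eq ?_)
    rw [norm_mul, norm_div, Complex.norm_real, Real.norm_of_nonneg hc.le]
  have h4 : ‖Φ y - B / c₀ * Φ z‖ ^ 2 ≤
      2 * ‖Φ y - B * Φ w‖ ^ 2 + 2 * (‖B‖ ^ 2 / c₀ ^ 2) * ‖Φ z - c₀ * Φ w‖ ^ 2 := by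
    have h5 := pow_le_pow_left₀ (norm_nonneg _) h3 2
    have e6 : (‖B‖ / c₀ * ‖Φ z - c₀ * Φ w‖) ^ 2 = ‖B‖ ^ 2 / c₀ ^ 2 * ‖Φ z - c₀ * Φ w‖ ^ 2 := by
      ring
    nlinarith [sq_nonneg (‖Φ y - B * Φ w‖ - ‖B‖ / c₀ * ‖Φ z - c₀ * Φ w‖)]
  have h6 : ‖Φ y - B / c₀ * Φ z‖ ^ 2 / η ≤ 2 / η * ‖Φ y - B * Φ w‖ ^ 2 +
      2 / η * (‖B‖ ^ 2 / c₀ ^ 2) * ‖Φ z - c₀ * Φ w‖ ^ 2 := by
    calc _ ≤ (2 * ‖Φ y - B * Φ w‖ ^ 2 + 2 * (‖B‖ ^ 2 / c₀ ^ 2) * ‖Φ z - c₀ * Φ w‖ ^ 2) / η :=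
          div_le_div_of_nonneg_right h4 hη.le
      _ = _ := by ring
  unfold hsq at *
  linarith

/-- the true law -/
theorem true_low (hD : IsProb D) (Φ : G → ℂ) (B : ℂ) (r : ℕ) {c₀ δ δ' η : ℝ} (hc : 0 < c₀)
    (hB : B ≠ 0) (hη : 0 < η) (hδ : 0 ≤ δ) (hδ0 : 0 ≤ δ') (hδ' : δ' ≤ 1 / 8)
    (hZ : 0 < GA D a (hsq Φ) s 0)
    (hN1 : ∑ ω, PA D s ω * ∑ x, PA D r x *
      ‖Φ (AA a s ω + AA a r x) - c₀ * Φ (AA a s ω)‖ ^ 2 ≤ δ * (c₀ ^ 2 * GA D a (hsq Φ) s 0))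
    (hN2 : ∑ n, D n * ∑ ω, PA D s ω * ‖Φ (a n + AA a s ω) - B * Φ (AA a s ω)‖ ^ 2 ≤
      δ' * (‖B‖ ^ 2 * GA D a (hsq Φ) s 0)) :
    1 - η - 8 * (δ + δ') / η ≤
      ∑ n, ∑ ω, Qn D a (hsq Φ) s n * Qc D a (hsq Φ) s n ω *
        ∑ x, PA D r x * T5 Φ ‖B‖ c₀ (a n + AA a s ω) (AA a s ω + AA a r x) := by
  have hβ : 0 < ‖B‖ := norm_pos_iff.mpr hB
  have hZl := ZQ_low hD Φ B hδ' hZ.le hN2
  set Y := ‖B‖ ^ 2 * GA D a (hsq Φ) s 0 with hY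
  have hY0 : 0 < Y := by positivity
  have hZQ : 0 < ZQ D a (hsq Φ) s := by linarith
  set E1 : ι → OA ι s → ℝ := fun n ω => ‖Φ (a n + AA a s ω) - B * Φ (AA a s ω)‖ ^ 2 with hE1
  set E2 : OA ι s → ℝ := fun ω => ∑ x, PA D r x *
      ‖Φ (AA a s ω + AA a r x) - c₀ * Φ (AA a s ω)‖ ^ 2 with hE2
  have hPr := hD.PA r
  have hPs := hD.PA s
  have h1 : ∀ n ω, D n * PA D s ω * ((1 - η) * hsq Φ (a n + AA a s ω) - 2 / η * E1 n ω -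
        2 / η * (‖B‖ ^ 2 / c₀ ^ 2) * E2 ω) / ZQ D a (hsq Φ) s ≤
      Qn D a (hsq Φ) s n * Qc D a (hsq Φ) s n ω *
        ∑ x, PA D r x * T5 Φ ‖B‖ c₀ (a n + AA a s ω) (AA a s ω + AA a r x) := by
    intro n ω
    rw [Qn_mul_Qc hD (hsq_nonneg Φ)]
    have h2 : (1 - η) * hsq Φ (a n + AA a s ω) - 2 / η * E1 n ω -
        2 / η * (‖B‖ ^ 2 / c₀ ^ 2) * E2 ω ≤ hsq Φ (a n + AA a s ω) *
          ∑ x, PA D r x * T5 Φ ‖B‖ c₀ (a n + AA a s ω) (AA a s ω + AA a r x) := by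
      have e : (1 - η) * hsq Φ (a n + AA a s ω) - 2 / η * E1 n ω -
          2 / η * (‖B‖ ^ 2 / c₀ ^ 2) * E2 ω = ∑ x, PA D r x *
            (hsq Φ (a n + AA a s ω) - η * hsq Φ (a n + AA a s ω) - 2 / η * E1 n ω -
              2 / η * (‖B‖ ^ 2 / c₀ ^ 2) *
                ‖Φ (AA a s ω + AA a r x) - c₀ * Φ (AA a s ω)‖ ^ 2) := by
        simp only [mul_sub, sum_sub_distrib, ← sum_mul, hPr.one, one_mul, hE2]
        rw [mul_sum]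
        congr 1
        · ring
        · exact sum_congr rfl fun x _ => by ring
      rw [e, mul_sum]
      refine sum_le_sum fun x _ => ?_
      have := mul_le_mul_of_nonneg_left
        (mul_T5_ge Φ B hc hη (a n + AA a s ω) (AA a s ω + AA a r x) (AA a s ω)) (hPr.nn x)
      calc _ ≤ _ := this
        _ = _ := by ring
    have h3 : 0 ≤ D n * PA D s ω := mul_nonneg (hD.nn n) (hPs.nn ω)
    calc _ ≤ D n * PA D s ω * (hsq Φ (a n + AA a s ω) *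
          ∑ x, PA D r x * T5 Φ ‖B‖ c₀ (a n + AA a s ω) (AA a s ω + AA a r x)) /
            ZQ D a (hsq Φ) s :=
          div_le_div_of_nonneg_right (mul_le_mul_of_nonneg_left h2 h3) hZQ.le
      _ = _ := by ring
  refine le_trans ?_ (sum_le_sum fun n _ => sum_le_sum fun ω _ => h1 n ω)
  have e1 : ∑ n, ∑ ω, D n * PA D s ω * ((1 - η) * hsq Φ (a n + AA a s ω) - 2 / η * E1 n ω -
        2 / η * (‖B‖ ^ 2 / c₀ ^ 2) * E2 ω) / ZQ D a (hsq Φ) s =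
      ((1 - η) * ZQ D a (hsq Φ) s - 2 / η * (∑ n, D n * ∑ ω, PA D s ω * E1 n ω) -
        2 / η * (‖B‖ ^ 2 / c₀ ^ 2) * ∑ ω, PA D s ω * E2 ω) / ZQ D a (hsq Φ) s := by
    simp only [← sum_div]
    congr 1
    have e2 : ∑ ω, PA D s ω * E2 ω = ∑ n, D n * ∑ ω, PA D s ω * E2 ω := by
      rw [← sum_mul, hD.one, one_mul]
    rw [e2]
    simp only [ZQ, GA, mul_sum, ← sum_sub_distrib]
    exact sum_congr rfl fun n _ => sum_congr rfl fun ω _ => by ring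
  rw [e1, le_div_iff₀ hZQ]
  have h4 : 2 / η * (∑ n, D n * ∑ ω, PA D s ω * E1 n ω) ≤ 2 / η * (δ' * Y) :=
    mul_le_mul_of_nonneg_left hN2 (by positivity)
  have h5 : 2 / η * (‖B‖ ^ 2 / c₀ ^ 2) * ∑ ω, PA D s ω * E2 ω ≤ 2 / η * (δ * Y) := by
    calc _ ≤ 2 / η * (‖B‖ ^ 2 / c₀ ^ 2) * (δ * (c₀ ^ 2 * GA D a (hsq Φ) s 0)) :=
          mul_le_mul_of_nonneg_left hN1 (by positivity)
      _ = _ := by rw [hY]; field_simp
  have h6 : 2 / η * ((δ + δ') * Y) ≤ 8 * (δ + δ') / η * ZQ D a (hsq Φ) s := by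
    calc _ = 8 * (δ + δ') / η * (Y / 4) := by ring
      _ ≤ _ := mul_le_mul_of_nonneg_left hZl (by positivity)
  nlinarith

/-- the reference mean -/
theorem ref_le (hD : IsProb D) (Φ : G → ℂ) (β : ℝ) {c₀ : ℝ} (hc : 0 < c₀) (n : ι) (be : G)
    (hn : Qn D a (hsq Φ) s n ≠ 0) :
    ∑ ω, Qc D a (hsq Φ) s n ω * T5 Φ β c₀ (a n + AA a s ω) (AA a s ω + be) ≤
      min 1 (β ^ 2 * GA D a (hsq Φ) s be / c₀ ^ 2 / GA D a (hsq Φ) s (a n)) := by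
  have hQ := Qc_prob hD (hsq_nonneg Φ) hn
  refine le_min ?_ ?_
  · calc _ ≤ ∑ ω, Qc D a (hsq Φ) s n ω * 1 :=
          sum_le_sum fun ω _ => mul_le_mul_of_nonneg_left (T5_le _ _ _ _ _) (hQ.nn ω)
      _ = 1 := by simp only [mul_one, hQ.one]
  · have hG := GA_nonneg (a := a) (s := s) hD (hsq_nonneg Φ) (a n)
    have e : β ^ 2 * GA D a (hsq Φ) s be / c₀ ^ 2 / GA D a (hsq Φ) s (a n) =
        ∑ ω, PA D s ω * (β ^ 2 * hsq Φ (AA a s ω + be) / c₀ ^ 2) / GA D a (hsq Φ) s (a n) := by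
      rw [← sum_div]
      congr 1
      conv_lhs => rw [GA]
      rw [mul_sum, sum_div]
      exact sum_congr rfl fun ω _ => by rw [add_comm be]; ring
    rw [e]
    refine sum_le_sum fun ω _ => ?_
    have h1 := mul_le_mul_of_nonneg_left (mul_T5_le Φ β hc (a n + AA a s ω) (AA a s ω + be))
      ((hD.PA s).nn ω)
    calc _ = PA D s ω * (hsq Φ (a n + AA a s ω) *
          T5 Φ β c₀ (a n + AA a s ω) (AA a s ω + be)) / GA D a (hsq Φ) s (a n) := by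
          rw [Qc]; ring
      _ ≤ _ := div_le_div_of_nonneg_right h1 hG

/-- **Step (5).** -/
theorem step5 (hD : IsProb D) (Φ : G → ℂ) (B : ℂ) (r : ℕ) (hk : 1 ≤ k) {c₀ δ δ' η η' l : ℝ}
    (hc : 0 < c₀) (hB : B ≠ 0) (hη : 0 < η) (hη' : 0 < η') (hδ : 0 ≤ δ) (hδ0 : 0 ≤ δ')
    (hδ' : δ' ≤ 1 / 8) (l0 : 0 < l) (l1 : l ≤ 1 / 2) (hZ : 0 < GA D a (hsq Φ) s 0)
    (hN1 : ∑ ω, PA D s ω * ∑ x, PA D r x *
      ‖Φ (AA a s ω + AA a r x) - c₀ * Φ (AA a s ω)‖ ^ 2 ≤ δ * (c₀ ^ 2 * GA D a (hsq Φ) s 0))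
    (hN2 : ∑ n, D n * ∑ ω, PA D s ω * ‖Φ (a n + AA a s ω) - B * Φ (AA a s ω)‖ ^ 2 ≤
      δ' * (‖B‖ ^ 2 * GA D a (hsq Φ) s 0))
    (hN3 : ∀ z, GA D a (hsq Φ) s z ≤ GA D a (hsq Φ) s 0) :
    (1 - η - 8 * (δ + δ') / η - 8 / ‖B‖ ^ 2 * (HZ D a (r + 1) - HZ D a r) / (k * l) - 4 * l -
        4 / ‖B‖ ^ 2 * (η' + δ' / η')) * (c₀ ^ 2 * GA D a (hsq Φ) s 0) ≤
      ∑ θ, QQ D a (hsq Φ) s k θ * ∑ n', post D a (hsq Φ) s k θ n' *
        ∑ n, post D a (hsq Φ) s k θ n *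
          ∑ x, PA D r x * GA D a (hsq Φ) s (AA a r x + a n - a n') := by
  have hβ : 0 < ‖B‖ := norm_pos_iff.mpr hB
  have hZl := ZQ_low hD Φ B hδ' hZ.le hN2
  set Z := GA D a (hsq Φ) s 0 with hZdef
  have hY0 : 0 < ‖B‖ ^ 2 * Z := by positivity
  have hZQ : 0 < ZQ D a (hsq Φ) s := by linarith
  have h0 := hsq_nonneg Φ
  have hκ : ∀ n, Qn D a (hsq Φ) s n ≤ 4 / ‖B‖ ^ 2 * D n := by
    intro n
    rw [Qn, div_le_iff₀ hZQ]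
    calc D n * GA D a (hsq Φ) s (a n) ≤ D n * Z := mul_le_mul_of_nonneg_left (hN3 _) (hD.nn n)
      _ = 4 / ‖B‖ ^ 2 * D n * (‖B‖ ^ 2 * Z / 4) := by field_simp
      _ ≤ _ := mul_le_mul_of_nonneg_left hZl (mul_nonneg (by positivity) (hD.nn n))
  have hdv := dv5 hD h0 hZQ hk r hκ l0 l1 (T5 Φ ‖B‖ c₀) (T5_nonneg Φ _ _)
    (fun y z => (T5_le Φ _ _ y z).trans one_le_two)
    (fun n be => min 1 (‖B‖ ^ 2 * GA D a (hsq Φ) s be / c₀ ^ 2 / GA D a (hsq Φ) s (a n)))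
    (fun n be hn => ref_le hD Φ _ hc n be hn)
  have ht := true_low hD Φ B r hc hB hη hδ hδ0 hδ' hZ hN1 hN2
  have hPr := hD.PA r
  have hQQ := QQ_prob (k := k) hD h0 hZQ
  set ψ : ι → ℝ := fun n => max (1 - GA D a (hsq Φ) s (a n) / (‖B‖ ^ 2 * Z)) 0 with hψ
  set φ : ι → ι → ℝ := fun n n' => ∑ x, PA D r x * GA D a (hsq Φ) s (AA a r x + a n - a n')
    with hφ
  have h1 : ∀ n n', ∑ x, PA D r x * min 1 (‖B‖ ^ 2 * GA D a (hsq Φ) s (AA a r x + a n - a n') /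
      c₀ ^ 2 / GA D a (hsq Φ) s (a n)) ≤ φ n n' / (c₀ ^ 2 * Z) + ψ n := by
    intro n n'
    have e : φ n n' / (c₀ ^ 2 * Z) + ψ n = ∑ x, PA D r x *
        (‖B‖ ^ 2 * GA D a (hsq Φ) s (AA a r x + a n - a n') / c₀ ^ 2 / (‖B‖ ^ 2 * Z) + ψ n) := by
      simp only [mul_add, sum_add_distrib, ← sum_mul, hPr.one, one_mul, hφ, sum_div]
      congr 1
      exact sum_congr rfl fun x _ => by field_simp
    rw [e]
    refine sum_le_sum fun x _ => mul_le_mul_of_nonneg_left ?_ (hPr.nn x)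
    have := GA_nonneg (a := a) (s := s) hD h0 (AA a r x + a n - a n')
    exact min_div_le (by positivity) (GA_nonneg hD h0 _) hY0
  have h2 : ∑ θ, QQ D a (hsq Φ) s k θ * ∑ n, post D a (hsq Φ) s k θ n *
        ∑ x, PA D r x * min 1 (‖B‖ ^ 2 * GA D a (hsq Φ) s (AA a r x + a n - a θ.1) /
          c₀ ^ 2 / GA D a (hsq Φ) s (a n)) ≤
      (∑ θ, QQ D a (hsq Φ) s k θ * ∑ n, post D a (hsq Φ) s k θ n * φ n θ.1) / (c₀ ^ 2 * Z) +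
        ∑ θ, QQ D a (hsq Φ) s k θ * ∑ n, post D a (hsq Φ) s k θ n * ψ n := by
    rw [sum_div, ← sum_add_distrib]
    refine sum_le_sum fun θ _ => ?_
    have h3 : ∑ n, post D a (hsq Φ) s k θ n *
        ∑ x, PA D r x * min 1 (‖B‖ ^ 2 * GA D a (hsq Φ) s (AA a r x + a n - a θ.1) /
          c₀ ^ 2 / GA D a (hsq Φ) s (a n)) ≤
        (∑ n, post D a (hsq Φ) s k θ n * φ n θ.1) / (c₀ ^ 2 * Z) +
          ∑ n, post D a (hsq Φ) s k θ n * ψ n := by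
      rw [sum_div, ← sum_add_distrib]
      refine sum_le_sum fun n _ => ?_
      have := mul_le_mul_of_nonneg_left (h1 n θ.1) (post_nonneg hD h0 hZQ θ n)
      calc _ ≤ _ := this
        _ = _ := by ring
    have := mul_le_mul_of_nonneg_left h3 (hQQ.nn θ)
    calc _ ≤ _ := this
      _ = _ := by ring
  rw [bayes_two hD h0 hZQ φ, sum_post hD h0 hZQ ψ] at h2
  have h4 : ∑ n, Qn D a (hsq Φ) s n * ψ n ≤ 4 / ‖B‖ ^ 2 * (η' + δ' / η') := by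
    have h5 : ∀ n, ψ n ≤ η' + (∑ ω, PA D s ω *
        ‖Φ (a n + AA a s ω) - B * Φ (AA a s ω)‖ ^ 2) / η' / (‖B‖ ^ 2 * Z) := by
      intro n
      have h6 := GA_low (a := a) (s := s) hD Φ B (a n) hη'
      have h7 : 0 ≤ ∑ ω, PA D s ω * ‖Φ (a n + AA a s ω) - B * Φ (AA a s ω)‖ ^ 2 :=
        sum_nonneg fun ω _ => mul_nonneg ((hD.PA s).nn ω) (by positivity)
      refine max_le ?_ (by positivity)
      have h8 := div_le_div_of_nonneg_right h6 hY0.le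
      rw [sub_div, add_div, div_self hY0.ne', mul_div_assoc, div_self hY0.ne', mul_one] at h8
      exact h8
    calc _ ≤ ∑ n, 4 / ‖B‖ ^ 2 * D n * (η' + (∑ ω, PA D s ω *
          ‖Φ (a n + AA a s ω) - B * Φ (AA a s ω)‖ ^ 2) / η' / (‖B‖ ^ 2 * Z)) :=
          sum_le_sum fun n _ => mul_le_mul (hκ n) (h5 n) (le_max_right _ _)
            (mul_nonneg (by positivity) (hD.nn n))
      _ = 4 / ‖B‖ ^ 2 * (η' + (∑ n, D n * ∑ ω, PA D s ω *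
          ‖Φ (a n + AA a s ω) - B * Φ (AA a s ω)‖ ^ 2) / η' / (‖B‖ ^ 2 * Z)) := by
          have e : η' = ∑ n, D n * η' := by rw [← sum_mul, hD.one, one_mul]
          conv_rhs => rw [e]
          rw [← e, sum_div, sum_div]
          conv_rhs => enter [2, 1]; rw [e]
          rw [← sum_add_distrib, mul_sum]
          exact sum_congr rfl fun n _ => by ring
      _ ≤ _ := by
          refine mul_le_mul_of_nonneg_left ?_ (by positivity)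
          have : (∑ n, D n * ∑ ω, PA D s ω *
              ‖Φ (a n + AA a s ω) - B * Φ (AA a s ω)‖ ^ 2) / η' / (‖B‖ ^ 2 * Z) ≤ δ' / η' := by
            rw [div_le_iff₀ hY0, div_le_iff₀ hη']
            calc _ ≤ _ := hN2
              _ = _ := by field_simp
          linarith
  have hcZ : 0 < c₀ ^ 2 * Z := by positivity
  rw [← le_div_iff₀ hcZ]
  have e : 2 * (4 / ‖B‖ ^ 2) * (HZ D a (r + 1) - HZ D a r) / (k * l) =
      8 / ‖B‖ ^ 2 * (HZ D a (r + 1) - HZ D a r) / (k * l) := by ring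
  rw [e] at hdv
  simp only [hφ] at h2
  linarith

end Crest.Agent.R100.Ent
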