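import Crest.Agent.R100.AdEnt

/-! # Row 100, approximate duality: step (4) -/

set_option autoImplicit false

noncomputable section

namespace Crest.Agent.R100.Ent

open Finset

variable {G : Type*} [AddCommGroup G] {ι : Type*} [Fintype ι]
  {D : ι → ℝ} {a : ι → G} {h : G → ℝ} {s k : ℕ}

/-! ### part C -/

theorem GA_nonneg (hD : IsProb D) (h0 : ∀ z, 0 ≤ h z) (z : G) : 0 ≤ GA D a h s z := by
  exact Finset.sum_nonneg fun ω _ => mul_nonneg ((hD.PA s).nn ω) (h0 _)

theorem Qn_prob (hD : IsProb D) (h0 : ∀ z, 0 ≤ h z) (hZ : 0 < ZQ D a h s) :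
    IsProb (Qn D a h s) := by
  refine ⟨fun n => div_nonneg (mul_nonneg (hD.nn n) (GA_nonneg hD h0 _)) hZ.le, ?_⟩
  simp only [Qn]
  rw [← Finset.sum_div]
  exact div_self hZ.ne'

theorem Qc_nonneg (hD : IsProb D) (h0 : ∀ z, 0 ≤ h z) (n : ι) (ω : OA ι s) :
    0 ≤ Qc D a h s n ω := by
  exact div_nonneg (mul_nonneg ((hD.PA s).nn ω) (h0 _)) (GA_nonneg hD h0 _)

theorem Qc_prob (hD : IsProb D) (h0 : ∀ z, 0 ≤ h z) {n : ι} (hn : Qn D a h s n ≠ 0) :
    IsProb (Qc D a h s n) := by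
  have hG : GA D a h s (a n) ≠ 0 := fun e => hn (by simp [Qn, e])
  refine ⟨Qc_nonneg hD h0 n, ?_⟩
  simp only [Qc]
  rw [← Finset.sum_div]
  exact div_self hG

theorem Qn_mul_Qc (hD : IsProb D) (h0 : ∀ z, 0 ≤ h z) (n : ι) (ω : OA ι s) :
    Qn D a h s n * Qc D a h s n ω = D n * PA D s ω * h (a n + AA a s ω) / ZQ D a h s := by
  by_cases hG : GA D a h s (a n) = 0
  · have h1 : PA D s ω * h (a n + AA a s ω) = 0 :=
      (Finset.sum_eq_zero_iff_of_nonneg fun ω _ =>
        mul_nonneg ((hD.PA s).nn ω) (h0 (a n + AA a s ω))).1 hG ω (Finset.mem_univ _)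
    rw [mul_assoc (D n), h1]
    simp [Qn, hG]
  · simp only [Qn, Qc]
    field_simp

theorem h83_fst (hD : IsProb D) (h0 : ∀ z, 0 ≤ h z) (φ : ι → ℝ) :
    ∑ θ, QQ D a h s k θ * φ θ.1 = ∑ n, Qn D a h s n * φ n := by
  classical
  rw [Fintype.sum_prod_type]
  refine Finset.sum_congr rfl fun n _ => ?_
  by_cases hn : Qn D a h s n = 0
  · simp [QQ, hn]
  · have h1 : ∑ w : Fin k → OA ι s, ∏ i, Qc D a h s n (w i) = 1 := by
      rw [← Fintype.prod_sum (fun (_ : Fin k) ω => Qc D a h s n ω)]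
      simp [(Qc_prob hD h0 hn).one]
    calc ∑ w : Fin k → OA ι s, QQ D a h s k (n, w) * φ n
        = Qn D a h s n * φ n * ∑ w : Fin k → OA ι s, ∏ i, Qc D a h s n (w i) := by
          rw [Finset.mul_sum]
          exact Finset.sum_congr rfl fun w _ => by simp only [QQ]; ring
      _ = _ := by rw [h1, mul_one]

theorem QQ_prob (hD : IsProb D) (h0 : ∀ z, 0 ≤ h z) (hZ : 0 < ZQ D a h s) :
    IsProb (QQ D a h s k) := by
  refine ⟨fun θ => mul_nonneg ((Qn_prob hD h0 hZ).nn _)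
    (Finset.prod_nonneg fun i _ => Qc_nonneg hD h0 _ _), ?_⟩
  have := h83_fst (a := a) (s := s) (k := k) hD h0 fun _ => 1
  simp only [mul_one] at this
  rw [this, (Qn_prob hD h0 hZ).one]

/-- one-sample marginal -/
theorem sum_QQ_one (hD : IsProb D) (h0 : ∀ z, 0 ≤ h z) (i : Fin k) (φ : ι → OA ι s → ℝ) :
    ∑ θ, QQ D a h s k θ * φ θ.1 (θ.2 i) =
      ∑ n, ∑ ω, Qn D a h s n * Qc D a h s n ω * φ n ω := by
  classical
  rw [Fintype.sum_prod_type]
  refine Finset.sum_congr rfl fun n _ => ?_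
  by_cases hn : Qn D a h s n = 0
  · simp [QQ, hn]
  · have h1 : ∑ w : Fin k → OA ι s, (∏ j, Qc D a h s n (w j)) * φ n (w i) =
        ∑ ω, Qc D a h s n ω * φ n ω := by
      have h2 : ∀ w : Fin k → OA ι s, (∏ j, Qc D a h s n (w j)) * φ n (w i) =
          ∏ j, (Qc D a h s n (w j) * if j = i then φ n (w j) else 1) := by
        intro w
        rw [Finset.prod_mul_distrib, Finset.prod_ite_eq' Finset.univ i fun j => φ n (w j)]
        simp
      simp only [h2]
      rw [← Fintype.prod_sum (fun (j : Fin k) ω => Qc D a h s n ω * if j = i then φ n ω else 1)]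
      rw [Finset.prod_eq_single i]
      · simp
      · intro j _ hj
        simp [hj, (Qc_prob hD h0 hn).one]
      · simp
    calc ∑ w : Fin k → OA ι s, QQ D a h s k (n, w) * φ n (w i)
        = Qn D a h s n * ∑ w : Fin k → OA ι s, (∏ j, Qc D a h s n (w j)) * φ n (w i) := by
          rw [Finset.mul_sum]
          exact Finset.sum_congr rfl fun w _ => by simp only [QQ]; ring
      _ = _ := by
          rw [h1, Finset.mul_sum]
          exact Finset.sum_congr rfl fun w _ => by ring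

theorem post_nonneg (hD : IsProb D) (h0 : ∀ z, 0 ≤ h z) (hZ : 0 < ZQ D a h s) (θ : TH ι s k)
    (n : ι) : 0 ≤ post D a h s k θ n := by
  exact cond_nonneg (QQ_prob hD h0 hZ).nn _ _ _ _

theorem post_prob (hD : IsProb D) (h0 : ∀ z, 0 ≤ h z) (hZ : 0 < ZQ D a h s) {θ : TH ι s k}
    (hθ : QQ D a h s k θ ≠ 0) : IsProb (post D a h s k θ) := by
  exact cond_prob (QQ_prob hD h0 hZ).nn Prod.fst (YY a s k) hθ

/-- `N` and `N'` are two posterior samples -/
theorem bayes_two (hD : IsProb D) (h0 : ∀ z, 0 ≤ h z) (hZ : 0 < ZQ D a h s) (φ : ι → ι → ℝ) :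
    ∑ θ, QQ D a h s k θ * ∑ n, post D a h s k θ n * φ n θ.1 =
      ∑ θ, QQ D a h s k θ * ∑ n', post D a h s k θ n' * ∑ n, post D a h s k θ n * φ n n' := by
  exact (bayes (QQ_prob hD h0 hZ).nn Prod.fst (YY a s k)
    fun n' y => ∑ n, cond (QQ D a h s k) Prod.fst (YY a s k) y n * φ n n').symm

/-- the marginal of a posterior sample -/
theorem sum_post (hD : IsProb D) (h0 : ∀ z, 0 ≤ h z) (hZ : 0 < ZQ D a h s) (φ : ι → ℝ) :
    ∑ θ, QQ D a h s k θ * ∑ n, post D a h s k θ n * φ n = ∑ n, Qn D a h s n * φ n := by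
  rw [← h83_fst (k := k) hD h0 φ]
  exact bayes (QQ_prob hD h0 hZ).nn Prod.fst (YY a s k) fun n _ => φ n

/-! ### part D -/

/-- the law of `y = a₀ + A` under `P` -/
def Ly (D : ι → ℝ) (a : ι → G) (s : ℕ) (y : G) : ℝ :=
  ∑ n, D n * law (PA D s) (AA a s) (y - a n)

open Classical in
private def h86V (D : ι → ℝ) (a : ι → G) (s : ℕ) (y z : G) : ℝ :=
  ∑ x' : Fin s → ι, if z - Zs a s x' = y then pw D s x' else 0

private theorem h86_pw_nn (hD : IsProb D) (s : ℕ) (x : Fin s → ι) : 0 ≤ pw D s x :=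
  Finset.prod_nonneg fun _ _ => hD.nn _

private theorem h86_pw_sum (D : ι → ℝ) (s : ℕ) : ∑ x, pw D s x = (∑ n, D n) ^ s := by
  classical
  unfold pw
  rw [Finset.sum_pow', Fintype.piFinset_univ]

private theorem h86V_nn (hD : IsProb D) (a : ι → G) (s : ℕ) (y z : G) : 0 ≤ h86V D a s y z := by
  classical
  unfold h86V
  refine Finset.sum_nonneg fun x _ => ?_
  split_ifs
  · exact h86_pw_nn hD s x
  · exact le_rfl

private theorem h86V_le (hD : IsProb D) (a : ι → G) (s : ℕ) (y z : G) : h86V D a s y z ≤ 1 := by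
  classical
  unfold h86V
  have h1 : ∑ x, pw D s x = 1 := by rw [h86_pw_sum, hD.one, one_pow]
  rw [← h1]
  refine Finset.sum_le_sum fun x _ => ?_
  split_ifs
  · exact le_rfl
  · exact h86_pw_nn hD s x

private theorem h86_law (D : ι → ℝ) (a : ι → G) (s : ℕ) (y g : G) :
    law (PA D s) (AA a s) (y - g) = ∑ x, pw D s x * h86V D a s y (g + Zs a s x) := by
  classical
  unfold law h86V
  rw [Fintype.sum_prod_type]
  refine Finset.sum_congr rfl fun x _ => ?_
  rw [Finset.mul_sum]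
  refine Finset.sum_congr rfl fun x' _ => ?_
  have : (AA a s (x, x') = y - g) ↔ (g + Zs a s x - Zs a s x' = y) := by
    unfold AA
    constructor
    · intro h
      have : g + Zs a s x - Zs a s x' = g + (Zs a s x - Zs a s x') := by abel
      rw [this]; simp only at h; rw [h]; abel
    · intro h
      simp only
      rw [← h]; abel
  by_cases hc : g + Zs a s x - Zs a s x' = y
  · rw [if_pos hc, if_pos (this.2 hc)]; rfl
  · rw [if_neg hc, if_neg (fun h => hc (this.1 h)), mul_zero]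

private theorem h86_key (D : ι → ℝ) (a : ι → G) (s : ℕ) (y : G) (i : Fin (s + 1)) (ψ : ι → ℝ) :
    ∑ x, pw D (s + 1) x * h86V D a s y (Zs a (s + 1) x) * ψ (x i) =
      ∑ n, D n * law (PA D s) (AA a s) (y - a n) * ψ n := by
  classical
  rw [← (Fin.insertNthEquiv (fun _ => ι) i).sum_comp, Fintype.sum_prod_type]
  refine Finset.sum_congr rfl fun n _ => ?_
  rw [h86_law, Finset.mul_sum, Finset.sum_mul]
  refine Finset.sum_congr rfl fun x _ => ?_
  have h1 : pw D (s + 1) ((Fin.insertNthEquiv (fun _ => ι) i) (n, x)) = D n * pw D s x := by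
    unfold pw
    rw [Fin.prod_univ_succAbove _ i]
    simp [Fin.insertNthEquiv]
  have h2 : Zs a (s + 1) ((Fin.insertNthEquiv (fun _ => ι) i) (n, x)) = a n + Zs a s x := by
    unfold Zs
    rw [Fin.sum_univ_succAbove _ i]
    simp [Fin.insertNthEquiv]
  have h3 : ((Fin.insertNthEquiv (fun _ => ι) i) (n, x)) i = n := by
    simp [Fin.insertNthEquiv]
  rw [h1, h2, h3]; ring

/-- exchangeability: `P(y) KL(P(a₀|y) || D) ≤ P(y) log(1/P(y)) / (s+1)` -/
theorem info_fix (hD : IsProb D) (a : ι → G) (s : ℕ) (y : G) :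
    (s + 1) * ∑ n, D n * law (PA D s) (AA a s) (y - a n) *
        Real.log (law (PA D s) (AA a s) (y - a n) / Ly D a s y) ≤
      -(Ly D a s y * Real.log (Ly D a s y)) := by
  classical
  set L : ι → ℝ := fun n => law (PA D s) (AA a s) (y - a n) with hL
  have hL0 : ∀ n, 0 ≤ L n := fun n => by
    simp only [hL]
    rw [h86_law]
    exact Finset.sum_nonneg fun x _ => mul_nonneg (h86_pw_nn hD s x) (h86V_nn hD a s y _)
  have hY : Ly D a s y = ∑ n, D n * L n := rfl
  have hY0 : 0 ≤ Ly D a s y := by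
    rw [hY]; exact Finset.sum_nonneg fun n _ => mul_nonneg (hD.nn n) (hL0 n)
  set Y := Ly D a s y with hYd
  change ((s : ℝ) + 1) * ∑ n, D n * L n * Real.log (L n / Y) ≤ -(Y * Real.log Y)
  rcases hY0.eq_or_lt with h0 | hpos
  · rw [← h0]; simp
  set W : (Fin (s + 1) → ι) → ℝ := fun x => pw D (s + 1) x * h86V D a s y (Zs a (s + 1) x)
    with hW
  have hW0 : ∀ x, 0 ≤ W x := fun x => mul_nonneg (h86_pw_nn hD _ x) (h86V_nn hD a s y _)
  have hWle : ∀ x, W x ≤ pw D (s + 1) x := fun x =>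
    mul_le_of_le_one_right (h86_pw_nn hD _ x) (h86V_le hD a s y _)
  have key : ∀ (i : Fin (s + 1)) (ψ : ι → ℝ), ∑ x, W x * ψ (x i) = ∑ n, D n * L n * ψ n :=
    fun i ψ => h86_key D a s y i ψ
  have hWs : ∑ x, W x = Y := by
    have := key 0 (fun _ => 1)
    simpa [hY] using this
  have hpos' : ∀ x i, W x ≠ 0 → 0 < L (x i) := by
    intro x i hx
    rcases (hL0 (x i)).eq_or_lt with hz | hz
    · exfalso
      have h1 := key i (fun n => if n = x i then 1 else 0)
      have h2 : ∑ n, D n * L n * (if n = x i then (1 : ℝ) else 0) = 0 := by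
        refine Finset.sum_eq_zero fun n _ => ?_
        split_ifs with hn
        · rw [hn, ← hz]; ring
        · ring
      rw [h2] at h1
      have h3 := (Finset.sum_eq_zero_iff_of_nonneg (fun x' _ => mul_nonneg (hW0 x')
        (by split_ifs <;> norm_num))).1 h1 x (Finset.mem_univ _)
      simp at h3
      exact hx h3
    · exact hz
  have hsum : ((s : ℝ) + 1) * ∑ n, D n * L n * Real.log (L n / Y) =
      ∑ x, W x * ∑ i, Real.log (L (x i) / Y) := by
    simp_rw [Finset.mul_sum]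
    rw [Finset.sum_comm (f := fun x i => W x * Real.log (L (x i) / Y))]
    rw [Finset.sum_congr rfl (fun i _ => key i (fun n => Real.log (L n / Y)))]
    simp [Finset.mul_sum]
  have hpt : ∀ x, W x * ∑ i, Real.log (L (x i) / Y) + W x * Real.log Y ≤
      Y * (pw D (s + 1) x * ∏ i, L (x i) / Y) - W x := by
    intro x
    have hp0 : 0 ≤ ∏ i, L (x i) / Y := Finset.prod_nonneg fun i _ => div_nonneg (hL0 _) hpos.le
    by_cases hx : W x = 0
    · rw [hx]
      have := mul_nonneg hpos.le (mul_nonneg (h86_pw_nn hD _ x) hp0)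
      simpa using this
    · have hp : ∀ i, 0 < L (x i) / Y := fun i => div_pos (hpos' x i hx) hpos
      have hpp : 0 < ∏ i, L (x i) / Y := Finset.prod_pos fun i _ => hp i
      rw [← Real.log_prod (fun i _ => (hp i).ne'), ← mul_add,
        ← Real.log_mul hpp.ne' hpos.ne']
      have h1 := Real.log_le_sub_one_of_pos (mul_pos hpp hpos)
      have h2 := mul_le_mul_of_nonneg_left h1 (hW0 x)
      have h3 := mul_le_mul_of_nonneg_right (hWle x) (mul_pos hpp hpos).le
      nlinarith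
  have hprod : ∑ x : Fin (s + 1) → ι, pw D (s + 1) x * ∏ i, L (x i) / Y = 1 := by
    have h1 : ∀ x : Fin (s + 1) → ι, pw D (s + 1) x * ∏ i, L (x i) / Y =
        pw (fun n => D n * (L n / Y)) (s + 1) x := by
      intro x; unfold pw; rw [Finset.prod_mul_distrib]
    simp_rw [h1]
    rw [h86_pw_sum]
    have h2 : ∑ n, D n * (L n / Y) = 1 := by
      simp_rw [← mul_div_assoc]
      rw [← Finset.sum_div, ← hY, div_self hpos.ne']
    rw [h2, one_pow]
  have hfin := Finset.sum_le_sum fun x (_ : x ∈ Finset.univ) => hpt x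
  rw [Finset.sum_add_distrib, Finset.sum_sub_distrib, ← Finset.mul_sum, ← Finset.sum_mul, hprod,
    hWs] at hfin
  rw [hsum]
  linarith

theorem sum_Q_law (hD : IsProb D) (h0 : ∀ z, 0 ≤ h z) (φ : ι → G → ℝ) (F : Finset G)
    (hF : ∀ n ω, a n + AA a s ω ∈ F) :
    ∑ n, ∑ ω, Qn D a h s n * Qc D a h s n ω * φ n (a n + AA a s ω) =
      ∑ y ∈ F, h y / ZQ D a h s * ∑ n, D n * law (PA D s) (AA a s) (y - a n) * φ n y := by
  have e : ∀ n y, law (PA D s) (fun ω => a n + AA a s ω) y = law (PA D s) (AA a s) (y - a n) :=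
    fun n y => by
      unfold law
      refine sum_congr rfl fun ω _ => ?_
      by_cases hh : a n + AA a s ω = y
      · rw [if_pos hh, if_pos (eq_sub_iff_add_eq'.2 hh)]
      · rw [if_neg hh, if_neg fun h' => hh (eq_sub_iff_add_eq'.1 h')]
  simp only [mul_sum]
  rw [sum_comm (s := F)]
  refine sum_congr rfl fun n _ => ?_
  have := sum_law (PA D s) (fun ω => a n + AA a s ω) (fun y => D n * h y / ZQ D a h s * φ n y) F (hF n)
  calc _ = ∑ ω, PA D s ω * (D n * h (a n + AA a s ω) / ZQ D a h s * φ n (a n + AA a s ω)) :=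
        sum_congr rfl fun ω _ => by rw [Qn_mul_Qc hD h0]; ring
    _ = _ := this.trans (sum_congr rfl fun y _ => by rw [e]; ring)

theorem info_surp (hD : IsProb D) (h0 : ∀ z, 0 ≤ h z) (hZ : 0 < ZQ D a h s) {M : ℝ}
    (hM : ∀ F : Finset G, ∑ z ∈ F, h z ≤ M) :
    ∑ n, ∑ ω, Qn D a h s n * Qc D a h s n ω * -Real.log (Ly D a s (a n + AA a s ω)) ≤
      Real.log M - Real.log (ZQ D a h s) := by
  classical
  have hPA := hD.PA s
  have hn := Qn_prob (a := a) (s := s) hD h0 hZ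
  have hP : IsProb fun p : ι × OA ι s => Qn D a h s p.1 * Qc D a h s p.1 p.2 := by
    refine ⟨fun p => mul_nonneg (hn.nn _) (Qc_nonneg hD h0 _ _), ?_⟩
    rw [Fintype.sum_prod_type, ← hn.one]
    refine sum_congr rfl fun n _ => ?_
    by_cases h1 : Qn D a h s n = 0
    · simp [h1]
    · simp only [← mul_sum, (Qc_prob hD h0 h1).one, mul_one]
  have hL : ∀ y n, 0 ≤ D n * law (PA D s) (AA a s) (y - a n) := fun y n =>
    mul_nonneg (hD.nn n) (law_nonneg hPA.nn _ _)
  have hr : ∀ p : ι × OA ι s, Qn D a h s p.1 * Qc D a h s p.1 p.2 ≠ 0 →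
      0 < (Ly D a s (a p.1 + AA a s p.2))⁻¹ := fun p hp => by
    rw [Qn_mul_Qc hD h0] at hp
    have h1 := (mul_ne_zero_iff.1 (mul_ne_zero_iff.1 (div_ne_zero_iff.1 hp).1).1)
    have h2 := le_law hPA.nn (AA a s) p.2
    have h3 : D p.1 * law (PA D s) (AA a s) (a p.1 + AA a s p.2 - a p.1) ≤
        Ly D a s (a p.1 + AA a s p.2) :=
      single_le_sum (f := fun n => D n * law (PA D s) (AA a s) (a p.1 + AA a s p.2 - a n))
        (fun n _ => hL _ n) (mem_univ p.1)
    rw [add_sub_cancel_left] at h3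
    exact inv_pos.2 ((mul_pos ((hD.nn _).lt_of_ne' h1.1)
      (((hPA.nn _).lt_of_ne' h1.2).trans_le h2)).trans_le h3)
  have h1 := gibbs hP (fun p => (Ly D a s (a p.1 + AA a s p.2))⁻¹) hr
  have h2 : 0 < ∑ p : ι × OA ι s, Qn D a h s p.1 * Qc D a h s p.1 p.2 *
      (Ly D a s (a p.1 + AA a s p.2))⁻¹ := by
    obtain ⟨p, -, hp⟩ := exists_ne_zero_of_sum_ne_zero (hP.one.trans_ne one_ne_zero)
    exact sum_pos' (fun p _ => mul_nonneg (hP.nn p) (inv_nonneg.2 (sum_nonneg fun n _ => hL _ n)))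
      ⟨p, mem_univ p, mul_pos ((hP.nn p).lt_of_ne' hp) (hr p hp)⟩
  have h3 : ∑ p : ι × OA ι s, Qn D a h s p.1 * Qc D a h s p.1 p.2 *
      (Ly D a s (a p.1 + AA a s p.2))⁻¹ ≤ M / ZQ D a h s := by
    rw [Fintype.sum_prod_type, sum_Q_law hD h0 (fun _ y => (Ly D a s y)⁻¹)
      (univ.image fun p : ι × OA ι s => a p.1 + AA a s p.2)
      fun n ω => mem_image_of_mem _ (mem_univ (n, ω))]
    refine le_trans (sum_le_sum fun y _ => ?_)
      ((sum_div _ _ _).symm.trans_le (div_le_div_of_nonneg_right (hM _) hZ.le))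
    rw [← sum_mul]
    exact mul_le_of_le_one_right (div_nonneg (h0 y) hZ.le) mul_inv_le_one
  have hM0 : 0 < M := (div_pos_iff_of_pos_right hZ).1 (h2.trans_le h3)
  rw [← Real.log_div hM0.ne' hZ.ne']
  refine le_trans (le_of_eq ?_) (h1.trans (Real.log_le_log h2 h3))
  rw [Fintype.sum_prod_type]
  simp only [Real.log_inv]

theorem info_one (hD : IsProb D) (h0 : ∀ z, 0 ≤ h z) (hZ : 0 < ZQ D a h s) {M : ℝ}
    (hM : ∀ F : Finset G, ∑ z ∈ F, h z ≤ M) :
    ∑ n, ∑ ω, Qn D a h s n * Qc D a h s n ω *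
        Real.log (law (PA D s) (AA a s) (AA a s ω) / Ly D a s (a n + AA a s ω)) ≤
      (Real.log M - Real.log (ZQ D a h s)) / (s + 1) := by
  classical
  have hs : (0 : ℝ) < s + 1 := by positivity
  have hF : ∀ n ω, a n + AA a s ω ∈ univ.image fun p : ι × OA ι s => a p.1 + AA a s p.2 :=
    fun n ω => mem_image_of_mem _ (mem_univ (n, ω))
  have e1 := sum_Q_law hD h0
    (fun n y => Real.log (law (PA D s) (AA a s) (y - a n) / Ly D a s y)) _ hF
  have e2 := sum_Q_law hD h0 (fun _ y => -Real.log (Ly D a s y)) _ hF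
  simp only [add_sub_cancel_left] at e1
  rw [e1, le_div_iff₀ hs]
  refine le_trans ?_ (info_surp hD h0 hZ hM)
  rw [e2, sum_mul]
  refine sum_le_sum fun y _ => ?_
  rw [mul_assoc]
  refine mul_le_mul_of_nonneg_left ?_ (div_nonneg (h0 y) hZ.le)
  rw [mul_comm, ← sum_mul, mul_neg]
  exact info_fix hD a s y

/-! ### part E -/

theorem law_QQ (D : ι → ℝ) (a : ι → G) (h : G → ℝ) (s k : ℕ) (n : ι) (y : Fin k → G) :
    law (QQ D a h s k) (fun θ => (θ.1, YY a s k θ)) (n, y) =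
      Qn D a h s n * ∏ i, law (PA D s) (AA a s) (y i - a n) * h (y i) / GA D a h s (a n) := by
  classical
  have e : ∀ i, law (PA D s) (AA a s) (y i - a n) * h (y i) / GA D a h s (a n) =
      ∑ ω, if AA a s ω = y i - a n then Qc D a h s n ω else 0 := fun i => by
    rw [law, Finset.sum_mul, Finset.sum_div]
    refine Finset.sum_congr rfl fun ω _ => ?_
    split_ifs with hω
    · rw [Qc, hω, add_sub_cancel]
    · simp
  simp only [e]
  rw [Finset.prod_univ_sum, Fintype.piFinset_univ, law, Fintype.sum_prod_type,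
    Finset.sum_eq_single n, Finset.mul_sum]
  · refine Finset.sum_congr rfl fun ω _ => ?_
    rw [Finset.prod_ite_zero]
    have : ((n, YY a s k (n, ω)) = (n, y)) ↔ ∀ i ∈ Finset.univ, AA a s (ω i) = y i - a n := by
      simp only [Prod.mk.injEq, true_and, funext_iff, YY, Finset.mem_univ, forall_true_left,
        eq_sub_iff_add_eq']
    by_cases h1 : ∀ i ∈ Finset.univ, AA a s (ω i) = y i - a n
    · rw [if_pos (this.2 h1), if_pos h1, QQ]
    · rw [if_neg (fun h2 => h1 (this.1 h2)), if_neg h1, mul_zero]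
  · intro m _ hm
    exact Finset.sum_eq_zero fun ω _ => if_neg fun h2 => hm (Prod.mk.inj h2).1
  · intro h1
    exact absurd (Finset.mem_univ n) h1

/-- INFO -/
theorem info (hD : IsProb D) (h0 : ∀ z, 0 ≤ h z) (hZ : 0 < ZQ D a h s) {M : ℝ}
    (hM : ∀ F : Finset G, ∑ z ∈ F, h z ≤ M) (hk : 1 ≤ k) :
    ∑ θ, QQ D a h s k θ * KL (post D a h s k θ) D ≤
      k * ((Real.log M - Real.log (ZQ D a h s)) / (s + 1)) := by
  classical
  have hP := QQ_prob (k := k) hD h0 hZ
  have hPA := hD.PA s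
  have i0 : Fin k := ⟨0, hk⟩
  have hLy : ∀ z, 0 ≤ Ly D a s z := fun z =>
    Finset.sum_nonneg fun n _ => mul_nonneg (hD.nn n) (law_nonneg hPA.nn _ _)
  -- positivity on the support
  have sup : ∀ θ : TH ι s k, QQ D a h s k θ ≠ 0 → 0 < D θ.1 ∧ 0 < GA D a h s (a θ.1) ∧
      0 < law (QQ D a h s k) (YY a s k) (YY a s k θ) ∧
      ∀ i, 0 < law (PA D s) (AA a s) (AA a s (θ.2 i)) ∧ 0 < h (YY a s k θ i) ∧
        0 < Ly D a s (YY a s k θ i) := by
    intro θ hθ
    obtain ⟨h1, h2⟩ := mul_ne_zero_iff.1 hθ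
    obtain ⟨h3, h4⟩ := mul_ne_zero_iff.1 (div_ne_zero_iff.1 h1).1
    have d0 : 0 < D θ.1 := (hD.nn _).lt_of_ne' h3
    refine ⟨d0, (GA_nonneg hD h0 _).lt_of_ne' h4,
      ((hP.nn θ).lt_of_ne' hθ).trans_le (le_law hP.nn _ θ), fun i => ?_⟩
    have h5 := Finset.prod_ne_zero_iff.1 h2 i (Finset.mem_univ i)
    obtain ⟨h6, h7⟩ := mul_ne_zero_iff.1 (div_ne_zero_iff.1 h5).1
    have l0 : 0 < law (PA D s) (AA a s) (AA a s (θ.2 i)) :=
      ((hPA.nn _).lt_of_ne' h6).trans_le (le_law hPA.nn _ _)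
    refine ⟨l0, (h0 _).lt_of_ne' h7, ?_⟩
    have := Finset.single_le_sum
      (f := fun n => D n * law (PA D s) (AA a s) (YY a s k θ i - a n))
      (fun n _ => mul_nonneg (hD.nn n) (law_nonneg hPA.nn _ _)) (Finset.mem_univ θ.1)
    refine lt_of_lt_of_le ?_ this
    simp only [YY, add_sub_cancel_left]
    exact mul_pos d0 l0
  have tot : ∑ n, ∑ ω, Qn D a h s n * Qc D a h s n ω * (1 : ℝ) = 1 := by
    rw [← sum_QQ_one hD h0 i0 (fun _ _ => 1)]
    simpa using hP.one
  -- the three terms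
  have T1 : ∑ θ, QQ D a h s k θ * Real.log (ZQ D a h s / GA D a h s (a θ.1)) ≤ 0 := by
    refine (gibbs hP _ fun θ hθ => div_pos hZ (sup θ hθ).2.1).trans (Real.log_nonpos
      (Finset.sum_nonneg fun θ _ => mul_nonneg (hP.nn θ) (div_nonneg hZ.le (GA_nonneg hD h0 _))) ?_)
    rw [sum_QQ_one hD h0 i0 (fun n _ => ZQ D a h s / GA D a h s (a n)), ← hD.one]
    refine Finset.sum_le_sum fun n _ => ?_
    by_cases hn : Qn D a h s n = 0
    · simpa [hn] using hD.nn n
    · have h4 := (mul_ne_zero_iff.1 (div_ne_zero_iff.1 hn).1).2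
      rw [← Finset.sum_mul, ← Finset.mul_sum, (Qc_prob hD h0 hn).one, Qn]
      refine le_of_eq ?_
      field_simp
  have T2 : ∑ θ, QQ D a h s k θ * ∑ i, Real.log (law (PA D s) (AA a s) (AA a s (θ.2 i)) /
      Ly D a s (YY a s k θ i)) ≤ k * ((Real.log M - Real.log (ZQ D a h s)) / (s + 1)) := by
    simp only [Finset.mul_sum]
    rw [Finset.sum_comm]
    refine (Finset.sum_le_sum fun i _ => (sum_QQ_one hD h0 i (fun n ω =>
      Real.log (law (PA D s) (AA a s) (AA a s ω) / Ly D a s (a n + AA a s ω)))).trans_le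
      (info_one hD h0 hZ hM)).trans (le_of_eq ?_)
    simp
  have hρ : ∀ y : Fin k → G, 0 ≤ ∏ i, h (y i) / ZQ D a h s * Ly D a s (y i) := fun y =>
    Finset.prod_nonneg fun i _ => mul_nonneg (div_nonneg (h0 _) hZ.le) (hLy _)
  have T3 : ∑ θ, QQ D a h s k θ * Real.log
      ((∏ i, h (YY a s k θ i) / ZQ D a h s * Ly D a s (YY a s k θ i)) /
        law (QQ D a h s k) (YY a s k) (YY a s k θ)) ≤ 0 := by
    refine (gibbs hP _ fun θ hθ => div_pos (Finset.prod_pos fun i _ => mul_pos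
      (div_pos ((sup θ hθ).2.2.2 i).2.1 hZ) ((sup θ hθ).2.2.2 i).2.2) (sup θ hθ).2.2.1).trans
      (Real.log_nonpos (Finset.sum_nonneg fun θ _ => mul_nonneg (hP.nn θ)
        (div_nonneg (hρ _) (law_nonneg hP.nn _ _))) ?_)
    refine chg_fun hP.nn (YY a s k) (fun y => ∏ i, h (y i) / ZQ D a h s * Ly D a s (y i)) hρ
      fun F => ?_
    obtain ⟨F', hF1, hF2⟩ : ∃ F' : Finset G, (∀ n ω, a n + AA a s ω ∈ F') ∧
        ∀ y ∈ F, ∀ i, y i ∈ F' :=
      ⟨Finset.univ.image (fun p : ι × OA ι s => a p.1 + AA a s p.2) ∪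
          F.biUnion fun y => Finset.univ.image y,
        fun n ω => Finset.mem_union_left _ (Finset.mem_image.2 ⟨(n, ω), Finset.mem_univ _, rfl⟩),
        fun y hy i => Finset.mem_union_right _ (Finset.mem_biUnion.2
          ⟨y, hy, Finset.mem_image.2 ⟨i, Finset.mem_univ _, rfl⟩⟩)⟩
    have h1 : ∑ z ∈ F', h z / ZQ D a h s * Ly D a s z = 1 := by
      rw [← tot, sum_Q_law hD h0 (fun _ _ => 1) F' hF1]
      simp only [mul_one, Ly]
    refine (Finset.sum_le_sum_of_subset_of_nonneg (t := Fintype.piFinset fun _ => F')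
      (fun y hy => Fintype.mem_piFinset.2 (hF2 y hy)) fun y _ _ => hρ y).trans (le_of_eq ?_)
    rw [← Finset.prod_univ_sum (fun _ => F') fun _ z => h z / ZQ D a h s * Ly D a s z]
    simp only [h1, Finset.prod_const_one]
  have B := bayes hP.nn (Prod.fst : TH ι s k → ι) (YY a s k)
    fun n y => Real.log (cond (QQ D a h s k) Prod.fst (YY a s k) y n / D n)
  have E : ∑ θ, QQ D a h s k θ * KL (post D a h s k θ) D = ∑ θ, (((k : ℝ) - 1) *
      (QQ D a h s k θ * Real.log (ZQ D a h s / GA D a h s (a θ.1))) +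
      QQ D a h s k θ * ∑ i, Real.log (law (PA D s) (AA a s) (AA a s (θ.2 i)) /
        Ly D a s (YY a s k θ i)) +
      QQ D a h s k θ * Real.log
        ((∏ i, h (YY a s k θ i) / ZQ D a h s * Ly D a s (YY a s k θ i)) /
          law (QQ D a h s k) (YY a s k) (YY a s k θ))) := by
    refine B.trans (Finset.sum_congr rfl fun θ _ => ?_)
    by_cases hθ : QQ D a h s k θ = 0
    · simp [hθ]
    obtain ⟨d0, g0, m0, hi⟩ := sup θ hθ
    have e1 : ∀ i, Real.log (law (PA D s) (AA a s) (YY a s k θ i - a θ.1) * h (YY a s k θ i) /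
        GA D a h s (a θ.1)) = Real.log (ZQ D a h s / GA D a h s (a θ.1)) +
        Real.log (law (PA D s) (AA a s) (AA a s (θ.2 i)) / Ly D a s (YY a s k θ i)) +
        Real.log (h (YY a s k θ i) / ZQ D a h s * Ly D a s (YY a s k θ i)) := fun i => by
      obtain ⟨l0, h1, y0⟩ := hi i
      have : YY a s k θ i - a θ.1 = AA a s (θ.2 i) := add_sub_cancel_left _ _
      rw [this, Real.log_div (mul_pos l0 h1).ne' g0.ne', Real.log_mul l0.ne' h1.ne',
        Real.log_div hZ.ne' g0.ne', Real.log_div l0.ne' y0.ne',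
        Real.log_mul (div_pos h1 hZ).ne' y0.ne', Real.log_div h1.ne' hZ.ne']
      ring
    have p1 : ∀ i, law (PA D s) (AA a s) (YY a s k θ i - a θ.1) * h (YY a s k θ i) /
        GA D a h s (a θ.1) ≠ 0 := fun i => by
      have : YY a s k θ i - a θ.1 = AA a s (θ.2 i) := add_sub_cancel_left _ _
      rw [this]
      exact (div_pos (mul_pos (hi i).1 (hi i).2.1) g0).ne'
    have p2 : ∀ i, h (YY a s k θ i) / ZQ D a h s * Ly D a s (YY a s k θ i) ≠ 0 := fun i =>
      (mul_pos (div_pos (hi i).2.1 hZ) (hi i).2.2).ne'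
    have p3 := Finset.prod_ne_zero_iff.2 fun i (_ : i ∈ Finset.univ) => p1 i
    have p4 := Finset.prod_ne_zero_iff.2 fun i (_ : i ∈ Finset.univ) => p2 i
    have q0 : Qn D a h s θ.1 ≠ 0 := (div_pos (mul_pos d0 g0) hZ).ne'
    rw [cond, law_QQ, Real.log_div (div_ne_zero (mul_ne_zero q0 p3) m0.ne') d0.ne',
      Real.log_div (mul_ne_zero q0 p3) m0.ne', Real.log_mul q0 p3,
      Real.log_prod fun i _ => p1 i, Real.log_div p4 m0.ne', Real.log_prod fun i _ => p2 i, Qn,
      Real.log_div (mul_pos d0 g0).ne' hZ.ne', Real.log_mul d0.ne' g0.ne']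
    simp only [e1, Finset.sum_add_distrib, Finset.sum_const, Finset.card_univ, Fintype.card_fin,
      nsmul_eq_mul]
    rw [Real.log_div hZ.ne' g0.ne']
    ring
  rw [E, Finset.sum_add_distrib, Finset.sum_add_distrib, ← Finset.mul_sum]
  have k1 : (0 : ℝ) ≤ (k : ℝ) - 1 := sub_nonneg.2 (by exact_mod_cast hk)
  linarith [mul_nonpos_of_nonneg_of_nonpos k1 T1]

end Crest.Agent.R100.Ent
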