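import Crest.Agent.R100.AdNoise
import Crest.Agent.R100.AdInfo
import Crest.Agent.R100.AdFive

/-! # Row 100, approximate duality: assembly of the steps, free parameters -/

set_option autoImplicit false

noncomputable section

namespace Crest.Agent.R100.Ad

open MeasureTheory Finset Crest.Agent.R100.Ent
open scoped ComplexConjugate

variable {G : Type*} [AddCommGroup G] {ι : Type*} [Fintype ι] {T : Type*} [MeasurableSpace T]
  {χ : G → T → ℂ} {a : ι → G} {D : ι → ℝ} {σ : Measure T} {B₀ : ℂ} {ζ d L : ℝ}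

/-! ### part A -/

/-- the double posterior sum is the integral of `|B2 q|²` (`GA_eq`, `IsChar.neg`, `IsChar.mul`) -/
theorem sum_sum_GA [IsProbabilityMeasure σ] (hχ : IsChar χ) (hD : IsProb D) (q : ι → ℝ) (s : ℕ) :
    ∑ n', q n' * ∑ n, q n * GA D a (hh χ σ) s (a n - a n') =
      ∫ p, ‖B2 χ a D p‖ ^ (2 * s) * ‖B2 χ a q p‖ ^ 2 ∂σ.prod σ := by
  have hi : ∀ z : G, Integrable
      (fun p : T × T => ‖B2 χ a D p‖ ^ (2 * s) * (χ z p.1 * conj (χ z p.2)).re) (σ.prod σ) := by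
    intro z
    refine Integrable.of_bound (((measurable_B2 hχ a D).norm.pow_const _).mul
      (Complex.measurable_re.comp (((hχ.meas z).comp measurable_fst).mul
        (Complex.continuous_conj.measurable.comp
          ((hχ.meas z).comp measurable_snd))))).aestronglyMeasurable 1
      (Filter.Eventually.of_forall fun p => ?_)
    rw [norm_mul, norm_pow, norm_norm]
    refine mul_le_one₀ (pow_le_one₀ (norm_nonneg _) (norm_B2_le_one hχ hD a p)) (norm_nonneg _) ?_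
    refine (Complex.abs_re_le_norm _).trans ?_
    rw [norm_mul, Complex.norm_conj, hχ.norm, hχ.norm, mul_one]
  simp only [GA_eq hχ hD, ← integral_const_mul]
  have h1 : ∀ n', ∑ n, ∫ p, q n * (‖B2 χ a D p‖ ^ (2 * s) *
      (χ (a n - a n') p.1 * conj (χ (a n - a n') p.2)).re) ∂σ.prod σ =
      ∫ p, ∑ n, q n * (‖B2 χ a D p‖ ^ (2 * s) *
      (χ (a n - a n') p.1 * conj (χ (a n - a n') p.2)).re) ∂σ.prod σ := fun n' =>
    (integral_finsetSum _ fun n _ => (hi _).const_mul _).symm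
  simp only [h1, ← integral_const_mul]
  rw [← integral_finsetSum _ fun n' _ =>
    (integrable_finsetSum _ fun n _ => (hi _).const_mul _).const_mul _]
  refine integral_congr_ae (Filter.Eventually.of_forall fun p => ?_)
  have h2 : ((‖B2 χ a q p‖ ^ 2 : ℝ) : ℂ) = ∑ n', (q n' : ℂ) * ∑ n, (q n : ℂ) *
      (χ (a n - a n') p.1 * conj (χ (a n - a n') p.2)) := by
    rw [← Complex.normSq_eq_norm_sq, ← Complex.mul_conj, mul_comm]
    conv_lhs => rw [B2, map_sum, Finset.sum_mul]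
    refine Finset.sum_congr rfl fun n' _ => ?_
    rw [Finset.mul_sum, Finset.mul_sum]
    refine Finset.sum_congr rfl fun n _ => ?_
    simp only [sub_eq_add_neg, hχ.mul, hχ.neg, map_mul, Complex.conj_ofReal, Complex.conj_conj]
    ring
  have h3 := congrArg Complex.re h2
  simp only [Complex.ofReal_re, Complex.re_sum, Complex.re_ofReal_mul] at h3
  simp only [h3, Finset.mul_sum]
  refine Finset.sum_congr rfl fun n' _ => Finset.sum_congr rfl fun n _ => ?_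
  ring

/-- the posterior is a law, absolutely continuous with respect to `D` (`cond_prob`, `law_QQ`) -/
theorem post_prob {h : G → ℝ} (hD : IsProb D) (h0 : ∀ z, 0 ≤ h z) {s k : ℕ}
    (hZ : 0 < ZQ D a h s) {θ : TH ι s k} (hθ : QQ D a h s k θ ≠ 0) :
    IsProb (post D a h s k θ) ∧ ∀ n, D n = 0 → post D a h s k θ n = 0 := by
  refine ⟨Crest.Agent.R100.Ent.post_prob hD h0 hZ hθ, fun n hn => ?_⟩
  have e := law_QQ D a h s k n (YY a s k θ)
  show law (QQ D a h s k) (fun θ => (θ.1, YY a s k θ)) (n, YY a s k θ) / _ = 0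
  rw [e]
  simp [Qn, hn]

theorem h2_term {x y : ℝ} (hx : 0 ≤ x) (hy : 0 ≤ y) (h : y = 0 → x = 0) :
    x - y ≤ x * Real.log (x / y) := by
  rcases hx.eq_or_lt with h0 | h0
  · rw [← h0]; simp [hy]
  have hy0 : 0 < y := lt_of_le_of_ne hy fun e => h0.ne' (h e.symm)
  have h1 := Real.one_sub_inv_le_log_of_pos (div_pos h0 hy0)
  have h2 := mul_le_mul_of_nonneg_left h1 hx
  have h3 : x * (1 - (x / y)⁻¹) = x - y := by field_simp
  linarith

theorem KL_nonneg {q : ι → ℝ} (hq : IsProb q) (hD : IsProb D) (hac : ∀ n, D n = 0 → q n = 0) :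
    0 ≤ KL q D := by
  have h := Finset.sum_le_sum (s := Finset.univ) fun n _ =>
    h2_term (hq.nn n) (hD.nn n) (hac n)
  rw [Finset.sum_sub_distrib, hq.one, hD.one, sub_self] at h
  exact h

/-- truncation: drop `{q > exp l * D}`, `l = (K + 1) / e`; its `q` mass is at most `e` because
`q log (q / D) ≥ q - D` -/
theorem trunc {q : ι → ℝ} (hq : IsProb q) (hD : IsProb D) (hac : ∀ n, D n = 0 → q n = 0)
    {K e : ℝ} (hK : KL q D ≤ K) (he : 0 < e) (he1 : e ≤ 1 / 2) :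
    ∃ q' : ι → ℝ, IsProb q' ∧ (∀ n, q' n ≤ 2 * Real.exp ((K + 1) / e) * D n) ∧
      ∑ n, |q' n - q n| ≤ 2 * e := by
  classical
  have hK0 : 0 ≤ K := (KL_nonneg hq hD hac).trans hK
  obtain ⟨l, hl⟩ : ∃ l, l = (K + 1) / e := ⟨_, rfl⟩
  rw [← hl]
  have hl0 : 0 < l := by rw [hl]; positivity
  have hle : l * e = K + 1 := by rw [hl]; field_simp
  obtain ⟨b, hb⟩ : ∃ b : ι → ℝ, b = fun n => if q n ≤ Real.exp l * D n then 0 else q n :=
    ⟨_, rfl⟩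
  obtain ⟨m, hm⟩ : ∃ m, m = ∑ n, b n := ⟨_, rfl⟩
  have hb0 : ∀ n, 0 ≤ b n := fun n => by
    rw [hb]; dsimp only; split_ifs
    · exact le_rfl
    · exact hq.nn n
  have hbq : ∀ n, b n ≤ q n := fun n => by
    rw [hb]; dsimp only; split_ifs
    · exact hq.nn n
    · exact le_rfl
  have hterm : ∀ n, l * b n - D n ≤ q n * Real.log (q n / D n) := fun n => by
    rw [hb]; dsimp only; split_ifs with hc
    · have := h2_term (hq.nn n) (hD.nn n) (hac n)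
      have := hq.nn n
      linarith
    · push Not at hc
      have hD0 : 0 < D n := by
        refine lt_of_le_of_ne (hD.nn n) fun e' => ?_
        have := hac n e'.symm
        rw [← e', this] at hc
        simp at hc
      have h1 : l ≤ Real.log (q n / D n) := by
        rw [Real.le_log_iff_exp_le (div_pos (lt_of_le_of_lt (by positivity) hc) hD0),
          le_div_iff₀ hD0]
        exact hc.le
      have h2 := mul_le_mul_of_nonneg_left h1 (hq.nn n)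
      linarith
  have hsum := Finset.sum_le_sum (s := Finset.univ) fun n _ => hterm n
  rw [Finset.sum_sub_distrib, ← Finset.mul_sum, ← hm, hD.one] at hsum
  have hme : m ≤ e := by
    have h1 : l * m ≤ l * e := by
      rw [hle]; unfold KL at hK; linarith
    exact le_of_mul_le_mul_left h1 hl0
  have hm0 : 0 ≤ m := by rw [hm]; exact Finset.sum_nonneg fun n _ => hb0 n
  have h1m : 0 < 1 - m := by linarith
  have hs : ∑ n, (q n - b n) = 1 - m := by rw [Finset.sum_sub_distrib, hq.one, hm]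
  refine ⟨fun n => (q n - b n) / (1 - m), ⟨fun n => div_nonneg (by linarith [hbq n]) h1m.le, ?_⟩,
    fun n => ?_, ?_⟩
  · rw [← Finset.sum_div, hs, div_self h1m.ne']
  · have h1 : q n - b n ≤ Real.exp l * D n := by
      rw [hb]; dsimp only; split_ifs with hc
      · linarith
      · have := hD.nn n
        have : 0 ≤ Real.exp l * D n := by positivity
        linarith
    have h2 : 0 ≤ Real.exp l * D n := mul_nonneg (Real.exp_pos l).le (hD.nn n)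
    rw [div_le_iff₀ h1m]
    nlinarith
  · have h1 : ∀ n, |(q n - b n) / (1 - m) - q n| ≤ (q n - b n) * (m / (1 - m)) + b n := fun n => by
      have e1 : (q n - b n) / (1 - m) - q n = (q n - b n) * (m / (1 - m)) - b n := by
        field_simp; ring
      have p1 : 0 ≤ (q n - b n) * (m / (1 - m)) :=
        mul_nonneg (by linarith [hbq n]) (div_nonneg hm0 h1m.le)
      rw [e1, abs_le]
      constructor <;> linarith [hb0 n]
    refine (Finset.sum_le_sum fun n _ => h1 n).trans ?_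
    rw [Finset.sum_add_distrib, ← Finset.sum_mul, hs, ← hm]
    have : (1 - m) * (m / (1 - m)) = m := by field_simp
    linarith

theorem B2_sq_ge (hχ : IsChar χ) {q q' : ι → ℝ} (hq : IsProb q) (hq' : IsProb q') {e : ℝ}
    (h : ∑ n, |q' n - q n| ≤ e) (p : T × T) :
    ‖B2 χ a q p‖ ^ 2 - 2 * e ≤ ‖B2 χ a q' p‖ ^ 2 := by
  have h1 := norm_B2_le_one hχ hq a p
  have h2 := norm_B2_le_one hχ hq' a p
  have h3 : ‖B2 χ a q p - B2 χ a q' p‖ ≤ e := by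
    refine le_trans ?_ h
    rw [B2, B2, ← Finset.sum_sub_distrib]
    refine (norm_sum_le _ _).trans (Finset.sum_le_sum fun n _ => ?_)
    rw [← sub_mul, norm_mul, norm_mul, Complex.norm_conj, hχ.norm, hχ.norm, mul_one, mul_one,
      ← Complex.ofReal_sub, Complex.norm_real, Real.norm_eq_abs, abs_sub_comm]
  have h4 := norm_sub_norm_le (B2 χ a q p) (B2 χ a q' p)
  have h5 := norm_nonneg (B2 χ a q p)
  have h6 := norm_nonneg (B2 χ a q' p)
  have h7 := norm_nonneg (B2 χ a q p - B2 χ a q' p)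
  nlinarith

/-- a point of the support where both non-negative quantities are at most twice their bounds -/
theorem exists_both {Ω : Type*} [Fintype Ω] {P X Y : Ω → ℝ} (hP : IsProb P)
    (hX : ∀ ω, P ω ≠ 0 → 0 ≤ X ω) (hY : ∀ ω, P ω ≠ 0 → 0 ≤ Y ω) {x y : ℝ} (hx : 0 < x)
    (hy : 0 < y) (h1 : ∑ ω, P ω * X ω ≤ x) (h2 : ∑ ω, P ω * Y ω ≤ y) :
    ∃ ω, P ω ≠ 0 ∧ X ω ≤ 2 * x ∧ Y ω ≤ 2 * y := by
  by_contra hc
  push Not at hc
  have key : ∀ ω, P ω ≠ 0 → 2 * (x * y) < y * X ω + x * Y ω := by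
    intro ω h
    have a1 := hX ω h
    have a2 := hY ω h
    by_cases h3 : X ω ≤ 2 * x
    · have := hc ω h h3
      nlinarith
    · push Not at h3
      nlinarith
  obtain ⟨ω₀, hω₀⟩ : ∃ ω, P ω ≠ 0 := by
    by_contra h0
    push Not at h0
    have := hP.one
    simp [h0] at this
  have h3 : ∑ ω, P ω * (2 * (x * y)) < ∑ ω, P ω * (y * X ω + x * Y ω) := by
    refine Finset.sum_lt_sum (fun ω _ => ?_) ⟨ω₀, Finset.mem_univ _, ?_⟩
    · by_cases h : P ω = 0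
      · simp [h]
      · exact mul_le_mul_of_nonneg_left (key ω h).le (hP.nn ω)
    · exact mul_lt_mul_of_pos_left (key ω₀ hω₀) (lt_of_le_of_ne (hP.nn ω₀) (Ne.symm hω₀))
  have h4 : ∑ ω, P ω * (y * X ω + x * Y ω) = y * ∑ ω, P ω * X ω + x * ∑ ω, P ω * Y ω := by
    rw [Finset.mul_sum, Finset.mul_sum, ← Finset.sum_add_distrib]
    exact Finset.sum_congr rfl fun ω _ => by ring
  rw [← Finset.sum_mul, hP.one, h4] at h3
  nlinarith

/-! ### part B -/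

/-- ENT: `HZ_le` (with `τ = ‖B₀‖ ^ (2 v) / 4`), `Cell.sum_small`, `pigeon`, `ent_nonneg` -/
theorem Cell.ent (h : Cell χ a D σ B₀ ζ d L) {M : ℝ} (hM1 : 1 ≤ M)
    (hM : ∀ F : Finset G, ∑ z ∈ F, hh χ σ z ≤ M) {m v : ℕ} (hm : 1 ≤ m) (hmv : m < v)
    (hz : 32 * v * ζ ≤ 1) {u H : ℝ} (hu : 0 ≤ u) (hl : 2 * v ≤ d * u) (hlu : v * u ≤ 1)
    (hη : (16 * (v * u) + 8 * Real.exp (L - d * u ^ 2 / 2) + 16 * (v * ζ) ^ 2) * v ≤ 1)
    (hH : 3 + Real.log M + 2 * v / ‖B₀‖ + Real.log (Fintype.card ι) ≤ H) :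
    ∃ r : ℕ, m ≤ r ∧ r < v ∧
      r * (HZ D a (r + 1) - HZ D a r) ≤ H / Real.log ((v : ℝ) / m) := by
  have hβ := h.pos
  have hβ1 := h.le1
  have hlc : 0 ≤ Real.log (Fintype.card ι : ℝ) := Real.log_natCast_nonneg _
  have hlM : 0 ≤ Real.log M := Real.log_nonneg hM1
  have hv0 : (0 : ℝ) ≤ v := Nat.cast_nonneg v
  have hq : 0 ≤ 2 * (v : ℝ) / ‖B₀‖ := by positivity
  have hτ : 0 < ‖B₀‖ ^ (2 * v) / 4 := by positivity
  have hp1 : ‖B₀‖ ^ (2 * v) ≤ 1 := pow_le_one₀ hβ.le hβ1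
  have hτM : ‖B₀‖ ^ (2 * v) / 4 ≤ M := by linarith
  have h1 := HZ_le (a := a) (h := hh χ σ) h.prob (fun z => by unfold hh; positivity) hM hτ hτM v
    (h.sum_small v hz hu hl hlu)
  have hlog : Real.log (M / (‖B₀‖ ^ (2 * v) / 4)) =
      Real.log M + 2 * Real.log 2 + 2 * v * Real.log (‖B₀‖⁻¹) := by
    have e4 : Real.log 4 = 2 * Real.log 2 := by
      rw [show (4 : ℝ) = 2 ^ 2 by norm_num, Real.log_pow]; norm_num
    rw [Real.log_div (by linarith) hτ.ne', Real.log_div (by positivity) (by norm_num),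
      Real.log_pow, Real.log_inv, e4]
    push_cast
    ring
  have hl2 : Real.log 2 ≤ 1 := by
    have := Real.log_le_sub_one_of_pos (show (0 : ℝ) < 2 by norm_num)
    linarith
  have hli : Real.log (‖B₀‖⁻¹) ≤ ‖B₀‖⁻¹ := by
    have := Real.log_le_sub_one_of_pos (inv_pos.2 hβ)
    linarith
  have hm2 : 2 * v * Real.log (‖B₀‖⁻¹) ≤ 2 * v / ‖B₀‖ := by
    rw [div_eq_mul_inv]
    exact mul_le_mul_of_nonneg_left hli (by positivity)
  have hm3 : (16 * (v * u) + 8 * Real.exp (L - d * u ^ 2 / 2) + 16 * (v * ζ) ^ 2) *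
      (v * Real.log (Fintype.card ι : ℝ)) ≤ Real.log (Fintype.card ι : ℝ) := by
    rw [← mul_assoc]
    exact mul_le_of_le_one_left hlc hη
  refine pigeon (HZ D a) hm hmv (by linarith) (ent_nonneg (h.prob.pw m) _) ?_
  rw [hlog] at h1
  linarith

/-- INFO: `info`, `ZQ_low` (through `noise_a`, `GA_zero`), `Cell.ZZ_ge`, `log x ≤ x` -/
theorem Cell.info_le (h : Cell χ a D σ B₀ ζ d L) {M : ℝ} (hM1 : 1 ≤ M)
    (hM : ∀ F : Finset G, ∑ z ∈ F, hh χ σ z ≤ M) (s k : ℕ) (hk : 1 ≤ k) (hz : 32 * s * ζ ≤ 1)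
    {u : ℝ} (hu : 0 ≤ u) (hl : 2 * (2 * s + 1) ≤ d * u) (hu1 : u ≤ 1)
    (hδ : 6 * u + 6 * Real.exp (L - d * u ^ 2 / 2) + ζ ^ 2 ≤ 1 / 8) :
    0 < ZQ D a (hh χ σ) s ∧
      ∑ θ, QQ D a (hh χ σ) s k θ * KL (post D a (hh χ σ) s k θ) D ≤
        k * (Real.log M / (s + 1) + 8 / ‖B₀‖) := by
  have := h.pm
  have hβ := h.pos
  have hβ1 := h.le1
  have h0 : ∀ z, 0 ≤ hh χ σ z := fun z => by unfold hh; positivity
  have e0 : GA D a (hsq (Ph χ σ)) s 0 = ZZ χ a D σ s := GA_zero h.chr h.prob s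
  have hge := h.ZZ_ge s
  have hhalf : ‖B₀‖ / 2 ≤ (1 - ζ) * ‖B₀‖ := by nlinarith [h.z1]
  have hZZ : (‖B₀‖ / 2) ^ (4 * s) ≤ ZZ χ a D σ s :=
    le_trans (pow_le_pow_left₀ (by positivity) hhalf _) hge
  have hp0 : 0 < (‖B₀‖ / 2) ^ (4 * s) := by positivity
  have hlow : ‖B₀‖ ^ 2 * GA D a (hsq (Ph χ σ)) s 0 / 4 ≤ ZQ D a (hsq (Ph χ σ)) s := by
    refine ZQ_low h.prob (Ph χ σ) B₀ hδ (by rw [e0]; linarith) ?_
    rw [e0]
    refine le_trans (h.noise_a s hz hu hl hu1) (le_of_eq ?_)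
    ring
  rw [e0] at hlow
  have hQ : (‖B₀‖ / 2) ^ (4 * s + 2) ≤ ZQ D a (hh χ σ) s := by
    refine le_trans ?_ hlow
    have : (‖B₀‖ / 2) ^ (4 * s + 2) = ‖B₀‖ ^ 2 * (‖B₀‖ / 2) ^ (4 * s) / 4 := by ring
    rw [this]
    gcongr
  have hp1 : 0 < (‖B₀‖ / 2) ^ (4 * s + 2) := by positivity
  have hZ : 0 < ZQ D a (hh χ σ) s := lt_of_lt_of_le hp1 hQ
  refine ⟨hZ, le_trans (info h.prob h0 hZ hM hk) ?_⟩
  refine mul_le_mul_of_nonneg_left ?_ (Nat.cast_nonneg k)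
  have hs : (0 : ℝ) < s + 1 := by positivity
  have hs0 : (0 : ℝ) ≤ s := Nat.cast_nonneg s
  have hlog := Real.log_le_log hp1 hQ
  rw [Real.log_pow] at hlog
  have hli : -Real.log (‖B₀‖ / 2) ≤ 2 / ‖B₀‖ := by
    have := Real.log_le_sub_one_of_pos (show 0 < (‖B₀‖ / 2)⁻¹ by positivity)
    rw [Real.log_inv, inv_div] at this
    linarith
  have hq : 0 ≤ 2 / ‖B₀‖ := by positivity
  have e8 : 8 / ‖B₀‖ = 4 * (2 / ‖B₀‖) := by ring
  rw [sub_div, sub_eq_add_neg, ← neg_div]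
  refine add_le_add le_rfl ?_
  rw [div_le_iff₀ hs, e8]
  push_cast at hlog
  nlinarith [mul_le_mul_of_nonneg_left hli (show (0 : ℝ) ≤ 4 * s + 2 by positivity)]

/-- step (5) fed with NOISE: `step5` (with `Φ = Ph χ σ`, `hsq Φ = hh χ σ` by `rfl`,
`c₀ = ‖B₀‖ ^ (2 r)`, `η = l = e`, `η' = e ‖B₀‖²`), `GA_GA`, `sum_sum_GA`, `Cell.ZZ_add_le` -/
theorem Cell.five (h : Cell χ a D σ B₀ ζ d L) (s r k : ℕ) (hk : 1 ≤ k) (hr1 : 1 ≤ r)
    (hz : 32 * s * ζ ≤ 1) (hr : 32 * r * ζ ≤ 1) {u e : ℝ} (hu : 0 ≤ u)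
    (hl : 2 * (2 * s + 2 * r) ≤ d * u) (hlu : 2 * r * u ≤ 1) (he : 0 < e) (he1 : e ≤ 1 / 8)
    (h1 : 8 * (r * u) + 4 * Real.exp (L - d * u ^ 2 / 2) + 16 * (r * ζ) ≤ e ^ 2)
    (h2 : 6 * u + 6 * Real.exp (L - d * u ^ 2 / 2) + ζ ^ 2 ≤ e ^ 2 * ‖B₀‖ ^ 4)
    (h3 : HZ D a (r + 1) - HZ D a r ≤ e ^ 2 * ‖B₀‖ ^ 2 * k) :
    (1 - 40 * e) * ZZ χ a D σ (s + r) ≤
      ∑ θ, QQ D a (hh χ σ) s k θ *
        ∫ p, ‖B2 χ a D p‖ ^ (2 * (s + r)) * ‖B2 χ a (post D a (hh χ σ) s k θ) p‖ ^ 2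
          ∂σ.prod σ := by
  have := h.pm
  have hχ := h.chr
  have hD := h.prob
  have hβ := h.pos
  have hβ1 := h.le1
  have hz0 := h.z0
  have hz1 := h.z1
  have hB : B₀ ≠ 0 := norm_pos_iff.mp hβ
  have hr1' : (1 : ℝ) ≤ r := by exact_mod_cast hr1
  have hk' : (1 : ℝ) ≤ k := by exact_mod_cast hk
  have hZpos : 0 < ZZ χ a D σ s :=
    lt_of_lt_of_le (pow_pos (mul_pos (by linarith) hβ) _) (h.ZZ_ge s)
  have hG0 : GA D a (hsq (Ph χ σ)) s 0 = ZZ χ a D σ s := GA_zero hχ hD s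
  have hc : 0 < ‖B₀‖ ^ (2 * r) := pow_pos hβ _
  have hβ4 : ‖B₀‖ ^ 4 ≤ 1 := pow_le_one₀ hβ.le hβ1
  have hβ2 : 0 < ‖B₀‖ ^ 2 := pow_pos hβ _
  have hu1 : u ≤ 1 := by nlinarith
  have hl' : 2 * (2 * (s : ℝ) + 1) ≤ d * u := by linarith
  have hrz : 0 ≤ (r : ℝ) * ζ := by positivity
  have hrz1 : ((r : ℝ) * ζ) ^ 2 ≤ r * ζ := by nlinarith
  have hδ' : e ^ 2 * ‖B₀‖ ^ 4 ≤ 1 / 8 := by nlinarith
  have hN1 : ∑ ω, PA D s ω * ∑ x, PA D r x *
      ‖Ph χ σ (AA a s ω + AA a r x) - ((‖B₀‖ ^ (2 * r) : ℝ) : ℂ) * Ph χ σ (AA a s ω)‖ ^ 2 ≤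
        e ^ 2 * ((‖B₀‖ ^ (2 * r)) ^ 2 * GA D a (hsq (Ph χ σ)) s 0) := by
    refine (h.noise_b s r hz hr hu hl hlu).trans ?_
    rw [hG0]
    calc _ ≤ ZZ χ a D σ s * (‖B₀‖ ^ (2 * r)) ^ 2 * e ^ 2 :=
          mul_le_mul_of_nonneg_left (by linarith) (by positivity)
      _ = _ := by ring
  have hN2 : ∑ n, D n * ∑ ω, PA D s ω * ‖Ph χ σ (a n + AA a s ω) - B₀ * Ph χ σ (AA a s ω)‖ ^ 2 ≤
      e ^ 2 * ‖B₀‖ ^ 4 * (‖B₀‖ ^ 2 * GA D a (hsq (Ph χ σ)) s 0) := by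
    refine (h.noise_a s hz hu hl' hu1).trans ?_
    rw [hG0]
    calc _ ≤ ZZ χ a D σ s * ‖B₀‖ ^ 2 * (e ^ 2 * ‖B₀‖ ^ 4) :=
          mul_le_mul_of_nonneg_left h2 (by positivity)
      _ = _ := by ring
  have hN3 : ∀ z, GA D a (hsq (Ph χ σ)) s z ≤ GA D a (hsq (Ph χ σ)) s 0 := fun z => by
    rw [hG0]; exact GA_le hχ hD s z
  have h5 := step5 (k := k) (η := e) (η' := e * ‖B₀‖ ^ 2) (l := e) hD (Ph χ σ) B₀ r hk hc hB he
    (by positivity) (by positivity) (by positivity) hδ' he (by linarith) (hG0 ▸ hZpos) hN1 hN2 hN3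
  have hR : ∑ θ, QQ D a (hsq (Ph χ σ)) s k θ * ∑ n', post D a (hsq (Ph χ σ)) s k θ n' *
        ∑ n, post D a (hsq (Ph χ σ)) s k θ n *
          ∑ x, PA D r x * GA D a (hsq (Ph χ σ)) s (AA a r x + a n - a n') =
      ∑ θ, QQ D a (hh χ σ) s k θ *
        ∫ p, ‖B2 χ a D p‖ ^ (2 * (s + r)) * ‖B2 χ a (post D a (hh χ σ) s k θ) p‖ ^ 2
          ∂σ.prod σ := by
    refine Finset.sum_congr rfl fun θ _ => ?_
    rw [← sum_sum_GA hχ hD]
    have e1 : ∀ n n', ∑ x, PA D r x * GA D a (hsq (Ph χ σ)) s (AA a r x + a n - a n') =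
        GA D a (hh χ σ) (s + r) (a n - a n') := fun n n' => by
      rw [← GA_GA hχ hD s r]
      refine Finset.sum_congr rfl fun x _ => ?_
      rw [add_sub_assoc]; rfl
    simp only [e1]
    rfl
  rw [hR, hG0] at h5
  have hadd := h.ZZ_add_le s r hz hr hu hl hlu
  have hW : 0 < (‖B₀‖ ^ (2 * r)) ^ 2 * ZZ χ a D σ s := by positivity
  have hadd' : ZZ χ a D σ (s + r) ≤ (1 + e ^ 2) * ((‖B₀‖ ^ (2 * r)) ^ 2 * ZZ χ a D σ s) := by
    refine hadd.trans ?_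
    calc _ ≤ ZZ χ a D σ s * (‖B₀‖ ^ (2 * r)) ^ 2 * (1 + e ^ 2) :=
          mul_le_mul_of_nonneg_left (by linarith) (by positivity)
      _ = _ := by ring
  have hZZ : 0 ≤ ZZ χ a D σ (s + r) := integral_nonneg fun p => by positivity
  by_cases h40 : 0 ≤ 1 - 40 * e
  · have t1 : 8 * (e ^ 2 + e ^ 2 * ‖B₀‖ ^ 4) / e ≤ 16 * e := by
      rw [div_le_iff₀ he]; nlinarith [sq_nonneg e]
    have t2 : 8 / ‖B₀‖ ^ 2 * (HZ D a (r + 1) - HZ D a r) / (k * e) ≤ 8 * e := by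
      rw [div_le_iff₀ (by positivity)]
      calc _ ≤ 8 / ‖B₀‖ ^ 2 * (e ^ 2 * ‖B₀‖ ^ 2 * k) :=
            mul_le_mul_of_nonneg_left h3 (by positivity)
        _ = _ := by field_simp
    have t3 : 4 / ‖B₀‖ ^ 2 * (e * ‖B₀‖ ^ 2 + e ^ 2 * ‖B₀‖ ^ 4 / (e * ‖B₀‖ ^ 2)) = 8 * e := by
      field_simp; ring
    rw [t3] at h5
    calc (1 - 40 * e) * ZZ χ a D σ (s + r)
        ≤ (1 - 40 * e) * ((1 + e ^ 2) * ((‖B₀‖ ^ (2 * r)) ^ 2 * ZZ χ a D σ s)) :=
          mul_le_mul_of_nonneg_left hadd' h40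
      _ = ((1 - 40 * e) * (1 + e ^ 2)) * ((‖B₀‖ ^ (2 * r)) ^ 2 * ZZ χ a D σ s) := by ring
      _ ≤ _ := by
          refine le_trans (mul_le_mul_of_nonneg_right ?_ hW.le) h5
          nlinarith [mul_pos he (pow_pos he 2)]
  · have hZl := ZQ_low hD (Ph χ σ) B₀ hδ' (hG0 ▸ hZpos.le) hN2
    rw [hG0] at hZl
    have hZQ : 0 < ZQ D a (hh χ σ) s := by
      have : 0 < ‖B₀‖ ^ 2 * ZZ χ a D σ s / 4 := by positivity
      exact lt_of_lt_of_le this hZl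
    have hQ := QQ_prob (k := k) hD (fun z => hsq_nonneg (Ph χ σ) z) hZQ
    refine le_trans (mul_nonpos_of_nonpos_of_nonneg (by linarith) hZZ) ?_
    exact Finset.sum_nonneg fun θ _ => mul_nonneg (hQ.nn θ)
      (integral_nonneg fun p => by positivity)

/-! ### part C -/

/-- extraction of one law: `exists_both` with
`X θ = 1 - (∫ ..) / ZZ (s + r)`, `Y θ = KL`, then `trunc`, `B2_sq_ge` -/
theorem Cell.core (h : Cell χ a D σ B₀ ζ d L) {M : ℝ} (hM1 : 1 ≤ M)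
    (hM : ∀ F : Finset G, ∑ z ∈ F, hh χ σ z ≤ M) (s r k : ℕ) (hk : 1 ≤ k) (hr1 : 1 ≤ r)
    (hz : 32 * s * ζ ≤ 1) (hr : 32 * r * ζ ≤ 1) {u e K : ℝ} (hu : 0 ≤ u)
    (hl : 2 * (2 * s + 2 * r) ≤ d * u) (hlu : 2 * r * u ≤ 1) (he : 0 < e) (he1 : e ≤ 1 / 8)
    (h1 : 8 * (r * u) + 4 * Real.exp (L - d * u ^ 2 / 2) + 16 * (r * ζ) ≤ e ^ 2)
    (h2 : 6 * u + 6 * Real.exp (L - d * u ^ 2 / 2) + ζ ^ 2 ≤ e ^ 2 * ‖B₀‖ ^ 4)
    (h3 : HZ D a (r + 1) - HZ D a r ≤ e ^ 2 * ‖B₀‖ ^ 2 * k)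
    (hK : k * (Real.log M / (s + 1) + 8 / ‖B₀‖) ≤ K) :
    ∃ q : ι → ℝ, IsProb q ∧ (∀ n, q n ≤ 2 * Real.exp ((2 * K + 1) / e) * D n) ∧
      (1 - 84 * e) * ZZ χ a D σ (s + r) ≤
        ∫ p, ‖B2 χ a D p‖ ^ (2 * (s + r)) * ‖B2 χ a q p‖ ^ 2 ∂σ.prod σ := by
  have := h.pm
  have hr1' : (1 : ℝ) ≤ r := by exact_mod_cast hr1
  have hk' : (1 : ℝ) ≤ k := by exact_mod_cast hk
  have hb := h.pos
  have h0 : ∀ z, 0 ≤ hh χ σ z := fun z => by unfold hh; positivity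
  have hB4 : ‖B₀‖ ^ 4 ≤ 1 := pow_le_one₀ hb.le h.le1
  obtain ⟨hZQ, hinfo⟩ := h.info_le hM1 hM s k hk hz hu (by nlinarith) (by nlinarith)
    (h2.trans (by nlinarith [sq_nonneg e]))
  have hfive := h.five s r k hk hr1 hz hr hu hl hlu he he1 h1 h2 h3
  have hQ : IsProb (QQ D a (hh χ σ) s k) := QQ_prob h.prob h0 hZQ
  have hZ : 0 < ZZ χ a D σ (s + r) :=
    lt_of_lt_of_le (pow_pos (mul_pos (by linarith [h.z1]) hb) _) (h.ZZ_ge (s + r))
  have hK0 : 0 < K := by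
    have h4 : 0 ≤ Real.log M / (s + 1) := div_nonneg (Real.log_nonneg hM1) (by positivity)
    have h5 : 0 < 8 / ‖B₀‖ := by positivity
    exact lt_of_lt_of_le (mul_pos (by linarith) (by linarith)) hK
  have hw : Integrable (fun p => ‖B2 χ a D p‖ ^ (2 * (s + r))) (σ.prod σ) :=
    Integrable.of_bound ((measurable_B2 h.chr a D).norm.pow_const _).aestronglyMeasurable 1
      (Filter.Eventually.of_forall fun p => by
        rw [norm_pow, norm_norm]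
        exact pow_le_one₀ (norm_nonneg _) (norm_B2_le_one h.chr h.prob a p))
  have hi : ∀ q : ι → ℝ, IsProb q →
      Integrable (fun p => ‖B2 χ a D p‖ ^ (2 * (s + r)) * ‖B2 χ a q p‖ ^ 2) (σ.prod σ) :=
    fun q hq => Integrable.of_bound (((measurable_B2 h.chr a D).norm.pow_const _).mul
      ((measurable_B2 h.chr a q).norm.pow_const _)).aestronglyMeasurable 1
      (Filter.Eventually.of_forall fun p => by
        rw [norm_mul, norm_pow, norm_pow, norm_norm, norm_norm]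
        exact mul_le_one₀ (pow_le_one₀ (norm_nonneg _) (norm_B2_le_one h.chr h.prob a p))
          (by positivity) (pow_le_one₀ (norm_nonneg _) (norm_B2_le_one h.chr hq a p)))
  set Z := ZZ χ a D σ (s + r) with hZdef
  set I : TH ι s k → ℝ := fun θ => ∫ p, ‖B2 χ a D p‖ ^ (2 * (s + r)) *
    ‖B2 χ a (post D a (hh χ σ) s k θ) p‖ ^ 2 ∂σ.prod σ with hI
  obtain ⟨θ, hθ, hX, hY⟩ := exists_both hQ (X := fun θ => 1 - I θ / Z)
    (Y := fun θ => KL (post D a (hh χ σ) s k θ) D) (x := 40 * e) (y := K)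
    (fun θ hθ => by
      have hp := (Crest.Agent.R100.Ad.post_prob h.prob h0 hZQ hθ).1
      have h6 : I θ ≤ Z := integral_mono (hi _ hp) hw fun p =>
        mul_le_of_le_one_right (by positivity)
          (pow_le_one₀ (norm_nonneg _) (norm_B2_le_one h.chr hp a p))
      exact sub_nonneg.2 ((div_le_one hZ).2 h6))
    (fun θ hθ => KL_nonneg (Crest.Agent.R100.Ad.post_prob h.prob h0 hZQ hθ).1 h.prob
      (Crest.Agent.R100.Ad.post_prob h.prob h0 hZQ hθ).2)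
    (by positivity) hK0
    (by
      have e1 : ∑ θ, QQ D a (hh χ σ) s k θ * (1 - I θ / Z) =
          1 - (∑ θ, QQ D a (hh χ σ) s k θ * I θ) / Z := by
        simp only [mul_sub, mul_one, sum_sub_distrib, hQ.one, sum_div, mul_div_assoc]
      rw [e1]
      have e2 : 1 - 40 * e ≤ (∑ θ, QQ D a (hh χ σ) s k θ * I θ) / Z := (le_div_iff₀ hZ).2 hfive
      linarith)
    (hinfo.trans hK)
  obtain ⟨hp, hac⟩ := Crest.Agent.R100.Ad.post_prob h.prob h0 hZQ hθ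
  obtain ⟨q, hq, hqle, hq1⟩ := trunc hp h.prob hac hY he (by linarith)
  refine ⟨q, hq, hqle, ?_⟩
  have h7 : (1 - 80 * e) * Z ≤ I θ := (le_div_iff₀ hZ).1 (by linarith)
  have h8 : I θ - 4 * e * Z ≤
      ∫ p, ‖B2 χ a D p‖ ^ (2 * (s + r)) * ‖B2 χ a q p‖ ^ 2 ∂σ.prod σ := by
    have h9 : I θ - 4 * e * Z = ∫ p, (‖B2 χ a D p‖ ^ (2 * (s + r)) *
        ‖B2 χ a (post D a (hh χ σ) s k θ) p‖ ^ 2 - 4 * e * ‖B2 χ a D p‖ ^ (2 * (s + r)))
          ∂σ.prod σ := by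
      rw [integral_sub (hi _ hp) (hw.const_mul _), integral_const_mul]
      rfl
    rw [h9]
    refine integral_mono ((hi _ hp).sub (hw.const_mul _)) (hi _ hq) fun p => ?_
    have h10 := mul_le_mul_of_nonneg_left (B2_sq_ge (a := a) h.chr hp hq hq1 p)
      (pow_nonneg (norm_nonneg (B2 χ a D p)) (2 * (s + r)))
    simp only
    linarith
  linarith

end Crest.Agent.R100.Ad
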