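import Crest.Agent.R100.AdInfo

/-! # Row 100, approximate duality: the change of measure of step (5) -/

set_option autoImplicit false

noncomputable section

namespace Crest.Agent.R100.Ent

open Finset

variable {G : Type*} [AddCommGroup G] {ι : Type*} [Fintype ι]
  {D : ι → ℝ} {a : ι → G} {h : G → ℝ} {s k : ℕ}

private theorem h68_law_shift {Ω : Type*} [Fintype Ω] (P : Ω → ℝ) (X : Ω → G) (c z : G) :
    law P (fun ω => X ω + c) (z + c) = law P X z := by
  unfold law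
  refine Finset.sum_congr rfl fun ω _ => ?_
  by_cases h : X ω = z <;> simp [h]

/-- the density ratio of one shifted sum -/
def rat (D : ι → ℝ) (a : ι → G) (r : ℕ) (c : G) (x : Fin r → ι) : ℝ :=
  law (pw D (r + 1)) (Zs a (r + 1)) (Zs a r x + c) / law (pw D r) (Zs a r) (Zs a r x)

private theorem h68_rat_nn (hD : IsProb D) (r : ℕ) (c : G) (x : Fin r → ι) :
    0 ≤ rat D a r c x :=
  div_nonneg (law_nonneg (hD.pw _).nn _ _) (law_nonneg (hD.pw _).nn _ _)

private theorem h68_rat_pos (hD : IsProb D) (r : ℕ) {n : ι} (hn : D n ≠ 0) {x : Fin r → ι}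
    (hx : pw D r x ≠ 0) : 0 < rat D a r (a n) x :=
  div_pos (law_succ_pos hD a r hn hx)
    ((lt_of_le_of_ne ((hD.pw r).nn x) hx.symm).trans_le (le_law (hD.pw r).nn _ x))

private theorem h68_log_rat (r : ℕ) (n : ι) :
    ∑ x, pw D r x * Real.log (rat D a r (a n) x) = -kz D a r n := by
  rw [kz, ← Finset.sum_neg_distrib]
  refine Finset.sum_congr rfl fun x _ => ?_
  rw [rat, ← inv_div, Real.log_inv, mul_neg]

private theorem h68_chg1 (hD : IsProb D) (r : ℕ) (c : G) (φ : G → ℝ) (hφ : ∀ z, 0 ≤ φ z) :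
    ∑ x, pw D r x * (rat D a r c x * φ (Zs a r x + c)) ≤
      ∑ v, pw D (r + 1) v * φ (Zs a (r + 1) v) := by
  have := chg (hD.pw r).nn (hD.pw (r + 1)).nn (fun x => Zs a r x + c) (Zs a (r + 1)) φ hφ
  simpa only [h68_law_shift, rat] using this

private theorem h68_chg2 (hD : IsProb D) (r : ℕ) (c c' : G) (φ : G → ℝ) (hφ : ∀ z, 0 ≤ φ z) :
    ∑ x : OA ι r, PA D r x * (rat D a r c x.1 * rat D a r c' x.2 * φ (AA a r x + c - c')) ≤
      ∑ v : OA ι (r + 1), PA D (r + 1) v * φ (AA a (r + 1) v) := by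
  have hp := (hD.pw r).nn
  have hq := (hD.pw (r + 1)).nn
  calc ∑ x : OA ι r, PA D r x * (rat D a r c x.1 * rat D a r c' x.2 * φ (AA a r x + c - c'))
      = ∑ x1, pw D r x1 * rat D a r c x1 * ∑ x2, pw D r x2 * (rat D a r c' x2 *
          (fun z => φ (Zs a r x1 + c - z)) (Zs a r x2 + c')) := by
        rw [Fintype.sum_prod_type]
        refine Finset.sum_congr rfl fun x1 _ => ?_
        rw [Finset.mul_sum]
        refine Finset.sum_congr rfl fun x2 _ => ?_
        have : Zs a r x1 - Zs a r x2 + c - c' = Zs a r x1 + c - (Zs a r x2 + c') := by abel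
        simp only [PA, AA, this]
        ring
    _ ≤ ∑ x1, pw D r x1 * rat D a r c x1 * ∑ v2, pw D (r + 1) v2 *
          φ (Zs a r x1 + c - Zs a (r + 1) v2) :=
        Finset.sum_le_sum fun x1 _ => mul_le_mul_of_nonneg_left
          (h68_chg1 hD r c' (fun z => φ (Zs a r x1 + c - z)) fun z => hφ _)
          (mul_nonneg (hp _) (h68_rat_nn hD r c x1))
    _ = ∑ x1, pw D r x1 * (rat D a r c x1 * (fun z => ∑ v2, pw D (r + 1) v2 *
          φ (z - Zs a (r + 1) v2)) (Zs a r x1 + c)) := by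
        simp only [mul_assoc]
    _ ≤ ∑ v1, pw D (r + 1) v1 * ∑ v2, pw D (r + 1) v2 * φ (Zs a (r + 1) v1 - Zs a (r + 1) v2) :=
        h68_chg1 hD r c (fun z => ∑ v2, pw D (r + 1) v2 * φ (z - Zs a (r + 1) v2))
          fun z => Finset.sum_nonneg fun v _ => mul_nonneg (hq _) (hφ _)
    _ = _ := by
        rw [Fintype.sum_prod_type]
        refine Finset.sum_congr rfl fun x1 _ => ?_
        rw [Finset.mul_sum]
        refine Finset.sum_congr rfl fun x2 _ => ?_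
        simp only [PA, AA]
        ring

/-- the exponent -/
def FF (a : ι → G) (l : ℝ) (T : G → G → ℝ) (m : ι → G → ℝ) {k : ℕ} (n : ι) (y : Fin k → G)
    (be : G) : ℝ := ∑ i, l * (T (y i) (y i - a n + be) - m n be)

private theorem h68_ref1 (hD : IsProb D) (h0 : ∀ z, 0 ≤ h z) (hZ : 0 < ZQ D a h s) {l : ℝ}
    (l0 : 0 < l) (l1 : l ≤ 1 / 2) {T : G → G → ℝ} (T0 : ∀ y z, 0 ≤ T y z) (T2 : ∀ y z, T y z ≤ 2)
    {m : ι → G → ℝ} (hm : ∀ n be, Qn D a h s n ≠ 0 →
      ∑ ω, Qc D a h s n ω * T (a n + AA a s ω) (AA a s ω + be) ≤ m n be) (be : G) :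
    ∑ θ, QQ D a h s k θ * Real.exp (FF a l T m θ.1 (YY a s k θ) be) ≤
      Real.exp (4 * l ^ 2) ^ k := by
  have hQ := Qn_prob hD h0 hZ
  rw [Fintype.sum_prod_type, ← one_mul (Real.exp _ ^ k), ← hQ.one, Finset.sum_mul]
  refine Finset.sum_le_sum fun n _ => ?_
  have e : ∀ w : Fin k → OA ι s, QQ D a h s k (n, w) * Real.exp (FF a l T m n (YY a s k (n, w)) be) =
      Qn D a h s n * ∏ i, (Qc D a h s n (w i) *
        Real.exp (l * (T (a n + AA a s (w i)) (AA a s (w i) + be) - m n be))) := fun w => by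
    simp only [QQ, FF, YY, Real.exp_sum, Finset.prod_mul_distrib, add_sub_cancel_left, mul_assoc]
  simp only [e]
  rw [← Finset.mul_sum]
  by_cases hn : Qn D a h s n = 0
  · simp [hn]
  refine mul_le_mul_of_nonneg_left ?_ (hQ.nn n)
  have e2 := Finset.prod_univ_sum (fun _ : Fin k => (Finset.univ : Finset (OA ι s)))
    fun _ ω => Qc D a h s n ω * Real.exp (l * (T (a n + AA a s ω) (AA a s ω + be) - m n be))
  rw [Fintype.piFinset_univ] at e2
  rw [← e2, Finset.prod_const, Finset.card_univ, Fintype.card_fin]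
  refine pow_le_pow_left₀ (Finset.sum_nonneg fun ω _ =>
    mul_nonneg (Qc_nonneg hD h0 n ω) (Real.exp_pos _).le) ?_ k
  exact exp_mom (Qc_prob hD h0 hn) (fun ω => T (a n + AA a s ω) (AA a s ω + be))
    (fun _ => T0 _ _) (fun _ => T2 _ _) (hm n be hn) l0.le l1

private theorem h68_ref (hD : IsProb D) (h0 : ∀ z, 0 ≤ h z) (hZ : 0 < ZQ D a h s) (r : ℕ) {l : ℝ}
    (l0 : 0 < l) (l1 : l ≤ 1 / 2) {T : G → G → ℝ} (T0 : ∀ y z, 0 ≤ T y z) (T2 : ∀ y z, T y z ≤ 2)
    {m : ι → G → ℝ} (hm : ∀ n be, Qn D a h s n ≠ 0 →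
      ∑ ω, Qc D a h s n ω * T (a n + AA a s ω) (AA a s ω + be) ≤ m n be) :
    ∑ θ, QQ D a h s k θ * ∑ n, post D a h s k θ n * ∑ x : OA ι r, PA D r x *
      (rat D a r (a n) x.1 * rat D a r (a θ.1) x.2 *
        Real.exp (FF a l T m n (YY a s k θ) (AA a r x + a n - a θ.1))) ≤
      Real.exp (4 * l ^ 2) ^ k := by
  have hQ := QQ_prob (k := k) hD h0 hZ
  have hA := hD.PA (r + 1)
  calc _ ≤ ∑ θ, QQ D a h s k θ * ∑ n, post D a h s k θ n * ∑ v, PA D (r + 1) v *
        Real.exp (FF a l T m n (YY a s k θ) (AA a (r + 1) v)) :=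
        Finset.sum_le_sum fun θ _ => mul_le_mul_of_nonneg_left (Finset.sum_le_sum fun n _ =>
          mul_le_mul_of_nonneg_left (h68_chg2 hD r (a n) (a θ.1)
            (fun z => Real.exp (FF a l T m n (YY a s k θ) z)) fun _ => (Real.exp_pos _).le)
            (post_nonneg hD h0 hZ θ n)) (hQ.nn θ)
    _ = ∑ θ, QQ D a h s k θ * ∑ v, PA D (r + 1) v *
        Real.exp (FF a l T m θ.1 (YY a s k θ) (AA a (r + 1) v)) :=
        bayes hQ.nn Prod.fst (YY a s k) fun n y => ∑ v, PA D (r + 1) v *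
          Real.exp (FF a l T m n y (AA a (r + 1) v))
    _ = ∑ v, PA D (r + 1) v * ∑ θ, QQ D a h s k θ *
        Real.exp (FF a l T m θ.1 (YY a s k θ) (AA a (r + 1) v)) := by
        simp only [Finset.mul_sum]
        rw [Finset.sum_comm]
        exact Finset.sum_congr rfl fun _ _ => Finset.sum_congr rfl fun _ _ => by ring
    _ ≤ ∑ v, PA D (r + 1) v * Real.exp (4 * l ^ 2) ^ k :=
        Finset.sum_le_sum fun v _ => mul_le_mul_of_nonneg_left
          (h68_ref1 hD h0 hZ l0 l1 T0 T2 hm _) (hA.nn v)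
    _ = _ := by rw [← Finset.sum_mul, hA.one, one_mul]

private theorem h68_tri {A B C : Type*} [Fintype A] [Fintype B] [Fintype C] (p : A → ℝ)
    (q : A → B → ℝ) (w : C → ℝ) (f : A → B → C → ℝ) :
    ∑ ξ : A × B × C, p ξ.1 * q ξ.1 ξ.2.1 * w ξ.2.2 * f ξ.1 ξ.2.1 ξ.2.2 =
      ∑ θ, p θ * ∑ n, q θ n * ∑ x, w x * f θ n x := by
  simp only [Fintype.sum_prod_type, Finset.mul_sum, mul_assoc]

private theorem h68_fst (hD : IsProb D) (r : ℕ) (f : (Fin r → ι) → ℝ) :
    ∑ x : OA ι r, PA D r x * f x.1 = ∑ x, pw D r x * f x := by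
  rw [Fintype.sum_prod_type]
  refine Finset.sum_congr rfl fun x _ => ?_
  simp only [PA, mul_right_comm _ _ (f x)]
  rw [← Finset.mul_sum, (hD.pw r).one, mul_one]

private theorem h68_snd (hD : IsProb D) (r : ℕ) (f : (Fin r → ι) → ℝ) :
    ∑ x : OA ι r, PA D r x * f x.2 = ∑ x, pw D r x * f x := by
  rw [Fintype.sum_prod_type_right]
  refine Finset.sum_congr rfl fun x _ => ?_
  simp only [PA, mul_assoc]
  rw [← Finset.sum_mul, (hD.pw r).one, one_mul]

private theorem h68_log_le {x c : ℝ} (hx : 0 ≤ x) (hc : 0 ≤ c) (h : x ≤ Real.exp c) :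
    Real.log x ≤ c := by
  rcases hx.eq_or_lt with h0 | h0
  · rw [← h0, Real.log_zero]; exact hc
  · exact (Real.log_le_iff_le_exp h0).2 h

private theorem h68_post_D {θ : TH ι s k} {n : ι} (hn : post D a h s k θ n ≠ 0) : D n ≠ 0 := by
  intro h1
  apply hn
  rw [post, cond, law_QQ, Qn, h1]
  simp

/-- TRUE law: `θ = (N', A'_i) ~ QQ`, `N ~ post θ`, `b = AA a r x`, `be = b + N - N'`.
`T y z` is tested at `y = y_i`, `z = A_i + be = A'_i + b`. -/
theorem dv5 (hD : IsProb D) (h0 : ∀ z, 0 ≤ h z) (hZ : 0 < ZQ D a h s) (hk : 1 ≤ k) (r : ℕ)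
    {κ l : ℝ} (hκ : ∀ n, Qn D a h s n ≤ κ * D n) (l0 : 0 < l) (l1 : l ≤ 1 / 2)
    (T : G → G → ℝ) (T0 : ∀ y z, 0 ≤ T y z) (T2 : ∀ y z, T y z ≤ 2) (m : ι → G → ℝ)
    (hm : ∀ n be, Qn D a h s n ≠ 0 →
      ∑ ω, Qc D a h s n ω * T (a n + AA a s ω) (AA a s ω + be) ≤ m n be) :
    ∑ n, ∑ ω, Qn D a h s n * Qc D a h s n ω *
        ∑ x, PA D r x * T (a n + AA a s ω) (AA a s ω + AA a r x) ≤
      ∑ θ, QQ D a h s k θ * ∑ n, post D a h s k θ n *
          ∑ x, PA D r x * m n (AA a r x + a n - a θ.1) +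
        2 * κ * (HZ D a (r + 1) - HZ D a r) / (k * l) + 4 * l := by
  have hQ := QQ_prob (k := k) hD h0 hZ
  have hA := hD.PA r
  have hk' : (0 : ℝ) < k := by exact_mod_cast hk
  have hone : ∀ (θ : TH ι s k) (c : ℝ), QQ D a h s k θ * ∑ n, post D a h s k θ n * c =
      QQ D a h s k θ * c := fun θ c => by
    by_cases hθ : QQ D a h s k θ = 0
    · simp [hθ]
    · rw [← Finset.sum_mul, (post_prob hD h0 hZ hθ).one, one_mul]
  have hW : IsProb fun ξ : TH ι s k × ι × OA ι r =>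
      QQ D a h s k ξ.1 * post D a h s k ξ.1 ξ.2.1 * PA D r ξ.2.2 := by
    refine ⟨fun ξ => mul_nonneg (mul_nonneg (hQ.nn _) (post_nonneg hD h0 hZ _ _)) (hA.nn _), ?_⟩
    have := h68_tri (QQ D a h s k) (post D a h s k) (PA D r) fun _ _ _ => 1
    simp only [mul_one, hA.one] at this
    rw [this, ← hQ.one]
    refine Finset.sum_congr rfl fun θ _ => ?_
    simpa using hone θ 1
  have hpos : ∀ ξ : TH ι s k × ι × OA ι r,
      QQ D a h s k ξ.1 * post D a h s k ξ.1 ξ.2.1 * PA D r ξ.2.2 ≠ 0 →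
      0 < rat D a r (a ξ.2.1) ξ.2.2.1 ∧ 0 < rat D a r (a ξ.1.1) ξ.2.2.2 := fun ξ hξ => by
    have h1 := left_ne_zero_of_mul (left_ne_zero_of_mul hξ)
    have h2 := right_ne_zero_of_mul (left_ne_zero_of_mul hξ)
    have h3 := right_ne_zero_of_mul hξ
    refine ⟨h68_rat_pos hD r (h68_post_D h2) (left_ne_zero_of_mul h3),
      h68_rat_pos hD r (fun h4 => h1 ?_) (right_ne_zero_of_mul h3)⟩
    rw [QQ, Qn, h4]
    simp
  have hG := gibbs hW (fun ξ => rat D a r (a ξ.2.1) ξ.2.2.1 * rat D a r (a ξ.1.1) ξ.2.2.2 *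
    Real.exp (FF a l T m ξ.2.1 (YY a s k ξ.1) (AA a r ξ.2.2 + a ξ.2.1 - a ξ.1.1))) fun ξ hξ =>
      mul_pos (mul_pos (hpos ξ hξ).1 (hpos ξ hξ).2) (Real.exp_pos _)
  have hR := h68_ref (k := k) hD h0 hZ r l0 l1 T0 T2 hm
  rw [← h68_tri (QQ D a h s k) (post D a h s k) (PA D r) fun θ n x =>
    rat D a r (a n) x.1 * rat D a r (a θ.1) x.2 *
      Real.exp (FF a l T m n (YY a s k θ) (AA a r x + a n - a θ.1))] at hR
  rw [← Real.exp_nat_mul] at hR
  have hG2 := hG.trans (h68_log_le (Finset.sum_nonneg fun ξ _ => mul_nonneg (hW.nn ξ)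
    (mul_nonneg (mul_nonneg (h68_rat_nn hD _ _ _) (h68_rat_nn hD _ _ _)) (Real.exp_pos _).le))
    (by positivity) hR)
  have hsplit : ∀ ξ : TH ι s k × ι × OA ι r,
      QQ D a h s k ξ.1 * post D a h s k ξ.1 ξ.2.1 * PA D r ξ.2.2 *
        Real.log (rat D a r (a ξ.2.1) ξ.2.2.1 * rat D a r (a ξ.1.1) ξ.2.2.2 *
          Real.exp (FF a l T m ξ.2.1 (YY a s k ξ.1) (AA a r ξ.2.2 + a ξ.2.1 - a ξ.1.1))) =
      QQ D a h s k ξ.1 * post D a h s k ξ.1 ξ.2.1 * PA D r ξ.2.2 *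
          Real.log (rat D a r (a ξ.2.1) ξ.2.2.1) +
        QQ D a h s k ξ.1 * post D a h s k ξ.1 ξ.2.1 * PA D r ξ.2.2 *
          Real.log (rat D a r (a ξ.1.1) ξ.2.2.2) +
        QQ D a h s k ξ.1 * post D a h s k ξ.1 ξ.2.1 * PA D r ξ.2.2 *
          FF a l T m ξ.2.1 (YY a s k ξ.1) (AA a r ξ.2.2 + a ξ.2.1 - a ξ.1.1) := fun ξ => by
    by_cases hξ : QQ D a h s k ξ.1 * post D a h s k ξ.1 ξ.2.1 * PA D r ξ.2.2 = 0
    · simp only [hξ, zero_mul, add_zero]
    · obtain ⟨p1, p2⟩ := hpos ξ hξ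
      rw [Real.log_mul (mul_pos p1 p2).ne' (Real.exp_pos _).ne', Real.log_mul p1.ne' p2.ne',
        Real.log_exp]
      ring
  simp only [hsplit, Finset.sum_add_distrib] at hG2
  rw [h68_tri (QQ D a h s k) (post D a h s k) (PA D r)
      fun _ n x => Real.log (rat D a r (a n) x.1),
    h68_tri (QQ D a h s k) (post D a h s k) (PA D r)
      fun θ _ x => Real.log (rat D a r (a θ.1) x.2),
    h68_tri (QQ D a h s k) (post D a h s k) (PA D r)
      fun θ n x => FF a l T m n (YY a s k θ) (AA a r x + a n - a θ.1)] at hG2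
  have e1 : ∀ n, ∑ x : OA ι r, PA D r x * Real.log (rat D a r (a n) x.1) = -kz D a r n :=
    fun n => by rw [h68_fst hD r fun x => Real.log (rat D a r (a n) x), h68_log_rat]
  have e2 : ∀ n, ∑ x : OA ι r, PA D r x * Real.log (rat D a r (a n) x.2) = -kz D a r n :=
    fun n => by rw [h68_snd hD r fun x => Real.log (rat D a r (a n) x), h68_log_rat]
  have e3 := sum_post (k := k) hD h0 hZ fun n => -kz D a r n
  have e4 : ∑ θ, QQ D a h s k θ * -kz D a r θ.1 = ∑ n, Qn D a h s n * -kz D a r n := by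
    rw [← e3]
    exact (bayes hQ.nn Prod.fst (YY a s k) fun n _ => -kz D a r n).symm
  have e5 : ∑ n, Qn D a h s n * kz D a r n ≤ κ * (HZ D a (r + 1) - HZ D a r) := by
    rw [← sum_kz hD, Finset.mul_sum]
    refine Finset.sum_le_sum fun n _ => ?_
    by_cases hn : D n = 0
    · simp [Qn, hn]
    · rw [← mul_assoc]
      exact mul_le_mul_of_nonneg_right (hκ n) (kz_nonneg hD a r hn)
  have e6 : ∀ (θ : TH ι s k) (n : ι), ∑ x : OA ι r, PA D r x *
      FF a l T m n (YY a s k θ) (AA a r x + a n - a θ.1) =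
      l * ∑ i, ∑ x, PA D r x * T (a θ.1 + AA a s (θ.2 i)) (AA a s (θ.2 i) + AA a r x) -
        l * k * ∑ x, PA D r x * m n (AA a r x + a n - a θ.1) := fun θ n => by
    rw [Finset.sum_comm, Finset.mul_sum, Finset.mul_sum, ← Finset.sum_sub_distrib]
    refine Finset.sum_congr rfl fun x _ => ?_
    have : ∀ i, a θ.1 + AA a s (θ.2 i) - a n + (AA a r x + a n - a θ.1) =
        AA a s (θ.2 i) + AA a r x := fun i => by abel
    simp only [FF, YY, this, ← Finset.mul_sum, Finset.sum_sub_distrib, Finset.sum_const,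
      Finset.card_univ, Fintype.card_fin, nsmul_eq_mul]
    ring
  have e7 : ∑ θ, QQ D a h s k θ * ∑ i, ∑ x, PA D r x *
      T (a θ.1 + AA a s (θ.2 i)) (AA a s (θ.2 i) + AA a r x) =
      k * ∑ n, ∑ ω, Qn D a h s n * Qc D a h s n ω *
        ∑ x, PA D r x * T (a n + AA a s ω) (AA a s ω + AA a r x) := by
    rw [Finset.sum_congr rfl fun θ _ => Finset.mul_sum _ _ (QQ D a h s k θ), Finset.sum_comm,
      Finset.sum_congr rfl fun i _ => sum_QQ_one hD h0 i
        fun n ω => ∑ x, PA D r x * T (a n + AA a s ω) (AA a s ω + AA a r x),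
      Finset.sum_const, Finset.card_univ, Fintype.card_fin, nsmul_eq_mul]
  have e8 : ∑ θ, QQ D a h s k θ * ∑ n, post D a h s k θ n * ∑ x : OA ι r, PA D r x *
      FF a l T m n (YY a s k θ) (AA a r x + a n - a θ.1) =
      l * (k * ∑ n, ∑ ω, Qn D a h s n * Qc D a h s n ω *
        ∑ x, PA D r x * T (a n + AA a s ω) (AA a s ω + AA a r x)) -
      l * k * ∑ θ, QQ D a h s k θ * ∑ n, post D a h s k θ n *
          ∑ x, PA D r x * m n (AA a r x + a n - a θ.1) := by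
    rw [← e7, Finset.mul_sum, Finset.mul_sum, ← Finset.sum_sub_distrib]
    refine Finset.sum_congr rfl fun θ _ => ?_
    simp only [e6, mul_sub, Finset.sum_sub_distrib]
    rw [hone, Finset.sum_congr rfl fun n _ => mul_left_comm (post D a h s k θ n) (l * k) _,
      ← Finset.mul_sum _ _ (l * k)]
    ring
  simp only [e1, e2, hone] at hG2
  rw [e3, e4, e8] at hG2
  simp only [mul_neg, Finset.sum_neg_distrib] at hG2
  have hkl : 0 < (k : ℝ) * l := mul_pos hk' l0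
  rw [← sub_nonneg]
  refine le_of_mul_le_mul_left ?_ hkl
  rw [mul_zero, mul_sub, mul_add, mul_add, mul_div_cancel₀ _ hkl.ne']
  nlinarith [hG2, e5]

end Crest.Agent.R100.Ent
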