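import Crest.Agent.R100.AdEntDefs

/-! # Row 100, approximate duality: the basic inequalities and step (3) -/

set_option autoImplicit false

noncomputable section

namespace Crest.Agent.R100.Ent

open Finset

variable {G : Type*} [AddCommGroup G] {ι Ω Ω' S : Type*} [Fintype ι] [Fintype Ω] [Fintype Ω']
  {P : Ω → ℝ} {P' : Ω' → ℝ} {D : ι → ℝ} {a : ι → G} {h : G → ℝ}

/-! ### part A -/

theorem IsProb.pw (hD : IsProb D) (s : ℕ) : IsProb (pw D s) := by
  classical
  refine ⟨fun x => Finset.prod_nonneg fun i _ => hD.nn _, ?_⟩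
  have := Finset.prod_univ_sum (fun _ : Fin s => (Finset.univ : Finset ι)) (fun _ n => D n)
  rw [Fintype.piFinset_univ] at this
  unfold Ent.pw
  rw [← this]
  simp [hD.one]

theorem IsProb.PA (hD : IsProb D) (s : ℕ) : IsProb (PA D s) := by
  refine ⟨fun ω => mul_nonneg ((hD.pw s).nn _) ((hD.pw s).nn _), ?_⟩
  unfold Ent.PA
  rw [Fintype.sum_prod_type]
  simp only [← Finset.mul_sum, (hD.pw s).one, mul_one]

theorem law_nonneg (hP : ∀ ω, 0 ≤ P ω) (X : Ω → S) (s : S) : 0 ≤ law P X s := by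
  unfold law
  refine Finset.sum_nonneg fun ω _ => ?_
  split_ifs
  · exact hP ω
  · exact le_rfl

theorem le_law (hP : ∀ ω, 0 ≤ P ω) (X : Ω → S) (ω : Ω) : P ω ≤ law P X (X ω) := by
  classical
  unfold law
  refine le_trans ?_ (Finset.single_le_sum (f := fun ω' => if X ω' = X ω then P ω' else 0)
    (fun ω' _ => ?_) (Finset.mem_univ ω))
  · simp
  · split_ifs
    · exact hP ω'
    · exact le_rfl

theorem sum_law (P : Ω → ℝ) (X : Ω → S) (φ : S → ℝ) (F : Finset S) (hF : ∀ ω, X ω ∈ F) :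
    ∑ ω, P ω * φ (X ω) = ∑ s ∈ F, law P X s * φ s := by
  classical
  unfold law
  simp only [Finset.sum_mul]
  rw [Finset.sum_comm]
  refine Finset.sum_congr rfl fun ω _ => ?_
  rw [Finset.sum_eq_single (X ω)]
  · simp
  · intro b _ hb
    rw [if_neg (Ne.symm hb), zero_mul]
  · intro hn
    exact absurd (hF ω) hn

private theorem h70_pos (hP : IsProb P) (r : Ω → ℝ) (hr : ∀ ω, P ω ≠ 0 → 0 < r ω) :
    0 < ∑ ω, P ω * r ω := by
  have hex : ∃ ω, P ω ≠ 0 := by
    by_contra hn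
    push Not at hn
    have := hP.one
    simp [hn] at this
  obtain ⟨ω₀, hω₀⟩ := hex
  refine Finset.sum_pos' (fun ω _ => ?_) ⟨ω₀, Finset.mem_univ _, ?_⟩
  · by_cases h : P ω = 0
    · simp [h]
    · exact mul_nonneg (hP.nn ω) (hr ω h).le
  · exact mul_pos (lt_of_le_of_ne (hP.nn ω₀) (Ne.symm hω₀)) (hr ω₀ hω₀)

private theorem h70_gibbs (hP : IsProb P) (r : Ω → ℝ) (hr : ∀ ω, P ω ≠ 0 → 0 < r ω) :
    ∑ ω, P ω * Real.log (r ω) ≤ Real.log (∑ ω, P ω * r ω) := by
  have hE := h70_pos hP r hr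
  set E := ∑ ω, P ω * r ω with hEd
  have key : ∀ ω, P ω * Real.log (r ω) ≤ P ω * Real.log E + (P ω * r ω / E - P ω) := by
    intro ω
    by_cases h : P ω = 0
    · simp [h]
    · have hr' := hr ω h
      have h1 := Real.log_le_sub_one_of_pos (div_pos hr' hE)
      rw [Real.log_div hr'.ne' hE.ne'] at h1
      have h2 := mul_le_mul_of_nonneg_left h1 (hP.nn ω)
      have h3 : P ω * r ω / E = P ω * (r ω / E) := by ring
      rw [h3]
      nlinarith
  refine (Finset.sum_le_sum fun ω _ => key ω).trans (le_of_eq ?_)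
  rw [Finset.sum_add_distrib, Finset.sum_sub_distrib, ← Finset.sum_mul, ← Finset.sum_div, hP.one,
    ← hEd, div_self hE.ne']
  ring

/-- Jensen -/
theorem jensen (hP : IsProb P) (f : Ω → ℝ) :
    ∑ ω, P ω * f ω ≤ Real.log (∑ ω, P ω * Real.exp (f ω)) := by
  have := h70_gibbs hP (fun ω => Real.exp (f ω)) (fun ω _ => Real.exp_pos _)
  simpa only [Real.log_exp] using this

theorem gibbs (hP : IsProb P) (r : Ω → ℝ) (hr : ∀ ω, P ω ≠ 0 → 0 < r ω) :
    ∑ ω, P ω * Real.log (r ω) ≤ Real.log (∑ ω, P ω * r ω) := by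
  exact h70_gibbs hP r hr

/-- `E[ρ(X) / law(X)] = ∑_{supp} ρ` -/
theorem chg_fun (hP : ∀ ω, 0 ≤ P ω) (X : Ω → S) (ρ : S → ℝ) (hρ : ∀ s, 0 ≤ ρ s) {M : ℝ}
    (hM : ∀ F : Finset S, ∑ s ∈ F, ρ s ≤ M) :
    ∑ ω, P ω * (ρ (X ω) / law P X (X ω)) ≤ M := by
  classical
  rw [sum_law P X (fun s => ρ s / law P X s) (univ.image X)
    (fun ω => mem_image_of_mem X (mem_univ ω))]
  refine le_trans (sum_le_sum fun s _ => ?_) (hM (univ.image X))
  by_cases h : law P X s = 0
  · simp [h, hρ s]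
  · exact le_of_eq (by field_simp)

/-- change of measure -/
theorem chg (hP : ∀ ω, 0 ≤ P ω) (hP' : ∀ ω, 0 ≤ P' ω) (X : Ω → S) (W : Ω' → S) (φ : S → ℝ)
    (hφ : ∀ s, 0 ≤ φ s) :
    ∑ ω, P ω * (law P' W (X ω) / law P X (X ω) * φ (X ω)) ≤ ∑ ω, P' ω * φ (W ω) := by
  classical
  have key := chg_fun hP X (fun s => law P' W s * φ s)
    (fun s => mul_nonneg (law_nonneg hP' W s) (hφ s)) (M := ∑ ω, P' ω * φ (W ω)) (fun F => by
      rw [sum_law P' W φ (F ∪ univ.image W)
        (fun ω => mem_union_right _ (mem_image_of_mem W (mem_univ ω)))]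
      exact sum_le_sum_of_subset_of_nonneg subset_union_left
        fun s _ _ => mul_nonneg (law_nonneg hP' W s) (hφ s))
  refine le_of_eq_of_le (sum_congr rfl fun ω _ => ?_) key
  ring

theorem cond_nonneg (hP : ∀ ω, 0 ≤ P ω) (N : Ω → ι) (Y : Ω → S) (y : S) (n : ι) :
    0 ≤ cond P N Y y n := by
  unfold cond
  exact div_nonneg (law_nonneg hP _ _) (law_nonneg hP _ _)

private theorem h14_sum_joint (P : Ω → ℝ) (N : Ω → ι) (Y : Ω → S) (y : S) :
    ∑ n, law P (fun ω => (N ω, Y ω)) (n, y) = law P Y y := by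
  classical
  unfold law
  rw [sum_comm]
  refine sum_congr rfl fun ω _ => ?_
  by_cases h : Y ω = y
  · simp [h, Prod.ext_iff]
  · simp [h, Prod.ext_iff]

theorem cond_prob (hP : ∀ ω, 0 ≤ P ω) (N : Ω → ι) (Y : Ω → S) {ω : Ω} (hω : P ω ≠ 0) :
    IsProb (cond P N Y (Y ω)) := by
  refine ⟨fun n => cond_nonneg hP N Y _ n, ?_⟩
  have hpos : 0 < law P Y (Y ω) := lt_of_lt_of_le (lt_of_le_of_ne (hP ω) hω.symm) (le_law hP Y ω)
  unfold cond
  rw [← sum_div, h14_sum_joint, div_self hpos.ne']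

/-- resampling from the posterior -/
theorem bayes (hP : ∀ ω, 0 ≤ P ω) (N : Ω → ι) (Y : Ω → S) (φ : ι → S → ℝ) :
    ∑ ω, P ω * ∑ n, cond P N Y (Y ω) n * φ n (Y ω) = ∑ ω, P ω * φ (N ω) (Y ω) := by
  classical
  rw [sum_law P Y (fun y => ∑ n, cond P N Y y n * φ n y) (univ.image Y)
    (fun ω => mem_image_of_mem Y (mem_univ ω)),
    sum_law P (fun ω => (N ω, Y ω)) (fun q : ι × S => φ q.1 q.2) (univ ×ˢ univ.image Y)
    (fun ω => mem_product.2 ⟨mem_univ _, mem_image_of_mem Y (mem_univ ω)⟩),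
    sum_product_right]
  refine sum_congr rfl fun y _ => ?_
  rw [mul_sum]
  refine sum_congr rfl fun n _ => ?_
  unfold cond
  by_cases h : law P Y y = 0
  · have h1 : law P (fun ω => (N ω, Y ω)) (n, y) ≤ law P Y y := by
      rw [← h14_sum_joint P N Y y]
      exact single_le_sum (f := fun n => law P (fun ω => (N ω, Y ω)) (n, y))
        (fun i _ => law_nonneg hP _ _) (mem_univ n)
    have h2 : law P (fun ω => (N ω, Y ω)) (n, y) = 0 :=
      le_antisymm (h ▸ h1) (law_nonneg hP _ _)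
    simp [h, h2]
  · field_simp

theorem exp_mom (hP : IsProb P) (T : Ω → ℝ) (h0 : ∀ ω, 0 ≤ T ω) (h2 : ∀ ω, T ω ≤ 2) {m l : ℝ}
    (hm : ∑ ω, P ω * T ω ≤ m) (l0 : 0 ≤ l) (l1 : l ≤ 1 / 2) :
    ∑ ω, P ω * Real.exp (l * (T ω - m)) ≤ Real.exp (4 * l ^ 2) := by
  set μ := ∑ ω, P ω * T ω with hμ
  have hμ0 : 0 ≤ μ := sum_nonneg fun ω _ => mul_nonneg (hP.nn ω) (h0 ω)
  have hμ2 : μ ≤ 2 := by
    calc μ ≤ ∑ ω, P ω * 2 := sum_le_sum fun ω _ => mul_le_mul_of_nonneg_left (h2 ω) (hP.nn ω)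
      _ = 2 := by rw [← sum_mul, hP.one, one_mul]
  have hpt : ∀ ω, Real.exp (l * (T ω - m)) ≤ 1 + 4 * l ^ 2 - l * μ + l * T ω := by
    intro ω
    have a1 : |T ω - μ| ≤ 2 := abs_le.2 ⟨by linarith [h0 ω], by linarith [h2 ω]⟩
    have a2 : |l * (T ω - μ)| ≤ 2 * l := by
      rw [abs_mul, abs_of_nonneg l0]
      nlinarith
    have a3 := Real.abs_exp_sub_one_sub_id_le (x := l * (T ω - μ)) (by linarith)
    have a4 : (l * (T ω - μ)) ^ 2 ≤ 4 * l ^ 2 := by
      have := sq_le_sq' (by linarith [(abs_le.1 a2).1]) (abs_le.1 a2).2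
      nlinarith
    have a5 : Real.exp (l * (T ω - m)) ≤ Real.exp (l * (T ω - μ)) :=
      Real.exp_le_exp.2 (mul_le_mul_of_nonneg_left (by linarith) l0)
    have a6 := (abs_le.1 a3).2
    nlinarith
  calc ∑ ω, P ω * Real.exp (l * (T ω - m))
      ≤ ∑ ω, P ω * (1 + 4 * l ^ 2 - l * μ + l * T ω) :=
        sum_le_sum fun ω _ => mul_le_mul_of_nonneg_left (hpt ω) (hP.nn ω)
    _ = (∑ ω, P ω) * (1 + 4 * l ^ 2 - l * μ) + l * μ := by
        rw [hμ, sum_mul, mul_sum, ← sum_add_distrib]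
        refine sum_congr rfl fun ω _ => ?_
        ring
    _ = 4 * l ^ 2 + 1 := by rw [hP.one]; ring
    _ ≤ Real.exp (4 * l ^ 2) := Real.add_one_le_exp _

/-! ### part B: step (3) -/

theorem ent_nonneg (hP : IsProb P) (X : Ω → S) : 0 ≤ ent P X := by
  classical
  unfold ent
  rw [neg_nonneg]
  refine Finset.sum_nonpos fun ω _ => mul_nonpos_of_nonneg_of_nonpos (hP.nn ω) ?_
  refine Real.log_nonpos (law_nonneg hP.nn X _) ?_
  rw [← hP.one]
  unfold law
  refine Finset.sum_le_sum fun ω' _ => ?_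
  split_ifs
  · exact le_rfl
  · exact hP.nn ω'

theorem HZ_le (hD : IsProb D) (h0 : ∀ z, 0 ≤ h z) {M τ η : ℝ}
    (hM : ∀ F : Finset G, ∑ z ∈ F, h z ≤ M) (hτ : 0 < τ) (hτM : τ ≤ M) (s : ℕ)
    (hb : ∑ x, (if h (Zs a s x) < τ then pw D s x else 0) ≤ η) :
    HZ D a s ≤ Real.log 2 + Real.log (M / τ) + η * (s * Real.log (Fintype.card ι)) := by
  classical
  have hP := hD.pw s
  have hM0 : 0 < M := lt_of_lt_of_le hτ hτM
  have hne : Nonempty ι := by
    by_contra hc
    rw [not_nonempty_iff] at hc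
    have h1 := hD.one
    simp at h1
  have hc1 : (1 : ℝ) ≤ Fintype.card ι := by exact_mod_cast Fintype.card_pos
  set c : ℝ := (Fintype.card ι : ℝ) ^ s with hc
  have hc0 : 0 < c := by positivity
  set L : ℝ := s * Real.log (Fintype.card ι) with hL
  have hL0 : 0 ≤ L := mul_nonneg (Nat.cast_nonneg s) (Real.log_nonneg hc1)
  have hLc : Real.log c = L := by rw [hc, Real.log_pow]
  have hMτ : 0 ≤ Real.log (M / τ) := Real.log_nonneg (by rw [le_div_iff₀ hτ]; linarith)
  set I : Finset G := Finset.univ.image (Zs a s) with hI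
  have hIc : (I.card : ℝ) ≤ c := by
    have h1 : I.card ≤ Fintype.card (Fin s → ι) := Finset.card_image_le.trans (by simp)
    rw [Fintype.card_fun, Fintype.card_fin] at h1
    rw [hc]
    exact_mod_cast h1
  set ρ : G → ℝ := fun z => h z / (2 * M) + (if z ∈ I then 1 / (2 * c) else 0) with hρ
  have hρ0 : ∀ z, 0 ≤ ρ z := by
    intro z
    have := h0 z
    simp only [hρ]
    split_ifs <;> positivity
  have hρ1 : ∀ F : Finset G, ∑ z ∈ F, ρ z ≤ 1 := by
    intro F
    simp only [hρ]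
    rw [Finset.sum_add_distrib, ← Finset.sum_div, ← Finset.sum_filter, Finset.sum_const,
      nsmul_eq_mul]
    have h1 : (∑ z ∈ F, h z) / (2 * M) ≤ 1 / 2 := by
      rw [div_le_iff₀ (by positivity)]
      have := hM F
      linarith
    have h2 : ((F.filter (· ∈ I)).card : ℝ) ≤ c := by
      refine le_trans ?_ hIc
      exact_mod_cast Finset.card_le_card fun z hz => (Finset.mem_filter.1 hz).2
    have h3 : ((F.filter (· ∈ I)).card : ℝ) * (1 / (2 * c)) ≤ 1 / 2 := by
      rw [mul_one_div, div_le_iff₀ (by positivity)]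
      linarith
    linarith
  have hρx : ∀ x, 1 / (2 * c) ≤ ρ (Zs a s x) := by
    intro x
    have hx : Zs a s x ∈ I := Finset.mem_image_of_mem _ (Finset.mem_univ x)
    have := h0 (Zs a s x)
    simp only [hρ, if_pos hx]
    have : 0 ≤ h (Zs a s x) / (2 * M) := by positivity
    linarith
  have hρp : ∀ x, 0 < ρ (Zs a s x) := fun x => lt_of_lt_of_le (by positivity) (hρx x)
  have hlaw : ∀ x, pw D s x ≠ 0 → 0 < law (pw D s) (Zs a s) (Zs a s x) := fun x hx =>
    lt_of_lt_of_le (lt_of_le_of_ne (hP.nn x) (Ne.symm hx)) (le_law hP.nn _ x)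
  have hg := gibbs hP (fun x => ρ (Zs a s x) / law (pw D s) (Zs a s) (Zs a s x))
    (fun x hx => div_pos (hρp x) (hlaw x hx))
  have hle := chg_fun hP.nn (Zs a s) ρ hρ0 hρ1
  have hnn : 0 ≤ ∑ x, pw D s x * (ρ (Zs a s x) / law (pw D s) (Zs a s) (Zs a s x)) :=
    Finset.sum_nonneg fun x _ =>
      mul_nonneg (hP.nn x) (div_nonneg (hρ0 _) (law_nonneg hP.nn _ _))
  have hg0 := hg.trans (Real.log_nonpos hnn hle)
  have hpt : ∀ x, -(pw D s x * Real.log (law (pw D s) (Zs a s) (Zs a s x))) ≤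
      pw D s x * Real.log (ρ (Zs a s x) / law (pw D s) (Zs a s) (Zs a s x)) +
        pw D s x * (Real.log 2 + Real.log (M / τ)) +
        (if h (Zs a s x) < τ then pw D s x else 0) * L := by
    intro x
    by_cases hx : pw D s x = 0
    · simp [hx]
    have hp := hP.nn x
    rw [Real.log_div (hρp x).ne' (hlaw x hx).ne']
    split_ifs with hb'
    · have h1 : -(Real.log 2 + L) ≤ Real.log (ρ (Zs a s x)) := by
        have h2 := Real.log_le_log (by positivity) (hρx x)
        rw [one_div, Real.log_inv, Real.log_mul (by norm_num) hc0.ne', hLc] at h2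
        exact h2
      nlinarith [mul_nonneg hp (sub_nonneg.2 h1), mul_nonneg hp hMτ]
    · have h1 : -(Real.log 2 + Real.log (M / τ)) ≤ Real.log (ρ (Zs a s x)) := by
        have h3 : (2 * (M / τ))⁻¹ ≤ ρ (Zs a s x) := by
          have h4 : (2 * (M / τ))⁻¹ = τ / (2 * M) := by field_simp
          have h5 : τ / (2 * M) ≤ h (Zs a s x) / (2 * M) :=
            div_le_div_of_nonneg_right (not_lt.1 hb') (by positivity)
          have h6 : (0 : ℝ) ≤ (if Zs a s x ∈ I then 1 / (2 * c) else 0) := by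
            split_ifs <;> positivity
          simp only [hρ]
          linarith
        have h2 := Real.log_le_log (by positivity) h3
        rw [Real.log_inv, Real.log_mul (by norm_num) (by positivity)] at h2
        exact h2
      nlinarith [mul_nonneg hp (sub_nonneg.2 h1)]
  have hsum := Finset.sum_le_sum fun x (_ : x ∈ Finset.univ) => hpt x
  rw [Finset.sum_add_distrib, Finset.sum_add_distrib, ← Finset.sum_mul, ← Finset.sum_mul,
    hP.one, Finset.sum_neg_distrib] at hsum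
  have h7 := mul_le_mul_of_nonneg_right hb hL0
  unfold HZ ent
  linarith

theorem pigeon (H : ℕ → ℝ) {u v : ℕ} (hu : 1 ≤ u) (huv : u < v) {B : ℝ} (hB : 0 ≤ B)
    (h0 : 0 ≤ H u) (h1 : H v ≤ B) :
    ∃ s, u ≤ s ∧ s < v ∧ s * (H (s + 1) - H s) ≤ B / Real.log ((v : ℝ) / u) := by
  by_contra hcon
  push Not at hcon
  have hu0 : (0 : ℝ) < u := by exact_mod_cast hu
  have huv' : (u : ℝ) < v := by exact_mod_cast huv
  have hlog : 0 < Real.log ((v : ℝ) / u) := Real.log_pos (by rw [lt_div_iff₀ hu0]; linarith)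
  set X : ℝ := B / Real.log ((v : ℝ) / u) with hX
  have hX0 : 0 ≤ X := div_nonneg hB hlog.le
  have hstep : ∀ s, u ≤ s → s < v →
      X * (Real.log ((s + 1 : ℕ) : ℝ) - Real.log s) < H (s + 1) - H s := by
    intro s h1 h2
    have hs0 : (0 : ℝ) < s := lt_of_lt_of_le hu0 (by exact_mod_cast h1)
    have h3 := hcon s h1 h2
    have h4 : Real.log ((s + 1 : ℕ) : ℝ) - Real.log s ≤ 1 / s := by
      rw [← Real.log_div (by positivity) hs0.ne']
      refine (Real.log_le_sub_one_of_pos (by positivity)).trans (le_of_eq ?_)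
      push_cast
      field_simp
      ring
    have h5 : X * (1 / s) < H (s + 1) - H s := by
      rw [mul_one_div, div_lt_iff₀ hs0]
      linarith
    exact lt_of_le_of_lt (mul_le_mul_of_nonneg_left h4 hX0) h5
  have hind : ∀ w, u + 1 ≤ w → w ≤ v →
      X * (Real.log (w : ℝ) - Real.log u) < H w - H u := by
    intro w hw
    induction w, hw using Nat.le_induction with
    | base => intro h2; exact hstep u le_rfl h2
    | succ w hw ih =>
      intro h2
      have h3 := ih (by omega)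
      have h4 := hstep w (by omega) h2
      linarith
  have h6 := hind v huv le_rfl
  rw [← Real.log_div (hu0.trans huv').ne' hu0.ne', hX, div_mul_cancel₀ _ hlog.ne'] at h6
  linarith

private theorem h16_pw_cons (D : ι → ℝ) (s : ℕ) (n : ι) (x : Fin s → ι) :
    pw D (s + 1) (Fin.cons n x : Fin (s + 1) → ι) = D n * pw D s x := by
  unfold pw
  rw [Fin.prod_univ_succ]
  simp

omit [Fintype ι] in
private theorem h16_Zs_cons (a : ι → G) (s : ℕ) (n : ι) (x : Fin s → ι) :
    Zs a (s + 1) (Fin.cons n x : Fin (s + 1) → ι) = Zs a s x + a n := by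
  unfold Zs
  rw [Fin.sum_univ_succ]
  simp [add_comm]

theorem sum_pw_succ (D : ι → ℝ) (a : ι → G) (s : ℕ) (φ : G → ℝ) :
    ∑ x, pw D (s + 1) x * φ (Zs a (s + 1) x) =
      ∑ n, D n * ∑ x, pw D s x * φ (Zs a s x + a n) := by
  rw [← (Fin.consEquiv fun _ : Fin (s + 1) => ι).sum_comp, Fintype.sum_prod_type]
  refine Finset.sum_congr rfl fun n _ => ?_
  rw [Finset.mul_sum]
  refine Finset.sum_congr rfl fun x _ => ?_
  change pw D (s + 1) (Fin.cons n x : Fin (s + 1) → ι) *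
    φ (Zs a (s + 1) (Fin.cons n x : Fin (s + 1) → ι)) = _
  rw [h16_pw_cons, h16_Zs_cons, mul_assoc]

theorem law_succ_pos (hD : IsProb D) (a : ι → G) (s : ℕ) {n : ι} (hn : D n ≠ 0) {x : Fin s → ι}
    (hx : pw D s x ≠ 0) : 0 < law (pw D (s + 1)) (Zs a (s + 1)) (Zs a s x + a n) := by
  have h1 := le_law (hD.pw (s + 1)).nn (Zs a (s + 1)) (Fin.cons n x : Fin (s + 1) → ι)
  rw [h16_pw_cons, h16_Zs_cons] at h1
  exact lt_of_lt_of_le (mul_pos (lt_of_le_of_ne (hD.nn n) (Ne.symm hn))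
    (lt_of_le_of_ne ((hD.pw s).nn x) (Ne.symm hx))) h1

private theorem h16_sum_law_le (hP : IsProb P) (X : Ω → G) (c : G) (F : Finset G) :
    ∑ z ∈ F, law P X (z + c) ≤ 1 := by
  classical
  unfold law
  rw [Finset.sum_comm, ← hP.one]
  refine Finset.sum_le_sum fun ω _ => ?_
  have h1 : ∀ z ∈ F, (if X ω = z + c then P ω else 0) = if X ω - c = z then P ω else 0 := by
    intro z _
    by_cases hz : X ω = z + c
    · rw [if_pos hz, if_pos (by rw [hz]; simp)]
    · rw [if_neg hz, if_neg (fun h' => hz (by rw [← h']; simp))]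
  refine le_trans (le_of_eq (Finset.sum_congr rfl fun z hz => ?_))
    (show ∑ z ∈ F, (if X ω - c = z then P ω else 0) ≤ P ω from ?_)
  · convert h1 z hz
  · rw [Finset.sum_ite_eq]
    split_ifs
    · exact le_rfl
    · exact hP.nn ω

theorem kz_nonneg (hD : IsProb D) (a : ι → G) (s : ℕ) {n : ι} (hn : D n ≠ 0) :
    0 ≤ kz D a s n := by
  have hP := hD.pw s
  have hP' := hD.pw (s + 1)
  have hlaw : ∀ x, pw D s x ≠ 0 → 0 < law (pw D s) (Zs a s) (Zs a s x) := fun x hx =>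
    lt_of_lt_of_le (lt_of_le_of_ne (hP.nn x) (Ne.symm hx)) (le_law hP.nn _ x)
  have hg := gibbs hP (fun x => law (pw D (s + 1)) (Zs a (s + 1)) (Zs a s x + a n) /
      law (pw D s) (Zs a s) (Zs a s x))
    (fun x hx => div_pos (law_succ_pos hD a s hn hx) (hlaw x hx))
  have hle := chg_fun hP.nn (Zs a s) (fun z => law (pw D (s + 1)) (Zs a (s + 1)) (z + a n))
    (fun z => law_nonneg hP'.nn _ _) (fun F => h16_sum_law_le hP' _ (a n) F)
  have hnn : 0 ≤ ∑ x, pw D s x * (law (pw D (s + 1)) (Zs a (s + 1)) (Zs a s x + a n) /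
      law (pw D s) (Zs a s) (Zs a s x)) :=
    Finset.sum_nonneg fun x _ =>
      mul_nonneg (hP.nn x) (div_nonneg (law_nonneg hP'.nn _ _) (law_nonneg hP.nn _ _))
  have hg0 := hg.trans (Real.log_nonpos hnn hle)
  have he : kz D a s n = -∑ x, pw D s x * Real.log
      (law (pw D (s + 1)) (Zs a (s + 1)) (Zs a s x + a n) /
        law (pw D s) (Zs a s) (Zs a s x)) := by
    unfold kz
    rw [← Finset.sum_neg_distrib]
    refine Finset.sum_congr rfl fun x _ => ?_
    rw [← inv_div, Real.log_inv, mul_neg]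
  rw [he]
  linarith

theorem sum_kz (hD : IsProb D) (a : ι → G) (s : ℕ) :
    ∑ n, D n * kz D a s n = HZ D a (s + 1) - HZ D a s := by
  have hP := hD.pw s
  have hlaw : ∀ x, pw D s x ≠ 0 → 0 < law (pw D s) (Zs a s) (Zs a s x) := fun x hx =>
    lt_of_lt_of_le (lt_of_le_of_ne (hP.nn x) (Ne.symm hx)) (le_law hP.nn _ x)
  have h1 : ∀ n, D n * kz D a s n =
      D n * (∑ x, pw D s x * Real.log (law (pw D s) (Zs a s) (Zs a s x))) -
        D n * ∑ x, pw D s x *
          Real.log (law (pw D (s + 1)) (Zs a (s + 1)) (Zs a s x + a n)) := by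
    intro n
    by_cases hn : D n = 0
    · simp [hn]
    rw [← mul_sub, ← Finset.sum_sub_distrib]
    unfold kz
    congr 1
    refine Finset.sum_congr rfl fun x _ => ?_
    by_cases hx : pw D s x = 0
    · simp [hx]
    rw [Real.log_div (hlaw x hx).ne' (law_succ_pos hD a s hn hx).ne', mul_sub]
  have h2 := sum_pw_succ D a s (fun z => Real.log (law (pw D (s + 1)) (Zs a (s + 1)) z))
  rw [Finset.sum_congr rfl fun n _ => h1 n, Finset.sum_sub_distrib, ← Finset.sum_mul, hD.one,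
    ← h2]
  unfold HZ ent
  ring

end Crest.Agent.R100.Ent
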