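import Mathlib

/-! # Row 100, approximate duality (3)-(5): finite laws in expectation form (definitions) -/

set_option autoImplicit false

noncomputable section

namespace Crest.Agent.R100.Ent

open Finset

variable {G : Type*} [AddCommGroup G] {ι Ω S : Type*} [Fintype ι] [Fintype Ω]

/-- a probability vector -/
structure IsProb (P : Ω → ℝ) : Prop where
  nn : ∀ ω, 0 ≤ P ω
  one : ∑ ω, P ω = 1

open Classical in
/-- the law of `X` -/
def law (P : Ω → ℝ) (X : Ω → S) (s : S) : ℝ := ∑ ω, if X ω = s then P ω else 0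

/-- the entropy of `X` -/
def ent (P : Ω → ℝ) (X : Ω → S) : ℝ := -∑ ω, P ω * Real.log (law P X (X ω))

/-- the posterior of `N` given `Y = y` -/
def cond (P : Ω → ℝ) (N : Ω → ι) (Y : Ω → S) (y : S) (n : ι) : ℝ :=
  law P (fun ω => (N ω, Y ω)) (n, y) / law P Y y

/-- relative entropy -/
def KL (p q : ι → ℝ) : ℝ := ∑ n, p n * Real.log (p n / q n)

/-- iid weights -/
def pw (D : ι → ℝ) (s : ℕ) (x : Fin s → ι) : ℝ := ∏ i, D (x i)

/-- the sum of `s` draws -/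
def Zs (a : ι → G) (s : ℕ) (x : Fin s → ι) : G := ∑ i, a (x i)

/-- `H(Z_s)` -/
def HZ (D : ι → ℝ) (a : ι → G) (s : ℕ) : ℝ := ent (pw D s) (Zs a s)

/-- `KL(law(Z_s + a n) || law Z_{s+1})` -/
def kz (D : ι → ℝ) (a : ι → G) (s : ℕ) (n : ι) : ℝ :=
  ∑ x, pw D s x * Real.log (law (pw D s) (Zs a s) (Zs a s x) /
    law (pw D (s + 1)) (Zs a (s + 1)) (Zs a s x + a n))

/-- `s` plus draws and `s` minus draws -/
abbrev OA (ι : Type*) (s : ℕ) : Type _ := (Fin s → ι) × (Fin s → ι)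

def PA (D : ι → ℝ) (s : ℕ) (ω : OA ι s) : ℝ := pw D s ω.1 * pw D s ω.2

def AA (a : ι → G) (s : ℕ) (ω : OA ι s) : G := Zs a s ω.1 - Zs a s ω.2

/-- `E h(z + A)` -/
def GA (D : ι → ℝ) (a : ι → G) (h : G → ℝ) (s : ℕ) (z : G) : ℝ :=
  ∑ ω, PA D s ω * h (z + AA a s ω)

/-- `E_P h(y)`, `y = a₀ + A` -/
def ZQ (D : ι → ℝ) (a : ι → G) (h : G → ℝ) (s : ℕ) : ℝ := ∑ n, D n * GA D a h s (a n)

/-- the law `Q(a₀)` -/
def Qn (D : ι → ℝ) (a : ι → G) (h : G → ℝ) (s : ℕ) (n : ι) : ℝ :=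
  D n * GA D a h s (a n) / ZQ D a h s

/-- the law `Q(A | a₀ = n)` -/
def Qc (D : ι → ℝ) (a : ι → G) (h : G → ℝ) (s : ℕ) (n : ι) (ω : OA ι s) : ℝ :=
  PA D s ω * h (a n + AA a s ω) / GA D a h s (a n)

/-- the sample `(N, A_1, .., A_k)` -/
abbrev TH (ι : Type*) (s k : ℕ) : Type _ := ι × (Fin k → OA ι s)

def QQ (D : ι → ℝ) (a : ι → G) (h : G → ℝ) (s k : ℕ) (θ : TH ι s k) : ℝ :=
  Qn D a h s θ.1 * ∏ i, Qc D a h s θ.1 (θ.2 i)

/-- the observations `y_i = N + A_i` -/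
def YY (a : ι → G) (s k : ℕ) (θ : TH ι s k) (i : Fin k) : G := a θ.1 + AA a s (θ.2 i)

/-- the posterior `D_y` -/
def post (D : ι → ℝ) (a : ι → G) (h : G → ℝ) (s k : ℕ) (θ : TH ι s k) (n : ι) : ℝ :=
  cond (QQ D a h s k) Prod.fst (YY a s k) (YY a s k θ) n

end Crest.Agent.R100.Ent
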