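import Crest.Agent.R100.AdMaxDefs

/-! # Row 100, approximate duality (1): maximiser, cell, subgaussian `w` -/

set_option autoImplicit false

noncomputable section

namespace Crest.Agent.R100.Ad

open MeasureTheory Finset Crest.Agent.R100.Ent
open scoped ComplexConjugate

variable {G : Type*} [AddCommGroup G] {ι : Type*} [Fintype ι] {T : Type*} [MeasurableSpace T]
  {χ : G → T → ℂ} {a : ι → G} {D : ι → ℝ} {σ₀ σ : Measure T}

/-! ### part A -/

theorem measurable_Bf (hχ : IsChar χ) (a : ι → G) (D : ι → ℝ) : Measurable (Bf χ a D) := by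
  unfold Bf
  exact Finset.measurable_sum _ fun n _ => (hχ.meas _).const_mul _

theorem measurable_B2 (hχ : IsChar χ) (a : ι → G) (D : ι → ℝ) : Measurable (B2 χ a D) := by
  unfold B2
  refine Finset.measurable_sum _ fun n _ => Measurable.const_mul ?_ _
  exact ((hχ.meas _).comp measurable_fst).mul
    (Complex.continuous_conj.measurable.comp ((hχ.meas _).comp measurable_snd))

theorem measurable_ww (hχ : IsChar χ) (a : ι → G) (D : ι → ℝ) : Measurable (ww χ a D) := by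
  unfold ww
  refine Measurable.sub_const ((measurable_B2 hχ a D).div ?_) _
  exact ((measurable_Bf hχ a D).comp measurable_fst).mul
    (Complex.continuous_conj.measurable.comp ((measurable_Bf hχ a D).comp measurable_snd))

theorem norm_Bf_le (hχ : IsChar χ) (a : ι → G) (D : ι → ℝ) (t : T) :
    ‖Bf χ a D t‖ ≤ ∑ n, |D n| := by
  unfold Bf
  refine (norm_sum_le _ _).trans (le_of_eq (Finset.sum_congr rfl fun n _ => ?_))
  rw [norm_mul, hχ.norm, mul_one, Complex.norm_real, Real.norm_eq_abs]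

theorem norm_Bf_le_one (hχ : IsChar χ) (hD : IsProb D) (a : ι → G) (t : T) : ‖Bf χ a D t‖ ≤ 1 := by
  refine (norm_Bf_le hχ a D t).trans (le_of_eq ?_)
  rw [← hD.one]
  exact Finset.sum_congr rfl fun n _ => abs_of_nonneg (hD.nn n)

theorem norm_B2_le_one (hχ : IsChar χ) (hD : IsProb D) (a : ι → G) (p : T × T) :
    ‖B2 χ a D p‖ ≤ 1 := by
  unfold B2
  refine (norm_sum_le _ _).trans (le_of_eq ?_)
  rw [← hD.one]
  refine Finset.sum_congr rfl fun n _ => ?_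
  rw [norm_mul, norm_mul, Complex.norm_conj, hχ.norm, hχ.norm, mul_one, mul_one,
    Complex.norm_real, Real.norm_of_nonneg (hD.nn n)]

theorem pow_convex (z : ℂ) (S : ℕ) :
    2 * (1 + ‖z‖ ^ 2) ^ S ≤ ‖1 + z‖ ^ (2 * S) + ‖1 - z‖ ^ (2 * S) := by
  have h1 : ‖1 + z‖ ^ 2 + ‖1 - z‖ ^ 2 = 2 * (1 + ‖z‖ ^ 2) := by
    have := parallelogram_law_with_norm ℝ (1 : ℂ) z
    rw [norm_one] at this
    nlinarith
  have h2 := (convexOn_pow (𝕜 := ℝ) S).2 (Set.mem_Ici.2 (sq_nonneg ‖1 + z‖))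
    (Set.mem_Ici.2 (sq_nonneg ‖1 - z‖)) (show (0 : ℝ) ≤ 1 / 2 by norm_num)
    (show (0 : ℝ) ≤ 1 / 2 by norm_num) (by norm_num)
  simp only [smul_eq_mul] at h2
  have h3 : 1 / 2 * ‖1 + z‖ ^ 2 + 1 / 2 * ‖1 - z‖ ^ 2 = 1 + ‖z‖ ^ 2 := by linarith
  rw [h3] at h2
  rw [pow_mul, pow_mul]
  linarith

private theorem h13_int [IsProbabilityMeasure σ₀] (hχ : IsChar χ) (a : ι → G) (E : ι → ℝ)
    (k : ℕ) : Integrable (fun t => ‖Bf χ a E t‖ ^ k) σ₀ := by
  refine Integrable.of_bound (C := (∑ n, |E n|) ^ k)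
    ((measurable_Bf hχ a E).norm.pow_const k).aestronglyMeasurable
    (Filter.Eventually.of_forall fun t => ?_)
  rw [Real.norm_of_nonneg (by positivity)]
  exact pow_le_pow_left₀ (norm_nonneg _) (norm_Bf_le hχ a E t) k

private theorem h13_smul (χ : G → T → ℂ) (a : ι → G) (E : ι → ℝ) (c : ℝ) (t : T) :
    Bf χ a (fun n => c * E n) t = (c : ℂ) * Bf χ a E t := by
  simp only [Bf, Finset.mul_sum]
  refine Finset.sum_congr rfl fun n _ => ?_
  push_cast; ring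

private theorem h13_pow (x : ℝ) {S : ℕ} (hS : 1 ≤ S) : x ^ (2 * S) = x ^ (2 * S - 1) * x := by
  rw [← pow_succ]; congr 1; omega

/-- the (almost) maximiser, from the mean of the modulus -/
theorem exists_max' [IsProbabilityMeasure σ₀] (hχ : IsChar χ) (hD : IsProb D) {b : ℝ}
    (hb : 0 < b) (hc : b ≤ ∫ t, ‖Bf χ a D t‖ ∂σ₀) {S : ℕ} (hS : 1 ≤ S) :
    ∃ D' : ι → ℝ, IsProb D' ∧ (∀ n, D' n ≤ 2 / b ^ (2 * S) * D n) ∧
      b ^ (2 * S) / 2 ≤ ∫ t, ‖Bf χ a D' t‖ ^ (2 * S) ∂σ₀ ∧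
      ∀ f : ι → ℝ, (∀ n, |f n| ≤ 1) → ∑ n, D' n * f n = 0 →
        ∫ t, ‖Bf χ a D' t + Bf χ a (fun n => D' n * f n) t‖ ^ (2 * S) ∂σ₀ ≤
          4 * ∫ t, ‖Bf χ a D' t‖ ^ (2 * S) ∂σ₀ := by
  have hbS : 0 < b ^ (2 * S) := by positivity
  -- the functional
  let m : (ι → ℝ) → ℝ := fun φ => ∑ n, D n * φ n
  let I : (ι → ℝ) → ℝ := fun φ => ∫ t, ‖Bf χ a (fun n => D n * φ n) t‖ ^ (2 * S) ∂σ₀
  let J : (ι → ℝ) → ℝ := fun φ => I φ / m φ ^ (2 * S - 1)
  let A : Set (ι → ℝ) := {φ | ∀ n, 0 ≤ φ n ∧ φ n ≤ 1}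
  have m0 : ∀ φ ∈ A, 0 ≤ m φ := fun φ hφ =>
    Finset.sum_nonneg fun n _ => mul_nonneg (hD.nn n) (hφ n).1
  have m1 : ∀ φ ∈ A, m φ ≤ 1 := fun φ hφ => by
    rw [← hD.one]
    exact Finset.sum_le_sum fun n _ => mul_le_of_le_one_right (hD.nn n) (hφ n).2
  have I0 : ∀ φ, 0 ≤ I φ := fun φ => integral_nonneg fun t => by positivity
  have I1 : ∀ φ ∈ A, I φ ≤ m φ ^ (2 * S) := fun φ hφ => by
    have h1 : I φ ≤ ∫ _t, m φ ^ (2 * S) ∂σ₀ := by
      refine integral_mono (h13_int hχ a _ _) (integrable_const _) fun t => ?_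
      refine pow_le_pow_left₀ (norm_nonneg _) ((norm_Bf_le hχ a _ t).trans (le_of_eq ?_)) _
      exact Finset.sum_congr rfl fun n _ => abs_of_nonneg (mul_nonneg (hD.nn n) (hφ n).1)
    simpa using h1
  have Jm : ∀ φ ∈ A, J φ ≤ m φ := fun φ hφ => by
    rcases (m0 φ hφ).eq_or_lt with h | h
    · have : m φ ^ (2 * S - 1) = 0 := by rw [← h]; exact zero_pow (by omega)
      simp only [J, this, div_zero]
      exact m0 φ hφ
    · simp only [J]
      rw [div_le_iff₀ (pow_pos h _), mul_comm, ← h13_pow _ hS]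
      exact I1 φ hφ
  have hbdd : BddAbove (J '' A) := ⟨1, by
    rintro _ ⟨φ, hφ, rfl⟩
    exact (Jm φ hφ).trans (m1 φ hφ)⟩
  have h1A : (fun _ => (1 : ℝ)) ∈ A := fun n => ⟨zero_le_one, le_rfl⟩
  have hJ1 : b ^ (2 * S) ≤ J fun _ => 1 := by
    have e1 : m (fun _ => 1) = 1 := by simp only [m, mul_one, hD.one]
    simp only [J, e1, one_pow, div_one, I, mul_one]
    have h2 := (convexOn_pow (𝕜 := ℝ) (2 * S)).map_integral_le (μ := σ₀)
      (f := fun t => ‖Bf χ a D t‖) (continuous_pow _).continuousOn isClosed_Ici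
      (Filter.Eventually.of_forall fun t => Set.mem_Ici.2 (norm_nonneg _))
      (by simpa using h13_int (σ₀ := σ₀) hχ a D 1) (h13_int hχ a D (2 * S))
    exact (pow_le_pow_left₀ hb.le hc _).trans h2
  set s := sSup (J '' A) with hs
  have hs1 : b ^ (2 * S) ≤ s := hJ1.trans (le_csSup hbdd ⟨_, h1A, rfl⟩)
  obtain ⟨_, ⟨φ, hφ, rfl⟩, hlt⟩ := exists_lt_of_lt_csSup (s := J '' A) ⟨_, _, h1A, rfl⟩
    (show s / 2 < s by linarith)
  have hm2 : b ^ (2 * S) / 2 ≤ m φ := by linarith [Jm φ hφ]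
  have hm : 0 < m φ := by linarith
  set D' : ι → ℝ := fun n => (m φ)⁻¹ * (D n * φ n) with hD'
  have hB : ∀ t, Bf χ a D' t = (((m φ)⁻¹ : ℝ) : ℂ) * Bf χ a (fun n => D n * φ n) t :=
    fun t => h13_smul χ a _ _ t
  have hI' : ∫ t, ‖Bf χ a D' t‖ ^ (2 * S) ∂σ₀ = J φ / m φ := by
    simp only [hB, norm_mul, mul_pow, Complex.norm_real, Real.norm_of_nonneg (inv_pos.2 hm).le]
    rw [integral_const_mul]
    simp only [J, I]
    rw [inv_pow, h13_pow _ hS]
    field_simp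
  refine ⟨D', ⟨fun n => mul_nonneg (inv_pos.2 hm).le (mul_nonneg (hD.nn n) (hφ n).1), ?_⟩,
    fun n => ?_, ?_, fun f f1 f0 => ?_⟩
  · simp only [hD', ← Finset.mul_sum]
    exact inv_mul_cancel₀ hm.ne'
  · have h1 : (m φ)⁻¹ ≤ 2 / b ^ (2 * S) := by
      rw [inv_eq_one_div, div_le_div_iff₀ hm hbS]; linarith
    exact mul_le_mul h1 (mul_le_of_le_one_right (hD.nn n) (hφ n).2)
      (mul_nonneg (hD.nn n) (hφ n).1) (by positivity)
  · rw [hI', le_div_iff₀ hm]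
    have := m1 φ hφ
    nlinarith
  · set ψ : ι → ℝ := fun n => φ n * (1 + f n) / 2 with hψ
    have hψA : ψ ∈ A := fun n => by
      have h1 := abs_le.1 (f1 n)
      have h2 := hφ n
      simp only [hψ]
      constructor
      · have : 0 ≤ 1 + f n := by linarith
        have := h2.1
        positivity
      · nlinarith
    have f0' : ∑ n, D n * φ n * f n = 0 := by
      have : ∑ n, D' n * f n = (m φ)⁻¹ * ∑ n, D n * φ n * f n := by
        rw [Finset.mul_sum]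
        exact Finset.sum_congr rfl fun n _ => by simp only [hD']; ring
      rw [this] at f0
      exact (mul_eq_zero.1 f0).resolve_left (inv_pos.2 hm).ne'
    have hmψ : m ψ = m φ / 2 := by
      have : m ψ = (∑ n, D n * φ n + ∑ n, D n * φ n * f n) / 2 := by
        rw [← Finset.sum_add_distrib, Finset.sum_div]
        exact Finset.sum_congr rfl fun n _ => by simp only [hψ]; ring
      rw [this, f0', add_zero]
    have hBψ : ∀ t, Bf χ a D' t + Bf χ a (fun n => D' n * f n) t =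
        ((2 / m φ : ℝ) : ℂ) * Bf χ a (fun n => D n * ψ n) t := by
      intro t
      rw [← h13_smul]
      simp only [Bf, ← Finset.sum_add_distrib]
      refine Finset.sum_congr rfl fun n _ => ?_
      have : 2 / m φ * (D n * ψ n) = D' n + D' n * f n := by
        simp only [hD', hψ]; field_simp
      rw [this]; push_cast; ring
    have hJψ : J ψ ≤ 2 * J φ := by
      have := le_csSup hbdd ⟨ψ, hψA, rfl⟩
      linarith
    have h2m : 0 < 2 / m φ := by positivity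
    simp only [hBψ, norm_mul, mul_pow, Complex.norm_real, Real.norm_of_nonneg h2m.le]
    rw [integral_const_mul, hI']
    have e : (2 / m φ) ^ (2 * S) * ∫ t, ‖Bf χ a (fun n => D n * ψ n) t‖ ^ (2 * S) ∂σ₀ =
        2 / m φ * J ψ := by
      simp only [J, I, hmψ]
      rw [h13_pow _ hS, div_pow, div_pow]
      field_simp
    rw [e]
    calc 2 / m φ * J ψ ≤ 2 / m φ * (2 * J φ) := mul_le_mul_of_nonneg_left hJψ h2m.le
      _ = 4 * (J φ / m φ) := by ring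

/-- the (almost) maximiser -/
theorem exists_max [IsProbabilityMeasure σ₀] (hχ : IsChar χ) (hD : IsProb D) {b : ℝ} (hb : 0 < b)
    (hc : b ≤ ‖∫ t, Bf χ a D t ∂σ₀‖) {S : ℕ} (hS : 1 ≤ S) :
    ∃ D' : ι → ℝ, IsProb D' ∧ (∀ n, D' n ≤ 2 / b ^ (2 * S) * D n) ∧
      b ^ (2 * S) / 2 ≤ ∫ t, ‖Bf χ a D' t‖ ^ (2 * S) ∂σ₀ ∧
      ∀ f : ι → ℝ, (∀ n, |f n| ≤ 1) → ∑ n, D' n * f n = 0 →
        ∫ t, ‖Bf χ a D' t + Bf χ a (fun n => D' n * f n) t‖ ^ (2 * S) ∂σ₀ ≤
          4 * ∫ t, ‖Bf χ a D' t‖ ^ (2 * S) ∂σ₀ := by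
  exact exists_max' hχ hD hb (hc.trans (norm_integral_le_integral_norm _)) hS

/-! ### part B -/

/-- pigeonhole over a grid -/
theorem exists_grid (τ : Measure T) [IsProbabilityMeasure τ] {B : T → ℂ} (hB : Measurable B)
    (h1 : ∀ t, ‖B t‖ ≤ 1) {r ρ : ℝ} (hρ : 0 < ρ) (hρ1 : ρ ≤ 1)
    (hr : τ.real {t | ‖B t‖ < r} ≤ 1 / 2) :
    ∃ B₀ : ℂ, r ≤ ‖B₀‖ ∧ ‖B₀‖ ≤ 1 ∧ ρ ^ 2 / 32 ≤ τ.real {t | ‖B t - B₀‖ ≤ 2 * ρ} := by

  classical
  set I : Finset ℤ := Finset.Icc ⌊(-1) / ρ⌋ ⌊1 / ρ⌋ with hI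
  have hle : ⌊(-1) / ρ⌋ ≤ ⌊1 / ρ⌋ :=
    Int.floor_le_floor (div_le_div_of_nonneg_right (by norm_num) hρ.le)
  have hcard : (I.card : ℝ) ≤ 4 / ρ := by
    rw [hI, Int.card_Icc]
    have e1 : (⌊1 / ρ⌋ : ℝ) ≤ 1 / ρ := Int.floor_le _
    have e2 : (-1) / ρ < (⌊(-1) / ρ⌋ : ℝ) + 1 := Int.lt_floor_add_one _
    have e3 : (((⌊1 / ρ⌋ + 1 - ⌊(-1) / ρ⌋).toNat : ℕ) : ℝ) = (⌊1 / ρ⌋ : ℝ) + 1 - ⌊(-1) / ρ⌋ := by
      have : (((⌊1 / ρ⌋ + 1 - ⌊(-1) / ρ⌋).toNat : ℕ) : ℤ) = ⌊1 / ρ⌋ + 1 - ⌊(-1) / ρ⌋ :=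
        Int.toNat_of_nonneg (by omega)
      exact_mod_cast this
    rw [e3]
    have h3 : 1 ≤ 1 / ρ := by rw [le_div_iff₀ hρ]; linarith
    have e4 : (-1) / ρ = -(1 / ρ) := by ring
    have e5 : 4 / ρ = 4 * (1 / ρ) := by ring
    linarith
  let c : ℤ × ℤ → Set T := fun p =>
    {t | r ≤ ‖B t‖ ∧ ⌊(B t).re / ρ⌋ = p.1 ∧ ⌊(B t).im / ρ⌋ = p.2}
  have hmem : ∀ x : ℝ, |x| ≤ 1 → ⌊x / ρ⌋ ∈ I := by
    intro x hx
    rw [hI, Finset.mem_Icc]
    have := abs_le.1 hx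
    exact ⟨Int.floor_le_floor (div_le_div_of_nonneg_right this.1 hρ.le),
      Int.floor_le_floor (div_le_div_of_nonneg_right this.2 hρ.le)⟩
  have hcov : {t | ‖B t‖ < r}ᶜ ⊆ ⋃ p ∈ I ×ˢ I, c p := by
    intro t ht
    simp only [Set.mem_compl_iff, Set.mem_setOf_eq, not_lt] at ht
    simp only [Set.mem_iUnion]
    refine ⟨(⌊(B t).re / ρ⌋, ⌊(B t).im / ρ⌋), ?_, ht, rfl, rfl⟩
    exact Finset.mem_product.2 ⟨hmem _ ((Complex.abs_re_le_norm _).trans (h1 t)),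
      hmem _ ((Complex.abs_im_le_norm _).trans (h1 t))⟩
  have hms : MeasurableSet {t | ‖B t‖ < r} := measurableSet_lt hB.norm measurable_const
  have hsum : 1 / 2 ≤ ∑ p ∈ I ×ˢ I, τ.real (c p) := by
    have e1 : τ.real {t | ‖B t‖ < r}ᶜ = 1 - τ.real {t | ‖B t‖ < r} := by
      rw [measureReal_compl hms]; simp
    have e2 := measureReal_mono (μ := τ) hcov (measure_ne_top _ _)
    have e3 := measureReal_biUnion_finset_le (μ := τ) (I ×ˢ I) c
    linarith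
  have hne : (I ×ˢ I).Nonempty := by
    have : I.Nonempty := ⟨_, hmem 0 (by simp)⟩
    exact this.product this
  obtain ⟨p, -, hp⟩ : ∃ p ∈ I ×ˢ I, ρ ^ 2 / 32 ≤ τ.real (c p) := by
    refine Finset.exists_le_of_sum_le hne (le_trans ?_ hsum)
    rw [Finset.sum_const, Finset.card_product, nsmul_eq_mul]
    push_cast
    have h0 : (0 : ℝ) ≤ I.card := Nat.cast_nonneg _
    have : (I.card : ℝ) * I.card ≤ 4 / ρ * (4 / ρ) := mul_le_mul hcard hcard h0 (by positivity)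
    calc (I.card : ℝ) * I.card * (ρ ^ 2 / 32) ≤ 4 / ρ * (4 / ρ) * (ρ ^ 2 / 32) :=
          mul_le_mul_of_nonneg_right this (by positivity)
      _ = 1 / 2 := by field_simp; norm_num
  obtain ⟨t₀, ht₀⟩ : (c p).Nonempty := by
    by_contra h
    rw [Set.not_nonempty_iff_eq_empty] at h
    rw [h] at hp
    have : 0 < ρ ^ 2 / 32 := by positivity
    simp at hp
    linarith
  have key : ∀ x y : ℝ, ⌊x / ρ⌋ = ⌊y / ρ⌋ → |x - y| ≤ ρ := by
    intro x y h
    have := Int.abs_sub_lt_one_of_floor_eq_floor h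
    rw [← sub_div, abs_div, abs_of_pos hρ, div_lt_one hρ] at this
    exact this.le
  refine ⟨B t₀, ht₀.1, h1 t₀, hp.trans (measureReal_mono ?_)⟩
  intro t ht
  have e1 := key _ _ (ht.2.1.trans ht₀.2.1.symm)
  have e2 := key _ _ (ht.2.2.trans ht₀.2.2.symm)
  have e3 := Complex.norm_le_abs_re_add_abs_im (B t - B t₀)
  simp only [Complex.sub_re, Complex.sub_im] at e3
  simp only [Set.mem_setOf_eq]
  linarith


/-- the tilted measure restricted to a cell -/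
theorem exists_cell [IsProbabilityMeasure σ₀] {B : T → ℂ} (hB : Measurable B)
    (h1 : ∀ t, ‖B t‖ ≤ 1) {b ρ : ℝ} (hb : 0 < b) (hρ : 0 < ρ) (hρ1 : ρ ≤ 1) {S : ℕ} (hS : 1 ≤ S)
    (hI : b ^ (2 * S) / 2 ≤ ∫ t, ‖B t‖ ^ (2 * S) ∂σ₀) :
    ∃ (B₀ : ℂ) (r : T → ℝ), b / 2 ≤ ‖B₀‖ ∧ ‖B₀‖ ≤ 1 ∧ Measurable r ∧
      (∀ t, 0 ≤ r t ∧ r t ≤ 64 / (ρ ^ 2 * b ^ (2 * S))) ∧ ∫ t, r t ∂σ₀ = 1 ∧
      (∀ t, r t ≠ 0 → ‖B t - B₀‖ ≤ 2 * ρ) ∧
      ∀ t, r t * ∫ t, ‖B t‖ ^ (2 * S) ∂σ₀ ≤ 32 / ρ ^ 2 * ‖B t‖ ^ (2 * S) := by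

  classical
  set I : ℝ := ∫ t, ‖B t‖ ^ (2 * S) ∂σ₀ with hIdef
  have hbS : 0 < b ^ (2 * S) := by positivity
  have hI0 : 0 < I := lt_of_lt_of_le (by positivity) hI
  let w : T → ℝ := fun t => ‖B t‖ ^ (2 * S) / I
  have mw : Measurable w := (hB.norm.pow_const _).div_const _
  have w0 : ∀ t, 0 ≤ w t := fun t => by positivity
  have p1 : ∀ t, ‖B t‖ ^ (2 * S) ≤ 1 := fun t => pow_le_one₀ (norm_nonneg _) (h1 t)
  have w1 : ∀ t, w t ≤ 1 / I := fun t => div_le_div_of_nonneg_right (p1 t) hI0.le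
  have iw : Integrable w σ₀ :=
    Integrable.of_bound mw.aestronglyMeasurable (1 / I) (Filter.Eventually.of_forall fun t => by
      rw [Real.norm_of_nonneg (w0 t)]; exact w1 t)
  have intw : ∫ t, w t ∂σ₀ = 1 := by
    simp only [w]
    rw [integral_div, ← hIdef, div_self hI0.ne']
  let τ : Measure T := σ₀.withDensity fun t => ENNReal.ofReal (w t)
  have hτ : ∀ A : Set T, MeasurableSet A → τ.real A = ∫ t in A, w t ∂σ₀ := by
    intro A hA
    rw [measureReal_def, withDensity_apply _ hA,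
      ← ofReal_integral_eq_lintegral_ofReal iw.integrableOn (Filter.Eventually.of_forall w0),
      ENNReal.toReal_ofReal (integral_nonneg w0)]
  haveI : IsProbabilityMeasure τ := by
    constructor
    rw [withDensity_apply _ MeasurableSet.univ, Measure.restrict_univ,
      ← ofReal_integral_eq_lintegral_ofReal iw (Filter.Eventually.of_forall w0), intw]
    simp
  have hms : MeasurableSet {t | ‖B t‖ < b / 2} := measurableSet_lt hB.norm measurable_const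
  have hr : τ.real {t | ‖B t‖ < b / 2} ≤ 1 / 2 := by
    rw [hτ _ hms]
    have e1 : ∫ t in {t | ‖B t‖ < b / 2}, w t ∂σ₀ ≤
        ∫ _t in {t | ‖B t‖ < b / 2}, (1 / 2 : ℝ) ∂σ₀ := by
      refine setIntegral_mono_on iw.integrableOn (integrable_const _).integrableOn hms ?_
      intro t ht
      have h2 : ‖B t‖ ^ (2 * S) ≤ (b / 2) ^ (2 * S) :=
        pow_le_pow_left₀ (norm_nonneg _) (le_of_lt ht) _
      have h3 : (4 : ℝ) ≤ 2 ^ (2 * S) := by
        calc (4 : ℝ) = 2 ^ 2 := by norm_num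
          _ ≤ 2 ^ (2 * S) := pow_le_pow_right₀ (by norm_num) (by omega)
      have h4 : (b / 2) ^ (2 * S) ≤ b ^ (2 * S) / 4 := by
        rw [div_pow]
        exact div_le_div_of_nonneg_left hbS.le (by norm_num) h3
      simp only [w]
      rw [div_le_iff₀ hI0]
      linarith
    refine e1.trans ?_
    rw [setIntegral_const, smul_eq_mul]
    have : σ₀.real {t | ‖B t‖ < b / 2} ≤ 1 := measureReal_le_one
    linarith
  obtain ⟨B₀, hB1, hB2, hm⟩ := exists_grid τ hB h1 hρ hρ1 hr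
  set C : Set T := {t | ‖B t - B₀‖ ≤ 2 * ρ} with hC
  have mC : MeasurableSet C := measurableSet_le (hB.sub_const _).norm measurable_const
  set m : ℝ := τ.real C with hmdef
  have m0 : 0 < m := lt_of_lt_of_le (by positivity) hm
  have minv : 1 / m ≤ 32 / ρ ^ 2 := by
    rw [div_le_div_iff₀ m0 (by positivity)]
    linarith
  have Iinv : 1 / I ≤ 2 / b ^ (2 * S) := by
    rw [div_le_div_iff₀ hI0 hbS]
    linarith
  have ind0 : ∀ t, 0 ≤ C.indicator w t := fun t => Set.indicator_nonneg (fun t _ => w0 t) t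
  have ind1 : ∀ t, C.indicator w t ≤ w t := fun t => Set.indicator_le_self' (fun t _ => w0 t) t
  refine ⟨B₀, fun t => C.indicator w t / m, hB1, hB2, (mw.indicator mC).div_const _, ?_, ?_, ?_,
    ?_⟩
  · intro t
    refine ⟨div_nonneg (ind0 t) m0.le, ?_⟩
    calc C.indicator w t / m = C.indicator w t * (1 / m) := by ring
      _ ≤ 2 / b ^ (2 * S) * (32 / ρ ^ 2) :=
          mul_le_mul (((ind1 t).trans (w1 t)).trans Iinv) minv (by positivity) (by positivity)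
      _ = 64 / (ρ ^ 2 * b ^ (2 * S)) := by field_simp; norm_num
  · rw [integral_div, integral_indicator mC, ← hτ _ mC, div_self m0.ne']
  · intro t ht
    by_contra h
    refine ht ?_
    show C.indicator w t / m = 0
    rw [Set.indicator_of_notMem (show t ∉ C from h), zero_div]
  · intro t
    calc C.indicator w t / m * I = C.indicator w t * I * (1 / m) := by ring
      _ ≤ w t * I * (32 / ρ ^ 2) :=
          mul_le_mul (mul_le_mul_of_nonneg_right (ind1 t) hI0.le) minv (by positivity)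
            (mul_nonneg (w0 t) hI0.le)
      _ = 32 / ρ ^ 2 * ‖B t‖ ^ (2 * S) := by
          simp only [w]
          field_simp


/-! ### part C -/

private theorem h23_exp_le {x β : ℝ} (hβ : 0 < β) (hβ1 : β ≤ 1) (x0 : 0 ≤ x) (x1 : x * β ^ 2 ≤ 4) :
    Real.exp (β ^ 2 / 5 * x) ≤ 1 + x := by
  have hb2 : β ^ 2 ≤ 1 := pow_le_one₀ hβ.le hβ1
  set y := β ^ 2 / 5 * x with hy
  have y0 : 0 ≤ y := by positivity
  have y1 : y ≤ 4 / 5 := by rw [hy]; nlinarith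
  have y2 : 5 * y ≤ x := by rw [hy]; nlinarith
  have h1 : 1 - y ≤ Real.exp (-y) := by linarith [Real.add_one_le_exp (-y)]
  have h2 : Real.exp y * Real.exp (-y) = 1 := by rw [← Real.exp_add]; simp
  have h3 := Real.exp_pos y
  have h4 : Real.exp y * (1 - y) ≤ 1 := by nlinarith
  have h5 : 1 ≤ (1 + 5 * y) * (1 - y) := by nlinarith
  have h6 : Real.exp y ≤ 1 + 5 * y := by
    by_contra hc
    push Not at hc
    nlinarith
  linarith

private theorem h23_Bf_le (hχ : IsChar χ) (hD : IsProb D) (a : ι → G) {f : ι → ℝ}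
    (f1 : ∀ n, |f n| ≤ 1) (t : T) : ‖Bf χ a (fun n => D n * f n) t‖ ≤ 1 := by
  refine (norm_Bf_le hχ a _ t).trans ?_
  rw [← hD.one]
  refine Finset.sum_le_sum fun n _ => ?_
  rw [abs_mul, abs_of_nonneg (hD.nn n)]
  exact mul_le_of_le_one_right (hD.nn n) (f1 n)

private theorem h23_z_le (hχ : IsChar χ) (hD : IsProb D) (a : ι → G) {f : ι → ℝ}
    (f1 : ∀ n, |f n| ≤ 1) {β : ℝ} (hβ : 0 < β) {t : T} (hl : β / 2 ≤ ‖Bf χ a D t‖) :
    ‖Bf χ a (fun n => D n * f n) t / Bf χ a D t‖ ^ 2 * β ^ 2 ≤ 4 := by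
  have h1 := h23_Bf_le hχ hD a f1 t
  have hp : 0 < ‖Bf χ a D t‖ := by linarith
  have h2 : ‖Bf χ a (fun n => D n * f n) t / Bf χ a D t‖ * β ≤ 2 := by
    rw [norm_div, div_mul_eq_mul_div, div_le_iff₀ hp]
    nlinarith [norm_nonneg (Bf χ a (fun n => D n * f n) t)]
  have h3 : 0 ≤ ‖Bf χ a (fun n => D n * f n) t / Bf χ a D t‖ * β := by positivity
  nlinarith

private theorem h23_int [IsProbabilityMeasure σ₀] (hχ : IsChar χ) (hD : IsProb D) (a : ι → G)
    {f : ι → ℝ} (f1 : ∀ n, |f n| ≤ 1) (k : ℕ) :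
    Integrable (fun t => ‖Bf χ a D t + Bf χ a (fun n => D n * f n) t‖ ^ k) σ₀ := by
  refine Integrable.of_bound (C := 2 ^ k)
    ((((measurable_Bf hχ a D).add (measurable_Bf hχ a _)).norm.pow_const k).aestronglyMeasurable)
    (Filter.Eventually.of_forall fun t => ?_)
  rw [Real.norm_of_nonneg (by positivity)]
  refine pow_le_pow_left₀ (norm_nonneg _) ?_ k
  linarith [norm_add_le (Bf χ a D t) (Bf χ a (fun n => D n * f n) t), norm_Bf_le_one hχ hD a t,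
    h23_Bf_le hχ hD a f1 t]

private theorem h23_int2 [IsProbabilityMeasure σ₀] (hχ : IsChar χ) (hD : IsProb D) (a : ι → G)
    {f : ι → ℝ} (f1 : ∀ n, |f n| ≤ 1) (S : ℕ) {β : ℝ} (hβ : 0 < β) {r : T → ℝ}
    (mr : Measurable r) (r0 : ∀ t, 0 ≤ r t) {M : ℝ}
    (r1 : ∀ t, r t ≤ M) (hl : ∀ t, r t ≠ 0 → β / 2 ≤ ‖Bf χ a D t‖) :
    Integrable (fun t => r t * Real.exp (S * β ^ 2 / 5 *
        ‖Bf χ a (fun n => D n * f n) t / Bf χ a D t‖ ^ 2)) σ₀ := by
  refine Integrable.of_bound (C := |M| * Real.exp S)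
    ((mr.mul (Real.measurable_exp.comp ((((measurable_Bf hχ a _).div
      (measurable_Bf hχ a D)).norm.pow_const 2).const_mul _))).aestronglyMeasurable)
    (Filter.Eventually.of_forall fun t => ?_)
  have := r0 t
  rw [Real.norm_of_nonneg (by positivity)]
  by_cases h : r t = 0
  · rw [h, zero_mul]; positivity
  · have h1 := h23_z_le hχ hD a f1 hβ (hl t h)
    refine mul_le_mul ((r1 t).trans (le_abs_self M)) (Real.exp_le_exp.2 ?_) (by positivity)
      (abs_nonneg M)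
    have hS : (0 : ℝ) ≤ S := Nat.cast_nonneg S
    nlinarith

/-- one real tilt -/
theorem tilt_exp [IsProbabilityMeasure σ₀] (hχ : IsChar χ) (hD : IsProb D) {S : ℕ} {β K : ℝ}
    (hβ : 0 < β) (hβ1 : β ≤ 1) (hK : 0 ≤ K) {r : T → ℝ} (mr : Measurable r) (r0 : ∀ t, 0 ≤ r t)
    (hI : 0 < ∫ t, ‖Bf χ a D t‖ ^ (2 * S) ∂σ₀)
    (hr : ∀ t, r t * ∫ t, ‖Bf χ a D t‖ ^ (2 * S) ∂σ₀ ≤ K * ‖Bf χ a D t‖ ^ (2 * S))
    (hl : ∀ t, r t ≠ 0 → β / 2 ≤ ‖Bf χ a D t‖)
    (hm : ∀ f : ι → ℝ, (∀ n, |f n| ≤ 1) → ∑ n, D n * f n = 0 →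
      ∫ t, ‖Bf χ a D t + Bf χ a (fun n => D n * f n) t‖ ^ (2 * S) ∂σ₀ ≤
        4 * ∫ t, ‖Bf χ a D t‖ ^ (2 * S) ∂σ₀)
    (f : ι → ℝ) (f1 : ∀ n, |f n| ≤ 1) (f0 : ∑ n, D n * f n = 0) :
    ∫ t, r t * Real.exp (S * β ^ 2 / 5 *
      ‖Bf χ a (fun n => D n * f n) t / Bf χ a D t‖ ^ 2) ∂σ₀ ≤ 4 * K := by
  set I := ∫ t, ‖Bf χ a D t‖ ^ (2 * S) ∂σ₀ with hIdef
  have g1 : ∀ n, |(-f) n| ≤ 1 := fun n => by simpa using f1 n
  have g0 : ∑ n, D n * (-f) n = 0 := by simp [f0]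
  have hneg : ∀ t, Bf χ a (fun n => D n * (-f) n) t = -Bf χ a (fun n => D n * f n) t := by
    intro t
    simp [Bf, Finset.sum_neg_distrib]
  have i1 := h23_int (σ₀ := σ₀) hχ hD a f1 (2 * S)
  have i2 := h23_int (σ₀ := σ₀) hχ hD a g1 (2 * S)
  have m1 := hm f f1 f0
  have m2 := hm (-f) g1 g0
  have key : ∀ t, r t * Real.exp (S * β ^ 2 / 5 *
      ‖Bf χ a (fun n => D n * f n) t / Bf χ a D t‖ ^ 2) ≤
      K / (2 * I) * (‖Bf χ a D t + Bf χ a (fun n => D n * f n) t‖ ^ (2 * S) +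
        ‖Bf χ a D t + Bf χ a (fun n => D n * (-f) n) t‖ ^ (2 * S)) := by
    intro t
    by_cases h : r t = 0
    · rw [h, zero_mul]; positivity
    have hz := h23_z_le hχ hD a f1 hβ (hl t h)
    have hp : 0 < ‖Bf χ a D t‖ := by linarith [hl t h]
    have hB : Bf χ a D t ≠ 0 := norm_pos_iff.1 hp
    rw [hneg]
    set B := Bf χ a D t
    set B' := Bf χ a (fun n => D n * f n) t
    set z := B' / B with hzdef
    have e1 : B + B' = B * (1 + z) := by rw [hzdef]; field_simp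
    have e2 : B + -B' = B * (1 - z) := by rw [hzdef]; field_simp; ring
    have e3 : Real.exp (S * β ^ 2 / 5 * ‖z‖ ^ 2) ≤ (1 + ‖z‖ ^ 2) ^ S := by
      have : (S : ℝ) * β ^ 2 / 5 * ‖z‖ ^ 2 = S * (β ^ 2 / 5 * ‖z‖ ^ 2) := by ring
      rw [this, Real.exp_nat_mul]
      exact pow_le_pow_left₀ (Real.exp_pos _).le (h23_exp_le hβ hβ1 (by positivity) hz) S
    have e4 := pow_convex z S
    have e5 : r t ≤ K / I * ‖B‖ ^ (2 * S) := by
      rw [div_mul_eq_mul_div, le_div_iff₀ hI]; exact hr t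
    rw [e1, e2, norm_mul, norm_mul, mul_pow, mul_pow]
    calc r t * Real.exp (S * β ^ 2 / 5 * ‖z‖ ^ 2)
        ≤ K / I * ‖B‖ ^ (2 * S) * (1 + ‖z‖ ^ 2) ^ S :=
          mul_le_mul e5 e3 (Real.exp_pos _).le (by positivity)
      _ = K / (2 * I) * ‖B‖ ^ (2 * S) * (2 * (1 + ‖z‖ ^ 2) ^ S) := by field_simp
      _ ≤ K / (2 * I) * ‖B‖ ^ (2 * S) * (‖1 + z‖ ^ (2 * S) + ‖1 - z‖ ^ (2 * S)) :=
          mul_le_mul_of_nonneg_left e4 (by positivity)
      _ = _ := by ring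
  refine (integral_mono_of_nonneg (Filter.Eventually.of_forall fun t => ?_)
    ((i1.add i2).const_mul (K / (2 * I))) (Filter.Eventually.of_forall key)).trans ?_
  · have := r0 t
    positivity
  · rw [integral_const_mul, integral_add' i1 i2]
    calc _ ≤ K / (2 * I) * (4 * I + 4 * I) :=
          mul_le_mul_of_nonneg_left (add_le_add m1 m2) (by positivity)
      _ = 4 * K := by field_simp; ring

theorem subg_one [IsProbabilityMeasure σ₀] (hχ : IsChar χ) (hD : IsProb D) {S : ℕ} {β K : ℝ}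
    (hβ : 0 < β) (hβ1 : β ≤ 1) {r : T → ℝ} (mr : Measurable r) (r0 : ∀ t, 0 ≤ r t) {M : ℝ}
    (r1 : ∀ t, r t ≤ M) (hl : ∀ t, r t ≠ 0 → β / 2 ≤ ‖Bf χ a D t‖)
    (ht : ∀ f : ι → ℝ, (∀ n, |f n| ≤ 1) → ∑ n, D n * f n = 0 →
      ∫ t, r t * Real.exp (S * β ^ 2 / 5 *
        ‖Bf χ a (fun n => D n * f n) t / Bf χ a D t‖ ^ 2) ∂σ₀ ≤ K)
    {t₂ : T} (h2 : β / 2 ≤ ‖Bf χ a D t₂‖) :
    ∫ t, r t * Real.exp (S * β ^ 4 / 320 * ‖ww χ a D (t, t₂)‖ ^ 2) ∂σ₀ ≤ K := by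
  have hp2 : 0 < ‖Bf χ a D t₂‖ := by linarith
  have hB2 : Bf χ a D t₂ ≠ 0 := norm_pos_iff.1 hp2
  have hc2 : conj (Bf χ a D t₂) ≠ 0 := by simpa using hB2
  set g : ι → ℂ := fun n => conj ((χ (a n) t₂ - Bf χ a D t₂) / Bf χ a D t₂) with hg
  have hone : ∑ n, (D n : ℂ) = 1 := by exact_mod_cast hD.one
  have gn : ∀ n, β / 4 * ‖g n‖ ≤ 1 := by
    intro n
    have h1 : ‖χ (a n) t₂ - Bf χ a D t₂‖ ≤ 2 := by
      linarith [norm_sub_le (χ (a n) t₂) (Bf χ a D t₂), hχ.norm (a n) t₂,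
        norm_Bf_le_one hχ hD a t₂]
    rw [hg]
    simp only [Complex.norm_conj, norm_div]
    rw [← mul_div_assoc, div_le_one hp2]
    nlinarith
  have g0 : ∑ n, (D n : ℂ) * g n = 0 := by
    have h1 : ∑ n, (D n : ℂ) * ((χ (a n) t₂ - Bf χ a D t₂) / Bf χ a D t₂) = 0 := by
      simp only [← mul_div_assoc, ← Finset.sum_div, mul_sub, Finset.sum_sub_distrib,
        ← Finset.sum_mul, hone]
      simp [Bf]
    have h2 := congrArg conj h1
    simpa [hg, map_sum] using h2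
  set f₁ : ι → ℝ := fun n => β / 4 * (g n).re with hf₁
  set f₂ : ι → ℝ := fun n => β / 4 * (g n).im with hf₂
  have b1 : ∀ n, |f₁ n| ≤ 1 := fun n => by
    rw [hf₁]
    simp only [abs_mul, abs_of_pos (show 0 < β / 4 by positivity)]
    exact (mul_le_mul_of_nonneg_left (Complex.abs_re_le_norm _) (by positivity)).trans (gn n)
  have b2 : ∀ n, |f₂ n| ≤ 1 := fun n => by
    rw [hf₂]
    simp only [abs_mul, abs_of_pos (show 0 < β / 4 by positivity)]
    exact (mul_le_mul_of_nonneg_left (Complex.abs_im_le_norm _) (by positivity)).trans (gn n)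
  have z1 : ∑ n, D n * f₁ n = 0 := by
    have h1 := congrArg Complex.re g0
    simp only [Complex.re_sum, Complex.re_ofReal_mul, Complex.zero_re] at h1
    have : ∑ n, D n * f₁ n = β / 4 * ∑ n, D n * (g n).re := by
      rw [Finset.mul_sum]; exact Finset.sum_congr rfl fun n _ => by rw [hf₁]; ring
    rw [this, h1, mul_zero]
  have z2 : ∑ n, D n * f₂ n = 0 := by
    have h1 := congrArg Complex.im g0
    simp only [Complex.im_sum, Complex.im_ofReal_mul, Complex.zero_im] at h1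
    have : ∑ n, D n * f₂ n = β / 4 * ∑ n, D n * (g n).im := by
      rw [Finset.mul_sum]; exact Finset.sum_congr rfl fun n _ => by rw [hf₂]; ring
    rw [this, h1, mul_zero]
  have i1 := h23_int2 (σ₀ := σ₀) hχ hD a b1 S hβ mr r0 r1 hl
  have i2 := h23_int2 (σ₀ := σ₀) hχ hD a b2 S hβ mr r0 r1 hl
  have m1 := ht f₁ b1 z1
  have m2 := ht f₂ b2 z2
  have key : ∀ t, r t * Real.exp (S * β ^ 4 / 320 * ‖ww χ a D (t, t₂)‖ ^ 2) ≤
      1 / 2 * (r t * Real.exp (S * β ^ 2 / 5 *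
        ‖Bf χ a (fun n => D n * f₁ n) t / Bf χ a D t‖ ^ 2) + r t * Real.exp (S * β ^ 2 / 5 *
        ‖Bf χ a (fun n => D n * f₂ n) t / Bf χ a D t‖ ^ 2)) := by
    intro t
    by_cases h : r t = 0
    · simp [h]
    have hp : 0 < ‖Bf χ a D t‖ := by linarith [hl t h]
    have hB : Bf χ a D t ≠ 0 := norm_pos_iff.1 hp
    have e0 : Bf χ a (fun n => D n * f₁ n) t + Complex.I * Bf χ a (fun n => D n * f₂ n) t =
        (β / 4 : ℝ) * (B2 χ a D (t, t₂) / conj (Bf χ a D t₂) - Bf χ a D t) := by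
      have h1 : B2 χ a D (t, t₂) / conj (Bf χ a D t₂) - Bf χ a D t =
          ∑ n, (D n : ℂ) * χ (a n) t * g n := by
        rw [B2, Finset.sum_div]
        conv_lhs => rw [show Bf χ a D t = ∑ n, (D n : ℂ) * χ (a n) t from rfl]
        rw [← Finset.sum_sub_distrib]
        refine Finset.sum_congr rfl fun n _ => ?_
        rw [hg]
        simp only [map_div₀, map_sub]
        field_simp
      rw [h1, Bf, Bf, Finset.mul_sum, Finset.mul_sum, ← Finset.sum_add_distrib]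
      refine Finset.sum_congr rfl fun n _ => ?_
      conv_rhs => rw [← Complex.re_add_im (g n)]
      rw [hf₁, hf₂]
      push_cast
      ring
    set u := Bf χ a (fun n => D n * f₁ n) t / Bf χ a D t with hu
    set v := Bf χ a (fun n => D n * f₂ n) t / Bf χ a D t with hv
    have e1 : ((β / 4 : ℝ) : ℂ) * ww χ a D (t, t₂) = u + Complex.I * v := by
      rw [hu, hv, ← mul_div_assoc, ← add_div, e0, ww]
      field_simp
    have e2 : β / 4 * ‖ww χ a D (t, t₂)‖ ≤ ‖u‖ + ‖v‖ := by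
      have h1 := norm_add_le u (Complex.I * v)
      rw [← e1, norm_mul, norm_mul, Complex.norm_I, one_mul, Complex.norm_real,
        Real.norm_of_nonneg (by positivity)] at h1
      exact h1
    have e3 : (β / 4 * ‖ww χ a D (t, t₂)‖) ^ 2 ≤ 2 * (‖u‖ ^ 2 + ‖v‖ ^ 2) := by
      have h1 := pow_le_pow_left₀ (by positivity) e2 2
      nlinarith [sq_nonneg (‖u‖ - ‖v‖)]
    have hS : (0 : ℝ) ≤ S * β ^ 2 / 20 := by positivity
    have e4 : S * β ^ 4 / 320 * ‖ww χ a D (t, t₂)‖ ^ 2 ≤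
        1 / 2 * (S * β ^ 2 / 5 * ‖u‖ ^ 2) + 1 / 2 * (S * β ^ 2 / 5 * ‖v‖ ^ 2) := by
      have h1 := mul_le_mul_of_nonneg_left e3 hS
      nlinarith
    have e5 := convexOn_exp.2 (Set.mem_univ (S * β ^ 2 / 5 * ‖u‖ ^ 2))
      (Set.mem_univ (S * β ^ 2 / 5 * ‖v‖ ^ 2)) (show (0 : ℝ) ≤ 1 / 2 by norm_num)
      (show (0 : ℝ) ≤ 1 / 2 by norm_num) (by norm_num)
    simp only [smul_eq_mul] at e5
    have e6 := mul_le_mul_of_nonneg_left ((Real.exp_le_exp.2 e4).trans e5) (r0 t)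
    linarith
  refine (integral_mono_of_nonneg (Filter.Eventually.of_forall fun t => ?_)
    ((i1.add i2).const_mul (1 / 2)) (Filter.Eventually.of_forall key)).trans ?_
  · have := r0 t
    positivity
  · rw [integral_const_mul, integral_add' i1 i2]
    linarith

/-- STEP (1) -/
theorem step_one [IsProbabilityMeasure σ₀] (hχ : IsChar χ) (hD : IsProb D) {b ρ : ℝ} (hb : 0 < b)
    (hc : b ≤ ‖∫ t, Bf χ a D t ∂σ₀‖) {S : ℕ} (hS : 1 ≤ S) (hρ : 0 < ρ) (hρb : ρ ≤ b / 8) :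
    ∃ (D' : ι → ℝ) (B₀ : ℂ) (r : T → ℝ), (∀ n, D' n ≤ 2 / b ^ (2 * S) * D n) ∧ b / 2 ≤ ‖B₀‖ ∧
      Measurable r ∧ (∀ t, 0 ≤ r t ∧ r t ≤ 64 / (ρ ^ 2 * b ^ (2 * S))) ∧
      Cell χ a D' (σ₀.withDensity fun t => ENNReal.ofReal (r t)) B₀ (4 * ρ / b)
        (S * ‖B₀‖ ^ 4 / 320) (Real.log (128 / ρ ^ 2)) := by
  have hb1 : b ≤ 1 := by
    refine hc.trans ((norm_integral_le_of_norm_le_const (C := 1)
      (Filter.Eventually.of_forall fun t => norm_Bf_le_one hχ hD a t)).trans ?_)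
    simp
  obtain ⟨D', hD', hle, hI, hm⟩ := exists_max hχ hD hb hc hS
  obtain ⟨B₀, r, c1, c2, mr, rb, r1, rn, rK⟩ := exists_cell (σ₀ := σ₀) (measurable_Bf hχ a D')
    (norm_Bf_le_one hχ hD' a) hb hρ (by linarith) hS hI
  have hβ : 0 < ‖B₀‖ := by linarith
  have r0 : ∀ t, 0 ≤ r t := fun t => (rb t).1
  have hl : ∀ t, r t ≠ 0 → ‖B₀‖ / 2 ≤ ‖Bf χ a D' t‖ := fun t h => by
    have h1 := rn t h
    have h2 := norm_sub_norm_le B₀ (Bf χ a D' t)
    rw [norm_sub_rev] at h2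
    linarith
  have hI0 : 0 < ∫ t, ‖Bf χ a D' t‖ ^ (2 * S) ∂σ₀ := lt_of_lt_of_le (by positivity) hI
  have ht := tilt_exp (σ₀ := σ₀) (a := a) hχ hD' hβ c2 (K := 32 / ρ ^ 2) (by positivity) mr r0 hI0
    rK hl hm
  have ir : Integrable r σ₀ := Integrable.of_bound mr.aestronglyMeasurable _
    (Filter.Eventually.of_forall fun t => by rw [Real.norm_of_nonneg (r0 t)]; exact (rb t).2)
  set σ := σ₀.withDensity fun t => ENNReal.ofReal (r t) with hσ
  have pm : IsProbabilityMeasure σ := by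
    constructor
    rw [hσ, withDensity_apply _ MeasurableSet.univ, Measure.restrict_univ,
      ← ofReal_integral_eq_lintegral_ofReal ir (Filter.Eventually.of_forall r0), r1]
    simp
  have hae : ∀ᵐ t ∂σ, r t ≠ 0 := by
    rw [hσ, ae_withDensity_iff mr.ennreal_ofReal]
    refine Filter.Eventually.of_forall fun t h h0 => h ?_
    simp [h0]
  refine ⟨D', B₀, r, hle, c1, mr, rb, hχ, hD', pm, hβ, c2, by positivity, ?_, ?_, ?_, ?_⟩
  · rw [div_le_iff₀ hb]; linarith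
  · have : (0 : ℝ) < S := by exact_mod_cast hS
    positivity
  · filter_upwards [hae] with t h
    refine (rn t h).trans ?_
    rw [div_mul_eq_mul_div, le_div_iff₀ hb]
    nlinarith
  · rw [Real.exp_log (by positivity)]
    have mF : Measurable fun p : T × T => Real.exp (S * ‖B₀‖ ^ 4 / 320 * ‖ww χ a D' p‖ ^ 2) :=
      Real.measurable_exp.comp (((measurable_ww hχ a D').norm.pow_const 2).const_mul _)
    have iF : Integrable (fun p : T × T => Real.exp (S * ‖B₀‖ ^ 4 / 320 * ‖ww χ a D' p‖ ^ 2))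
        (σ.prod σ) := by
      refine Integrable.of_bound (C := Real.exp (S * ‖B₀‖ ^ 4 / 320 * (4 / ‖B₀‖ ^ 2 + 1) ^ 2))
        mF.aestronglyMeasurable ?_
      filter_upwards [Measure.quasiMeasurePreserving_fst.ae hae,
        Measure.quasiMeasurePreserving_snd.ae hae] with p h1 h2
      rw [Real.norm_of_nonneg (Real.exp_pos _).le]
      refine Real.exp_le_exp.2 (mul_le_mul_of_nonneg_left
        (pow_le_pow_left₀ (norm_nonneg _) ?_ 2) (by positivity))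
      have l1 := hl _ h1
      have l2 := hl _ h2
      refine (norm_sub_le _ _).trans ?_
      rw [norm_one, norm_div, norm_mul, Complex.norm_conj]
      have l3 : ‖B₀‖ ^ 2 / 4 ≤ ‖Bf χ a D' p.1‖ * ‖Bf χ a D' p.2‖ := by
        have := mul_le_mul l1 l2 (by positivity) (norm_nonneg _)
        linarith
      have l4 : ‖B2 χ a D' p‖ / (‖Bf χ a D' p.1‖ * ‖Bf χ a D' p.2‖) ≤ 1 / (‖B₀‖ ^ 2 / 4) :=
        div_le_div₀ zero_le_one (norm_B2_le_one hχ hD' a p) (by positivity) l3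
      have l5 : 1 / (‖B₀‖ ^ 2 / 4) = 4 / ‖B₀‖ ^ 2 := by field_simp
      linarith
    rw [integral_prod_symm _ iF]
    refine (integral_mono_ae iF.integral_prod_right (integrable_const (128 / ρ ^ 2)) ?_).trans
      (by simp)
    filter_upwards [hae] with t₂ h2
    have h3 := subg_one (σ₀ := σ₀) (a := a) hχ hD' hβ c2 mr r0 (fun t => (rb t).2) hl ht (hl _ h2)
    rw [hσ, integral_withDensity_eq_integral_toReal_smul mr.ennreal_ofReal
      (Filter.Eventually.of_forall fun t => ENNReal.ofReal_lt_top)]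
    simp only [ENNReal.toReal_ofReal (r0 _), smul_eq_mul]
    refine h3.trans (le_of_eq ?_)
    ring

/-- STEP (1), from the mean of the modulus -/
theorem step_one' [IsProbabilityMeasure σ₀] (hχ : IsChar χ) (hD : IsProb D) {b ρ : ℝ} (hb : 0 < b)
    (hc : b ≤ ∫ t, ‖Bf χ a D t‖ ∂σ₀) {S : ℕ} (hS : 1 ≤ S) (hρ : 0 < ρ) (hρb : ρ ≤ b / 8) :
    ∃ (D' : ι → ℝ) (B₀ : ℂ) (r : T → ℝ), (∀ n, D' n ≤ 2 / b ^ (2 * S) * D n) ∧ b / 2 ≤ ‖B₀‖ ∧
      Measurable r ∧ (∀ t, 0 ≤ r t ∧ r t ≤ 64 / (ρ ^ 2 * b ^ (2 * S))) ∧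
      Cell χ a D' (σ₀.withDensity fun t => ENNReal.ofReal (r t)) B₀ (4 * ρ / b)
        (S * ‖B₀‖ ^ 4 / 320) (Real.log (128 / ρ ^ 2)) := by
  have hb1 : b ≤ 1 := by
    refine hc.trans ?_
    have := norm_integral_le_of_norm_le_const (μ := σ₀) (f := fun t => ‖Bf χ a D t‖) (C := 1)
      (Filter.Eventually.of_forall fun t => by simpa using norm_Bf_le_one hχ hD a t)
    exact (le_abs_self _).trans (by simpa using this)
  obtain ⟨D', hD', hle, hI, hm⟩ := exists_max' hχ hD hb hc hS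
  obtain ⟨B₀, r, c1, c2, mr, rb, r1, rn, rK⟩ := exists_cell (σ₀ := σ₀) (measurable_Bf hχ a D')
    (norm_Bf_le_one hχ hD' a) hb hρ (by linarith) hS hI
  have hβ : 0 < ‖B₀‖ := by linarith
  have r0 : ∀ t, 0 ≤ r t := fun t => (rb t).1
  have hl : ∀ t, r t ≠ 0 → ‖B₀‖ / 2 ≤ ‖Bf χ a D' t‖ := fun t h => by
    have h1 := rn t h
    have h2 := norm_sub_norm_le B₀ (Bf χ a D' t)
    rw [norm_sub_rev] at h2
    linarith
  have hI0 : 0 < ∫ t, ‖Bf χ a D' t‖ ^ (2 * S) ∂σ₀ := lt_of_lt_of_le (by positivity) hI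
  have ht := tilt_exp (σ₀ := σ₀) (a := a) hχ hD' hβ c2 (K := 32 / ρ ^ 2) (by positivity) mr r0 hI0
    rK hl hm
  have ir : Integrable r σ₀ := Integrable.of_bound mr.aestronglyMeasurable _
    (Filter.Eventually.of_forall fun t => by rw [Real.norm_of_nonneg (r0 t)]; exact (rb t).2)
  set σ := σ₀.withDensity fun t => ENNReal.ofReal (r t) with hσ
  have pm : IsProbabilityMeasure σ := by
    constructor
    rw [hσ, withDensity_apply _ MeasurableSet.univ, Measure.restrict_univ,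
      ← ofReal_integral_eq_lintegral_ofReal ir (Filter.Eventually.of_forall r0), r1]
    simp
  have hae : ∀ᵐ t ∂σ, r t ≠ 0 := by
    rw [hσ, ae_withDensity_iff mr.ennreal_ofReal]
    refine Filter.Eventually.of_forall fun t h h0 => h ?_
    simp [h0]
  refine ⟨D', B₀, r, hle, c1, mr, rb, hχ, hD', pm, hβ, c2, by positivity, ?_, ?_, ?_, ?_⟩
  · rw [div_le_iff₀ hb]; linarith
  · have : (0 : ℝ) < S := by exact_mod_cast hS
    positivity
  · filter_upwards [hae] with t h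
    refine (rn t h).trans ?_
    rw [div_mul_eq_mul_div, le_div_iff₀ hb]
    nlinarith
  · rw [Real.exp_log (by positivity)]
    have mF : Measurable fun p : T × T => Real.exp (S * ‖B₀‖ ^ 4 / 320 * ‖ww χ a D' p‖ ^ 2) :=
      Real.measurable_exp.comp (((measurable_ww hχ a D').norm.pow_const 2).const_mul _)
    have iF : Integrable (fun p : T × T => Real.exp (S * ‖B₀‖ ^ 4 / 320 * ‖ww χ a D' p‖ ^ 2))
        (σ.prod σ) := by
      refine Integrable.of_bound (C := Real.exp (S * ‖B₀‖ ^ 4 / 320 * (4 / ‖B₀‖ ^ 2 + 1) ^ 2))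
        mF.aestronglyMeasurable ?_
      filter_upwards [Measure.quasiMeasurePreserving_fst.ae hae,
        Measure.quasiMeasurePreserving_snd.ae hae] with p h1 h2
      rw [Real.norm_of_nonneg (Real.exp_pos _).le]
      refine Real.exp_le_exp.2 (mul_le_mul_of_nonneg_left
        (pow_le_pow_left₀ (norm_nonneg _) ?_ 2) (by positivity))
      have l1 := hl _ h1
      have l2 := hl _ h2
      refine (norm_sub_le _ _).trans ?_
      rw [norm_one, norm_div, norm_mul, Complex.norm_conj]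
      have l3 : ‖B₀‖ ^ 2 / 4 ≤ ‖Bf χ a D' p.1‖ * ‖Bf χ a D' p.2‖ := by
        have := mul_le_mul l1 l2 (by positivity) (norm_nonneg _)
        linarith
      have l4 : ‖B2 χ a D' p‖ / (‖Bf χ a D' p.1‖ * ‖Bf χ a D' p.2‖) ≤ 1 / (‖B₀‖ ^ 2 / 4) :=
        div_le_div₀ zero_le_one (norm_B2_le_one hχ hD' a p) (by positivity) l3
      have l5 : 1 / (‖B₀‖ ^ 2 / 4) = 4 / ‖B₀‖ ^ 2 := by field_simp
      linarith
    rw [integral_prod_symm _ iF]
    refine (integral_mono_ae iF.integral_prod_right (integrable_const (128 / ρ ^ 2)) ?_).trans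
      (by simp)
    filter_upwards [hae] with t₂ h2
    have h3 := subg_one (σ₀ := σ₀) (a := a) hχ hD' hβ c2 mr r0 (fun t => (rb t).2) hl ht (hl _ h2)
    rw [hσ, integral_withDensity_eq_integral_toReal_smul mr.ennreal_ofReal
      (Filter.Eventually.of_forall fun t => ENNReal.ofReal_lt_top)]
    simp only [ENNReal.toReal_ofReal (r0 _), smul_eq_mul]
    refine h3.trans (le_of_eq ?_)
    ring

end Crest.Agent.R100.Ad
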