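import Crest.Agent.R100.AdEntDefs

/-! # Row 100, approximate duality (1)-(2): definitions -/

set_option autoImplicit false

noncomputable section

namespace Crest.Agent.R100.Ad

open MeasureTheory Finset Crest.Agent.R100.Ent
open scoped ComplexConjugate

variable {G : Type*} [AddCommGroup G] {ι : Type*} [Fintype ι] {T : Type*} [MeasurableSpace T]

/-- unimodular multiplicative family `χ z t` -/
structure IsChar (χ : G → T → ℂ) : Prop where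
  meas : ∀ z, Measurable (χ z)
  norm : ∀ z t, ‖χ z t‖ = 1
  mul : ∀ z z' t, χ (z + z') t = χ z t * χ z' t

/-- `B(t) = E χ_a(t)` (any weights) -/
def Bf (χ : G → T → ℂ) (a : ι → G) (D : ι → ℝ) (t : T) : ℂ := ∑ n, (D n : ℂ) * χ (a n) t

/-- `B(t₁ - t₂)` -/
def B2 (χ : G → T → ℂ) (a : ι → G) (D : ι → ℝ) (p : T × T) : ℂ :=
  ∑ n, (D n : ℂ) * (χ (a n) p.1 * conj (χ (a n) p.2))

/-- `B(t₁ - t₂) = B(t₁) conj B(t₂) (1 + w)` -/
def ww (χ : G → T → ℂ) (a : ι → G) (D : ι → ℝ) (p : T × T) : ℂ :=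
  B2 χ a D p / (Bf χ a D p.1 * conj (Bf χ a D p.2)) - 1

/-- `Φ = σ^` -/
def Ph (χ : G → T → ℂ) (σ : Measure T) (z : G) : ℂ := ∫ t, χ z t ∂σ

/-- `h = |Φ|²` -/
def hh (χ : G → T → ℂ) (σ : Measure T) (z : G) : ℝ := ‖Ph χ σ z‖ ^ 2

/-- the normalisation `E h(A)` -/
def ZZ (χ : G → T → ℂ) (a : ι → G) (D : ι → ℝ) (σ : Measure T) (s : ℕ) : ℝ :=
  ∫ p, ‖B2 χ a D p‖ ^ (2 * s) ∂σ.prod σ

/-- The output of step (1): on `σ` the function `B` is within relative error `ζ` of `B₀`, and `w` is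
subgaussian. -/
structure Cell (χ : G → T → ℂ) (a : ι → G) (D : ι → ℝ) (σ : Measure T) (B₀ : ℂ) (ζ d L : ℝ) :
    Prop where
  chr : IsChar χ
  prob : IsProb D
  pm : IsProbabilityMeasure σ
  pos : 0 < ‖B₀‖
  le1 : ‖B₀‖ ≤ 1
  z0 : 0 ≤ ζ
  z1 : ζ ≤ 1 / 2
  d0 : 0 < d
  near : ∀ᵐ t ∂σ, ‖Bf χ a D t - B₀‖ ≤ ζ * ‖B₀‖
  subg : ∫ p, Real.exp (d * ‖ww χ a D p‖ ^ 2) ∂σ.prod σ ≤ Real.exp L

end Crest.Agent.R100.Ad
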