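import Crest.Agent.R100.AdMax
import Crest.Agent.R100.AdEnt

/-! # Row 100, approximate duality (2): kernels, tails, NOISE -/

set_option autoImplicit false

noncomputable section

namespace Crest.Agent.R100.Ad

open MeasureTheory Finset Crest.Agent.R100.Ent
open scoped ComplexConjugate

variable {G : Type*} [AddCommGroup G] {ι : Type*} [Fintype ι] {T : Type*} [MeasurableSpace T]
  {χ : G → T → ℂ} {a : ι → G} {D : ι → ℝ} {σ : Measure T} {B₀ : ℂ} {ζ d L : ℝ}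

/-! ### part A: kernel identities -/

theorem IsChar.zero (hχ : IsChar χ) (t : T) : χ 0 t = 1 := by
  have h1 := hχ.mul 0 0 t
  rw [add_zero] at h1
  have h2 : χ 0 t ≠ 0 := by
    intro h
    have := hχ.norm 0 t
    rw [h] at this
    simp at this
  exact (mul_eq_left₀ h2).1 h1.symm

theorem IsChar.neg (hχ : IsChar χ) (z : G) (t : T) : χ (-z) t = conj (χ z t) := by
  have h1 := hχ.mul (-z) z t
  rw [neg_add_cancel, hχ.zero] at h1
  have h2 : χ z t * conj (χ z t) = 1 := by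
    rw [Complex.mul_conj, Complex.normSq_eq_norm_sq, hχ.norm]; simp
  calc χ (-z) t = χ (-z) t * (χ z t * conj (χ z t)) := by rw [h2, mul_one]
    _ = (χ (-z) t * χ z t) * conj (χ z t) := by ring
    _ = conj (χ z t) := by rw [← h1, one_mul]

private theorem h67_sum (φ : G → ℂ) (h0 : φ 0 = 1) (hm : ∀ z z', φ (z + z') = φ z * φ z')
    {κ : Type*} (u : Finset κ) (f : κ → G) : φ (∑ i ∈ u, f i) = ∏ i ∈ u, φ (f i) := by
  classical
  induction u using Finset.induction_on with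
  | empty => simpa using h0
  | insert i u hi ih => rw [Finset.sum_insert hi, Finset.prod_insert hi, hm, ih]

private theorem h67_pw (φ : G → ℂ) (h0 : φ 0 = 1) (hm : ∀ z z', φ (z + z') = φ z * φ z')
    (a : ι → G) (D : ι → ℝ) (s : ℕ) :
    ∑ x, (pw D s x : ℂ) * φ (Zs a s x) = (∑ n, (D n : ℂ) * φ (a n)) ^ s := by
  classical
  rw [Fintype.sum_pow]
  refine Finset.sum_congr (by congr) fun x _ => ?_
  unfold pw Zs
  rw [h67_sum φ h0 hm, Finset.prod_mul_distrib]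
  push_cast
  rfl

private theorem h67_PA (φ : G → ℂ) (h0 : φ 0 = 1) (hm : ∀ z z', φ (z + z') = φ z * φ z')
    (hn : ∀ z, φ (-z) = conj (φ z)) (a : ι → G) (D : ι → ℝ) (s : ℕ) :
    ∑ ω, (PA D s ω : ℂ) * φ (AA a s ω) =
      ((‖∑ n, (D n : ℂ) * φ (a n)‖ ^ (2 * s) : ℝ) : ℂ) := by
  have h1 := h67_pw φ h0 hm a D s
  have h2 : ∑ x, (pw D s x : ℂ) * conj (φ (Zs a s x)) =
      conj ((∑ n, (D n : ℂ) * φ (a n)) ^ s) := by
    rw [← h1, map_sum]
    refine Finset.sum_congr rfl fun x _ => ?_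
    rw [map_mul, Complex.conj_ofReal]
  calc ∑ ω, (PA D s ω : ℂ) * φ (AA a s ω)
      = ∑ x, ∑ y, ((pw D s x : ℂ) * φ (Zs a s x)) * ((pw D s y : ℂ) * conj (φ (Zs a s y))) := by
        rw [Fintype.sum_prod_type]
        refine Finset.sum_congr rfl fun x _ => Finset.sum_congr rfl fun y _ => ?_
        unfold PA AA
        rw [sub_eq_add_neg, hm, hn]
        push_cast
        ring
    _ = (∑ n, (D n : ℂ) * φ (a n)) ^ s * conj ((∑ n, (D n : ℂ) * φ (a n)) ^ s) := by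
        rw [← Finset.sum_mul_sum, h1, h2]
    _ = _ := by
        rw [Complex.mul_conj, Complex.normSq_eq_norm_sq, norm_pow, ← pow_mul, mul_comm s 2]

private theorem h67_m2 (hχ : IsChar χ) (p : T × T) (z z' : G) :
    χ (z + z') p.1 * conj (χ (z + z') p.2) =
      (χ z p.1 * conj (χ z p.2)) * (χ z' p.1 * conj (χ z' p.2)) := by
  rw [hχ.mul, hχ.mul, map_mul]; ring

private theorem h67_meas2 (hχ : IsChar χ) (z z' : G) :
    Measurable (fun p : T × T => χ z p.1 * conj (χ z' p.2)) :=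
  ((hχ.meas z).comp measurable_fst).mul
    (Complex.continuous_conj.measurable.comp ((hχ.meas z').comp measurable_snd))

private theorem h67_norm2 (hχ : IsChar χ) (z z' : G) (p : T × T) :
    ‖χ z p.1 * conj (χ z' p.2)‖ = 1 := by
  rw [norm_mul, Complex.norm_conj, hχ.norm, hχ.norm, mul_one]

private theorem h67_int2 [IsProbabilityMeasure σ] (hχ : IsChar χ) (z z' : G) :
    Integrable (fun p : T × T => χ z p.1 * conj (χ z' p.2)) (σ.prod σ) :=
  Integrable.of_bound (h67_meas2 hχ z z').aestronglyMeasurable 1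
    (Filter.Eventually.of_forall fun p => (h67_norm2 hχ z z' p).le)

private theorem h67_intR [IsProbabilityMeasure σ] (hχ : IsChar χ) (hD : IsProb D) (s : ℕ)
    (z : G) : Integrable
      (fun p : T × T => ‖B2 χ a D p‖ ^ (2 * s) * (χ z p.1 * conj (χ z p.2)).re) (σ.prod σ) := by
  refine Integrable.of_bound (((measurable_B2 hχ a D).norm.pow_const _).mul
    (Complex.measurable_re.comp (h67_meas2 hχ z z))).aestronglyMeasurable 1
    (Filter.Eventually.of_forall fun p => ?_)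
  rw [norm_mul, norm_pow, norm_norm]
  have h1 : ‖B2 χ a D p‖ ^ (2 * s) ≤ 1 := pow_le_one₀ (norm_nonneg _) (norm_B2_le_one hχ hD a p)
  have h2 : ‖(χ z p.1 * conj (χ z p.2)).re‖ ≤ 1 := by
    rw [Real.norm_eq_abs]
    exact (Complex.abs_re_le_norm _).trans (h67_norm2 hχ z z p).le
  exact mul_le_one₀ h1 (norm_nonneg _) h2

theorem sum_pw_chi (hχ : IsChar χ) (a : ι → G) (D : ι → ℝ) (s : ℕ) (t : T) :
    ∑ x, (pw D s x : ℂ) * χ (Zs a s x) t = Bf χ a D t ^ s := by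
  exact h67_pw (fun z => χ z t) (hχ.zero t) (fun z z' => hχ.mul z z' t) a D s

theorem sum_pw_chi2 (hχ : IsChar χ) (a : ι → G) (D : ι → ℝ) (s : ℕ) (p : T × T) :
    ∑ x, (pw D s x : ℂ) * (χ (Zs a s x) p.1 * conj (χ (Zs a s x) p.2)) = B2 χ a D p ^ s := by
  exact h67_pw (fun z => χ z p.1 * conj (χ z p.2)) (by simp [hχ.zero]) (h67_m2 hχ p) a D s

theorem sum_PA_chi (hχ : IsChar χ) (a : ι → G) (D : ι → ℝ) (s : ℕ) (t : T) :
    ∑ ω, (PA D s ω : ℂ) * χ (AA a s ω) t = ((‖Bf χ a D t‖ ^ (2 * s) : ℝ) : ℂ) := by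
  exact h67_PA (fun z => χ z t) (hχ.zero t) (fun z z' => hχ.mul z z' t) (fun z => hχ.neg z t) a D s

theorem sum_PA_chi2 (hχ : IsChar χ) (a : ι → G) (D : ι → ℝ) (s : ℕ) (p : T × T) :
    ∑ ω, (PA D s ω : ℂ) * (χ (AA a s ω) p.1 * conj (χ (AA a s ω) p.2)) =
      ((‖B2 χ a D p‖ ^ (2 * s) : ℝ) : ℂ) := by
  exact h67_PA (fun z => χ z p.1 * conj (χ z p.2)) (by simp [hχ.zero]) (h67_m2 hχ p)
    (fun z => by simp only [hχ.neg, map_mul]) a D s

theorem Ph_mul_conj [IsProbabilityMeasure σ] (hχ : IsChar χ) (z z' : G) :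
    Ph χ σ z * conj (Ph χ σ z') = ∫ p, χ z p.1 * conj (χ z' p.2) ∂σ.prod σ := by
  unfold Ph
  rw [← integral_conj]
  exact (integral_prod_mul (μ := σ) (ν := σ) (fun t => χ z t) (fun t => conj (χ z' t))).symm

/-- the positive kernel -/
theorem kernel [IsProbabilityMeasure σ] (hχ : IsChar χ) (hD : IsProb D) (s : ℕ) (z z' : G) :
    ∑ ω, (PA D s ω : ℂ) * (Ph χ σ (z + AA a s ω) * conj (Ph χ σ (z' + AA a s ω))) =
      ∫ p, ((‖B2 χ a D p‖ ^ (2 * s) : ℝ) : ℂ) * (χ z p.1 * conj (χ z' p.2)) ∂σ.prod σ := by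
  simp only [Ph_mul_conj hχ, ← integral_const_mul]
  rw [← integral_finset_sum _ fun ω _ => (h67_int2 hχ _ _).const_mul _]
  refine integral_congr_ae (Filter.Eventually.of_forall fun p => ?_)
  simp only
  rw [← sum_PA_chi2 hχ a D s p, Finset.sum_mul]
  refine Finset.sum_congr rfl fun ω _ => ?_
  rw [hχ.mul, hχ.mul, map_mul]
  ring

theorem GA_eq [IsProbabilityMeasure σ] (hχ : IsChar χ) (hD : IsProb D) (s : ℕ) (z : G) :
    GA D a (hh χ σ) s z =
      ∫ p, ‖B2 χ a D p‖ ^ (2 * s) * (χ z p.1 * conj (χ z p.2)).re ∂σ.prod σ := by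
  have h1 := congrArg Complex.re (kernel (σ := σ) (a := a) hχ hD s z z)
  have hi : Integrable (fun p : T × T =>
      ((‖B2 χ a D p‖ ^ (2 * s) : ℝ) : ℂ) * (χ z p.1 * conj (χ z p.2))) (σ.prod σ) := by
    refine Integrable.of_bound ((Complex.measurable_ofReal.comp
      ((measurable_B2 hχ a D).norm.pow_const _)).mul
      (h67_meas2 hχ z z)).aestronglyMeasurable 1 (Filter.Eventually.of_forall fun p => ?_)
    rw [norm_mul, h67_norm2 hχ, mul_one, Complex.norm_real, norm_pow, norm_norm]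
    exact pow_le_one₀ (norm_nonneg _) (norm_B2_le_one hχ hD a p)
  have h2 := integral_re hi
  simp only [RCLike.re_to_complex, Complex.re_ofReal_mul] at h2
  rw [h2, ← h1, Complex.re_sum]
  unfold GA hh
  refine Finset.sum_congr rfl fun ω _ => ?_
  rw [Complex.re_ofReal_mul, Complex.mul_conj, Complex.ofReal_re, Complex.normSq_eq_norm_sq]

theorem GA_zero [IsProbabilityMeasure σ] (hχ : IsChar χ) (hD : IsProb D) (s : ℕ) :
    GA D a (hh χ σ) s 0 = ZZ χ a D σ s := by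
  rw [GA_eq hχ hD]
  unfold ZZ
  simp [hχ.zero]

theorem GA_le [IsProbabilityMeasure σ] (hχ : IsChar χ) (hD : IsProb D) (s : ℕ) (z : G) :
    GA D a (hh χ σ) s z ≤ ZZ χ a D σ s := by
  rw [← GA_zero hχ hD, GA_eq hχ hD, GA_eq hχ hD]
  refine integral_mono (h67_intR hχ hD s z) (h67_intR hχ hD s 0) fun p => ?_
  refine mul_le_mul_of_nonneg_left ?_ (by positivity)
  have h1 : (χ 0 p.1 * conj (χ 0 p.2)).re = 1 := by simp [hχ.zero]
  rw [h1]
  exact (Complex.re_le_norm _).trans (h67_norm2 hχ z z p).le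

theorem GA_GA [IsProbabilityMeasure σ] (hχ : IsChar χ) (hD : IsProb D) (s r : ℕ) (z : G) :
    ∑ x, PA D r x * GA D a (hh χ σ) s (AA a r x + z) = GA D a (hh χ σ) (s + r) z := by
  simp only [GA_eq hχ hD, ← integral_const_mul]
  rw [← integral_finset_sum _ fun x _ => (h67_intR hχ hD s _).const_mul _]
  refine integral_congr_ae (Filter.Eventually.of_forall fun p => ?_)
  simp only
  have h1 := congrArg (fun w => (w * (χ z p.1 * conj (χ z p.2))).re) (sum_PA_chi2 hχ a D r p)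
  simp only [Finset.sum_mul, Complex.re_sum, mul_assoc, Complex.re_ofReal_mul] at h1
  have h2 : ‖B2 χ a D p‖ ^ (2 * (s + r)) = ‖B2 χ a D p‖ ^ (2 * s) * ‖B2 χ a D p‖ ^ (2 * r) := by
    rw [← pow_add]; congr 1; ring
  rw [h2, mul_assoc, ← h1, Finset.mul_sum]
  refine Finset.sum_congr rfl fun x _ => ?_
  rw [h67_m2 hχ p, mul_assoc (χ (AA a r x) p.1)]
  ring

/-! ### part B: tails -/

private theorem h94_low {B₀ z : ℂ} {ζ : ℝ} (hz : ‖z - B₀‖ ≤ ζ * ‖B₀‖) :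
    (1 - ζ) * ‖B₀‖ ≤ ‖z‖ ∧ ‖z‖ ≤ (1 + ζ) * ‖B₀‖ := by
  have h1 := norm_sub_norm_le z B₀
  have h2 := norm_sub_norm_le B₀ z
  rw [norm_sub_rev] at h2
  constructor <;> linarith

theorem Cell.ZZ_ge (h : Cell χ a D σ B₀ ζ d L) (s : ℕ) :
    ((1 - ζ) * ‖B₀‖) ^ (4 * s) ≤ ZZ χ a D σ s := by
  have := h.pm
  have hP := h.prob.PA s
  have hb : 0 ≤ (1 - ζ) * ‖B₀‖ := mul_nonneg (by linarith [h.z1]) (norm_nonneg _)
  have hi : ∀ z, Integrable (χ z) σ := fun z =>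
    Integrable.of_bound (h.chr.meas z).aestronglyMeasurable 1
      (Filter.Eventually.of_forall fun t => (h.chr.norm z t).le)
  have h1 : ∑ ω, (PA D s ω : ℂ) * Ph χ σ (AA a s ω) =
      ((∫ t, ‖Bf χ a D t‖ ^ (2 * s) ∂σ : ℝ) : ℂ) := by
    simp only [Ph, ← integral_const_mul]
    rw [← integral_finsetSum _ fun ω _ => (hi _).const_mul _, ← integral_complex_ofReal]
    exact integral_congr_ae (Filter.Eventually.of_forall fun t => sum_PA_chi h.chr a D s t)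
  have h2 : ((1 - ζ) * ‖B₀‖) ^ (2 * s) ≤ ∫ t, ‖Bf χ a D t‖ ^ (2 * s) ∂σ := by
    have := integral_mono_ae (integrable_const (((1 - ζ) * ‖B₀‖) ^ (2 * s)))
      (Integrable.of_bound (f := fun t => ‖Bf χ a D t‖ ^ (2 * s))
        ((measurable_Bf h.chr a D).norm.pow_const _).aestronglyMeasurable 1
        (Filter.Eventually.of_forall fun t => by
          rw [norm_pow, norm_norm]
          exact pow_le_one₀ (norm_nonneg _) (norm_Bf_le_one h.chr h.prob a t)))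
      (h.near.mono fun t ht => pow_le_pow_left₀ hb (h94_low ht).1 _)
    simpa using this
  have h3 : ((1 - ζ) * ‖B₀‖) ^ (2 * s) ≤ ∑ ω, PA D s ω * ‖Ph χ σ (AA a s ω)‖ := by
    refine h2.trans ((le_abs_self _).trans ?_)
    rw [← Real.norm_eq_abs, ← Complex.norm_real, ← h1]
    refine (norm_sum_le _ _).trans (Finset.sum_le_sum fun ω _ => ?_)
    rw [norm_mul, Complex.norm_real, Real.norm_of_nonneg (hP.nn ω)]
  rw [← GA_zero h.chr h.prob, show 4 * s = 2 * s * 2 by ring, pow_mul]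
  have hm : 0 ≤ ((1 - ζ) * ‖B₀‖) ^ (2 * s) := pow_nonneg hb _
  generalize ((1 - ζ) * ‖B₀‖) ^ (2 * s) = m at *
  have h4 : ∑ ω, (2 * m * (PA D s ω * ‖Ph χ σ (AA a s ω)‖) - m ^ 2 * PA D s ω) ≤
      GA D a (hh χ σ) s 0 := by
    refine Finset.sum_le_sum fun ω _ => ?_
    rw [zero_add, hh]
    nlinarith [mul_nonneg (hP.nn ω) (sq_nonneg (‖Ph χ σ (AA a s ω)‖ - m))]
  rw [Finset.sum_sub_distrib, ← Finset.mul_sum, ← Finset.mul_sum, hP.one] at h4
  nlinarith [mul_le_mul_of_nonneg_left h3 hm]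

theorem Cell.B2_eq (h : Cell χ a D σ B₀ ζ d L) : ∀ᵐ p ∂σ.prod σ,
    ‖Bf χ a D p.1 - B₀‖ ≤ ζ * ‖B₀‖ ∧ ‖Bf χ a D p.2 - B₀‖ ≤ ζ * ‖B₀‖ ∧
      B2 χ a D p = Bf χ a D p.1 * conj (Bf χ a D p.2) * (1 + ww χ a D p) ∧
      ‖ww χ a D p‖ ≤ 4 / ‖B₀‖ ^ 2 + 1 := by
  have := h.pm
  filter_upwards [(Measure.quasiMeasurePreserving_fst (μ := σ) (ν := σ)).ae h.near,
    (Measure.quasiMeasurePreserving_snd (μ := σ) (ν := σ)).ae h.near] with p h1 h2
  have hb := h.pos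
  have hz := h.z1
  have h3 : ‖B₀‖ / 2 ≤ ‖Bf χ a D p.1‖ := le_trans (by nlinarith) (h94_low h1).1
  have h4 : ‖B₀‖ / 2 ≤ ‖Bf χ a D p.2‖ := le_trans (by nlinarith) (h94_low h2).1
  have h5 : ‖B₀‖ ^ 2 / 4 ≤ ‖Bf χ a D p.1 * conj (Bf χ a D p.2)‖ := by
    rw [norm_mul, Complex.norm_conj]
    nlinarith [mul_le_mul h3 h4 (by positivity) (norm_nonneg _)]
  have h6 : Bf χ a D p.1 * conj (Bf χ a D p.2) ≠ 0 :=
    norm_pos_iff.1 (lt_of_lt_of_le (by positivity) h5)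
  refine ⟨h1, h2, ?_, ?_⟩
  · rw [ww, add_sub_cancel, mul_div_cancel₀ _ h6]
  · refine (norm_sub_le _ _).trans ?_
    rw [norm_one, norm_div]
    have := div_le_div₀ zero_le_one (norm_B2_le_one h.chr h.prob a p) (by positivity) h5
    rw [one_div_div] at this
    linarith

private theorem h94_int (h : Cell χ a D σ B₀ ζ d L) {φ : T × T → ℝ} (hφ : Measurable φ) {l : ℝ}
    (l0 : 0 ≤ l) (hb : ∀ p, |φ p| ≤ Real.exp (l * ‖ww χ a D p‖)) : Integrable φ (σ.prod σ) := by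
  have := h.pm
  exact Integrable.of_bound hφ.aestronglyMeasurable (Real.exp (l * (4 / ‖B₀‖ ^ 2 + 1)))
    (h.B2_eq.mono fun p hp => (hb p).trans
      (Real.exp_le_exp.2 (mul_le_mul_of_nonneg_left hp.2.2.2 l0)))

private theorem h94_tail_int (h : Cell χ a D σ B₀ ζ d L) {l : ℝ} (l0 : 0 ≤ l) (u : ℝ) :
    Integrable (fun p => if u < ‖ww χ a D p‖ then Real.exp (l * ‖ww χ a D p‖) else 0)
      (σ.prod σ) := by
  have hw := (measurable_ww h.chr a D).norm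
  refine h94_int h (Measurable.ite (measurableSet_lt measurable_const hw)
    (hw.const_mul l).exp measurable_const) l0 fun p => ?_
  split_ifs
  · exact (abs_of_pos (Real.exp_pos _)).le
  · rw [abs_zero]; exact (Real.exp_pos _).le

private theorem h94_split {l u x : ℝ} (l0 : 0 ≤ l) (hx : 0 ≤ x) (hlu : l * u ≤ 1)
    (hxu : ¬ u < x) : Real.exp (l * x) - 1 ≤ 2 * (l * u) := by
  have h1 : l * x ≤ l * u := mul_le_mul_of_nonneg_left (not_lt.1 hxu) l0
  have h2 : 0 ≤ l * x := mul_nonneg l0 hx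
  have h3 := Real.abs_exp_sub_one_le (x := l * x) (by rw [abs_of_nonneg h2]; linarith)
  rw [abs_of_nonneg h2] at h3
  linarith [le_abs_self (Real.exp (l * x) - 1)]

theorem Cell.tail (h : Cell χ a D σ B₀ ζ d L) {l u : ℝ} (hu : 0 ≤ u) (hl : 2 * l ≤ d * u) :
    ∫ p, (if u < ‖ww χ a D p‖ then Real.exp (l * ‖ww χ a D p‖) else 0) ∂σ.prod σ ≤
      Real.exp (L - d * u ^ 2 / 2) := by
  have := h.pm
  have hd := h.d0
  have hw := (measurable_ww h.chr a D).norm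
  have hi : Integrable (fun p => Real.exp (d * ‖ww χ a D p‖ ^ 2)) (σ.prod σ) :=
    Integrable.of_bound ((hw.pow_const 2).const_mul d).exp.aestronglyMeasurable
      (Real.exp (d * (4 / ‖B₀‖ ^ 2 + 1) ^ 2)) (h.B2_eq.mono fun p hp => by
        rw [Real.norm_of_nonneg (Real.exp_pos _).le]
        exact Real.exp_le_exp.2 (mul_le_mul_of_nonneg_left
          (pow_le_pow_left₀ (norm_nonneg _) hp.2.2.2 2) hd.le))
  refine (integral_mono_of_nonneg (Filter.Eventually.of_forall fun p => ?_)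
    (hi.const_mul (Real.exp (-(d * u ^ 2 / 2)))) (Filter.Eventually.of_forall fun p => ?_)).trans ?_
  · dsimp only [Pi.zero_apply]
    split_ifs
    · exact (Real.exp_pos _).le
    · exact le_rfl
  · dsimp only
    split_ifs with hp
    · rw [← Real.exp_add]
      refine Real.exp_le_exp.2 ?_
      have hx := norm_nonneg (ww χ a D p)
      generalize ‖ww χ a D p‖ = x at *
      have e1 := mul_le_mul_of_nonneg_right hl hx
      have e2 := mul_le_mul_of_nonneg_left (mul_le_mul_of_nonneg_right hp.le hx) hd.le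
      have e3 := mul_le_mul_of_nonneg_left (pow_le_pow_left₀ hu hp.le 2) hd.le
      nlinarith
    · positivity
  · rw [integral_const_mul, sub_eq_add_neg, add_comm, Real.exp_add]
    exact mul_le_mul_of_nonneg_left h.subg (Real.exp_pos _).le

theorem Cell.exp_base (h : Cell χ a D σ B₀ ζ d L) {l u : ℝ} (l0 : 0 ≤ l) (hu : 0 ≤ u)
    (hl : 2 * l ≤ d * u) (hlu : l * u ≤ 1) :
    ∫ p, (Real.exp (l * ‖ww χ a D p‖) - 1) ∂σ.prod σ ≤
      2 * (l * u) + Real.exp (L - d * u ^ 2 / 2) := by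
  have := h.pm
  have hi := h94_tail_int h l0 u
  refine (integral_mono_of_nonneg (Filter.Eventually.of_forall fun p => ?_)
    ((integrable_const (2 * (l * u))).add hi) (Filter.Eventually.of_forall fun p => ?_)).trans ?_
  · exact sub_nonneg.2 (Real.one_le_exp (mul_nonneg l0 (norm_nonneg _)))
  · dsimp only [Pi.add_apply]
    split_ifs with hp
    · linarith [mul_nonneg l0 hu]
    · linarith [h94_split l0 (norm_nonneg _) hlu hp]
  · simp only [Pi.add_apply]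
    rw [integral_add (integrable_const _) hi, integral_const]
    simp only [probReal_univ, smul_eq_mul, one_mul]
    linarith [h.tail hu hl]

private theorem h94_B2int (h : Cell χ a D σ B₀ ζ d L) (s : ℕ) :
    Integrable (fun p => ‖B2 χ a D p‖ ^ (2 * s)) (σ.prod σ) := by
  refine h94_int h ((measurable_B2 h.chr a D).norm.pow_const _) le_rfl fun p => ?_
  rw [zero_mul, Real.exp_zero, abs_of_nonneg (by positivity)]
  exact pow_le_one₀ (norm_nonneg _) (norm_B2_le_one h.chr h.prob a p)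

private theorem h94_ratio {ζ : ℝ} (z0 : 0 ≤ ζ) (z1 : ζ ≤ 1 / 2) (s : ℕ) (hz : 32 * s * ζ ≤ 1) :
    (1 + ζ) ^ (4 * s) ≤ 2 * (1 - ζ) ^ (4 * s) := by
  have h1 := one_add_mul_le_pow (a := -ζ) (by linarith) (4 * s)
  have h2 : (1 + ζ) ^ (4 * s) * (1 - ζ) ^ (4 * s) ≤ 1 := by
    rw [← mul_pow]
    exact pow_le_one₀ (by nlinarith) (by nlinarith)
  have h3 : 0 ≤ (1 + ζ) ^ (4 * s) := by positivity
  rw [← sub_eq_add_neg] at h1
  push_cast at h1
  have h4 : 7 / 8 ≤ (1 - ζ) ^ (4 * s) := by linarith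
  nlinarith [mul_le_mul_of_nonneg_left h4 h3]

/-- MASTER estimate under `Π ∼ |B2|^(2 s) σ ⊗ σ` -/
theorem Cell.exp_Pi (h : Cell χ a D σ B₀ ζ d L) (s : ℕ) (hz : 32 * s * ζ ≤ 1) {l u : ℝ}
    (l0 : 0 ≤ l) (hu : 0 ≤ u) (hl : 2 * (2 * s + l) ≤ d * u) (hlu : l * u ≤ 1) :
    ∫ p, ‖B2 χ a D p‖ ^ (2 * s) * (Real.exp (l * ‖ww χ a D p‖) - 1) ∂σ.prod σ ≤
      ZZ χ a D σ s * (2 * (l * u) + 2 * Real.exp (L - d * u ^ 2 / 2)) := by
  have := h.pm
  have l1 : 0 ≤ 2 * (s : ℝ) + l := by positivity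
  have hi := h94_tail_int h l1 u
  have hB := h94_B2int h s
  have z0 := h.z0
  have hM : 0 ≤ ((1 + ζ) * ‖B₀‖) ^ (4 * s) := by positivity
  have hMZ : ((1 + ζ) * ‖B₀‖) ^ (4 * s) ≤ 2 * ZZ χ a D σ s := by
    refine le_trans ?_ (mul_le_mul_of_nonneg_left (h.ZZ_ge s) zero_le_two)
    rw [mul_pow, mul_pow, ← mul_assoc]
    exact mul_le_mul_of_nonneg_right (h94_ratio z0 h.z1 s hz) (by positivity)
  refine (integral_mono_of_nonneg (Filter.Eventually.of_forall fun p => ?_)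
    ((hB.mul_const (2 * (l * u))).add (hi.const_mul (((1 + ζ) * ‖B₀‖) ^ (4 * s))))
    (h.B2_eq.mono fun p hp => ?_)).trans ?_
  · exact mul_nonneg (by positivity)
      (sub_nonneg.2 (Real.one_le_exp (mul_nonneg l0 (norm_nonneg _))))
  · dsimp only [Pi.add_apply]
    have hp0 : 0 ≤ ‖B2 χ a D p‖ ^ (2 * s) := by positivity
    split_ifs with hpu
    · have e1 : ‖B2 χ a D p‖ ≤ ((1 + ζ) * ‖B₀‖) ^ 2 * Real.exp ‖ww χ a D p‖ := by
        rw [hp.2.2.1, norm_mul, norm_mul, Complex.norm_conj, sq]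
        refine mul_le_mul (mul_le_mul (h94_low hp.1).2 (h94_low hp.2.1).2 (norm_nonneg _)
          (by positivity)) ((norm_add_le _ _).trans ?_) (norm_nonneg _) (by positivity)
        rw [norm_one, add_comm]
        exact Real.add_one_le_exp _
      have e2 := pow_le_pow_left₀ (norm_nonneg _) e1 (2 * s)
      rw [mul_pow, ← pow_mul, ← Real.exp_nat_mul, show 2 * (2 * s) = 4 * s by ring] at e2
      have e3 := mul_le_mul_of_nonneg_right e2 (Real.exp_pos (l * ‖ww χ a D p‖)).le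
      rw [mul_assoc, ← Real.exp_add, ← add_mul] at e3
      push_cast at e3
      have e4 := mul_nonneg hp0 (mul_nonneg l0 hu)
      nlinarith
    · have := mul_le_mul_of_nonneg_left (h94_split l0 (norm_nonneg _) hlu hpu) hp0
      linarith
  · simp only [Pi.add_apply]
    rw [integral_add (hB.mul_const _) (hi.const_mul _), integral_mul_const, integral_const_mul]
    have e1 := mul_le_mul_of_nonneg_left (h.tail hu hl) hM
    have e2 := mul_le_mul_of_nonneg_right hMZ (Real.exp_pos (L - d * u ^ 2 / 2)).le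
    change ZZ χ a D σ s * _ + _ ≤ _
    linarith

theorem Cell.w_Pi (h : Cell χ a D σ B₀ ζ d L) (s : ℕ) (hz : 32 * s * ζ ≤ 1) {u : ℝ}
    (hu : 0 ≤ u) (hl : 2 * (2 * s + 1) ≤ d * u) (hu1 : u ≤ 1) :
    ∫ p, ‖B2 χ a D p‖ ^ (2 * s) * ‖ww χ a D p‖ ∂σ.prod σ ≤
      ZZ χ a D σ s * (2 * u + 2 * Real.exp (L - d * u ^ 2 / 2)) := by
  have hw := (measurable_ww h.chr a D).norm
  have h1 := h.exp_Pi s hz zero_le_one hu hl (by linarith)
  rw [one_mul u] at h1
  refine le_trans (integral_mono_of_nonneg (Filter.Eventually.of_forall fun p => by positivity)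
    (h94_int h (((measurable_B2 h.chr a D).norm.pow_const _).mul
      ((hw.const_mul 1).exp.sub_const 1)) zero_le_one fun p => ?_)
    (Filter.Eventually.of_forall fun p => ?_)) h1
  · have e1 : ‖B2 χ a D p‖ ^ (2 * s) ≤ 1 :=
      pow_le_one₀ (norm_nonneg _) (norm_B2_le_one h.chr h.prob a p)
    have e2 : 0 ≤ Real.exp (1 * ‖ww χ a D p‖) - 1 :=
      sub_nonneg.2 (Real.one_le_exp (by positivity))
    rw [Pi.mul_apply, abs_of_nonneg (mul_nonneg (pow_nonneg (norm_nonneg _) _) e2)]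
    linarith [mul_le_mul_of_nonneg_right e1 e2]
  · refine mul_le_mul_of_nonneg_left ?_ (pow_nonneg (norm_nonneg _) _)
    dsimp only
    rw [one_mul]
    linarith [Real.add_one_le_exp ‖ww χ a D p‖]

/-! ### part C: NOISE -/

private theorem h58_pow {E : Type*} [NormedField E] {z b : E} {ζ : ℝ} (h0 : 0 ≤ ζ)
    (h : ‖z - b‖ ≤ ζ * ‖b‖) (n : ℕ) : ‖z ^ n - b ^ n‖ ≤ ((1 + ζ) ^ n - 1) * ‖b‖ ^ n := by
  induction n with
  | zero => simp
  | succ n ih =>
    have hz : ‖z‖ ≤ (1 + ζ) * ‖b‖ := by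
      calc ‖z‖ = ‖(z - b) + b‖ := by ring_nf
        _ ≤ ‖z - b‖ + ‖b‖ := norm_add_le _ _
        _ ≤ _ := by linarith
    have e : z ^ (n + 1) - b ^ (n + 1) = z * (z ^ n - b ^ n) + (z - b) * b ^ n := by ring
    have h1 : 0 ≤ (1 + ζ) ^ n - 1 := by
      have := one_le_pow₀ (show (1 : ℝ) ≤ 1 + ζ by linarith) (n := n)
      linarith
    have hb : 0 ≤ ‖b‖ ^ n := by positivity
    calc ‖z ^ (n + 1) - b ^ (n + 1)‖ ≤ ‖z‖ * ‖z ^ n - b ^ n‖ + ‖z - b‖ * ‖b‖ ^ n := by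
          rw [e]
          refine (norm_add_le _ _).trans ?_
          rw [norm_mul, norm_mul, norm_pow]
      _ ≤ ((1 + ζ) * ‖b‖) * (((1 + ζ) ^ n - 1) * ‖b‖ ^ n) + (ζ * ‖b‖) * ‖b‖ ^ n := by
          gcongr
      _ = _ := by ring

private theorem h58_exp {x : ℝ} (h0 : 0 ≤ x) (n : ℕ) : (1 + x) ^ n ≤ Real.exp (n * x) := by
  rw [Real.exp_nat_mul]
  exact pow_le_pow_left₀ (by linarith) (by linarith [Real.add_one_le_exp x]) n

private theorem h58_pow2 {E : Type*} [NormedField E] {z b : E} {ζ : ℝ} (h0 : 0 ≤ ζ)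
    (h : ‖z - b‖ ≤ ζ * ‖b‖) (n : ℕ) (hn : n * ζ ≤ 1) :
    ‖z ^ n - b ^ n‖ ≤ 2 * (n * ζ) * ‖b‖ ^ n := by
  refine (h58_pow h0 h n).trans ?_
  have h1 := h58_exp h0 n
  have h2 : 0 ≤ (n : ℝ) * ζ := by positivity
  have h3 := Real.abs_exp_sub_one_le (x := n * ζ) (by rwa [abs_of_nonneg h2])
  rw [abs_of_nonneg h2] at h3
  have h4 := le_abs_self (Real.exp (n * ζ) - 1)
  have hb : 0 ≤ ‖b‖ ^ n := by positivity
  exact mul_le_mul_of_nonneg_right (by linarith) hb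

private theorem h58_one_add (w : ℂ) (n : ℕ) : ‖(1 + w) ^ n - 1‖ ≤ Real.exp (n * ‖w‖) - 1 := by
  have := h58_pow (z := 1 + w) (b := 1) (norm_nonneg w) (by simp) n
  have h1 := h58_exp (norm_nonneg w) n
  simp only [one_pow, norm_one, mul_one] at this
  linarith

private theorem h58_intg (h : Cell χ a D σ B₀ ζ d L) (s : ℕ) {F : T × T → ℝ} (mF : Measurable F)
    {M : ℝ} (hF : ∀ᵐ p ∂σ.prod σ, |F p| ≤ M) :
    Integrable (fun p => ‖B2 χ a D p‖ ^ (2 * s) * F p) (σ.prod σ) := by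
  have := h.pm
  refine Integrable.of_bound (((measurable_B2 h.chr a D).norm.pow_const _).mul mF).aestronglyMeasurable
    M ?_
  filter_upwards [hF] with p hp
  rw [Real.norm_eq_abs, abs_mul, abs_of_nonneg (by positivity)]
  have h1 : ‖B2 χ a D p‖ ^ (2 * s) ≤ 1 :=
    pow_le_one₀ (norm_nonneg _) (norm_B2_le_one h.chr h.prob a p)
  have h2 := abs_nonneg (F p)
  nlinarith

private theorem h58_mono (h : Cell χ a D σ B₀ ζ d L) (s : ℕ) {F φ : T × T → ℝ} (mF : Measurable F)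
    (mφ : Measurable φ) {M M' : ℝ} (hF : ∀ᵐ p ∂σ.prod σ, |F p| ≤ M)
    (hφ : ∀ᵐ p ∂σ.prod σ, |φ p| ≤ M') {A C : ℝ} (hle : ∀ᵐ p ∂σ.prod σ, F p ≤ A * φ p + C) :
    ∫ p, ‖B2 χ a D p‖ ^ (2 * s) * F p ∂σ.prod σ ≤
      A * ∫ p, ‖B2 χ a D p‖ ^ (2 * s) * φ p ∂σ.prod σ + C * ZZ χ a D σ s := by
  have i1 := h58_intg h s mF hF
  have i2 := h58_intg h s mφ hφ
  have i3 : Integrable (fun p => ‖B2 χ a D p‖ ^ (2 * s)) (σ.prod σ) := by
    have := h58_intg h s (F := fun _ => 1) measurable_const (M := 1) (by simp)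
    simpa using this
  unfold ZZ
  rw [← integral_const_mul, ← integral_const_mul, ← integral_add (i2.const_mul _) (i3.const_mul _)]
  refine integral_mono_ae i1 ((i2.const_mul _).add (i3.const_mul _)) ?_
  filter_upwards [hle] with p hp
  have h0 : 0 ≤ ‖B2 χ a D p‖ ^ (2 * s) := by positivity
  have := mul_le_mul_of_nonneg_left hp h0
  linarith

private theorem h58_ik (h : Cell χ a D σ B₀ ζ d L) (s : ℕ) (z z' : G) :
    Integrable (fun p : T × T => ((‖B2 χ a D p‖ ^ (2 * s) : ℝ) : ℂ) * (χ z p.1 * conj (χ z' p.2)))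
      (σ.prod σ) := by
  have := h.pm
  have m1 : Measurable fun p : T × T => ((‖B2 χ a D p‖ ^ (2 * s) : ℝ) : ℂ) :=
    Complex.measurable_ofReal.comp ((measurable_B2 h.chr a D).norm.pow_const _)
  have m2 : Measurable fun p : T × T => χ z p.1 := (h.chr.meas z).comp measurable_fst
  have m3 : Measurable fun p : T × T => conj (χ z' p.2) :=
    Complex.continuous_conj.measurable.comp ((h.chr.meas z').comp measurable_snd)
  refine Integrable.of_bound (m1.mul (m2.mul m3)).aestronglyMeasurable 1 (ae_of_all _ fun p => ?_)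
  rw [norm_mul, norm_mul, Complex.norm_conj, h.chr.norm, h.chr.norm, Complex.norm_real,
    Real.norm_eq_abs, abs_of_nonneg (by positivity)]
  simpa using pow_le_one₀ (norm_nonneg _) (norm_B2_le_one h.chr h.prob a p)

private theorem h58_one (h : Cell χ a D σ B₀ ζ d L) (s : ℕ) (z : G) (c : ℂ) :
    ((∑ ω, PA D s ω * ‖Ph χ σ (z + AA a s ω) - c * Ph χ σ (AA a s ω)‖ ^ 2 : ℝ) : ℂ) =
      ∫ p, ((‖B2 χ a D p‖ ^ (2 * s) : ℝ) : ℂ) * (χ z p.1 * conj (χ z p.2) - conj c * χ z p.1 -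
        c * conj (χ z p.2) + c * conj c) ∂σ.prod σ := by
  have := h.pm
  have k1 := kernel (a := a) (σ := σ) h.chr h.prob s z z
  have k2 := kernel (a := a) (σ := σ) h.chr h.prob s z 0
  have k3 := kernel (a := a) (σ := σ) h.chr h.prob s 0 z
  have k4 := kernel (a := a) (σ := σ) h.chr h.prob s 0 0
  have i1 := h58_ik h s z z
  have i2 := (h58_ik h s z 0).const_mul (conj c)
  have i3 := (h58_ik h s 0 z).const_mul c
  have i4 := (h58_ik h s 0 0).const_mul (c * conj c)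
  have e : ∀ p : T × T, ((‖B2 χ a D p‖ ^ (2 * s) : ℝ) : ℂ) * (χ z p.1 * conj (χ z p.2) -
      conj c * χ z p.1 - c * conj (χ z p.2) + c * conj c) =
      ((‖B2 χ a D p‖ ^ (2 * s) : ℝ) : ℂ) * (χ z p.1 * conj (χ z p.2)) -
      conj c * (((‖B2 χ a D p‖ ^ (2 * s) : ℝ) : ℂ) * (χ z p.1 * conj (χ 0 p.2))) -
      c * (((‖B2 χ a D p‖ ^ (2 * s) : ℝ) : ℂ) * (χ 0 p.1 * conj (χ z p.2))) +
      c * conj c * (((‖B2 χ a D p‖ ^ (2 * s) : ℝ) : ℂ) * (χ 0 p.1 * conj (χ 0 p.2))) := by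
    intro p
    rw [h.chr.zero, h.chr.zero, map_one]
    ring
  simp_rw [e]
  rw [integral_add (by exact (i1.sub i2).sub i3) i4, integral_sub (by exact i1.sub i2) i3,
    integral_sub i1 i2,
    integral_const_mul, integral_const_mul, integral_const_mul, ← k1, ← k2, ← k3, ← k4,
    Finset.mul_sum, Finset.mul_sum, Finset.mul_sum, ← Finset.sum_sub_distrib,
    ← Finset.sum_sub_distrib, ← Finset.sum_add_distrib, Complex.ofReal_sum]
  refine Finset.sum_congr rfl fun ω _ => ?_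
  rw [zero_add, Complex.ofReal_mul, Complex.ofReal_pow, ← Complex.mul_conj', map_sub, map_mul]
  ring

/-- the integrand of the expanded square -/
private def h58F {K : Type*} [Fintype K] (χ : G → T → ℂ) (z : K → G) (W : K → ℝ) (c : ℂ)
    (p : T × T) : ℂ :=
  B2 χ z W p - conj c * Bf χ z W p.1 - c * conj (Bf χ z W p.2) + c * conj c

private theorem h58_exp_sq (h : Cell χ a D σ B₀ ζ d L) (s : ℕ) {K : Type*} [Fintype K] {W : K → ℝ}
    (hW : IsProb W) (z : K → G) (c : ℂ) :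
    ∑ k, W k * ∑ ω, PA D s ω * ‖Ph χ σ (z k + AA a s ω) - c * Ph χ σ (AA a s ω)‖ ^ 2 =
      ∫ p, ‖B2 χ a D p‖ ^ (2 * s) * (h58F χ z W c p).re ∂σ.prod σ := by
  have := h.pm
  have ik : ∀ k, Integrable (fun p : T × T => (W k : ℂ) * (((‖B2 χ a D p‖ ^ (2 * s) : ℝ) : ℂ) *
      (χ (z k) p.1 * conj (χ (z k) p.2) - conj c * χ (z k) p.1 -
        c * conj (χ (z k) p.2) + c * conj c))) (σ.prod σ) := by
    intro k
    have i1 := h58_ik h s (z k) (z k)
    have i2 := (h58_ik h s (z k) 0).const_mul (conj c)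
    have i3 := (h58_ik h s 0 (z k)).const_mul c
    have i4 := (h58_ik h s 0 0).const_mul (c * conj c)
    refine ((((i1.sub i2).sub i3).add i4).congr (ae_of_all _ fun p => ?_)).const_mul _
    simp only [Pi.add_apply, Pi.sub_apply]
    rw [h.chr.zero, h.chr.zero, map_one]
    ring
  have e : ∀ p : T × T, ∑ k, (W k : ℂ) * (((‖B2 χ a D p‖ ^ (2 * s) : ℝ) : ℂ) *
      (χ (z k) p.1 * conj (χ (z k) p.2) - conj c * χ (z k) p.1 -
        c * conj (χ (z k) p.2) + c * conj c)) =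
      ((‖B2 χ a D p‖ ^ (2 * s) : ℝ) : ℂ) * h58F χ z W c p := by
    intro p
    have h1 : ∑ k, (W k : ℂ) = 1 := by rw [← Complex.ofReal_sum, hW.one, Complex.ofReal_one]
    have h2 : c * conj c = ∑ k, (W k : ℂ) * (c * conj c) := by rw [← Finset.sum_mul, h1, one_mul]
    unfold h58F B2 Bf
    rw [map_sum]
    conv_rhs => rw [h2]
    rw [Finset.mul_sum, Finset.mul_sum, ← Finset.sum_sub_distrib,
      ← Finset.sum_sub_distrib, ← Finset.sum_add_distrib, Finset.mul_sum]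
    refine Finset.sum_congr rfl fun k _ => ?_
    rw [map_mul, Complex.conj_ofReal]
    ring
  have main : ((∑ k, W k * ∑ ω, PA D s ω *
      ‖Ph χ σ (z k + AA a s ω) - c * Ph χ σ (AA a s ω)‖ ^ 2 : ℝ) : ℂ) =
      ∫ p, ((‖B2 χ a D p‖ ^ (2 * s) : ℝ) : ℂ) * h58F χ z W c p ∂σ.prod σ := by
    simp_rw [← e]
    rw [integral_finsetSum _ fun k _ => ik k, Complex.ofReal_sum]
    refine Finset.sum_congr rfl fun k _ => ?_
    rw [Complex.ofReal_mul, h58_one h s (z k) c, integral_const_mul]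
  have i5 : Integrable (fun p : T × T => ((‖B2 χ a D p‖ ^ (2 * s) : ℝ) : ℂ) * h58F χ z W c p)
      (σ.prod σ) := by
    simp_rw [← e]
    exact integrable_finsetSum _ fun k _ => ik k
  have h3 := congrArg Complex.re main
  rw [Complex.ofReal_re] at h3
  rw [h3]
  have h4 := integral_re i5
  simp only [RCLike.re_to_complex, Complex.re_ofReal_mul] at h4
  exact h4.symm

private theorem h58_sq_le (h : Cell χ a D σ B₀ ζ d L) (s : ℕ) {K : Type*} [Fintype K] {W : K → ℝ}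
    (hW : IsProb W) (z : K → G) (c : ℂ) {φ : T × T → ℝ} (mφ : Measurable φ) {M' : ℝ}
    (hφ : ∀ᵐ p ∂σ.prod σ, |φ p| ≤ M') {A C : ℝ}
    (hle : ∀ᵐ p ∂σ.prod σ, (h58F χ z W c p).re ≤ A * φ p + C) :
    ∑ k, W k * ∑ ω, PA D s ω * ‖Ph χ σ (z k + AA a s ω) - c * Ph χ σ (AA a s ω)‖ ^ 2 ≤
      A * ∫ p, ‖B2 χ a D p‖ ^ (2 * s) * φ p ∂σ.prod σ + C * ZZ χ a D σ s := by
  rw [h58_exp_sq h s hW z c]
  have m1 : Measurable (h58F χ z W c) := by
    unfold h58F
    exact (((measurable_B2 h.chr z W).sub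
      (((measurable_Bf h.chr z W).comp measurable_fst).const_mul _)).sub
      ((Complex.continuous_conj.measurable.comp
        ((measurable_Bf h.chr z W).comp measurable_snd)).const_mul _)).add_const _
  refine h58_mono h s (Complex.measurable_re.comp m1) mφ (M := 1 + ‖c‖ + ‖c‖ + ‖c‖ * ‖c‖)
    (ae_of_all _ fun p => ?_) hφ hle
  refine (Complex.abs_re_le_norm _).trans ?_
  unfold h58F
  have b1 := norm_B2_le_one h.chr hW z p
  have b2 := norm_Bf_le_one h.chr hW z p.1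
  have b3 := norm_Bf_le_one h.chr hW z p.2
  refine (norm_add_le _ _).trans (add_le_add ((norm_sub_le _ _).trans (add_le_add
    ((norm_sub_le _ _).trans (add_le_add b1 ?_)) ?_)) ?_)
  · rw [norm_mul, Complex.norm_conj]; exact mul_le_of_le_one_right (norm_nonneg _) b2
  · rw [norm_mul, Complex.norm_conj]; exact mul_le_of_le_one_right (norm_nonneg _) b3
  · rw [norm_mul, Complex.norm_conj]

private theorem h58_mexp (h : Cell χ a D σ B₀ ζ d L) (l : ℝ) :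
    Measurable fun p => Real.exp (l * ‖ww χ a D p‖) - 1 :=
  (Real.measurable_exp.comp ((measurable_ww h.chr a D).norm.const_mul l)).sub_const 1

private theorem h58_bexp (h : Cell χ a D σ B₀ ζ d L) {l : ℝ} (hl : 0 ≤ l) :
    ∀ᵐ p ∂σ.prod σ, |Real.exp (l * ‖ww χ a D p‖) - 1| ≤ Real.exp (l * (4 / ‖B₀‖ ^ 2 + 1)) := by
  filter_upwards [h.B2_eq] with p hp
  have h1 : 1 ≤ Real.exp (l * ‖ww χ a D p‖) := Real.one_le_exp (by positivity)
  have h2 : Real.exp (l * ‖ww χ a D p‖) ≤ Real.exp (l * (4 / ‖B₀‖ ^ 2 + 1)) :=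
    Real.exp_le_exp.2 (mul_le_mul_of_nonneg_left hp.2.2.2 hl)
  rw [abs_of_nonneg (by linarith)]
  linarith

private theorem h58_bw (h : Cell χ a D σ B₀ ζ d L) :
    ∀ᵐ p ∂σ.prod σ, |‖ww χ a D p‖| ≤ 4 / ‖B₀‖ ^ 2 + 1 := by
  filter_upwards [h.B2_eq] with p hp
  rw [abs_norm]
  exact hp.2.2.2

private theorem h58_pw (hD : IsProb D) (s : ℕ) : IsProb (pw D s) := by
  refine ⟨fun x => Finset.prod_nonneg fun i _ => hD.nn _, ?_⟩
  unfold pw
  rw [← Fintype.piFinset_univ, ← Finset.prod_univ_sum]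
  simp [hD.one]

private theorem h58_PA (hD : IsProb D) (s : ℕ) : IsProb (PA D s) := by
  refine ⟨fun x => mul_nonneg ((h58_pw hD s).nn _) ((h58_pw hD s).nn _), ?_⟩
  unfold PA
  rw [Fintype.sum_prod_type]
  simp_rw [← Finset.mul_sum, (h58_pw hD s).one, mul_one, (h58_pw hD s).one]

private theorem h58_nrm {z b : ℂ} {ζ : ℝ} (h : ‖z - b‖ ≤ ζ * ‖b‖) : ‖z‖ ≤ (1 + ζ) * ‖b‖ := by
  calc ‖z‖ = ‖(z - b) + b‖ := by ring_nf
    _ ≤ ‖z - b‖ + ‖b‖ := norm_add_le _ _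
    _ ≤ _ := by linarith

private theorem h58_rpow {z b : ℂ} {ζ : ℝ} (h0 : 0 ≤ ζ) (h : ‖z - b‖ ≤ ζ * ‖b‖) (r : ℕ)
    (hr : 32 * r * ζ ≤ 1) : |‖z‖ ^ (2 * r) - ‖b‖ ^ (2 * r)| ≤ 4 * (r * ζ) * ‖b‖ ^ (2 * r) := by
  have h1 : ‖‖z‖ - ‖b‖‖ ≤ ζ * ‖‖b‖‖ := by
    rw [norm_norm, Real.norm_eq_abs]
    exact (abs_norm_sub_norm_le _ _).trans h
  have h2 := h58_pow2 h0 h1 (2 * r) (by push_cast; nlinarith [mul_nonneg (Nat.cast_nonneg (α := ℝ) r) h0])
  rw [norm_norm, Real.norm_eq_abs] at h2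
  push_cast at h2
  linarith

private theorem h58_q (w : ℂ) (n : ℕ) : ‖1 + w‖ ^ n ≤ Real.exp (n * ‖w‖) := by
  refine le_trans (pow_le_pow_left₀ (norm_nonneg _) ?_ n) (h58_exp (norm_nonneg w) n)
  simpa using norm_add_le (1 : ℂ) w

theorem Cell.noise_b (h : Cell χ a D σ B₀ ζ d L) (s r : ℕ) (hz : 32 * s * ζ ≤ 1)
    (hr : 32 * r * ζ ≤ 1) {u : ℝ} (hu : 0 ≤ u) (hl : 2 * (2 * s + 2 * r) ≤ d * u)
    (hlu : 2 * r * u ≤ 1) :
    ∑ ω, PA D s ω * ∑ x, PA D r x *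
        ‖Ph χ σ (AA a s ω + AA a r x) - ((‖B₀‖ ^ (2 * r) : ℝ) : ℂ) * Ph χ σ (AA a s ω)‖ ^ 2 ≤
      ZZ χ a D σ s * (‖B₀‖ ^ (2 * r)) ^ 2 *
        (8 * (r * u) + 4 * Real.exp (L - d * u ^ 2 / 2) + 16 * (r * ζ) ^ 2) := by
  have hr0 : (0 : ℝ) ≤ 2 * r := by positivity
  have hrz : 0 ≤ (r : ℝ) * ζ := mul_nonneg (Nat.cast_nonneg _) h.z0
  set c : ℝ := ‖B₀‖ ^ (2 * r) with hc
  have hc0 : 0 ≤ c := by positivity
  have k := h58_sq_le h s (h58_PA h.prob r) (AA a r) (c : ℂ) (h58_mexp h (2 * r)) (h58_bexp h hr0)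
    (A := 2 * c ^ 2) (C := 16 * (r * ζ) ^ 2 * c ^ 2) (by
      filter_upwards [h.B2_eq] with p hp
      have e1 : B2 χ (AA a r) (PA D r) p = ((‖B2 χ a D p‖ ^ (2 * r) : ℝ) : ℂ) :=
        sum_PA_chi2 h.chr a D r p
      have e2 : ∀ t, Bf χ (AA a r) (PA D r) t = ((‖Bf χ a D t‖ ^ (2 * r) : ℝ) : ℂ) :=
        fun t => sum_PA_chi h.chr a D r t
      have e3 : (h58F χ (AA a r) (PA D r) (c : ℂ) p).re = ‖B2 χ a D p‖ ^ (2 * r) -
          c * ‖Bf χ a D p.1‖ ^ (2 * r) - c * ‖Bf χ a D p.2‖ ^ (2 * r) + c * c := by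
        unfold h58F
        rw [e1, e2, e2, Complex.conj_ofReal, Complex.conj_ofReal, ← Complex.ofReal_mul,
          ← Complex.ofReal_mul, ← Complex.ofReal_mul, ← Complex.ofReal_sub, ← Complex.ofReal_sub,
          ← Complex.ofReal_add, Complex.ofReal_re]
      rw [e3, hp.2.2.1, norm_mul, norm_mul, Complex.norm_conj, mul_pow, mul_pow]
      have x1 := h58_rpow h.z0 hp.1 r hr
      have y1 := h58_rpow h.z0 hp.2.1 r hr
      have q1 := h58_q (ww χ a D p) (2 * r)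
      push_cast at q1
      rw [← hc] at x1 y1
      have hx0 : 0 ≤ ‖Bf χ a D p.1‖ ^ (2 * r) := by positivity
      have hy0 : 0 ≤ ‖Bf χ a D p.2‖ ^ (2 * r) := by positivity
      have hE : 1 ≤ Real.exp (2 * r * ‖ww χ a D p‖) := Real.one_le_exp (by positivity)
      generalize ‖Bf χ a D p.1‖ ^ (2 * r) = x at *
      generalize ‖Bf χ a D p.2‖ ^ (2 * r) = y at *
      generalize ‖1 + ww χ a D p‖ ^ (2 * r) = q at *
      generalize Real.exp (2 * r * ‖ww χ a D p‖) = E at *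
      have hx : x ≤ 9 / 8 * c := by nlinarith [le_abs_self (x - c)]
      have hy : y ≤ 9 / 8 * c := by nlinarith [le_abs_self (y - c)]
      have hxy : x * y ≤ 2 * c ^ 2 := by nlinarith [mul_le_mul hx hy hy0 (by positivity)]
      have h1 : x * y * (q - 1) ≤ x * y * (E - 1) :=
        mul_le_mul_of_nonneg_left (by linarith) (mul_nonneg hx0 hy0)
      have h2 : x * y * (E - 1) ≤ 2 * c ^ 2 * (E - 1) :=
        mul_le_mul_of_nonneg_right hxy (by linarith)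
      have h3 : (x - c) * (y - c) ≤ (4 * (r * ζ) * c) * (4 * (r * ζ) * c) := by
        refine (le_abs_self _).trans ?_
        rw [abs_mul]
        exact mul_le_mul x1 y1 (abs_nonneg _) (by positivity)
      nlinarith)
  have k2 := h.exp_Pi s hz hr0 hu hl hlu
  have e : ∑ ω, PA D s ω * ∑ x, PA D r x *
        ‖Ph χ σ (AA a s ω + AA a r x) - (c : ℂ) * Ph χ σ (AA a s ω)‖ ^ 2 =
      ∑ x, PA D r x * ∑ ω, PA D s ω *
        ‖Ph χ σ (AA a r x + AA a s ω) - (c : ℂ) * Ph χ σ (AA a s ω)‖ ^ 2 := by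
    simp_rw [Finset.mul_sum]
    rw [Finset.sum_comm]
    refine Finset.sum_congr rfl fun x _ => Finset.sum_congr rfl fun ω _ => ?_
    rw [add_comm (AA a s ω)]
    ring
  rw [e]
  have k3 := mul_le_mul_of_nonneg_left k2 (show 0 ≤ 2 * c ^ 2 by positivity)
  refine k.trans ?_
  nlinarith

theorem Cell.noise_a (h : Cell χ a D σ B₀ ζ d L) (s : ℕ) (hz : 32 * s * ζ ≤ 1) {u : ℝ}
    (hu : 0 ≤ u) (hl : 2 * (2 * s + 1) ≤ d * u) (hu1 : u ≤ 1) :
    ∑ n, D n * ∑ ω, PA D s ω * ‖Ph χ σ (a n + AA a s ω) - B₀ * Ph χ σ (AA a s ω)‖ ^ 2 ≤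
      ZZ χ a D σ s * ‖B₀‖ ^ 2 * (6 * u + 6 * Real.exp (L - d * u ^ 2 / 2) + ζ ^ 2) := by
  have k := h58_sq_le h s h.prob a B₀ (measurable_ww h.chr a D).norm (h58_bw h)
    (A := 3 * ‖B₀‖ ^ 2) (C := ζ ^ 2 * ‖B₀‖ ^ 2) (by
      filter_upwards [h.B2_eq] with p hp
      have e : h58F χ a D B₀ p = Bf χ a D p.1 * conj (Bf χ a D p.2) * ww χ a D p +
          (Bf χ a D p.1 - B₀) * conj (Bf χ a D p.2 - B₀) := by
        unfold h58F
        rw [hp.2.2.1, map_sub]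
        ring
      rw [e]
      refine (Complex.re_le_norm _).trans ((norm_add_le _ _).trans ?_)
      rw [norm_mul, norm_mul, norm_mul, Complex.norm_conj, Complex.norm_conj]
      have x1 := h58_nrm hp.1
      have y1 := h58_nrm hp.2.1
      have z0 := h.z0
      have z1 := h.z1
      have b0 := norm_nonneg B₀
      have h1 : ‖Bf χ a D p.1‖ * ‖Bf χ a D p.2‖ ≤ (3 / 2 * ‖B₀‖) * (3 / 2 * ‖B₀‖) :=
        mul_le_mul (by nlinarith) (by nlinarith) (norm_nonneg _) (by positivity)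
      have h2 : ‖Bf χ a D p.1 - B₀‖ * ‖Bf χ a D p.2 - B₀‖ ≤ (ζ * ‖B₀‖) * (ζ * ‖B₀‖) :=
        mul_le_mul hp.1 hp.2.1 (norm_nonneg _) (by positivity)
      have h3 : ‖Bf χ a D p.1‖ * ‖Bf χ a D p.2‖ * ‖ww χ a D p‖ ≤ 3 * ‖B₀‖ ^ 2 * ‖ww χ a D p‖ :=
        mul_le_mul_of_nonneg_right (by nlinarith) (norm_nonneg _)
      nlinarith)
  have k2 := h.w_Pi s hz hu hl hu1
  have k3 := mul_le_mul_of_nonneg_left k2 (show 0 ≤ 3 * ‖B₀‖ ^ 2 by positivity)
  refine k.trans ?_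
  nlinarith

theorem Cell.ZQ_ge (h : Cell χ a D σ B₀ ζ d L) (s : ℕ) (hz : 32 * s * ζ ≤ 1) {u : ℝ}
    (hu : 0 ≤ u) (hl : 2 * (2 * s + 1) ≤ d * u) (hu1 : u ≤ 1) :
    ZZ χ a D σ s * ‖B₀‖ ^ 2 * (1 - (3 * ζ + 6 * u + 6 * Real.exp (L - d * u ^ 2 / 2))) ≤
      ZQ D a (hh χ σ) s := by
  have := h.pm
  have e : ZQ D a (hh χ σ) s = -∫ p, ‖B2 χ a D p‖ ^ (2 * s) * (-(B2 χ a D p).re) ∂σ.prod σ := by
    have e0 := h58_exp_sq h s h.prob a 0
    simp only [zero_mul, sub_zero, h58F, map_zero, add_zero] at e0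
    rw [← integral_neg]
    simp only [mul_neg, neg_neg]
    rw [← e0]
    rfl
  have k := h58_mono h s (F := fun p => -(B2 χ a D p).re)
    (Complex.measurable_re.comp (measurable_B2 h.chr a D)).neg (measurable_ww h.chr a D).norm
    (M := 1) (ae_of_all _ fun p => by
      rw [abs_neg]
      exact (Complex.abs_re_le_norm _).trans (norm_B2_le_one h.chr h.prob a p)) (h58_bw h)
    (A := 3 * ‖B₀‖ ^ 2) (C := -((1 - 3 * ζ) * ‖B₀‖ ^ 2)) (by
      filter_upwards [h.B2_eq] with p hp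
      have e1 : B2 χ a D p = ((‖B₀‖ ^ 2 : ℝ) : ℂ) + (Bf χ a D p.1 * conj (Bf χ a D p.2) * ww χ a D p +
          ((Bf χ a D p.1 - B₀) * conj (Bf χ a D p.2) + B₀ * conj (Bf χ a D p.2 - B₀))) := by
        rw [hp.2.2.1, map_sub, Complex.ofReal_pow, ← Complex.mul_conj']
        ring
      have e2 : |(Bf χ a D p.1 * conj (Bf χ a D p.2) * ww χ a D p +
          ((Bf χ a D p.1 - B₀) * conj (Bf χ a D p.2) + B₀ * conj (Bf χ a D p.2 - B₀))).re| ≤
          ‖Bf χ a D p.1‖ * ‖Bf χ a D p.2‖ * ‖ww χ a D p‖ +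
            (‖Bf χ a D p.1 - B₀‖ * ‖Bf χ a D p.2‖ + ‖B₀‖ * ‖Bf χ a D p.2 - B₀‖) := by
        refine (Complex.abs_re_le_norm _).trans ((norm_add_le _ _).trans
          (add_le_add (le_of_eq ?_) ((norm_add_le _ _).trans (le_of_eq ?_))))
        · rw [norm_mul, norm_mul, Complex.norm_conj]
        · rw [norm_mul, norm_mul, Complex.norm_conj, Complex.norm_conj]
      rw [e1, Complex.add_re, Complex.ofReal_re]
      have e3 := (abs_le.1 e2).1
      have x1 := h58_nrm hp.1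
      have y1 := h58_nrm hp.2.1
      have z0 := h.z0
      have z1 := h.z1
      have b0 := norm_nonneg B₀
      have h1 : ‖Bf χ a D p.1‖ * ‖Bf χ a D p.2‖ ≤ (3 / 2 * ‖B₀‖) * (3 / 2 * ‖B₀‖) :=
        mul_le_mul (by nlinarith) (by nlinarith) (norm_nonneg _) (by positivity)
      have h2 : ‖Bf χ a D p.1 - B₀‖ * ‖Bf χ a D p.2‖ ≤ (ζ * ‖B₀‖) * (3 / 2 * ‖B₀‖) :=
        mul_le_mul hp.1 (by nlinarith) (norm_nonneg _) (by positivity)
      have h3 : ‖Bf χ a D p.1‖ * ‖Bf χ a D p.2‖ * ‖ww χ a D p‖ ≤ 3 * ‖B₀‖ ^ 2 * ‖ww χ a D p‖ :=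
        mul_le_mul_of_nonneg_right (by nlinarith) (norm_nonneg _)
      have h4 : ‖B₀‖ * ‖Bf χ a D p.2 - B₀‖ ≤ ‖B₀‖ * (ζ * ‖B₀‖) :=
        mul_le_mul_of_nonneg_left hp.2.1 b0
      have h5 : 0 ≤ ζ * ‖B₀‖ ^ 2 := by positivity
      nlinarith)
  have k2 := h.w_Pi s hz hu hl hu1
  have k3 := mul_le_mul_of_nonneg_left k2 (show 0 ≤ 3 * ‖B₀‖ ^ 2 by positivity)
  rw [e]
  nlinarith

theorem Cell.ZZ_add_le (h : Cell χ a D σ B₀ ζ d L) (s r : ℕ) (hz : 32 * s * ζ ≤ 1)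
    (hr : 32 * r * ζ ≤ 1) {u : ℝ} (hu : 0 ≤ u) (hl : 2 * (2 * s + 2 * r) ≤ d * u)
    (hlu : 2 * r * u ≤ 1) :
    ZZ χ a D σ (s + r) ≤ ZZ χ a D σ s * (‖B₀‖ ^ (2 * r)) ^ 2 *
      (1 + (8 * (r * u) + 4 * Real.exp (L - d * u ^ 2 / 2) + 16 * (r * ζ))) := by
  have hr0 : (0 : ℝ) ≤ 2 * r := by positivity
  have hrz : 0 ≤ (r : ℝ) * ζ := mul_nonneg (Nat.cast_nonneg _) h.z0
  set c : ℝ := ‖B₀‖ ^ (2 * r) with hc
  have hc0 : 0 ≤ c := by positivity
  have e : ZZ χ a D σ (s + r) =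
      ∫ p, ‖B2 χ a D p‖ ^ (2 * s) * ‖B2 χ a D p‖ ^ (2 * r) ∂σ.prod σ := by
    unfold ZZ
    simp_rw [mul_add, pow_add]
  have k := h58_mono h s (F := fun p => ‖B2 χ a D p‖ ^ (2 * r))
    ((measurable_B2 h.chr a D).norm.pow_const _) (h58_mexp h (2 * r))
    (M := 1) (ae_of_all _ fun p => by
      rw [abs_of_nonneg (by positivity)]
      exact pow_le_one₀ (norm_nonneg _) (norm_B2_le_one h.chr h.prob a p)) (h58_bexp h hr0)
    (A := 2 * c ^ 2) (C := (1 + 16 * (r * ζ)) * c ^ 2) (by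
      filter_upwards [h.B2_eq] with p hp
      rw [hp.2.2.1, norm_mul, norm_mul, Complex.norm_conj, mul_pow, mul_pow]
      have x1 := h58_rpow h.z0 hp.1 r hr
      have y1 := h58_rpow h.z0 hp.2.1 r hr
      have q1 := h58_q (ww χ a D p) (2 * r)
      push_cast at q1
      rw [← hc] at x1 y1
      have hx0 : 0 ≤ ‖Bf χ a D p.1‖ ^ (2 * r) := by positivity
      have hy0 : 0 ≤ ‖Bf χ a D p.2‖ ^ (2 * r) := by positivity
      have hE : 1 ≤ Real.exp (2 * r * ‖ww χ a D p‖) := Real.one_le_exp (by positivity)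
      generalize ‖Bf χ a D p.1‖ ^ (2 * r) = x at *
      generalize ‖Bf χ a D p.2‖ ^ (2 * r) = y at *
      generalize ‖1 + ww χ a D p‖ ^ (2 * r) = q at *
      generalize Real.exp (2 * r * ‖ww χ a D p‖) = E at *
      have hx : x ≤ 9 / 8 * c := by nlinarith [le_abs_self (x - c)]
      have hy : y ≤ 9 / 8 * c := by nlinarith [le_abs_self (y - c)]
      have hxy : x * y ≤ 2 * c ^ 2 := by nlinarith [mul_le_mul hx hy hy0 (by positivity)]
      have h1 : x * y * (q - 1) ≤ x * y * (E - 1) :=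
        mul_le_mul_of_nonneg_left (by linarith) (mul_nonneg hx0 hy0)
      have h2 : x * y * (E - 1) ≤ 2 * c ^ 2 * (E - 1) :=
        mul_le_mul_of_nonneg_right hxy (by linarith)
      have hx' : x ≤ (1 + 4 * (r * ζ)) * c := by nlinarith [le_abs_self (x - c)]
      have hy' : y ≤ (1 + 4 * (r * ζ)) * c := by nlinarith [le_abs_self (y - c)]
      have h3 : x * y ≤ ((1 + 4 * (r * ζ)) * c) * ((1 + 4 * (r * ζ)) * c) :=
        mul_le_mul hx' hy' hy0 (by positivity)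
      have h4 : (1 + 4 * (r * ζ)) * (1 + 4 * (r * ζ)) ≤ 1 + 16 * (r * ζ) := by nlinarith
      have h5 := mul_le_mul_of_nonneg_right h4 (sq_nonneg c)
      nlinarith)
  have k2 := h.exp_Pi s hz hr0 hu hl hlu
  have k3 := mul_le_mul_of_nonneg_left k2 (show 0 ≤ 2 * c ^ 2 by positivity)
  rw [e]
  refine k.trans ?_
  nlinarith

/-- input of `HZ_le` -/
theorem Cell.sum_small (h : Cell χ a D σ B₀ ζ d L) (j : ℕ) (hj : 32 * j * ζ ≤ 1) {u : ℝ}
    (hu : 0 ≤ u) (hl : 2 * j ≤ d * u) (hlu : j * u ≤ 1) :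
    ∑ x, (if hh χ σ (Zs a j x) < ‖B₀‖ ^ (2 * j) / 4 then pw D j x else 0) ≤
      16 * (j * u) + 8 * Real.exp (L - d * u ^ 2 / 2) + 16 * (j * ζ) ^ 2 := by
  have := h.pm
  have hj0 : (0 : ℝ) ≤ j := by positivity
  have hjz : 0 ≤ (j : ℝ) * ζ := mul_nonneg (Nat.cast_nonneg _) h.z0
  set c : ℝ := ‖B₀‖ ^ j with hc
  have hc0 : 0 < c := pow_pos h.pos _
  have k := h58_sq_le h 0 (h58_pw h.prob j) (Zs a j) (B₀ ^ j) (h58_mexp h j) (h58_bexp h hj0)
    (A := 2 * c ^ 2) (C := 4 * (j * ζ) ^ 2 * c ^ 2) (by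
      filter_upwards [h.B2_eq] with p hp
      have e1 : B2 χ (Zs a j) (pw D j) p = B2 χ a D p ^ j := sum_pw_chi2 h.chr a D j p
      have e2 : ∀ t, Bf χ (Zs a j) (pw D j) t = Bf χ a D t ^ j := fun t => sum_pw_chi h.chr a D j t
      have e : h58F χ (Zs a j) (pw D j) (B₀ ^ j) p =
          Bf χ a D p.1 ^ j * conj (Bf χ a D p.2 ^ j) * ((1 + ww χ a D p) ^ j - 1) +
          (Bf χ a D p.1 ^ j - B₀ ^ j) * conj (Bf χ a D p.2 ^ j - B₀ ^ j) := by
        unfold h58F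
        rw [e1, e2, e2, hp.2.2.1, map_sub, mul_pow, mul_pow, ← map_pow]
        ring
      rw [e]
      refine (Complex.re_le_norm _).trans ((norm_add_le _ _).trans ?_)
      rw [norm_mul, norm_mul, norm_mul, Complex.norm_conj, Complex.norm_conj]
      have x1 := h58_pow2 h.z0 hp.1 j (by nlinarith)
      have y1 := h58_pow2 h.z0 hp.2.1 j (by nlinarith)
      rw [← hc] at x1 y1
      have nb : ‖B₀ ^ j‖ = c := norm_pow _ _
      have x2 := h58_nrm (ζ := 2 * (j * ζ)) (nb ▸ x1)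
      have y2 := h58_nrm (ζ := 2 * (j * ζ)) (nb ▸ y1)
      rw [nb] at x2 y2
      have q1 := h58_one_add (ww χ a D p) j
      have h1 : ‖Bf χ a D p.1 ^ j‖ * ‖Bf χ a D p.2 ^ j‖ ≤ (9 / 8 * c) * (9 / 8 * c) :=
        mul_le_mul (by nlinarith) (by nlinarith) (norm_nonneg _) (by positivity)
      have h2 : ‖Bf χ a D p.1 ^ j - B₀ ^ j‖ * ‖Bf χ a D p.2 ^ j - B₀ ^ j‖ ≤
          (2 * (j * ζ) * c) * (2 * (j * ζ) * c) :=
        mul_le_mul x1 y1 (norm_nonneg _) (by positivity)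
      have h3 : ‖Bf χ a D p.1 ^ j‖ * ‖Bf χ a D p.2 ^ j‖ * ‖(1 + ww χ a D p) ^ j - 1‖ ≤
          2 * c ^ 2 * (Real.exp (j * ‖ww χ a D p‖) - 1) :=
        mul_le_mul (by nlinarith) q1 (norm_nonneg _) (by positivity)
      nlinarith)
  have k2 := h.exp_base hj0 hu hl hlu
  have p0 : Ph χ σ 0 = 1 := by simp [Ph, h.chr.zero]
  have z0 : ZZ χ a D σ 0 = 1 := by simp [ZZ]
  have a0 : ∀ ω : OA ι 0, AA a 0 ω = 0 := fun ω => by simp [AA, Zs]
  simp only [a0, add_zero, p0, mul_one, ← Finset.sum_mul, (h58_PA h.prob 0).one, one_mul, z0,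
    mul_zero, pow_zero] at k
  have k3 := mul_le_mul_of_nonneg_left k2 (show 0 ≤ 2 * c ^ 2 by positivity)
  have k4 : c ^ 2 / 4 * ∑ x, (if hh χ σ (Zs a j x) < ‖B₀‖ ^ (2 * j) / 4 then pw D j x else 0) ≤
      ∑ x, pw D j x * ‖Ph χ σ (Zs a j x) - B₀ ^ j‖ ^ 2 := by
    rw [Finset.mul_sum]
    refine Finset.sum_le_sum fun x _ => ?_
    have w0 := (h58_pw h.prob j).nn x
    split_ifs with hx
    · rw [mul_comm]
      refine mul_le_mul_of_nonneg_left ?_ w0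
      have e : ‖B₀‖ ^ (2 * j) = c ^ 2 := by rw [hc, ← pow_mul, mul_comm]
      rw [e] at hx
      unfold hh at hx
      have h1 : ‖Ph χ σ (Zs a j x)‖ < c / 2 := by
        refine lt_of_pow_lt_pow_left₀ 2 (by positivity) ?_
        linarith
      have h2 : c - ‖Ph χ σ (Zs a j x)‖ ≤ ‖Ph χ σ (Zs a j x) - B₀ ^ j‖ := by
        have := norm_sub_norm_le (B₀ ^ j) (Ph χ σ (Zs a j x))
        rwa [norm_pow, norm_sub_rev] at this
      nlinarith
    · rw [mul_zero]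
      positivity
  have hc2 : 0 < c ^ 2 / 4 := by positivity
  refine le_of_mul_le_mul_left ?_ hc2
  nlinarith

end Crest.Agent.R100.Ad
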