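import Crest.Agent.R100.AdMaxDefs

/-! # Row 100, AD+ : iteration of approximate duality and packing (helper79) -/

set_option autoImplicit false

noncomputable section

namespace Crest.Agent.R100.AdP

open MeasureTheory Finset Crest.Agent.R100.Ent Crest.Agent.R100.Ad
open scoped ComplexConjugate

variable {G : Type*} [AddCommGroup G] {ι : Type*} [Fintype ι] {T : Type*} [MeasurableSpace T]
  {χ : G → T → ℂ} {a : ι → G}

/-- one application of approximate duality -/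
def AD1 (χ : G → T → ℂ) (a : ι → G) (μ : Measure T) (b M K ε : ℝ) : Prop :=
  ∀ (D : ι → ℝ) (σ : Measure T), IsProbabilityMeasure σ → IsProb D →
    b ≤ ‖∫ t, Bf χ a D t ∂σ‖ → σ ≤ ENNReal.ofReal M • μ →
      ∃ E : ι → ℝ, IsProb E ∧ (∀ n, E n ≤ Real.exp K * D n) ∧
        Real.exp (-K) ≤ (σ.prod σ).real {p | 1 - ε ≤ ‖B2 χ a E p‖ ^ 2}

theorem meas_Bf (hχ : IsChar χ) (D : ι → ℝ) : Measurable (Bf χ a D) := by
  unfold Bf
  exact Finset.measurable_sum _ fun n _ => (hχ.meas _).const_mul _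

theorem norm_Bf_le (hχ : IsChar χ) {D : ι → ℝ} (hD : IsProb D) (t : T) : ‖Bf χ a D t‖ ≤ 1 := by
  unfold Bf
  refine (norm_sum_le _ _).trans (le_of_eq ?_)
  rw [← hD.one]
  refine Finset.sum_congr rfl fun n _ => ?_
  rw [norm_mul, hχ.norm, mul_one, Complex.norm_real, Real.norm_of_nonneg (hD.nn n)]

theorem meas_ge (hχ : IsChar χ) (D : ι → ℝ) (x : ℝ) :
    MeasurableSet {t : T | x ≤ ‖Bf χ a D t‖ ^ 2} :=
  measurableSet_le measurable_const ((meas_Bf hχ D).norm.pow_const 2)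

/-- mass of the set where `|B|` is large -/
theorem mass_ge (hχ : IsChar χ) {D : ι → ℝ} (hD : IsProb D) (ν : Measure T)
    [IsProbabilityMeasure ν] {s θ : ℝ} (hθ : 0 ≤ θ) (hν : ∀ n, s ≤ (∫ t, χ (a n) t ∂ν).re) :
    s - θ ≤ ν.real {t | θ ^ 2 ≤ ‖Bf χ a D t‖ ^ 2} := by
  have hi : ∀ n, Integrable (χ (a n)) ν := fun n =>
    Integrable.of_bound (hχ.meas _).aestronglyMeasurable 1
      (Filter.Eventually.of_forall fun t => (hχ.norm _ t).le)
  have h1 : s ≤ (∫ t, Bf χ a D t ∂ν).re := by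
    unfold Bf
    rw [integral_finsetSum _ fun n _ => (hi n).const_mul _, Complex.re_sum]
    calc s = ∑ n, D n * s := by rw [← Finset.sum_mul, hD.one, one_mul]
      _ ≤ _ := Finset.sum_le_sum fun n _ => by
        rw [integral_const_mul, Complex.re_ofReal_mul]
        exact mul_le_mul_of_nonneg_left (hν n) (hD.nn n)
  have hm := meas_ge (a := a) hχ D (θ ^ 2)
  have h2 : ‖∫ t, Bf χ a D t ∂ν‖ ≤
      ∫ t, (θ + Set.indicator {t | θ ^ 2 ≤ ‖Bf χ a D t‖ ^ 2} (fun _ => (1 : ℝ)) t) ∂ν := by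
    refine norm_integral_le_of_norm_le
      ((integrable_const _).add ((integrable_const _).indicator hm))
      (Filter.Eventually.of_forall fun t => ?_)
    by_cases h : θ ^ 2 ≤ ‖Bf χ a D t‖ ^ 2
    · rw [Set.indicator_of_mem (by exact h)]
      linarith [norm_Bf_le (a := a) hχ hD t]
    · rw [Set.indicator_of_notMem (by exact h), add_zero]
      exact (abs_le_of_sq_le_sq' (not_le.1 h).le hθ).2
  rw [integral_add (integrable_const _) ((integrable_const _).indicator hm),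
    integral_indicator hm] at h2
  simp only [integral_const, probReal_univ, smul_eq_mul, one_mul, mul_one,
    measureReal_restrict_apply_univ] at h2
  linarith [Complex.re_le_norm (∫ t, Bf χ a D t ∂ν)]

section Group

variable [AddCommGroup T]

theorem chi_sub (hχ : IsChar χ) (hadd : ∀ z t t', χ z (t + t') = χ z t * χ z t') (z : G)
    (t t' : T) : χ z (t - t') = χ z t * conj (χ z t') := by
  have h := hadd z (t - t') t'
  rw [sub_add_cancel] at h
  rw [h, mul_assoc, Complex.mul_conj, Complex.normSq_eq_norm_sq, hχ.norm]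
  simp

theorem B2_eq_Bf (hχ : IsChar χ) (hadd : ∀ z t t', χ z (t + t') = χ z t * χ z t') (D : ι → ℝ)
    (t t' : T) : B2 χ a D (t, t') = Bf χ a D (t - t') := by
  unfold B2 Bf
  exact Finset.sum_congr rfl fun n _ => by rw [chi_sub hχ hadd]

omit [AddCommGroup T] in
theorem normSq_Bf (D : ι → ℝ) (t : T) : ‖Bf χ a D t‖ ^ 2 =
    ∑ p : ι × ι, D p.1 * D p.2 * (χ (a p.1) t * conj (χ (a p.2) t)).re := by
  have : ((‖Bf χ a D t‖ ^ 2 : ℝ) : ℂ) = Bf χ a D t * conj (Bf χ a D t) := by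
    rw [Complex.mul_conj, Complex.normSq_eq_norm_sq]
  have h2 := congrArg Complex.re this
  rw [Complex.ofReal_re] at h2
  rw [h2]
  unfold Bf
  rw [map_sum, Finset.sum_mul_sum, Fintype.sum_prod_type, Complex.re_sum]
  refine Finset.sum_congr rfl fun n _ => ?_
  rw [Complex.re_sum]
  refine Finset.sum_congr rfl fun m _ => ?_
  rw [map_mul, Complex.conj_ofReal, mul_mul_mul_comm, ← Complex.ofReal_mul,
    Complex.re_ofReal_mul]

omit [AddCommGroup T] in
theorem sum_DD {D : ι → ℝ} (hD : IsProb D) : ∑ p : ι × ι, D p.1 * D p.2 = 1 := by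
  rw [Fintype.sum_prod_type, ← Finset.sum_mul_sum, hD.one, one_mul]

theorem unit_tri {x y : ℂ} (hx : ‖x‖ = 1) (hy : ‖y‖ = 1) :
    1 - (x * conj y).re ≤ 2 * (1 - x.re) + 2 * (1 - y.re) := by
  have h1 : x.re ^ 2 + x.im ^ 2 = 1 := by
    have := Complex.sq_norm x; rw [hx, Complex.normSq_apply] at this; nlinarith
  have h2 : y.re ^ 2 + y.im ^ 2 = 1 := by
    have := Complex.sq_norm y; rw [hy, Complex.normSq_apply] at this; nlinarith
  simp only [Complex.mul_re, Complex.conj_re, Complex.conj_im]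
  nlinarith [sq_nonneg (x.re + y.re - 2), sq_nonneg (x.im + y.im)]

theorem unit_lip {x y : ℂ} (hx : ‖x‖ = 1) (hy : ‖y‖ = 1) {l : ℝ} (hl : 0 < l) :
    x.re - (l / 2 + (1 - y.re) / l) ≤ (x * y).re := by
  have h1 : x.re ^ 2 + x.im ^ 2 = 1 := by
    have := Complex.sq_norm x; rw [hx, Complex.normSq_apply] at this; nlinarith
  have h2 : y.re ^ 2 + y.im ^ 2 = 1 := by
    have := Complex.sq_norm y; rw [hy, Complex.normSq_apply] at this; nlinarith
  have key : l * (x.re - (x * y).re) ≤ l ^ 2 / 2 + (1 - y.re) := by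
    simp only [Complex.mul_re]
    nlinarith [sq_nonneg (l * x.re - (1 - y.re)), sq_nonneg (l * x.im - y.im)]
  have : x.re - (x * y).re ≤ l / 2 + (1 - y.re) / l := by
    rw [← mul_le_mul_iff_right₀ hl]
    refine key.trans (le_of_eq ?_)
    field_simp
  linarith

omit [AddCommGroup T] in
theorem norm_pair (hχ : IsChar χ) (z z' : G) (t : T) : ‖χ z t * conj (χ z' t)‖ = 1 := by
  rw [norm_mul, Complex.norm_conj, hχ.norm, hχ.norm, mul_one]

/-- weak triangle inequality for `q = 1 - |B|²` -/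
theorem q_tri (hχ : IsChar χ) (hadd : ∀ z t t', χ z (t + t') = χ z t * χ z t') {D : ι → ℝ}
    (hD : IsProb D) (t t' : T) : 1 - ‖Bf χ a D (t - t')‖ ^ 2 ≤
      2 * (1 - ‖Bf χ a D t‖ ^ 2) + 2 * (1 - ‖Bf χ a D t'‖ ^ 2) := by
  have e : ∀ u : T, 1 - ‖Bf χ a D u‖ ^ 2 =
      ∑ p : ι × ι, D p.1 * D p.2 * (1 - (χ (a p.1) u * conj (χ (a p.2) u)).re) := fun u => by
    rw [normSq_Bf]
    simp only [mul_sub, mul_one, Finset.sum_sub_distrib, sum_DD hD]
  rw [e, e, e, Finset.mul_sum, Finset.mul_sum, ← Finset.sum_add_distrib]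
  refine Finset.sum_le_sum fun p _ => ?_
  have h := unit_tri (norm_pair hχ (a p.1) (a p.2) t) (norm_pair hχ (a p.1) (a p.2) t')
  have e2 : χ (a p.1) (t - t') * conj (χ (a p.2) (t - t')) =
      χ (a p.1) t * conj (χ (a p.2) t) * conj (χ (a p.1) t' * conj (χ (a p.2) t')) := by
    rw [chi_sub hχ hadd, chi_sub hχ hadd]
    simp only [map_mul, Complex.conj_conj]; ring
  rw [e2]
  have := mul_le_mul_of_nonneg_left h (mul_nonneg (hD.nn p.1) (hD.nn p.2))
  linarith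

/-- `|B|²` moves little under a shift with small `q` -/
theorem q_lip (hχ : IsChar χ) (hadd : ∀ z t t', χ z (t + t') = χ z t * χ z t') {D : ι → ℝ}
    (hD : IsProb D) (t u : T) {l : ℝ} (hl : 0 < l) :
    ‖Bf χ a D t‖ ^ 2 - (l / 2 + (1 - ‖Bf χ a D u‖ ^ 2) / l) ≤ ‖Bf χ a D (t + u)‖ ^ 2 := by
  have e : l / 2 + (1 - ‖Bf χ a D u‖ ^ 2) / l = ∑ p : ι × ι, D p.1 * D p.2 *
      (l / 2 + (1 - (χ (a p.1) u * conj (χ (a p.2) u)).re) / l) := by
    rw [normSq_Bf]
    simp only [mul_add, ← mul_div_assoc, mul_sub, mul_one, Finset.sum_add_distrib,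
      ← Finset.sum_div, Finset.sum_sub_distrib, ← Finset.sum_mul, sum_DD hD, one_mul]
  rw [e, normSq_Bf D t, normSq_Bf D (t + u), ← Finset.sum_sub_distrib]
  refine Finset.sum_le_sum fun p _ => ?_
  have h := unit_lip (norm_pair hχ (a p.1) (a p.2) t) (norm_pair hχ (a p.1) (a p.2) u) hl
  have e2 : χ (a p.1) (t + u) * conj (χ (a p.2) (t + u)) =
      χ (a p.1) t * conj (χ (a p.2) t) * (χ (a p.1) u * conj (χ (a p.2) u)) := by
    rw [hadd, hadd, map_mul]; ring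
  rw [e2, ← mul_sub]
  exact mul_le_mul_of_nonneg_left h (mul_nonneg (hD.nn p.1) (hD.nn p.2))

theorem Bf_zero (hχ : IsChar χ) (hadd : ∀ z t t', χ z (t + t') = χ z t * χ z t') {D : ι → ℝ}
    (hD : IsProb D) : ‖Bf χ a D (0 : T)‖ ^ 2 = 1 := by
  have h : ∀ z, χ z (0 : T) = 1 := fun z => by
    have := chi_sub hχ hadd z (0 : T) 0
    rw [sub_zero, Complex.mul_conj, Complex.normSq_eq_norm_sq, hχ.norm] at this
    simpa using this
  unfold Bf
  simp only [h, mul_one]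
  rw [← Complex.ofReal_sum, hD.one]; simp

theorem Bf_sub_comm (hχ : IsChar χ) (hadd : ∀ z t t', χ z (t + t') = χ z t * χ z t') (D : ι → ℝ)
    (t t' : T) : ‖Bf χ a D (t - t')‖ = ‖Bf χ a D (t' - t)‖ := by
  rw [← Complex.norm_conj]
  congr 1
  unfold Bf
  rw [map_sum]
  refine Finset.sum_congr rfl fun n _ => ?_
  rw [chi_sub hχ hadd, chi_sub hχ hadd]
  simp only [map_mul, Complex.conj_conj, Complex.conj_ofReal]; ring

variable [MeasurableAdd₂ T] [MeasurableNeg T] {μ : Measure T} [IsProbabilityMeasure μ]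
  [μ.IsAddRightInvariant]

/-- one round -/
theorem round (hχ : IsChar χ) (hadd : ∀ z t t', χ z (t + t') = χ z t * χ z t')
    {β V M K ε : ℝ} (hβ : 0 ≤ β) (hV : 0 < V) (hM : 4 / V ≤ M)
    (had : AD1 χ a μ (β / 2) M K ε) {D : ι → ℝ} (hD : IsProb D)
    (hS : V ≤ μ.real {t | β ^ 2 ≤ ‖Bf χ a D t‖ ^ 2}) :
    ∃ E : ι → ℝ, IsProb E ∧ (∀ n, E n ≤ Real.exp K * D n) ∧
      Real.exp (-K) * μ.real {t | β ^ 2 ≤ ‖Bf χ a D t‖ ^ 2} / 4 ≤
        μ.real {t | 1 - ε ≤ ‖Bf χ a E t‖ ^ 2} := by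
  classical
  set S := {t | β ^ 2 ≤ ‖Bf χ a D t‖ ^ 2} with hSe
  set ph : Fin 4 → ℂ := ![1, -1, Complex.I, -Complex.I] with hph
  have hph1 : ∀ i, ‖ph i‖ = 1 := fun i => by fin_cases i <;> simp [hph]
  set O : Fin 4 → Set T := fun i => {t | β / 2 ≤ (ph i * Bf χ a D t).re} with hO
  have hOm : ∀ i, MeasurableSet (O i) := fun i =>
    measurableSet_le measurable_const
      (Complex.measurable_re.comp ((meas_Bf hχ D).const_mul _))
  have hcov : S ⊆ ⋃ i, O i := fun t ht => by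
    have h1 : β ≤ ‖Bf χ a D t‖ := (abs_le_of_sq_le_sq' ht (norm_nonneg _)).2
    have h2 := Complex.norm_le_abs_re_add_abs_im (Bf χ a D t)
    by_contra hn
    simp only [Set.mem_iUnion, not_exists, hO, Set.mem_ofPred_eq, not_le] at hn
    have a0 := hn 0
    have a1 := hn 1
    have a2 := hn 2
    have a3 := hn 3
    simp [hph] at a0 a1 a2 a3
    have b1 : |(Bf χ a D t).re| < β / 2 := abs_lt.2 ⟨by linarith, a0⟩
    have b2 : |(Bf χ a D t).im| < β / 2 := abs_lt.2 ⟨by linarith, by linarith⟩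
    linarith
  obtain ⟨i, hi⟩ : ∃ i, μ.real S / 4 ≤ μ.real (O i) := by
    by_contra hn
    push Not at hn
    have h1 : μ.real S ≤ ∑ i, μ.real (O i) :=
      (measureReal_mono hcov).trans (measureReal_iUnion_fintype_le _)
    have h2 : ∑ i, μ.real (O i) < ∑ _i : Fin 4, μ.real S / 4 :=
      Finset.sum_lt_sum_of_nonempty Finset.univ_nonempty fun i _ => hn i
    simp at h2
    linarith
  set m := μ.real (O i) with hm
  have hm0 : 0 < m := by linarith
  set ρ : T → ℝ := (O i).indicator fun _ => m⁻¹ with hρ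
  have hρm : Measurable ρ := measurable_const.indicator (hOm i)
  have hρ0 : ∀ t, 0 ≤ ρ t ∧ ρ t ≤ m⁻¹ := fun t => by
    by_cases h : t ∈ O i <;> simp [hρ, h, hm0.le]
  set σ : Measure T := μ.withDensity fun t => ENNReal.ofReal (ρ t) with hσ
  have hσe : σ = ENNReal.ofReal m⁻¹ • μ.restrict (O i) := by
    have : (fun t => ENNReal.ofReal (ρ t)) = (O i).indicator fun _ => ENNReal.ofReal m⁻¹ := by
      funext t; by_cases h : t ∈ O i <;> simp [hρ, h]
    rw [hσ, this, withDensity_indicator (hOm i), withDensity_const]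
  have hσp : IsProbabilityMeasure σ := ⟨by
    rw [hσe, Measure.smul_apply, Measure.restrict_apply_univ, smul_eq_mul,
      ← ofReal_measureReal (s := O i), ← hm, ← ENNReal.ofReal_mul (by positivity),
      inv_mul_cancel₀ hm0.ne', ENNReal.ofReal_one]⟩
  have hint : Integrable (fun t => ph i * Bf χ a D t) σ :=
    Integrable.of_bound ((meas_Bf hχ D).const_mul _).aestronglyMeasurable 1
      (Filter.Eventually.of_forall fun t => by
        rw [norm_mul, hph1, one_mul]; exact norm_Bf_le hχ hD t)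
  have hb : β / 2 ≤ ‖∫ t, Bf χ a D t ∂σ‖ := by
    have h1 : ‖∫ t, Bf χ a D t ∂σ‖ = ‖∫ t, ph i * Bf χ a D t ∂σ‖ := by
      rw [integral_const_mul, norm_mul, hph1, one_mul]
    have h2 : ∀ᵐ t ∂σ, t ∈ O i := by
      rw [hσe]
      exact Measure.ae_smul_measure (ae_restrict_mem (hOm i)) _
    have h3 : ∫ _t, β / 2 ∂σ ≤ ∫ t, (ph i * Bf χ a D t).re ∂σ :=
      integral_mono_ae (integrable_const _) hint.re h2
    have h4 : ∫ t, (ph i * Bf χ a D t).re ∂σ = (∫ t, ph i * Bf χ a D t ∂σ).re :=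
      integral_re hint
    rw [h4] at h3
    simp only [integral_const, probReal_univ, smul_eq_mul, one_mul] at h3
    rw [h1]
    exact h3.trans (Complex.re_le_norm _)
  have hmM : m⁻¹ ≤ M := by
    refine le_trans ?_ hM
    rw [inv_eq_one_div, div_le_div_iff₀ hm0 hV]; linarith
  have hBes : σ ≤ ENNReal.ofReal M • μ := by
    rw [hσe]
    refine Measure.le_iff'.2 fun S => ?_
    rw [Measure.smul_apply, Measure.smul_apply, smul_eq_mul, smul_eq_mul]
    exact mul_le_mul' (ENNReal.ofReal_le_ofReal hmM) (Measure.restrict_le_self S)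
  obtain ⟨E, hE, hED, hA⟩ := had D σ hσp hD hb hBes
  refine ⟨E, hE, hED, ?_⟩
  set Ball := {t | 1 - ε ≤ ‖Bf χ a E t‖ ^ 2} with hBall
  have hBm : MeasurableSet Ball := meas_ge hχ E _
  have eA : {p : T × T | 1 - ε ≤ ‖B2 χ a E p‖ ^ 2} = (fun p : T × T => p.1 + -p.2) ⁻¹' Ball := by
    ext ⟨t, t'⟩
    simp only [Set.mem_ofPred_eq, Set.mem_preimage, hBall, B2_eq_Bf hχ hadd, sub_eq_add_neg]
  have hAm : MeasurableSet ((fun p : T × T => p.1 + -p.2) ⁻¹' Ball) :=
    (measurable_fst.add measurable_snd.neg) hBm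
  have hle : (σ.prod σ) ((fun p : T × T => p.1 + -p.2) ⁻¹' Ball) ≤
      ENNReal.ofReal m⁻¹ * μ Ball := by
    rw [Measure.prod_apply_symm hAm]
    calc _ ≤ ∫⁻ _y, ENNReal.ofReal m⁻¹ * μ Ball ∂σ := by
          refine lintegral_mono fun y => ?_
          rw [hσe, Measure.smul_apply, smul_eq_mul]
          refine mul_le_mul_right ((Measure.restrict_le_self _).trans (le_of_eq ?_)) _
          exact measure_preimage_add_right μ (-y) Ball
      _ = _ := by simp
  rw [eA] at hA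
  have h5 : Real.exp (-K) ≤ m⁻¹ * μ.real Ball := by
    refine hA.trans ?_
    have := ENNReal.toReal_mono (ENNReal.mul_ne_top ENNReal.ofReal_ne_top (measure_ne_top _ _)) hle
    rwa [ENNReal.toReal_mul, ENNReal.toReal_ofReal (by positivity)] at this
  have h6 : Real.exp (-K) * m ≤ μ.real Ball := by
    rw [inv_mul_eq_div, le_div_iff₀ hm0] at h5; exact h5
  have := mul_le_mul_of_nonneg_left hi (Real.exp_pos (-K)).le
  linarith

/-- the iteration -/
theorem iter (hχ : IsChar χ) (hadd : ∀ z t t', χ z (t + t') = χ z t * χ z t')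
    {β V M K K' ε : ℝ} (hβ : 0 ≤ β) (hV : 0 < V) (hM : 4 / V ≤ M) (hK : 0 ≤ K)
    (hK' : 0 ≤ K') (had : AD1 χ a μ (β / 2) M K ε)
    (hS : ∀ D : ι → ℝ, IsProb D → V ≤ μ.real {t | β ^ 2 ≤ ‖Bf χ a D t‖ ^ 2}) :
    ∀ (n : ℕ) (D : ι → ℝ), IsProb D →
      Real.exp (-(n * K')) ≤ μ.real {t | β ^ 2 ≤ ‖Bf χ a D t‖ ^ 2} →
      ∃ E : ι → ℝ, IsProb E ∧ (∀ i, E i ≤ Real.exp ((n + 1) * K) * D i) ∧
        Real.exp (-(K + K')) * μ.real {t | β ^ 2 ≤ ‖Bf χ a E t‖ ^ 2} / 4 ≤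
          μ.real {t | 1 - ε ≤ ‖Bf χ a E t‖ ^ 2} := by
  have stop : ∀ (D E : ι → ℝ), μ.real {t | β ^ 2 ≤ ‖Bf χ a E t‖ ^ 2} ≤
      Real.exp K' * μ.real {t | β ^ 2 ≤ ‖Bf χ a D t‖ ^ 2} →
      Real.exp (-(K + K')) * μ.real {t | β ^ 2 ≤ ‖Bf χ a E t‖ ^ 2} / 4 ≤
        Real.exp (-K) * μ.real {t | β ^ 2 ≤ ‖Bf χ a D t‖ ^ 2} / 4 := fun D E h => by
    have := mul_le_mul_of_nonneg_left h (Real.exp_pos (-(K + K'))).le
    rw [← mul_assoc, ← Real.exp_add, show -(K + K') + K' = -K by ring] at this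
    linarith
  intro n
  induction n with
  | zero =>
    intro D hD h
    obtain ⟨E, hE, hED, hb⟩ := round hχ hadd hβ hV hM had hD (hS D hD)
    refine ⟨E, hE, by simpa using hED, (stop D E ?_).trans hb⟩
    simp only [Nat.cast_zero, zero_mul, neg_zero, Real.exp_zero] at h
    have h1 : μ.real {t | β ^ 2 ≤ ‖Bf χ a E t‖ ^ 2} ≤ 1 := measureReal_le_one
    have h2 : 1 ≤ Real.exp K' := Real.one_le_exp hK'
    nlinarith
  | succ n ih =>
    intro D hD h
    obtain ⟨E, hE, hED, hb⟩ := round hχ hadd hβ hV hM had hD (hS D hD)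
    by_cases hc : μ.real {t | β ^ 2 ≤ ‖Bf χ a E t‖ ^ 2} ≤
        Real.exp K' * μ.real {t | β ^ 2 ≤ ‖Bf χ a D t‖ ^ 2}
    · refine ⟨E, hE, fun i => (hED i).trans ?_, (stop D E hc).trans hb⟩
      refine mul_le_mul_of_nonneg_right (Real.exp_le_exp.2 ?_) (hD.nn i)
      push_cast
      nlinarith [(Nat.cast_nonneg n : (0 : ℝ) ≤ n)]
    · obtain ⟨E', hE', hE'E, hb'⟩ := ih E hE (by
        have := mul_le_mul_of_nonneg_left h (Real.exp_pos K').le
        rw [← Real.exp_add] at this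
        push_cast at this
        rw [show K' + -((n + 1 : ℝ) * K') = -(n * K') by ring] at this
        linarith [not_le.1 hc])
      refine ⟨E', hE', fun i => (hE'E i).trans ?_, hb'⟩
      refine (mul_le_mul_of_nonneg_left (hED i) (Real.exp_pos _).le).trans (le_of_eq ?_)
      rw [← mul_assoc, ← Real.exp_add]
      push_cast
      ring_nf

omit [MeasurableNeg T] in
/-- packing -/
theorem packing (hχ : IsChar χ) (hadd : ∀ z t t', χ z (t + t') = χ z t * χ z t')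
    {E : ι → ℝ} (hE : IsProb E) {β ε : ℝ} (hβ : 0 < β) (hε0 : 0 ≤ ε) (hε : 2 * ε ≤ β ^ 4)
    (hv : 0 < μ.real {t | 1 - ε ≤ ‖Bf χ a E t‖ ^ 2}) :
    ∃ C : Finset T, C.card * μ.real {t | 1 - ε ≤ ‖Bf χ a E t‖ ^ 2} ≤
        μ.real {t | β ^ 2 ≤ ‖Bf χ a E t‖ ^ 2} ∧
      ∀ t, 2 * β ^ 2 ≤ ‖Bf χ a E t‖ ^ 2 → ∃ c ∈ C, 1 - ‖Bf χ a E (t - c)‖ ^ 2 ≤ 4 * ε := by
  classical
  set Ball := {t | 1 - ε ≤ ‖Bf χ a E t‖ ^ 2} with hBall
  have hBm : MeasurableSet Ball := meas_ge hχ E _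
  set Sep : Finset T → Prop := fun C => (∀ c ∈ C, 2 * β ^ 2 ≤ ‖Bf χ a E c‖ ^ 2) ∧
    ∀ c ∈ C, ∀ c' ∈ C, c ≠ c' → 4 * ε < 1 - ‖Bf χ a E (c - c')‖ ^ 2 with hSep
  have hcount : ∀ C, Sep C → C.card * μ.real Ball ≤ μ.real {t | β ^ 2 ≤ ‖Bf χ a E t‖ ^ 2} := by
    intro C hC
    have hm : ∀ c : T, MeasurableSet ((fun t => t + -c) ⁻¹' Ball) := fun c =>
      (measurable_id.add_const _) hBm
    have hd : (C : Set T).PairwiseDisjoint fun c => (fun t => t + -c) ⁻¹' Ball := by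
      intro c hc c' hc' hne
      refine Set.disjoint_left.2 fun t h1 h2 => ?_
      have h3 := q_tri (a := a) hχ hadd hE (t + -c') (t + -c)
      rw [show t + -c' - (t + -c) = c - c' by abel] at h3
      have h4 := hC.2 c hc c' hc' hne
      simp only [Set.mem_preimage, hBall, Set.mem_ofPred_eq] at h1 h2
      linarith
    have h1 := measureReal_biUnion_finset (μ := μ) hd (fun c _ => hm c)
    have h2 : ∑ c ∈ C, μ.real ((fun t => t + -c) ⁻¹' Ball) = C.card * μ.real Ball := by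
      rw [Finset.sum_congr rfl (g := fun _ => μ.real Ball) fun c _ => by
        simp only [Measure.real]; rw [measure_preimage_add_right μ (-c) Ball]]
      simp
    rw [← h2, ← h1]
    refine measureReal_mono fun t ht => ?_
    simp only [Set.mem_iUnion, Set.mem_preimage, hBall, Set.mem_ofPred_eq] at ht
    obtain ⟨c, hc, ht⟩ := ht
    have hl : 0 < β ^ 2 := by positivity
    have h3 := q_lip (a := a) hχ hadd hE c (t + -c) hl
    rw [show c + (t + -c) = t by abel] at h3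
    have h4 : (1 - ‖Bf χ a E (t + -c)‖ ^ 2) / β ^ 2 ≤ β ^ 2 / 2 := by
      rw [div_le_iff₀ hl]; nlinarith
    have h5 := hC.1 c hc
    show β ^ 2 ≤ _
    linarith
  by_contra hn
  push Not at hn
  have hall : ∀ k : ℕ, ∃ C, Sep C ∧ C.card = k := by
    intro k
    induction k with
    | zero => exact ⟨∅, ⟨by simp, by simp⟩, rfl⟩
    | succ k ih =>
      obtain ⟨C, hC, hk⟩ := ih
      obtain ⟨t, ht, hf⟩ := hn C (hcount C hC)
      have hnm : t ∉ C := fun h => by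
        have := hf t h
        rw [sub_self, Bf_zero hχ hadd hE] at this
        linarith
      refine ⟨insert t C, ⟨?_, ?_⟩, by rw [Finset.card_insert_of_notMem hnm, hk]⟩
      · intro c hc
        rcases Finset.mem_insert.1 hc with rfl | hc
        · exact ht
        · exact hC.1 c hc
      · intro c hc c' hc' hne
        rcases Finset.mem_insert.1 hc with rfl | hc1
        · rcases Finset.mem_insert.1 hc' with rfl | hc2
          · exact absurd rfl hne
          · exact hf c' hc2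
        · rcases Finset.mem_insert.1 hc' with rfl | hc2
          · rw [Bf_sub_comm hχ hadd]; exact hf c hc1
          · exact hC.2 c hc1 c' hc2 hne
  obtain ⟨k, hk⟩ := exists_nat_gt (1 / μ.real Ball)
  obtain ⟨C, hC, hCk⟩ := hall k
  have h1 := hcount C hC
  have h2 : μ.real {t | β ^ 2 ≤ ‖Bf χ a E t‖ ^ 2} ≤ 1 := measureReal_le_one
  rw [hCk] at h1
  rw [div_lt_iff₀ hv] at hk
  linarith

/-- **AD+** -/
theorem ad_plus (hχ : IsChar χ) (hadd : ∀ z t t', χ z (t + t') = χ z t * χ z t')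
    {β V M K K' ε : ℝ} (hβ : 0 < β) (hV : 0 < V) (hM : 4 / V ≤ M) (hK : 0 ≤ K)
    (hK' : 0 ≤ K') (hε0 : 0 ≤ ε) (hε : 2 * ε ≤ β ^ 4) (had : AD1 χ a μ (β / 2) M K ε)
    (hS : ∀ D : ι → ℝ, IsProb D → V ≤ μ.real {t | β ^ 2 ≤ ‖Bf χ a D t‖ ^ 2})
    (n : ℕ) (hn : Real.exp (-(n * K')) ≤ V) {D : ι → ℝ} (hD : IsProb D) :
    ∃ (E : ι → ℝ) (C : Finset T), IsProb E ∧ (∀ i, E i ≤ Real.exp ((n + 1) * K) * D i) ∧
      (C.card : ℝ) ≤ 4 * Real.exp (K + K') ∧
      ∀ t, 2 * β ^ 2 ≤ ‖Bf χ a E t‖ ^ 2 → ∃ c ∈ C, 1 - ‖Bf χ a E (t - c)‖ ^ 2 ≤ 4 * ε := by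
  obtain ⟨E, hE, hED, hb⟩ := iter hχ hadd hβ.le hV hM hK hK' had hS n D hD (hn.trans (hS D hD))
  have hs := hV.trans_le (hS E hE)
  have hv : 0 < μ.real {t | 1 - ε ≤ ‖Bf χ a E t‖ ^ 2} :=
    lt_of_lt_of_le (by have := Real.exp_pos (-(K + K')); positivity) hb
  obtain ⟨C, hC, hcov⟩ := packing hχ hadd hE hβ hε0 hε hv
  refine ⟨E, C, hE, hED, ?_, hcov⟩
  have h1 := (mul_le_mul_of_nonneg_left hb (Nat.cast_nonneg C.card)).trans hC
  rw [Real.exp_neg] at h1
  have he := Real.exp_pos (K + K')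
  have h2 : (C.card : ℝ) * ((Real.exp (K + K'))⁻¹ / 4) ≤ 1 := by
    refine le_of_mul_le_mul_right ?_ hs
    linarith
  rw [← div_le_iff₀' (by norm_num : (0 : ℝ) < 4)]
  have := mul_le_mul_of_nonneg_right h2 he.le
  rw [one_mul] at this
  refine le_trans (le_of_eq ?_) this
  field_simp

end Group

end Crest.Agent.R100.AdP
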