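import Crest.Agent.R100.AdCore

/-! # Row 100: static approximate duality, final form -/

set_option autoImplicit false

noncomputable section

namespace Crest.Agent.R100.Ad

open MeasureTheory Finset Crest.Agent.R100.Ent
open scoped ComplexConjugate

variable {G : Type*} [AddCommGroup G] {ι : Type*} [Fintype ι] {T : Type*} [MeasurableSpace T]
  {χ : G → T → ℂ} {a : ι → G} {D : ι → ℝ} {σ₀ : Measure T}

/-- Bessel's inequality below `σ₀` (true when `σ₀ ≤ e^R λ`, the `χ z` orthonormal for `λ`) -/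
def Bessel (χ : G → T → ℂ) (σ₀ : Measure T) (R : ℝ) : Prop :=
  ∀ (σ : Measure T) (M : ℝ), IsProbabilityMeasure σ → 0 ≤ M → σ ≤ ENNReal.ofReal M • σ₀ →
    ∀ F : Finset G, ∑ z ∈ F, hh χ σ z ≤ M * Real.exp R

/-! ### part M: measure theory -/

/-- density `f = dσ/dλ ≤ M e^R` (`Measure.rnDeriv`), `∑ |f^(z)|² ≤ ∫ f² ≤ M e^R`; direct proof of
Bessel: `S = ∑ |c_z|² = ∫ f conj(P)`, `P = ∑ c_z conj(χ z)`, `∫ |P|² dλ = S`, so
`S² ≤ (∫ |P| dσ)² ≤ ∫ |P|² dσ ≤ M e^R S` (no density needed) -/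
theorem bessel_of_le {lam : Measure T} [IsProbabilityMeasure lam] (hχ : IsChar χ)
    (horth : ∀ z : G, z ≠ 0 → ∫ t, χ z t ∂lam = 0) {R : ℝ}
    (hle : σ₀ ≤ ENNReal.ofReal (Real.exp R) • lam) : Bessel χ σ₀ R := by
  classical
  intro σ M hσ hM hσle F
  obtain ⟨N, hN⟩ : ∃ N, N = M * Real.exp R := ⟨_, rfl⟩
  rw [← hN]
  have hN0 : 0 ≤ N := by rw [hN]; positivity
  have hle' : σ ≤ ENNReal.ofReal N • lam := by
    refine hσle.trans ?_
    rw [hN, ENNReal.ofReal_mul hM, mul_smul]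
    intro A
    simp only [Measure.smul_apply, smul_eq_mul]
    have := hle A
    simp only [Measure.smul_apply, smul_eq_mul] at this
    exact mul_le_mul_right this _
  have hN1 : 0 < N := by
    refine lt_of_le_of_ne hN0 fun e => ?_
    have := hle' Set.univ
    rw [← e] at this
    simp at this
  have hint : ∀ (μ : Measure T) [IsFiniteMeasure μ] (z : G), Integrable (χ z) μ := fun μ _ z =>
    Integrable.of_bound (hχ.meas z).aestronglyMeasurable 1 (ae_of_all _ fun t => (hχ.norm z t).le)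
  have hcc : ∀ z t, χ z t * conj (χ z t) = 1 := fun z t => by
    rw [Complex.mul_conj, Complex.normSq_eq_norm_sq, hχ.norm]; simp
  have hsub : ∀ z z' t, χ z t * conj (χ z' t) = χ (z - z') t := fun z z' t => by
    have e := hχ.mul (z - z') z' t
    rw [sub_add_cancel] at e
    rw [e, mul_assoc, hcc, mul_one]
  obtain ⟨P, hP⟩ : ∃ P : T → ℂ, P = fun t => ∑ z ∈ F, conj (Ph χ σ z) * χ z t := ⟨_, rfl⟩
  obtain ⟨S, hS⟩ : ∃ S, S = ∑ z ∈ F, hh χ σ z := ⟨_, rfl⟩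
  rw [← hS]
  have hPm : Measurable P := by
    rw [hP]; exact Finset.measurable_sum _ fun z _ => (hχ.meas z).const_mul _
  have hPb : ∀ t, ‖P t‖ ≤ ∑ z ∈ F, ‖Ph χ σ z‖ := fun t => by
    rw [hP]
    refine (norm_sum_le _ _).trans (Finset.sum_le_sum fun z _ => ?_)
    rw [norm_mul, hχ.norm, mul_one, RCLike.norm_conj]
  have hP2 : ∀ (μ : Measure T) [IsFiniteMeasure μ], Integrable (fun t => ‖P t‖ ^ 2) μ :=
    fun μ _ => Integrable.of_bound (hPm.norm.pow_const 2).aestronglyMeasurable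
      ((∑ z ∈ F, ‖Ph χ σ z‖) ^ 2) (ae_of_all _ fun t => by
        rw [Real.norm_of_nonneg (by positivity)]
        exact pow_le_pow_left₀ (norm_nonneg _) (hPb t) 2)
  have hP1 : Integrable (fun t => ‖P t‖) σ :=
    Integrable.of_bound hPm.norm.aestronglyMeasurable _ (ae_of_all _ fun t => by
      rw [norm_norm]; exact hPb t)
  have hcS : ∑ z ∈ F, conj (Ph χ σ z) * Ph χ σ z = (S : ℂ) := by
    rw [hS]; push_cast
    refine Finset.sum_congr rfl fun z _ => ?_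
    rw [mul_comm, Complex.mul_conj, Complex.normSq_eq_norm_sq, hh]
  have h1 : ∫ t, P t ∂σ = (S : ℂ) := by
    rw [hP, integral_finsetSum _ fun z _ => (hint σ z).const_mul _, ← hcS]
    refine Finset.sum_congr rfl fun z _ => ?_
    rw [integral_const_mul]; rfl
  have h2 : ∫ t, ‖P t‖ ^ 2 ∂lam = S := by
    have e1 : ∀ t, ((‖P t‖ ^ 2 : ℝ) : ℂ) =
        ∑ z ∈ F, ∑ z' ∈ F, conj (Ph χ σ z) * Ph χ σ z' * χ (z - z') t := fun t => by
      rw [← Complex.normSq_eq_norm_sq, ← Complex.mul_conj, hP]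
      simp only [map_sum, map_mul, Complex.conj_conj, Finset.sum_mul_sum]
      refine Finset.sum_congr rfl fun z _ => Finset.sum_congr rfl fun z' _ => ?_
      rw [← hsub]; ring
    have e2 : ((∫ t, ‖P t‖ ^ 2 ∂lam : ℝ) : ℂ) = (S : ℂ) := by
      rw [← integral_complex_ofReal, ← hcS]
      refine (integral_congr_ae (ae_of_all _ fun t => e1 t)).trans ?_
      rw [integral_finsetSum _ fun z _ =>
        integrable_finsetSum _ fun z' _ => (hint lam _).const_mul _]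
      refine Finset.sum_congr rfl fun z hz => ?_
      rw [integral_finsetSum _ fun z' _ => (hint lam _).const_mul _, Finset.sum_eq_single z]
      · rw [integral_const_mul]
        have : ∀ t, χ (z - z) t = 1 := fun t => by rw [← hsub, hcc]
        simp only [this]
        simp
      · intro z' _ hne
        rw [integral_const_mul, horth _ (sub_ne_zero.2 (Ne.symm hne)), mul_zero]
      · intro h; exact absurd hz h
    exact_mod_cast e2
  have hS0 : 0 ≤ S := by rw [hS]; exact Finset.sum_nonneg fun z _ => sq_nonneg _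
  have h3 : S ≤ ∫ t, ‖P t‖ ∂σ := by
    have := norm_integral_le_integral_norm (μ := σ) P
    rwa [h1, Complex.norm_real, Real.norm_of_nonneg hS0] at this
  have h4 : ∫ t, ‖P t‖ ^ 2 ∂σ ≤ N * S := by
    have hi : Integrable (fun t => ‖P t‖ ^ 2) (ENNReal.ofReal N • lam) :=
      (hP2 lam).smul_measure ENNReal.ofReal_ne_top
    have := integral_mono_measure hle' (ae_of_all _ fun t => by positivity) hi
    rwa [integral_smul_measure, h2, ENNReal.toReal_ofReal hN0, smul_eq_mul] at this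
  have h5 : ∫ t, ‖P t‖ ∂σ ≤ ∫ t, (‖P t‖ ^ 2 / (2 * N) + N / 2) ∂σ := by
    refine integral_mono hP1 (((hP2 σ).div_const _).add (integrable_const _)) fun t => ?_
    have : ‖P t‖ ^ 2 / (2 * N) + N / 2 - ‖P t‖ = (‖P t‖ - N) ^ 2 / (2 * N) := by
      field_simp; ring
    have h0 : 0 ≤ (‖P t‖ - N) ^ 2 / (2 * N) := by positivity
    show ‖P t‖ ≤ ‖P t‖ ^ 2 / (2 * N) + N / 2
    linarith
  rw [integral_add ((hP2 σ).div_const _) (integrable_const _), integral_div, integral_const] at h5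
  have h6 : (∫ t, ‖P t‖ ^ 2 ∂σ) / (2 * N) ≤ S / 2 := by
    rw [div_le_iff₀ (by positivity)]; linarith
  simp only [probReal_univ, smul_eq_mul, one_mul] at h5
  linarith

theorem withDensity_le_smul {r : T → ℝ} {M : ℝ} (hr : ∀ t, r t ≤ M) :
    (σ₀.withDensity fun t => ENNReal.ofReal (r t)) ≤ ENNReal.ofReal M • σ₀ := by
  rw [← withDensity_const]
  exact withDensity_mono (ae_of_all _ fun t => ENNReal.ofReal_le_ofReal (hr t))

theorem prod_real_le {σ : Measure T} [IsProbabilityMeasure σ] [IsProbabilityMeasure σ₀] {M : ℝ}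
    (hM : 0 ≤ M) (hle : σ ≤ ENNReal.ofReal M • σ₀) {A : Set (T × T)} (hA : MeasurableSet A) :
    (σ.prod σ).real A ≤ M ^ 2 * (σ₀.prod σ₀).real A := by
  have h1 : (σ.prod σ) A ≤ ENNReal.ofReal M * (ENNReal.ofReal M * (σ₀.prod σ₀) A) := by
    rw [Measure.prod_apply hA, Measure.prod_apply hA]
    calc ∫⁻ x, σ (Prod.mk x ⁻¹' A) ∂σ
        ≤ ∫⁻ x, ENNReal.ofReal M * σ₀ (Prod.mk x ⁻¹' A) ∂σ :=
          lintegral_mono fun x => by simpa using hle (Prod.mk x ⁻¹' A)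
      _ ≤ ∫⁻ x, ENNReal.ofReal M * σ₀ (Prod.mk x ⁻¹' A) ∂(ENNReal.ofReal M • σ₀) :=
          lintegral_mono' hle le_rfl
      _ = _ := by
          rw [lintegral_smul_measure, lintegral_const_mul' _ _ ENNReal.ofReal_ne_top, smul_eq_mul]
  have h2 := ENNReal.toReal_mono (by finiteness) h1
  rw [ENNReal.toReal_mul, ENNReal.toReal_mul, ENNReal.toReal_ofReal hM] at h2
  calc (σ.prod σ).real A ≤ M * (M * (σ₀.prod σ₀).real A) := h2
    _ = _ := by ring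

/-- `∫ W f ≤ ∫ W - ε ∫_{bad} W` -/
theorem good_mass {Y : Type*} [MeasurableSpace Y] (τ : Measure Y) [IsProbabilityMeasure τ]
    {W f : Y → ℝ} (mW : Measurable W) (mf : Measurable f) (W0 : ∀ p, 0 ≤ W p) (W1 : ∀ p, W p ≤ 1)
    (f0 : ∀ p, 0 ≤ f p) (f1 : ∀ p, f p ≤ 1) {ε : ℝ} (hε : 0 < ε)
    (h : (1 - ε / 2) * ∫ p, W p ∂τ ≤ ∫ p, W p * f p ∂τ) :
    (∫ p, W p ∂τ) / 2 ≤ τ.real {p | 1 - ε ≤ f p} := by
  have hA : MeasurableSet {p | 1 - ε ≤ f p} := measurableSet_le measurable_const mf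
  have iW : Integrable W τ :=
    Integrable.of_bound mW.aestronglyMeasurable 1 (Filter.Eventually.of_forall fun p => by
      rw [Real.norm_of_nonneg (W0 p)]; exact W1 p)
  have iI : Integrable (fun p => ({p | 1 - ε ≤ f p} : Set Y).indicator (fun _ => (1 : ℝ)) p) τ :=
    (integrable_const (1 : ℝ)).indicator hA
  have h1 : ∫ p, W p * f p ∂τ ≤
      ∫ p, ((1 - ε) * W p + ε * ({p | 1 - ε ≤ f p} : Set Y).indicator (fun _ => (1 : ℝ)) p) ∂τ := by
    refine integral_mono_of_nonneg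
      (Filter.Eventually.of_forall fun p => mul_nonneg (W0 p) (f0 p))
      ((iW.const_mul _).add (iI.const_mul _)) (Filter.Eventually.of_forall fun p => ?_)
    have a0 := W0 p
    have a1 := W1 p
    have a2 := f1 p
    by_cases hp : 1 - ε ≤ f p
    · have : p ∈ ({p | 1 - ε ≤ f p} : Set Y) := hp
      simp only [Set.indicator_of_mem this]
      nlinarith [mul_nonneg a0 (sub_nonneg.2 a2), mul_nonneg hε.le (sub_nonneg.2 a1)]
    · have : p ∉ ({p | 1 - ε ≤ f p} : Set Y) := hp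
      simp only [Set.indicator_of_notMem this]
      push Not at hp
      nlinarith [mul_nonneg a0 (sub_nonneg.2 hp.le)]
  rw [integral_add (iW.const_mul _) (iI.const_mul _), integral_const_mul, integral_const_mul,
    integral_indicator hA] at h1
  simp only [integral_const, smul_eq_mul, mul_one, measureReal_restrict_apply_univ] at h1
  have h2 : ε * ((∫ p, W p ∂τ) / 2) ≤ ε * τ.real {p | 1 - ε ≤ f p} := by nlinarith
  exact le_of_mul_le_mul_left h2 hε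

/-! ### part N: the numbers.  `R = X ^ 10 = exp (w ^ 100)` -/

structure Big (w X : ℝ) : Prop where
  hw : 10 ^ 9 ≤ w
  hX : X = Real.exp (w ^ 100 / 10)

/-- `exp y ≥ y ^ 4 / 4!` -/
theorem Big.pow_le {w X : ℝ} (h : Big w X) : w ^ 300 ≤ X := by
  have hw := h.hw
  have w1 : (1 : ℝ) ≤ w := le_trans (by norm_num) hw
  have h1 := Real.pow_div_factorial_le_exp (w ^ 100 / 10) (by positivity) 4
  have h2 : w ≤ w ^ 100 := le_self_pow₀ w1 (by norm_num)
  have h3 : (240000 : ℝ) ≤ w ^ 100 := le_trans (by norm_num) (hw.trans h2)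
  rw [h.hX]
  refine le_trans ?_ h1
  have e : (w ^ 100 / 10) ^ 4 / ((Nat.factorial 4 : ℕ) : ℝ) = w ^ 300 * (w ^ 100 / 240000) := by
    have : ((Nat.factorial 4 : ℕ) : ℝ) = 24 := by norm_num [Nat.factorial]
    rw [this]; ring
  rw [e]
  exact le_mul_of_one_le_right (by positivity) (by rw [le_div_iff₀ (by norm_num)]; linarith)

theorem Big.pow_ten {w X : ℝ} (h : Big w X) : X ^ 10 = Real.exp (w ^ 100) := by
  rw [h.hX, ← Real.exp_nat_mul]
  congr 1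
  push_cast; ring

theorem Big.S_le {w X : ℝ} (h : Big w X) {S : ℕ} (hS : S = ⌈X ^ 10 / w ^ 50⌉₊) :
    1 ≤ S ∧ X ^ 10 / w ^ 50 ≤ S ∧ (S : ℝ) ≤ 2 * X ^ 10 / w ^ 50 := by
  have w1 : (1 : ℝ) ≤ w := le_trans (by norm_num) h.hw
  have h1 := h.pow_le
  have h2 : w ^ 50 ≤ w ^ 300 := pow_le_pow_right₀ w1 (by norm_num)
  have X1 : 1 ≤ X := le_trans (one_le_pow₀ w1) h1
  have h3 : X ≤ X ^ 10 := le_self_pow₀ X1 (by norm_num)
  have h4 : 1 ≤ X ^ 10 / w ^ 50 := by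
    rw [le_div_iff₀ (by positivity)]; linarith
  have h5 : X ^ 10 / w ^ 50 ≤ S := hS ▸ Nat.le_ceil _
  have h6 : (S : ℝ) < X ^ 10 / w ^ 50 + 1 := hS ▸ Nat.ceil_lt_add_one (by linarith)
  refine ⟨by exact_mod_cast h4.trans h5, h5, ?_⟩
  rw [mul_div_assoc]; linarith

/-- `1 / b ≤ w ≤ exp w` -/
theorem Big.inv_pow_le {w X b : ℝ} (h : Big w X) (hb : 1 / w ≤ b) {S : ℕ}
    (hS : S = ⌈X ^ 10 / w ^ 50⌉₊) : 1 / b ^ (2 * S) ≤ Real.exp (4 * X ^ 10 / w ^ 49) := by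
  have w1 : (1 : ℝ) ≤ w := le_trans (by norm_num) h.hw
  have w0 : 0 < w := by linarith
  have b0 : 0 < b := lt_of_lt_of_le (by positivity) hb
  obtain ⟨-, -, h3⟩ := h.S_le hS
  have h1 : 1 / b ≤ Real.exp w := by
    have : 1 / b ≤ w := by
      rw [div_le_iff₀ b0]
      rw [div_le_iff₀ w0] at hb
      linarith
    linarith [Real.add_one_le_exp w]
  calc 1 / b ^ (2 * S) = (1 / b) ^ (2 * S) := by rw [one_div_pow]
    _ ≤ Real.exp w ^ (2 * S) := pow_le_pow_left₀ (by positivity) h1 _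
    _ = Real.exp (2 * S * w) := by rw [← Real.exp_nat_mul]; push_cast; rfl
    _ ≤ _ := by
      refine Real.exp_le_exp.2 ?_
      calc 2 * (S : ℝ) * w ≤ 2 * (2 * X ^ 10 / w ^ 50) * w := by gcongr
        _ = 4 * X ^ 10 / w ^ 49 := by field_simp; ring

/-- `L ≤ 3 w ^ 100`, and the exponent is at least `X² / (10 ^ 20 w ^ 60) ≥ 5 w ^ 100` -/
theorem Big.tau_le {w X y : ℝ} (h : Big w X) (hy : X ^ 2 / (10 ^ 20 * w ^ 60) ≤ y) :
    Real.exp (Real.log (128 / (1 / X ^ 10) ^ 2) - y) ≤ 1 / X ^ 10 := by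
  have hw := h.hw
  have w1 : (1 : ℝ) ≤ w := le_trans (by norm_num) hw
  have w0 : 0 < w := by linarith
  have h1 := h.pow_le
  have e1 : 1 / X ^ 10 = Real.exp (-w ^ 100) := by rw [h.pow_ten, Real.exp_neg, one_div]
  have e2 : Real.log (128 / (1 / X ^ 10) ^ 2) = Real.log 128 + 2 * w ^ 100 := by
    rw [e1, Real.log_div (by norm_num) (by positivity), Real.log_pow, Real.log_exp]
    push_cast; ring
  have h2 : Real.log 128 ≤ 128 := (Real.log_le_sub_one_of_pos (by norm_num)).trans (by norm_num)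
  have h3 : w ≤ w ^ 100 := le_self_pow₀ w1 (by norm_num)
  have h4 : (10 : ℝ) ^ 27 ≤ w ^ 440 := by
    calc (10 : ℝ) ^ 27 = (10 ^ 9) ^ 3 := by norm_num
      _ ≤ w ^ 3 := pow_le_pow_left₀ (by norm_num) hw 3
      _ ≤ w ^ 440 := pow_le_pow_right₀ w1 (by norm_num)
  have h5 : 4 * w ^ 100 ≤ X ^ 2 / (10 ^ 20 * w ^ 60) := by
    rw [le_div_iff₀ (by positivity)]
    calc 4 * w ^ 100 * (10 ^ 20 * w ^ 60) = w ^ 160 * (4 * 10 ^ 20) := by ring
      _ ≤ w ^ 160 * w ^ 440 := by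
        refine mul_le_mul_of_nonneg_left (le_trans (by norm_num) h4) (by positivity)
      _ = (w ^ 300) ^ 2 := by ring
      _ ≤ X ^ 2 := pow_le_pow_left₀ (by positivity) h1 2
  rw [e2, e1, Real.exp_le_exp]
  have : (128 : ℝ) ≤ w := le_trans (by norm_num) hw
  linarith

theorem Big.logM {w X b M : ℝ} (h : Big w X) (hb : 1 / w ≤ b) (hb1 : b ≤ 1) {S : ℕ}
    (hS : S = ⌈X ^ 10 / w ^ 50⌉₊)
    (hM : M = 64 / ((1 / X ^ 10) ^ 2 * b ^ (2 * S)) * Real.exp (X ^ 10)) :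
    1 ≤ M ∧ Real.log M ≤ 2 * X ^ 10 := by
  have hw := h.hw
  have w1 : (1 : ℝ) ≤ w := le_trans (by norm_num) hw
  have w0 : 0 < w := by linarith
  have b0 : 0 < b := lt_of_lt_of_le (by positivity) hb
  have h1 := h.pow_le
  have X1 : 1 ≤ X := le_trans (one_le_pow₀ w1) h1
  have h3 : X ≤ X ^ 10 := le_self_pow₀ X1 (by norm_num)
  have hi := h.inv_pow_le hb hS
  have e : M = 64 * (X ^ 10) ^ 2 * (1 / b ^ (2 * S)) * Real.exp (X ^ 10) := by
    rw [hM]; field_simp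
  have i1 : 1 ≤ 1 / b ^ (2 * S) := by
    rw [le_div_iff₀ (by positivity), one_mul]; exact pow_le_one₀ b0.le hb1
  have i2 : 1 ≤ Real.exp (X ^ 10) := Real.one_le_exp (by positivity)
  have i3 : 1 ≤ (X ^ 10) ^ 2 := one_le_pow₀ (X1.trans h3)
  have M1 : 1 ≤ M := by
    rw [e]
    exact one_le_mul_of_one_le_of_one_le
      (one_le_mul_of_one_le_of_one_le (by linarith) i1) i2
  refine ⟨M1, ?_⟩
  rw [Real.log_le_iff_le_exp (by linarith)]
  have e2 : (X ^ 10) ^ 2 = Real.exp (2 * w ^ 100) := by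
    rw [h.pow_ten, ← Real.exp_nat_mul]; push_cast; rfl
  have j1 : (64 : ℝ) ≤ Real.exp 64 := by linarith [Real.add_one_le_exp (64 : ℝ)]
  have k1 : 4 * X ^ 10 / w ^ 49 ≤ X ^ 10 / 2 := by
    have : 8 ≤ w ^ 49 := le_trans (le_trans (by norm_num) hw) (le_self_pow₀ w1 (by norm_num))
    rw [div_le_div_iff₀ (by positivity) (by norm_num)]
    nlinarith [pow_pos (lt_of_lt_of_le one_pos X1) 10]
  have k2 : 64 + 2 * w ^ 100 ≤ X ^ 10 / 2 := by
    have a1 : w ≤ w ^ 100 := le_self_pow₀ w1 (by norm_num)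
    have a2 : w ≤ w ^ 200 := le_self_pow₀ w1 (by norm_num)
    have a3 : w ^ 300 = w ^ 100 * w ^ 200 := by ring
    have a4 : (64 : ℝ) ≤ w := le_trans (by norm_num) hw
    nlinarith
  calc M ≤ Real.exp 64 * Real.exp (2 * w ^ 100) * Real.exp (4 * X ^ 10 / w ^ 49) *
        Real.exp (X ^ 10) := by
        rw [e, e2]; gcongr
    _ = Real.exp (64 + 2 * w ^ 100 + 4 * X ^ 10 / w ^ 49 + X ^ 10) := by
        simp only [Real.exp_add]
    _ ≤ _ := Real.exp_le_exp.2 (by linarith)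

set_option maxHeartbeats 4000000 in
theorem Big.num_ent {w X b β ζ d u lM lc : ℝ} (h : Big w X) (hb : 1 / w ≤ b) (hb1 : b ≤ 1)
    (hβ : b / 2 ≤ β) (hβ1 : β ≤ 1) {S m v : ℕ} (hS : S = ⌈X ^ 10 / w ^ 50⌉₊) (hm : m = ⌊X⌋₊)
    (hv : v = m ^ 2) (hζ : ζ = 4 * (1 / X ^ 10) / b) (hd : d = S * β ^ 4 / 320)
    (hu : u = 1 / (64 * X ^ 4)) (hM : lM ≤ 2 * X ^ 10) (hc : lc ≤ X ^ 10) :
    1 ≤ m ∧ m < v ∧ X / 2 ≤ m ∧ (v : ℝ) ≤ X ^ 2 ∧ 32 * v * ζ ≤ 1 ∧ 0 ≤ u ∧ 2 * v ≤ d * u ∧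
      v * u ≤ 1 ∧
      (16 * (v * u) + 8 * Real.exp (Real.log (128 / (1 / X ^ 10) ^ 2) - d * u ^ 2 / 2) +
        16 * (v * ζ) ^ 2) * v ≤ 1 ∧
      3 + lM + 2 * v / β + lc ≤ 4 * X ^ 10 ∧
      4 * X ^ 10 / Real.log ((v : ℝ) / m) ≤ 80 * X ^ 10 / w ^ 100 := by
  have hw := h.hw
  have w0 : 0 < w := lt_of_lt_of_le (by norm_num) hw
  have w1 : 1 ≤ w := le_trans (by norm_num) hw
  have hp := h.pow_le
  have hw60 : w ^ 60 ≤ X := (pow_le_pow_right₀ w1 (by norm_num)).trans hp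
  have hw2 : w ^ 2 ≤ X := (pow_le_pow_right₀ w1 (by norm_num)).trans hp
  clear hp
  have hwX : 10 ^ 9 * w ≤ X := by nlinarith
  have hXb : (10:ℝ) ^ 9 ≤ X := by nlinarith
  have X0 : 0 < X := by linarith [show (0:ℝ) < 10 ^ 9 by norm_num]
  have X1 : 1 ≤ X := le_trans (by norm_num) hXb
  have b0 : 0 < b := lt_of_lt_of_le (by positivity) hb
  have β0 : 0 < β := by linarith
  have hbw : 1 ≤ w * b := by rwa [div_le_iff₀ w0, mul_comm] at hb
  have hβw : 1 ≤ 2 * w * β := by nlinarith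
  obtain ⟨-, hS1, -⟩ := h.S_le hS
  have hmX : (m : ℝ) ≤ X := by rw [hm]; exact Nat.floor_le X0.le
  have hXm : X < m + 1 := by rw [hm]; exact Nat.lt_floor_add_one X
  have hm2 : X / 2 ≤ m := by linarith [show (2:ℝ) ≤ X from le_trans (by norm_num) hXb]
  have hm2' : (2:ℝ) ≤ m := by linarith [show (4:ℝ) ≤ X from le_trans (by norm_num) hXb]
  have hm2n : 2 ≤ m := by exact_mod_cast hm2'
  have hvR : (v : ℝ) = (m : ℝ) ^ 2 := by rw [hv]; push_cast; ring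
  have v0 : (0:ℝ) ≤ v := Nat.cast_nonneg v
  have hvX : (v : ℝ) ≤ X ^ 2 := by rw [hvR]; exact pow_le_pow_left₀ (Nat.cast_nonneg m) hmX 2
  have hζ0 : 0 ≤ ζ := by rw [hζ]; positivity
  have hζ1 : ζ ≤ 4 * w / X ^ 10 := by
    rw [hζ, div_le_div_iff₀ b0 (by positivity)]
    have : 4 * (1 / X ^ 10) * X ^ 10 = 4 := by field_simp
    rw [this]; nlinarith
  have hvζ : v * ζ ≤ 4 / X ^ 7 := by
    calc v * ζ ≤ X ^ 2 * (4 * w / X ^ 10) := mul_le_mul hvX hζ1 hζ0 (by positivity)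
      _ = 4 * w / X ^ 8 := by field_simp
      _ ≤ 4 * X / X ^ 8 := by gcongr; nlinarith
      _ = 4 / X ^ 7 := by field_simp
  have hX7 : X ≤ X ^ 7 := le_self_pow₀ X1 (by norm_num)
  have hvζ' : v * ζ ≤ 1 / 32 := by
    refine hvζ.trans ?_
    rw [div_le_div_iff₀ (by positivity) (by norm_num)]
    linarith [show (128:ℝ) ≤ X from le_trans (by norm_num) hXb]
  have u0 : 0 ≤ u := by rw [hu]; positivity
  have hβ4 : 1 / (16 * w ^ 4) ≤ β ^ 4 := by
    have h1 : 1 / (2 * w) ≤ β := by rw [div_le_iff₀ (by positivity)]; linarith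
    calc 1 / (16 * w ^ 4) = (1 / (2 * w)) ^ 4 := by field_simp; norm_num
      _ ≤ β ^ 4 := pow_le_pow_left₀ (by positivity) h1 4
  have hd1 : X ^ 10 / (5120 * w ^ 54) ≤ d := by
    rw [hd]
    calc X ^ 10 / (5120 * w ^ 54) = X ^ 10 / w ^ 50 * (1 / (16 * w ^ 4)) / 320 := by
          field_simp; norm_num
      _ ≤ S * β ^ 4 / 320 := by gcongr
  have hw54 : 10 ^ 9 * w ^ 54 ≤ X := by
    have h1 : w * w ^ 54 ≤ w ^ 60 := by
      calc w * w ^ 54 = w ^ 55 := by ring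
        _ ≤ w ^ 60 := pow_le_pow_right₀ w1 (by norm_num)
    have h2 : 10 ^ 9 * w ^ 54 ≤ w * w ^ 54 := by gcongr
    linarith
  have hvu : v * u ≤ 1 / (64 * X ^ 2) := by
    rw [hu]
    calc v * (1 / (64 * X ^ 4)) ≤ X ^ 2 * (1 / (64 * X ^ 4)) := by gcongr
      _ = 1 / (64 * X ^ 2) := by field_simp
  have hX2 : 1 ≤ X ^ 2 := one_le_pow₀ X1
  have htau : Real.exp (Real.log (128 / (1 / X ^ 10) ^ 2) - d * u ^ 2 / 2) ≤ 1 / X ^ 10 := by
    refine h.tau_le ?_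
    calc X ^ 2 / (10 ^ 20 * w ^ 60) ≤ X ^ 2 / (41943040 * w ^ 54) := by
          have : w ^ 54 ≤ w ^ 60 := pow_le_pow_right₀ w1 (by norm_num)
          gcongr
          norm_num
      _ = X ^ 10 / (5120 * w ^ 54) * u ^ 2 / 2 := by rw [hu]; field_simp; norm_num
      _ ≤ d * u ^ 2 / 2 := by gcongr
  refine ⟨by omega, by rw [hv]; nlinarith, hm2, hvX, by nlinarith, u0, ?_, ?_, ?_, ?_, ?_⟩
  · calc 2 * (v : ℝ) ≤ 2 * X ^ 2 := by linarith
      _ ≤ X ^ 6 / (327680 * w ^ 54) := by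
          rw [le_div_iff₀ (by positivity)]
          have h4 : X ≤ X ^ 4 := le_self_pow₀ X1 (by norm_num)
          have h5 : 655360 * w ^ 54 ≤ X ^ 4 := by
            have : 0 < w ^ 54 := by positivity
            nlinarith
          calc 2 * X ^ 2 * (327680 * w ^ 54) = X ^ 2 * (655360 * w ^ 54) := by ring
            _ ≤ X ^ 2 * X ^ 4 := by gcongr
            _ = X ^ 6 := by ring
      _ = X ^ 10 / (5120 * w ^ 54) * u := by rw [hu]; field_simp; norm_num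
      _ ≤ d * u := by gcongr
  · refine hvu.trans ?_
    rw [div_le_one (by positivity)]; linarith
  · have e1 : 16 * (v * u) * v ≤ 1 / 4 := by
      calc 16 * (v * u) * v ≤ 16 * (1 / (64 * X ^ 2)) * X ^ 2 := by gcongr
        _ = 1 / 4 := by field_simp; norm_num
    have e2 : 8 * Real.exp (Real.log (128 / (1 / X ^ 10) ^ 2) - d * u ^ 2 / 2) * v ≤ 1 / 4 := by
      calc _ ≤ 8 * (1 / X ^ 10) * X ^ 2 := by gcongr
        _ = 8 / X ^ 8 := by field_simp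
        _ ≤ 1 / 4 := by
          rw [div_le_div_iff₀ (by positivity) (by norm_num)]
          have : X ≤ X ^ 8 := le_self_pow₀ X1 (by norm_num)
          linarith [show (32:ℝ) ≤ X from le_trans (by norm_num) hXb]
    have e3 : 16 * (v * ζ) ^ 2 * v ≤ 1 / 4 := by
      calc 16 * (v * ζ) ^ 2 * v ≤ 16 * (4 / X ^ 7) ^ 2 * X ^ 2 := by gcongr
        _ = 256 / X ^ 12 := by field_simp; norm_num
        _ ≤ 1 / 4 := by
          rw [div_le_div_iff₀ (by positivity) (by norm_num)]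
          have : X ≤ X ^ 12 := le_self_pow₀ X1 (by norm_num)
          linarith [show (1024:ℝ) ≤ X from le_trans (by norm_num) hXb]
    nlinarith
  · have e1 : 2 * v / β ≤ 4 * w * X ^ 2 := by
      rw [div_le_iff₀ β0]
      have : X ^ 2 ≤ 2 * w * β * X ^ 2 := le_mul_of_one_le_left (by positivity) hβw
      nlinarith
    have e2 : 4 * w * X ^ 2 + 3 ≤ X ^ 10 := by
      have h3 : X ^ 3 ≤ X ^ 10 := pow_le_pow_right₀ X1 (by norm_num)
      have h4 : 10 ^ 9 * w * X ^ 2 ≤ X * X ^ 2 := by gcongr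
      have h5 : 1 ≤ w * X ^ 2 := one_le_mul_of_one_le_of_one_le w1 hX2
      nlinarith
    linarith
  · have m0 : (0:ℝ) < m := by linarith
    have e1 : (v : ℝ) / m = m := by rw [hvR]; field_simp
    have hw100 : 20 ≤ w ^ 100 := by
      have : w ≤ w ^ 100 := le_self_pow₀ w1 (by norm_num)
      linarith [show (20:ℝ) ≤ w from le_trans (by norm_num) hw]
    have e2 : w ^ 100 / 20 ≤ Real.log m := by
      have h1 := Real.log_le_log (by positivity) hm2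
      rw [Real.log_div X0.ne' (by norm_num), h.hX, Real.log_exp] at h1
      have h2 : Real.log 2 ≤ 1 := by
        have := Real.log_le_sub_one_of_pos (show (0:ℝ) < 2 by norm_num); linarith
      linarith
    rw [e1]
    calc 4 * X ^ 10 / Real.log m ≤ 4 * X ^ 10 / (w ^ 100 / 20) := by gcongr
      _ = 80 * X ^ 10 / w ^ 100 := by field_simp; norm_num

set_option maxHeartbeats 2000000 in
theorem Big.num_core {w X b β ζ d u e : ℝ} (h : Big w X) (hb : 1 / w ≤ b) (hb1 : b ≤ 1)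
    (hβ : b / 2 ≤ β) (hβ1 : β ≤ 1) (he : 1 / (168 * w) ≤ e) (he1 : e ≤ 1 / 168) {S r s : ℕ}
    (hS : S = ⌈X ^ 10 / w ^ 50⌉₊) (hr : X / 2 ≤ r) (hr2 : (r : ℝ) ≤ X ^ 2)
    (hζ : ζ = 4 * (1 / X ^ 10) / b) (hd : d = S * β ^ 4 / 320) (hu : u = e ^ 2 / (32 * r))
    (hs : s = ⌊d * u / 8⌋₊) :
    1 ≤ r ∧ s + r ≤ 2 * S ∧ 32 * s * ζ ≤ 1 ∧ 32 * r * ζ ≤ 1 ∧ 0 ≤ u ∧
      2 * (2 * s + 2 * r) ≤ d * u ∧ 2 * r * u ≤ 1 ∧
      8 * (r * u) + 4 * Real.exp (Real.log (128 / (1 / X ^ 10) ^ 2) - d * u ^ 2 / 2) +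
        16 * (r * ζ) ≤ e ^ 2 ∧
      6 * u + 6 * Real.exp (Real.log (128 / (1 / X ^ 10) ^ 2) - d * u ^ 2 / 2) + ζ ^ 2 ≤
        e ^ 2 * β ^ 4 := by
  have w0 : 0 < w := lt_of_lt_of_le (by norm_num) h.hw
  have w1 : 1 ≤ w := le_trans (by norm_num) h.hw
  have hY : 10 ^ 20 * w ^ 60 ≤ X := by
    refine le_trans ?_ h.pow_le
    have h3 : (10:ℝ) ^ 20 ≤ w ^ 3 := by
      calc (10:ℝ) ^ 20 ≤ (10 ^ 9) ^ 3 := by norm_num
        _ ≤ w ^ 3 := pow_le_pow_left₀ (by norm_num) h.hw 3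
    calc 10 ^ 20 * w ^ 60 ≤ w ^ 3 * w ^ 60 := by gcongr
      _ = w ^ 63 := by ring
      _ ≤ w ^ 300 := pow_le_pow_right₀ w1 (by norm_num)
  have hp : ∀ (c : ℝ) (j : ℕ), c ≤ 10 ^ 20 → j ≤ 60 → c * w ^ j ≤ X := fun c j hc hj => by
    refine le_trans ?_ hY
    have h1 := pow_le_pow_right₀ w1 hj
    have h0 : 0 < w ^ j := by positivity
    calc c * w ^ j ≤ 10 ^ 20 * w ^ j := by gcongr
      _ ≤ 10 ^ 20 * w ^ 60 := by gcongr
  have X2 : 2 ≤ X := by simpa using hp 2 0 (by norm_num) (by norm_num)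
  have X1 : 1 ≤ X := by linarith
  have X0 : 0 < X := by linarith
  have hXp : ∀ i j : ℕ, i ≤ j → X ^ i ≤ X ^ j := fun i j hij => pow_le_pow_right₀ X1 hij
  have b0 : 0 < b := lt_of_lt_of_le (by positivity) hb
  have hβ' : 1 / (2 * w) ≤ β := by
    calc 1 / (2 * w) = 1 / w / 2 := by field_simp
      _ ≤ β := by linarith
  have β0 : 0 < β := lt_of_lt_of_le (by positivity) hβ'
  have e0 : 0 < e := lt_of_lt_of_le (by positivity) he
  have e1 : e ^ 2 ≤ 1 := pow_le_one₀ e0.le (by linarith)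
  have e2 : 1 / (28224 * w ^ 2) ≤ e ^ 2 := by
    calc 1 / (28224 * w ^ 2) = (1 / (168 * w)) ^ 2 := by field_simp; norm_num
      _ ≤ e ^ 2 := by gcongr
  have β4 : 1 / (16 * w ^ 4) ≤ β ^ 4 := by
    calc 1 / (16 * w ^ 4) = (1 / (2 * w)) ^ 4 := by field_simp; norm_num
      _ ≤ β ^ 4 := by gcongr
  have β41 : β ^ 4 ≤ 1 := pow_le_one₀ β0.le hβ1
  have r1 : (1:ℝ) ≤ r := by linarith
  have r0 : (0:ℝ) < r := by linarith
  obtain ⟨S1, S2, S3⟩ := h.S_le hS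
  have S0 : (0:ℝ) ≤ S := Nat.cast_nonneg S
  have ζ0 : 0 ≤ ζ := by rw [hζ]; positivity
  have ζ1 : ζ ≤ 4 * w / X ^ 10 := by
    have : 1 / b ≤ w := by
      rw [div_le_iff₀ b0]; rw [div_le_iff₀ w0] at hb; linarith
    calc ζ = 4 * (1 / b) / X ^ 10 := by rw [hζ]; field_simp
      _ ≤ 4 * w / X ^ 10 := by gcongr
  have d0 : 0 ≤ d := by rw [hd]; positivity
  have dS : d ≤ S := by
    have : (S : ℝ) * β ^ 4 ≤ S * 1 := mul_le_mul_of_nonneg_left β41 S0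
    rw [hd]; linarith only [this, S0]
  have d1 : X ^ 10 / (5120 * w ^ 54) ≤ d := by
    calc X ^ 10 / (5120 * w ^ 54) = X ^ 10 / w ^ 50 * (1 / (16 * w ^ 4)) / 320 := by
          field_simp; norm_num
      _ ≤ S * β ^ 4 / 320 := by gcongr
      _ = d := hd.symm
  have u0 : 0 ≤ u := by rw [hu]; positivity
  have u1 : u ≤ 1 / X := by
    rw [hu]
    calc e ^ 2 / (32 * r) ≤ 1 / (32 * r) := by gcongr
      _ ≤ 1 / X := one_div_le_one_div_of_le X0 (by linarith)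
  have iX : 1 / X ≤ 1 := by rw [div_le_one X0]; exact X1
  have u2 : 1 / (903168 * w ^ 2 * X ^ 2) ≤ u := by
    calc 1 / (903168 * w ^ 2 * X ^ 2) = 1 / (28224 * w ^ 2) / (32 * X ^ 2) := by
          field_simp; norm_num
      _ ≤ e ^ 2 / (32 * r) := by gcongr
      _ = u := hu.symm
  have ru : r * u = e ^ 2 / 32 := by rw [hu]; field_simp
  have s1 : (s : ℝ) ≤ d * u / 8 := by rw [hs]; exact Nat.floor_le (by positivity)
  have sS : (s : ℝ) ≤ S := by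
    have : d * u ≤ S * 1 := mul_le_mul dS (u1.trans iX) u0 S0
    linarith
  have rS : (r : ℝ) ≤ S := by
    refine hr2.trans (le_trans ?_ S2)
    rw [le_div_iff₀ (by positivity)]
    have h1 : w ^ 50 ≤ X := by simpa using hp 1 50 (by norm_num) (by norm_num)
    calc X ^ 2 * w ^ 50 ≤ X ^ 2 * X := by gcongr
      _ = X ^ 3 := by ring
      _ ≤ X ^ 10 := hXp 3 10 (by norm_num)
  have Sζ : 32 * (S : ℝ) * ζ ≤ 1 := by
    calc 32 * (S : ℝ) * ζ ≤ 32 * (2 * X ^ 10 / w ^ 50) * (4 * w / X ^ 10) := by gcongr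
      _ = 256 / w ^ 49 := by field_simp; norm_num
      _ ≤ 1 := by
        rw [div_le_one (by positivity)]
        have : w ≤ w ^ 49 := le_self_pow₀ w1 (by norm_num)
        have := h.hw
        linarith
  have hτ : Real.exp (Real.log (128 / (1 / X ^ 10) ^ 2) - d * u ^ 2 / 2) ≤ 1 / X ^ 10 := by
    refine h.tau_le ?_
    calc X ^ 2 / (10 ^ 20 * w ^ 60)
        ≤ X ^ 6 / ((5120 * 903168 ^ 2 * 2) * w ^ 58) := by
          gcongr
          · norm_num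
          · norm_num
          · norm_num
      _ = X ^ 10 / (5120 * w ^ 54) * (1 / (903168 * w ^ 2 * X ^ 2)) ^ 2 / 2 := by
          field_simp
      _ ≤ d * u ^ 2 / 2 := by gcongr
  have hτ1 : 1 / X ^ 10 ≤ 1 / X := one_div_le_one_div_of_le X0 (le_self_pow₀ X1 (by norm_num))
  have wX : 4 * w ≤ X := by simpa using hp 4 1 (by norm_num) (by norm_num)
  have ζ2 : ζ ≤ 1 / X := by
    refine ζ1.trans ?_
    rw [div_le_div_iff₀ (by positivity) X0]
    calc 4 * w * X ≤ X * X := by gcongr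
      _ = X ^ 2 := by ring
      _ ≤ 1 * X ^ 10 := by rw [one_mul]; exact hXp 2 10 (by norm_num)
  have rζ : r * ζ ≤ 1 / X := by
    calc r * ζ ≤ X ^ 2 * (4 * w / X ^ 10) := by gcongr
      _ ≤ X ^ 2 * (X / X ^ 10) := by gcongr
      _ = 1 / X ^ 7 := by field_simp
      _ ≤ 1 / X := one_div_le_one_div_of_le X0 (le_self_pow₀ X1 (by norm_num))
  have k1 : 40 * (1 / X) ≤ e ^ 2 := by
    refine le_trans ?_ e2
    rw [mul_one_div, div_le_div_iff₀ X0 (by positivity)]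
    have := hp (40 * 28224) 2 (by norm_num) (by norm_num)
    linarith
  have k2 : 13 * (1 / X) ≤ e ^ 2 * β ^ 4 := by
    calc 13 * (1 / X) ≤ 1 / (28224 * w ^ 2) * (1 / (16 * w ^ 4)) := by
          rw [mul_one_div, one_div_mul_one_div, div_le_div_iff₀ X0 (by positivity)]
          have := hp (13 * 28224 * 16) 6 (by norm_num) (by norm_num)
          calc 13 * (28224 * w ^ 2 * (16 * w ^ 4)) = 13 * 28224 * 16 * w ^ 6 := by ring
            _ ≤ 1 * X := by linarith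
      _ ≤ e ^ 2 * β ^ 4 := by gcongr
  have du : 8 * (r : ℝ) ≤ d * u := by
    calc 8 * (r : ℝ) ≤ 8 * X ^ 2 := by gcongr
      _ ≤ X ^ 10 / (5120 * w ^ 54) * (1 / (903168 * w ^ 2 * X ^ 2)) := by
          rw [div_mul_div_comm, le_div_iff₀ (by positivity)]
          have := hp (8 * 5120 * 903168) 56 (by norm_num) (by norm_num)
          calc 8 * X ^ 2 * (5120 * w ^ 54 * (903168 * w ^ 2 * X ^ 2))
              = X ^ 4 * (8 * 5120 * 903168 * w ^ 56) := by ring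
            _ ≤ X ^ 4 * X := by gcongr
            _ = X ^ 5 := by ring
            _ ≤ X ^ 10 * 1 := by rw [mul_one]; exact hXp 5 10 (by norm_num)
      _ ≤ d * u := by gcongr
  refine ⟨by exact_mod_cast r1, ?_, ?_, ?_, u0, by linarith only [s1, du],
    by linarith only [ru, e1], ?_, ?_⟩
  · have : (s : ℝ) + r ≤ 2 * S := by linarith only [sS, rS]
    exact_mod_cast this
  · exact le_trans (by gcongr) Sζ
  · exact le_trans (by gcongr) Sζ
  · have : 0 ≤ e ^ 2 := by positivity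
    linarith only [this, ru, hτ, hτ1, rζ, k1]
  · have : ζ ^ 2 ≤ 1 / X := by
      calc ζ ^ 2 = ζ * ζ := sq ζ
        _ ≤ 1 / X * 1 := mul_le_mul ζ2 (ζ2.trans iX) ζ0 (by positivity)
        _ = 1 / X := mul_one _
    linarith only [this, u1, hτ, hτ1, k2]

/-- `k ≤ 160 R / (w^100 r e² β²)`, `s + 1 ≥ d e² / (256 r)`, `d ≥ R / (5120 w^54)` -/
theorem Big.num_K {w X b β d u e lM g : ℝ} (h : Big w X) (hb : 1 / w ≤ b)
    (hβ : b / 2 ≤ β) (hβ1 : β ≤ 1) (he : 1 / (168 * w) ≤ e) (he1 : e ≤ 1 / 168) {S r s k : ℕ}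
    (hS : S = ⌈X ^ 10 / w ^ 50⌉₊) (hr : X / 2 ≤ r) (hr2 : (r : ℝ) ≤ X ^ 2)
    (hd : d = S * β ^ 4 / 320) (hu : u = e ^ 2 / (32 * r)) (hs : s = ⌊d * u / 8⌋₊)
    (hM : lM ≤ 2 * X ^ 10) (hg : r * g ≤ 80 * X ^ 10 / w ^ 100)
    (hk : k = ⌈80 * X ^ 10 / (w ^ 100 * r * e ^ 2 * β ^ 2)⌉₊) :
    1 ≤ k ∧ g ≤ e ^ 2 * β ^ 2 * k ∧
      k * (lM / (s + 1) + 8 / β) ≤ 2 * 10 ^ 18 * X ^ 10 / w ^ 40 := by
  have hw := h.hw
  have w0 : 0 < w := lt_of_lt_of_le (by norm_num) hw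
  have w1 : 1 ≤ w := le_trans (by norm_num) hw
  have hX := h.pow_le
  have hw100 : w ^ 100 ≤ X := (pow_le_pow_right₀ w1 (by norm_num)).trans hX
  have hwX : w ≤ X := (le_self_pow₀ w1 (by norm_num)).trans hX
  have X1 : 2 ≤ X := le_trans (le_trans (by norm_num) hw) hwX
  have X0 : 0 < X := by linarith
  have r1 : (1 : ℝ) ≤ r := by linarith
  have r0 : (0 : ℝ) < r := by linarith
  have e0 : 0 < e := lt_of_lt_of_le (by positivity) he
  have b0 : 0 < b := lt_of_lt_of_le (by positivity) hb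
  have β0 : 0 < β := by linarith
  have hie : e⁻¹ ≤ 168 * w := by
    rw [inv_le_comm₀ e0 (by positivity), ← one_div]; exact he
  have hiβ : β⁻¹ ≤ 2 * w := by
    rw [inv_le_comm₀ β0 (by positivity)]
    have : (2 * w)⁻¹ = 1 / w / 2 := by field_simp
    rw [this]; linarith
  obtain ⟨-, hS1, -⟩ := h.S_le hS
  set Y : ℝ := 80 * X ^ 10 / (w ^ 100 * r * e ^ 2 * β ^ 2) with hY
  have hY1 : 1 ≤ Y := by
    rw [hY, le_div_iff₀ (by positivity), one_mul]
    have h1 : e ^ 2 ≤ 1 := pow_le_one₀ e0.le (by linarith)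
    have h2 : β ^ 2 ≤ 1 := pow_le_one₀ β0.le hβ1
    have h3 : X * X ^ 2 ≤ X ^ 10 := by
      rw [← pow_succ']; exact pow_le_pow_right₀ (by linarith) (by norm_num)
    have h4 : 0 < X ^ 10 := by positivity
    calc w ^ 100 * r * e ^ 2 * β ^ 2 ≤ X * X ^ 2 * 1 * 1 := by gcongr
      _ ≤ 80 * X ^ 10 := by linarith
  have hk1 : Y ≤ k := by rw [hk]; exact Nat.le_ceil _
  have hk2 : (k : ℝ) ≤ 2 * Y := by
    have := Nat.ceil_lt_add_one (show 0 ≤ Y by linarith)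
    rw [← hk] at this; linarith
  refine ⟨by exact_mod_cast hY1.trans hk1, ?_, ?_⟩
  · have h1 : g ≤ 80 * X ^ 10 / w ^ 100 / r := by
      rw [le_div_iff₀ r0, mul_comm]; exact hg
    have h2 : 80 * X ^ 10 / w ^ 100 / r = e ^ 2 * β ^ 2 * Y := by
      rw [hY]; field_simp
    rw [h2] at h1
    exact h1.trans (mul_le_mul_of_nonneg_left hk1 (by positivity))
  · have hs1 : X ^ 10 / w ^ 50 * β ^ 4 / 320 * (e ^ 2 / (32 * r)) / 8 ≤ (s : ℝ) + 1 := by
      have h1 := (Nat.lt_floor_add_one (d * u / 8)).le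
      rw [← hs] at h1
      refine le_trans ?_ h1
      rw [hd, hu]
      gcongr
    have hA : lM / (s + 1) ≤ 163840 * r * w ^ 50 * β⁻¹ ^ 4 * e⁻¹ ^ 2 := by
      rw [div_le_iff₀ (by positivity)]
      refine hM.trans (le_trans (le_of_eq ?_)
        (mul_le_mul_of_nonneg_left hs1 (by positivity)))
      field_simp
      norm_num
    have hY2 : Y = 80 * X ^ 10 / w ^ 100 * (r : ℝ)⁻¹ * e⁻¹ ^ 2 * β⁻¹ ^ 2 := by
      rw [hY]; field_simp
    have hri : (r : ℝ)⁻¹ ≤ 1 := inv_le_one_of_one_le₀ r1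
    have h1 : 2 * Y * (163840 * r * w ^ 50 * β⁻¹ ^ 4 * e⁻¹ ^ 2) ≤
        14 * 10 ^ 17 * X ^ 10 / w ^ 40 := by
      calc _ = 26214400 * X ^ 10 / w ^ 50 * e⁻¹ ^ 4 * β⁻¹ ^ 6 := by
            rw [hY2]; field_simp; norm_num
        _ ≤ 26214400 * X ^ 10 / w ^ 50 * (168 * w) ^ 4 * (2 * w) ^ 6 := by gcongr
        _ = 26214400 * 168 ^ 4 * 2 ^ 6 * X ^ 10 / w ^ 40 := by field_simp
        _ ≤ _ := div_le_div_of_nonneg_right
            (mul_le_mul_of_nonneg_right (by norm_num) (by positivity)) (by positivity)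
    have h2 : 2 * Y * (8 * β⁻¹) ≤ 6 * 10 ^ 17 * X ^ 10 / w ^ 40 := by
      calc _ = 1280 * X ^ 10 / w ^ 100 * (r : ℝ)⁻¹ * e⁻¹ ^ 2 * β⁻¹ ^ 3 := by
            rw [hY2]; ring
        _ ≤ 1280 * X ^ 10 / w ^ 100 * 1 * (168 * w) ^ 2 * (2 * w) ^ 3 := by gcongr
        _ = 1280 * 168 ^ 2 * 2 ^ 3 * X ^ 10 / w ^ 95 := by field_simp
        _ ≤ 6 * 10 ^ 17 * X ^ 10 / w ^ 40 := div_le_div₀ (by positivity)
            (mul_le_mul_of_nonneg_right (by norm_num) (by positivity)) (by positivity)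
            (pow_le_pow_right₀ w1 (by norm_num))
    calc (k : ℝ) * (lM / (s + 1) + 8 / β)
        ≤ k * (163840 * r * w ^ 50 * β⁻¹ ^ 4 * e⁻¹ ^ 2 + 8 * β⁻¹) := by
          rw [div_eq_mul_inv 8 β]; gcongr
      _ ≤ 2 * Y * (163840 * r * w ^ 50 * β⁻¹ ^ 4 * e⁻¹ ^ 2 + 8 * β⁻¹) := by gcongr
      _ ≤ 14 * 10 ^ 17 * X ^ 10 / w ^ 40 + 6 * 10 ^ 17 * X ^ 10 / w ^ 40 := by
          rw [mul_add]; linarith
      _ = _ := by ring

private theorem h58_Q {w X : ℝ} (h : Big w X) : w ^ 100 ≤ X ^ 10 / w ^ 49 := by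
  have hw := h.hw
  have w1 : 1 ≤ w := le_trans (by norm_num) hw
  have w0 : 0 < w := by linarith
  have h1 := h.pow_le
  have X1 : 1 ≤ X := (one_le_pow₀ w1).trans h1
  have h3 : X ≤ X ^ 10 := le_self_pow₀ X1 (by norm_num)
  rw [le_div_iff₀ (by positivity), ← pow_add]
  exact (pow_le_pow_right₀ w1 (by norm_num)).trans (h1.trans h3)

theorem Big.num_fin1 {w X b e : ℝ} (h : Big w X) (hb : 1 / w ≤ b) (he : 1 / (168 * w) ≤ e)
    {S : ℕ} (hS : S = ⌈X ^ 10 / w ^ 50⌉₊) :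
    2 * Real.exp ((2 * (2 * 10 ^ 18 * X ^ 10 / w ^ 40) + 1) / e) * (2 / b ^ (2 * S)) ≤
      Real.exp (X ^ 10 / w ^ 25) := by
  have hw := h.hw
  have w1 : 1 ≤ w := le_trans (by norm_num) hw
  have w0 : 0 < w := by linarith
  have hQ := h58_Q h
  have hi := h.inv_pow_le hb hS
  set Q := X ^ 10 / w ^ 49 with hQd
  have Q1 : 1 ≤ Q := (one_le_pow₀ w1).trans hQ
  have e1 : 4 * X ^ 10 / w ^ 49 = 4 * Q := by rw [hQd]; ring
  have e2 : X ^ 10 / w ^ 25 = Q * w ^ 24 := by rw [hQd]; field_simp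
  have e3 : 2 * 10 ^ 18 * X ^ 10 / w ^ 40 = 2 * 10 ^ 18 * (Q * w ^ 9) := by rw [hQd]; field_simp
  rw [e1] at hi
  rw [e2, e3]
  have e0 : 0 < e := lt_of_lt_of_le (by positivity) he
  have hA : (2 * (2 * 10 ^ 18 * (Q * w ^ 9)) + 1) / e ≤
      (2 * (2 * 10 ^ 18 * (Q * w ^ 9)) + 1) * (168 * w) := by
    rw [div_eq_mul_one_div]
    refine mul_le_mul_of_nonneg_left ?_ (by positivity)
    rw [one_div_le e0 (by positivity)]
    exact he
  have h4 : (4 : ℝ) ≤ Real.exp 3 := by linarith [Real.add_one_le_exp 3]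
  have w10 : w ≤ w ^ 10 := le_self_pow₀ w1 (by norm_num)
  have w3 : 10 ^ 27 ≤ w ^ 3 := by
    calc (10 : ℝ) ^ 27 = (10 ^ 9) ^ 3 := by norm_num
      _ ≤ _ := pow_le_pow_left₀ (by norm_num) hw 3
  have w13 : 10 ^ 27 * w ^ 10 ≤ w ^ 24 := by
    calc 10 ^ 27 * w ^ 10 ≤ w ^ 3 * w ^ 10 := mul_le_mul_of_nonneg_right w3 (by positivity)
      _ = w ^ 13 := by ring
      _ ≤ _ := pow_le_pow_right₀ w1 (by norm_num)
  have hsum : 3 + (2 * (2 * 10 ^ 18 * (Q * w ^ 9)) + 1) * (168 * w) + 4 * Q ≤ Q * w ^ 24 := by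
    have a1 : Q * (10 ^ 27 * w ^ 10) ≤ Q * w ^ 24 := mul_le_mul_of_nonneg_left w13 (by linarith)
    have a2 : Q * 1 ≤ Q * w ^ 10 := mul_le_mul_of_nonneg_left (by linarith) (by linarith)
    have a3 : 1 * w ^ 10 ≤ Q * w ^ 10 := mul_le_mul_of_nonneg_right Q1 (by positivity)
    have a4 : (2 * (2 * 10 ^ 18 * (Q * w ^ 9)) + 1) * (168 * w) =
        672 * 10 ^ 18 * (Q * w ^ 10) + 168 * w := by ring
    rw [a4]
    nlinarith
  calc _ = 4 * Real.exp ((2 * (2 * 10 ^ 18 * (Q * w ^ 9)) + 1) / e) * (1 / b ^ (2 * S)) := by ring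
    _ ≤ Real.exp 3 * Real.exp ((2 * (2 * 10 ^ 18 * (Q * w ^ 9)) + 1) * (168 * w)) *
        Real.exp (4 * Q) := by
        have b0 : 0 < b := lt_of_lt_of_le (by positivity) hb
        gcongr
    _ ≤ _ := by
        rw [← Real.exp_add, ← Real.exp_add]
        exact Real.exp_le_exp.2 hsum

/-- `(1 - ζ) β ≥ 1 / (4 w) ≥ exp (-4 w)` and `≤ 1` -/
theorem Big.num_fin2 {w X b β ζ Z y : ℝ} (h : Big w X) (hb : 1 / w ≤ b) (hb1 : b ≤ 1)
    (hβ : b / 2 ≤ β) (hβ1 : β ≤ 1) (hζ0 : 0 ≤ ζ) (hζ : ζ ≤ 1 / 2) {S j : ℕ}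
    (hS : S = ⌈X ^ 10 / w ^ 50⌉₊) (hj : j ≤ 2 * S) (hZ : ((1 - ζ) * β) ^ (4 * j) ≤ Z)
    (hy0 : 0 ≤ y) (hy : Z / 2 ≤ (64 / ((1 / X ^ 10) ^ 2 * b ^ (2 * S))) ^ 2 * y) :
    Real.exp (-(X ^ 10 / w ^ 25)) ≤ y := by
  have hw := h.hw
  have w1 : 1 ≤ w := le_trans (by norm_num) hw
  have w0 : 0 < w := by linarith
  have b0 : 0 < b := lt_of_lt_of_le (by positivity) hb
  have hQ := h58_Q h
  have hi := h.inv_pow_le hb hS
  have hS2 := (h.S_le hS).2.2
  have hY := h.pow_ten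
  set Q := X ^ 10 / w ^ 49 with hQd
  have e1 : 4 * X ^ 10 / w ^ 49 = 4 * Q := by rw [hQd]; ring
  have e2 : X ^ 10 / w ^ 25 = Q * w ^ 24 := by rw [hQd]; field_simp
  have e3 : 2 * X ^ 10 / w ^ 50 = 2 * Q / w := by rw [hQd]; field_simp
  rw [e1] at hi
  rw [e3, le_div_iff₀ w0] at hS2
  rw [e2]
  have wQ : w ≤ Q := (le_self_pow₀ w1 (by norm_num)).trans hQ
  have h1 : Real.exp (-(4 * w)) ≤ (1 - ζ) * β := by
    have a1 : Real.exp (-(4 * w)) ≤ 1 / (4 * w) := by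
      rw [Real.exp_neg, ← one_div]
      exact one_div_le_one_div_of_le (by positivity) (by linarith [Real.add_one_le_exp (4 * w)])
    have a2 : 1 / (4 * w) = 1 / 2 * (1 / w / 2) := by field_simp; norm_num
    rw [a2] at a1
    exact a1.trans (mul_le_mul (by linarith) (by linarith) (by positivity) (by linarith))
  have h2 : Real.exp (-(64 * Q)) ≤ Z := by
    refine le_trans ?_ ((pow_le_pow_left₀ (Real.exp_pos _).le h1 _).trans hZ)
    rw [← Real.exp_nat_mul]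
    refine Real.exp_le_exp.2 ?_
    have a1 : (j : ℝ) ≤ 2 * S := by exact_mod_cast hj
    push_cast
    nlinarith [mul_le_mul_of_nonneg_right a1 w0.le]
  have h3 : X ^ 10 ≤ Real.exp Q := by rw [hY]; exact Real.exp_le_exp.2 hQ
  have X0 : 0 < X ^ 10 := by rw [hY]; exact Real.exp_pos _
  have h4 : (128 : ℝ) ≤ Real.exp Q := by linarith [Real.add_one_le_exp Q]
  have h5 : 64 / ((1 / X ^ 10) ^ 2 * b ^ (2 * S)) ≤ Real.exp (7 * Q) / 2 := by
    calc _ = 128 * (X ^ 10 * X ^ 10) * (1 / b ^ (2 * S)) / 2 := by field_simp; ring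
      _ ≤ Real.exp Q * (Real.exp Q * Real.exp Q) * Real.exp (4 * Q) / 2 := by gcongr
      _ = _ := by rw [← Real.exp_add, ← Real.exp_add, ← Real.exp_add]; ring_nf
  have h6 : (64 / ((1 / X ^ 10) ^ 2 * b ^ (2 * S))) ^ 2 ≤ Real.exp (14 * Q) / 4 := by
    calc _ ≤ (Real.exp (7 * Q) / 2) ^ 2 := pow_le_pow_left₀ (by positivity) h5 2
      _ = Real.exp (7 * Q) * Real.exp (7 * Q) / 4 := by ring
      _ = _ := by rw [← Real.exp_add]; ring_nf
  have h7 : Real.exp (-(64 * Q)) ≤ Real.exp (14 * Q) * y := by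
    have a1 := mul_le_mul_of_nonneg_right h6 hy0
    have a2 : 0 ≤ Real.exp (14 * Q) * y := by positivity
    linarith
  have h8 : Real.exp (14 * Q) * Real.exp (-(Q * w ^ 24)) ≤ Real.exp (-(64 * Q)) := by
    rw [← Real.exp_add]
    refine Real.exp_le_exp.2 ?_
    have a1 : w ≤ w ^ 24 := le_self_pow₀ w1 (by norm_num)
    have a2 : Q * 78 ≤ Q * w ^ 24 := mul_le_mul_of_nonneg_left (by linarith) (by linarith)
    linarith
  exact le_of_mul_le_mul_left (h8.trans h7) (Real.exp_pos _)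

/-! ### the theorem -/

/-- **Static approximate duality.**  `R = exp (w ^ 100)`, cost `K = R / w ^ 25`. -/
theorem AD' [IsProbabilityMeasure σ₀] (hχ : IsChar χ) (hD : IsProb D) {w R b ε : ℝ}
    (hw : 10 ^ 9 ≤ w) (hR : R = Real.exp (w ^ 100)) (hb : 1 / w ≤ b) (hε : 1 / w ≤ ε)
    (hε1 : ε ≤ 1) (hc : b ≤ ∫ t, ‖Bf χ a D t‖ ∂σ₀) (hι : Real.log (Fintype.card ι) ≤ R)
    (hB : Bessel χ σ₀ R) :
    ∃ q : ι → ℝ, IsProb q ∧ (∀ n, q n ≤ Real.exp (R / w ^ 25) * D n) ∧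
      Real.exp (-(R / w ^ 25)) ≤ (σ₀.prod σ₀).real {p | 1 - ε ≤ ‖B2 χ a q p‖ ^ 2} := by
  set X := Real.exp (w ^ 100 / 10) with hX
  have h : Big w X := ⟨hw, hX⟩
  have hRX : R = X ^ 10 := by rw [hR, h.pow_ten]
  subst hRX
  have w0 : 0 < w := lt_of_lt_of_le (by norm_num) hw
  have w1 : 1 ≤ w := le_trans (by norm_num) hw
  have X0 : 0 < X := Real.exp_pos _
  have b0 : 0 < b := lt_of_lt_of_le (by positivity) hb
  have hb1 : b ≤ 1 := by
    refine hc.trans ?_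
    have := norm_integral_le_of_norm_le_const (μ := σ₀) (f := fun t => ‖Bf χ a D t‖) (C := 1)
      (Filter.Eventually.of_forall fun t => by simpa using norm_Bf_le_one hχ hD a t)
    exact (le_abs_self _).trans (by simpa using this)
  set S := ⌈X ^ 10 / w ^ 50⌉₊ with hS
  obtain ⟨S1, -, -⟩ := h.S_le hS
  have hρb : 1 / X ^ 10 ≤ b / 8 := by
    have h1 : w ^ 300 ≤ X := h.pow_le
    have h2 : 8 * w ≤ w ^ 300 := by
      calc 8 * w ≤ w * w := by nlinarith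
        _ = w ^ 2 := by ring
        _ ≤ w ^ 300 := pow_le_pow_right₀ w1 (by norm_num)
    have X1 : 1 ≤ X := by nlinarith
    have h3 : X ≤ X ^ 10 := le_self_pow₀ X1 (by norm_num)
    calc 1 / X ^ 10 ≤ 1 / (8 * w) := one_div_le_one_div_of_le (by positivity) (by linarith)
      _ = 1 / w / 8 := by field_simp
      _ ≤ b / 8 := by linarith
  obtain ⟨D', B₀, ρ, hD', hβ, mρ, hρ, hC⟩ := step_one' (a := a) hχ hD b0 hc S1
    (ρ := 1 / X ^ 10) (by positivity) hρb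
  set σ := σ₀.withDensity fun t => ENNReal.ofReal (ρ t) with hσ
  have := hC.pm
  set M₁ := 64 / ((1 / X ^ 10) ^ 2 * b ^ (2 * S)) with hM₁
  have M0 : 0 ≤ M₁ := by positivity
  have hle : σ ≤ ENNReal.ofReal M₁ • σ₀ := withDensity_le_smul fun t => (hρ t).2
  have hM := hB σ M₁ hC.pm M0 hle
  obtain ⟨hM1, hlM⟩ := h.logM hb hb1 hS (M := M₁ * Real.exp (X ^ 10)) rfl
  obtain ⟨n1, n2, n3, n4, n5, n6, n7, n8, n9, n10, n11⟩ := h.num_ent hb hb1 hβ hC.le1 hS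
    (m := ⌊X⌋₊) (v := ⌊X⌋₊ ^ 2) rfl rfl rfl rfl rfl hlM hι
  obtain ⟨r, r1, r2, r3⟩ := hC.ent hM1 hM n1 n2 n5 n6 n7 n8 n9 n10
  have hr : X / 2 ≤ r := n3.trans (by exact_mod_cast r1)
  have hr2 : (r : ℝ) ≤ X ^ 2 := le_trans (by exact_mod_cast r2.le) n4
  have ε0 : 0 < ε := lt_of_lt_of_le (by positivity) hε
  have he : 1 / (168 * w) ≤ ε / 168 := by
    calc 1 / (168 * w) = 1 / w / 168 := by field_simp
      _ ≤ ε / 168 := by linarith
  have he1 : ε / 168 ≤ 1 / 168 := by linarith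
  obtain ⟨c1, c2, c3, c4, c5, c6, c7, c8, c9⟩ := h.num_core hb hb1 hβ hC.le1 he he1 hS hr hr2
    rfl rfl rfl rfl
  obtain ⟨k1, k2, k3⟩ := h.num_K hb hβ hC.le1 he he1 hS hr hr2 rfl rfl rfl hlM (r3.trans n11) rfl
  obtain ⟨q, hq, hqD, hcore⟩ := hC.core hM1 hM _ r _ k1 c1 c3 c4 c5 c6 c7 (by positivity)
    (by linarith) c8 c9 k2 k3
  refine ⟨q, hq, fun n => ?_, ?_⟩
  · refine (hqD n).trans ?_
    have h1 := h.num_fin1 hb he hS
    calc _ ≤ 2 * Real.exp ((2 * (2 * 10 ^ 18 * X ^ 10 / w ^ 40) + 1) / (ε / 168)) *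
          (2 / b ^ (2 * S) * D n) := mul_le_mul_of_nonneg_left (hD' n) (by positivity)
      _ = 2 * Real.exp ((2 * (2 * 10 ^ 18 * X ^ 10 / w ^ 40) + 1) / (ε / 168)) *
          (2 / b ^ (2 * S)) * D n := by ring
      _ ≤ _ := mul_le_mul_of_nonneg_right h1 (hD.nn n)
  · have m2 := ((measurable_B2 hχ a q).norm).pow_const 2
    have hA : MeasurableSet {p : T × T | 1 - ε ≤ ‖B2 χ a q p‖ ^ 2} :=
      measurableSet_le measurable_const m2
    have g1 := good_mass (σ.prod σ) (((measurable_B2 hχ a D').norm).pow_const _) m2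
      (fun p => by positivity)
      (fun p => pow_le_one₀ (norm_nonneg _) (norm_B2_le_one hχ hC.prob a p))
      (fun p => by positivity)
      (fun p => pow_le_one₀ (norm_nonneg _) (norm_B2_le_one hχ hq a p)) ε0
      (le_of_eq_of_le (by unfold ZZ; ring) hcore)
    exact h.num_fin2 hb hb1 hβ hC.le1 hC.z0 hC.z1 hS c2 (hC.ZZ_ge _) measureReal_nonneg
      (g1.trans (prod_real_le M0 hle hA))

theorem AD [IsProbabilityMeasure σ₀] (hχ : IsChar χ) (hD : IsProb D) {w R b ε : ℝ}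
    (hw : 10 ^ 9 ≤ w) (hR : R = Real.exp (w ^ 100)) (hb : 1 / w ≤ b) (hε : 1 / w ≤ ε)
    (hε1 : ε ≤ 1) (hc : b ≤ ‖∫ t, Bf χ a D t ∂σ₀‖) (hι : Real.log (Fintype.card ι) ≤ R)
    (hB : Bessel χ σ₀ R) :
    ∃ q : ι → ℝ, IsProb q ∧ (∀ n, q n ≤ Real.exp (R / w ^ 25) * D n) ∧
      Real.exp (-(R / w ^ 25)) ≤ (σ₀.prod σ₀).real {p | 1 - ε ≤ ‖B2 χ a q p‖ ^ 2} :=
  AD' hχ hD hw hR hb hε hε1 (hc.trans (norm_integral_le_integral_norm _)) hι hB

end Crest.Agent.R100.Ad
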