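import Mathlib

/-!
# Row 100, outer reduction (helper84): definitions

`SL G` is the single-level inequality in the dyadic model with true exponentials; the files
`Out*.lean` prove that `SL G` and `GainOK G` imply the statement S0132.
-/

set_option autoImplicit false

open MeasureTheory Set
open scoped ENNReal

noncomputable section

namespace Crest.Agent.R100

/-- the uniform average over the paths of length `n` -/
def avg : ℕ → (List Bool → ℝ) → ℝ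
  | 0, F => F []
  | n + 1, F => (avg n (fun l => F (false :: l)) + avg n (fun l => F (true :: l))) / 2

/-- the left end of the child `c` of `[α, α + ℓ)` -/
def ch (c : Bool) (α ℓ : ℝ) : ℝ := if c then α + ℓ / 2 else α

/-- the average of `g` over `[α, α + ℓ)` -/
def av (g : ℝ → ℝ) (α ℓ : ℝ) : ℝ := (∫ y in α..α + ℓ, g y) / ℓ

/-- `e^{-i ξ y}` -/
def ex (ξ y : ℝ) : ℂ := Complex.exp (-((ξ * y : ℝ) : ℂ) * Complex.I)

def Fi (g : ℝ → ℝ) (ξ a b : ℝ) : ℂ := ∫ y in a..b, (g y : ℂ) * ex ξ y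

/-- the martingale difference of `g e^{-i ξ ·}` on the left child -/
def D (g : ℝ → ℝ) (ξ α ℓ : ℝ) : ℂ := (Fi g ξ α (α + ℓ / 2) - Fi g ξ (α + ℓ / 2) (α + ℓ)) / ℓ

/-- the sign of the shift: child `c`, grandchild `c'` -/
def sig (c c' : Bool) : ℝ := if c then 0 else if c' then -1 else 1

/-- the full shift along a path -/
def Tf (g : ℝ → ℝ) (ξ : ℝ) : ℝ → ℝ → List Bool → ℂ
  | α, ℓ, c :: c' :: l => sig c c' * D g ξ α ℓ + Tf g ξ (ch c α ℓ) (ℓ / 2) (c' :: l)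
  | _, _, _ => 0

/-- the shift stopped when the average of `g` exceeds `b` -/
def Ts (g : ℝ → ℝ) (ξ b : ℝ) : ℝ → ℝ → List Bool → ℂ
  | α, ℓ, c :: c' :: l =>
      if av g α ℓ ≤ b then sig c c' * D g ξ α ℓ + Ts g ξ b (ch c α ℓ) (ℓ / 2) (c' :: l) else 0
  | _, _, _ => 0

/-- all averages along the path are at most `b` -/
def good (g : ℝ → ℝ) (b : ℝ) : ℝ → ℝ → List Bool → Prop
  | _, _, [] => True
  | α, ℓ, c :: l => av g α ℓ ≤ b ∧ good g b (ch c α ℓ) (ℓ / 2) l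

/-- **The single-level inequality** with gain function `G`. -/
def SL (G : ℝ → ℝ) : Prop :=
  ∀ (R b : ℝ) (g : ℝ → ℝ) (n : ℕ) (α ℓ : ℝ) (ξ : List Bool → ℝ), 1 ≤ R → 0 < b → Measurable g →
    (∀ y, 0 ≤ g y ∧ g y ≤ Real.exp R * b) → 0 < ℓ →
      avg n (fun l => ‖Ts g (ξ l) b α ℓ l‖) ≤ b * G R

/-- the gain that is needed -/
def GainOK (G : ℝ → ℝ) : Prop := ∃ C : ℝ, ∀ R, 1 ≤ R → G R * Real.log (2 + Real.log R) ≤ C * R

/-- the path of the point `x` -/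
def path : ℕ → ℝ → ℝ → ℝ → List Bool
  | 0, _, _, _ => []
  | n + 1, α, ℓ, x =>
      decide (α + ℓ / 2 ≤ x) :: path n (ch (decide (α + ℓ / 2 ≤ x)) α ℓ) (ℓ / 2) x

/-- the Haar function -/
def hh (v : ℝ) : ℝ := if 0 < v ∧ v ≤ 1 / 2 then 1 else if 1 / 2 < v ∧ v ≤ 1 then -1 else 0

/-- the Haar function of the left child (for `0 ≤ v`) -/
def aa (v : ℝ) : ℝ := if v < 1 / 4 then 1 else if v < 1 / 2 then -1 else 0

/-- the kernel of the shift -/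
def kn : ℕ → ℝ → ℝ → ℝ → ℝ → ℝ
  | 0, _, _, _, _ => 0
  | n + 1, α, ℓ, x, y => aa ((x - α) / ℓ) * hh ((y - α) / ℓ) / ℓ +
      kn n (if α + ℓ / 2 ≤ x then α + ℓ / 2 else α) (ℓ / 2) x y

/-- the kernel averaged over the tops -/
def KK (n : ℕ) (A x y : ℝ) : ℝ := ∫ ℓ in A..2 * A, (∫ α in x - ℓ..x, kn n α ℓ x y) / ℓ ^ 2

/-- the shift at the point `x` -/
def Tx (g : ℝ → ℝ) (ξ : ℝ) (n : ℕ) (α ℓ x : ℝ) : ℂ := ∫ y, (g y : ℂ) * ex ξ y * kn n α ℓ x y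

/-- the Dirichlet integral on the line -/
def Dl (g : ℝ → ℝ) (ξ x : ℝ) : ℝ := ∫ y, g y * (Real.sin (ξ * (x - y)) / (x - y))

/-- the bound on the line -/
def LineBound (G : ℝ → ℝ) : Prop :=
  ∃ C : ℝ, 0 ≤ C ∧ ∀ (R b W x₀ : ℝ) (L : ℕ) (g : ℝ → ℝ), 1 ≤ R → 0 < b → 0 < W → Measurable g →
    Integrable g → (∀ y, 0 ≤ g y ∧ g y ≤ Real.exp R * b) → ∫ y, g y ≤ W * b →
      ∃ E : Set ℝ, MeasurableSet E ∧ volume E ≤ ENNReal.ofReal (C * W / 2 ^ L) ∧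
        ∀ (ξ : ℕ → ℝ) (N₀ : ℕ), ∫⁻ x in Ico x₀ (x₀ + W) \ E, ⨆ N ≤ N₀, ‖Dl g (ξ N) x‖ₑ ≤
          ENNReal.ofReal (C * W * b * ((L + 1) * G R + 1))

variable {T : ℝ} [Fact (0 < T)]

/-- the symmetric partial sums -/
def S (f : AddCircle T → ℂ) (N : ℕ) (x : AddCircle T) : ℂ :=
  ∑ k ∈ Finset.Icc (-(N : ℤ)) N, fourierCoeff f k • fourier k x

variable (T) in
/-- the bound for one piece, nonnegative functions -/
def PieceR (G : ℝ → ℝ) : Prop :=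
  ∃ C : ℝ, 0 ≤ C ∧ ∀ (R b : ℝ) (L : ℕ) (g : AddCircle T → ℝ), 1 ≤ R → 0 < b → Measurable g →
    (∀ y, 0 ≤ g y ∧ g y ≤ Real.exp R * b) → ∫ y, g y ∂AddCircle.haarAddCircle ≤ b →
      ∃ E : Set (AddCircle T), MeasurableSet E ∧
        AddCircle.haarAddCircle E ≤ ENNReal.ofReal (C / 2 ^ L) ∧
        ∫⁻ x in Eᶜ, ⨆ N, ‖S (fun y => (g y : ℂ)) N x‖ₑ ∂AddCircle.haarAddCircle ≤
          ENNReal.ofReal (C * b * ((L + 1) * G R + 1))

variable (T) in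
/-- the bound for one piece, complex functions -/
def PieceC (G : ℝ → ℝ) : Prop :=
  ∃ C : ℝ, 0 ≤ C ∧ ∀ (R b : ℝ) (L : ℕ) (g : AddCircle T → ℂ), 1 ≤ R → 0 < b → Measurable g →
    (∀ y, ‖g y‖ ≤ Real.exp R * b) → ∫ y, ‖g y‖ ∂AddCircle.haarAddCircle ≤ b →
      ∃ E : Set (AddCircle T), MeasurableSet E ∧
        AddCircle.haarAddCircle E ≤ ENNReal.ofReal (C / 2 ^ L) ∧
        ∫⁻ x in Eᶜ, ⨆ N, ‖S g N x‖ₑ ∂AddCircle.haarAddCircle ≤
          ENNReal.ofReal (C * b * ((L + 1) * G R + 1))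

end Crest.Agent.R100
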