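import Crest.Agent.R100.AdPlus
import Crest.Agent.R100.AdTop
import Crest.Agent.R100.OutDefs

/-! # Row 100, AD+ on the line: lattice frequencies, atoms, captured mass (helper79) -/

set_option autoImplicit false

noncomputable section

namespace Crest.Agent.R100.AdP

open MeasureTheory Finset Crest.Agent.R100.Ent Crest.Agent.R100.Ad
open scoped ComplexConjugate

variable {ι : Type*} [Fintype ι] {𝒜 : Type*} [Fintype 𝒜]

/-- the characters `e^{-i θ z t}` -/
def chR (θ : ℝ) (z : ℤ) (t : ℝ) : ℂ := ex (θ * z) t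

theorem chR_char (θ : ℝ) : IsChar (chR θ) where
  meas z := by unfold chR ex; fun_prop
  norm z t := by
    unfold chR ex
    rw [← Complex.ofReal_neg, Complex.norm_exp_ofReal_mul_I]
  mul z z' t := by
    unfold chR ex
    rw [← Complex.exp_add]; congr 1; push_cast; ring

theorem chR_add (θ : ℝ) (z : ℤ) (t t' : ℝ) : chR θ z (t + t') = chR θ z t * chR θ z t' := by
  unfold chR ex
  rw [← Complex.exp_add]; congr 1; push_cast; ring

/-- the best shift for one atom -/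
theorem shift_one (θ : ℝ) (a : ι → ℤ) {D : ι → ℝ} (hD : IsProb D) (ν : Measure ℝ)
    [IsFiniteMeasure ν] {x : ℝ} (hx : 0 ≤ x) :
    ∃ y : ℝ, ∑ n, D n * (‖∫ t, chR θ (a n) t ∂ν‖ ^ 2 / ν.real Set.univ) - x * ν.real Set.univ ≤
      ν.real {t | x ^ 2 ≤ ‖Bf (chR θ) a D (t - y)‖ ^ 2} := by
  have hχ := chR_char θ
  by_cases h0 : ν = 0
  · exact ⟨0, by simp [h0]⟩
  haveI : NeZero ν := ⟨h0⟩
  have hm : 0 < ν.real Set.univ := measureReal_univ_pos
  have hi : ∀ n, Integrable (chR θ (a n)) ν := fun n =>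
    Integrable.of_bound (hχ.meas _).aestronglyMeasurable 1
      (Filter.Eventually.of_forall fun t => (hχ.norm _ t).le)
  have hic : ∀ n, Integrable (fun t => conj (chR θ (a n) t)) ν := fun n =>
    Integrable.of_bound (Complex.continuous_conj.measurable.comp
      (hχ.meas _)).aestronglyMeasurable 1
      (Filter.Eventually.of_forall fun t => by rw [Complex.norm_conj, hχ.norm])
  set u : ι → ℂ := fun n => ∫ t, chR θ (a n) t ∂ν with hu
  set φ : ℝ → ℝ := fun y => (∑ n, (D n : ℂ) * u n * conj (chR θ (a n) y)).re with hφ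
  have hφi : Integrable (fun y => ∑ n, (D n : ℂ) * u n * conj (chR θ (a n) y)) ν :=
    integrable_finsetSum _ fun n _ => (hic n).const_mul _
  have hφ1 : ∫ y, φ y ∂ν = ∑ n, D n * ‖u n‖ ^ 2 := by
    have := integral_re hφi
    simp only [RCLike.re_to_complex] at this
    rw [hφ, this, integral_finsetSum _ fun n _ => (hic n).const_mul _, Complex.re_sum]
    refine Finset.sum_congr rfl fun n _ => ?_
    rw [integral_const_mul, integral_conj, mul_assoc, Complex.mul_conj, ← Complex.ofReal_mul,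
      Complex.ofReal_re, Complex.normSq_eq_norm_sq]
  obtain ⟨y, hy⟩ := exists_average_le (μ := ν) (f := φ) h0 hφi.re
  refine ⟨y, ?_⟩
  rw [average_eq, hφ1, smul_eq_mul] at hy
  have e1 : ∑ n, D n * (‖u n‖ ^ 2 / ν.real Set.univ) =
      (ν.real Set.univ)⁻¹ * ∑ n, D n * ‖u n‖ ^ 2 := by
    rw [Finset.mul_sum]
    exact Finset.sum_congr rfl fun n _ => by field_simp
  have e2 : ∫ t, Bf (chR θ) a D (t - y) ∂ν = ∑ n, (D n : ℂ) * u n * conj (chR θ (a n) y) := by
    unfold Bf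
    simp only [chi_sub hχ (chR_add θ)]
    rw [integral_finsetSum _ fun n _ => ((hi n).mul_const _).const_mul _]
    refine Finset.sum_congr rfl fun n _ => ?_
    rw [integral_const_mul, integral_mul_const, mul_assoc]
  have hmS : MeasurableSet {t | x ^ 2 ≤ ‖Bf (chR θ) a D (t - y)‖ ^ 2} :=
    (measurable_id.sub_const y) (meas_ge (a := a) hχ D (x ^ 2))
  have h2 : ‖∫ t, Bf (chR θ) a D (t - y) ∂ν‖ ≤ ∫ t,
      (x + Set.indicator {t | x ^ 2 ≤ ‖Bf (chR θ) a D (t - y)‖ ^ 2} (fun _ => (1 : ℝ)) t) ∂ν := by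
    refine norm_integral_le_of_norm_le
      ((integrable_const _).add ((integrable_const _).indicator hmS))
      (Filter.Eventually.of_forall fun t => ?_)
    by_cases h : x ^ 2 ≤ ‖Bf (chR θ) a D (t - y)‖ ^ 2
    · rw [Set.indicator_of_mem (by exact h)]
      linarith [norm_Bf_le (a := a) hχ hD (t - y)]
    · rw [Set.indicator_of_notMem (by exact h), add_zero]
      exact (abs_le_of_sq_le_sq' (not_le.1 h).le hx).2
  rw [integral_add (integrable_const _) ((integrable_const _).indicator hmS),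
    integral_indicator hmS, e2] at h2
  simp only [integral_const, smul_eq_mul, mul_one, measureReal_restrict_apply_univ] at h2
  have h3 := Complex.re_le_norm (∑ n, (D n : ℂ) * u n * conj (chR θ (a n) y))
  rw [e1]
  simp only [hφ] at hy
  linarith

/-- the best shifts for all atoms -/
theorem shift_all (θ : ℝ) (a : ι → ℤ) {D : ι → ℝ} (hD : IsProb D) (ν : 𝒜 → Measure ℝ)
    [∀ A, IsFiniteMeasure (ν A)] {s x : ℝ} (hs : 0 ≤ s) (hx : 0 ≤ x)
    (hP : 0 < ∑ A, (ν A).real Set.univ)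
    (hν : ∀ n, s * ∑ A, (ν A).real Set.univ ≤ ∑ A, ‖∫ t, chR θ (a n) t ∂ν A‖) :
    ∃ y : 𝒜 → ℝ, (s ^ 2 - x) * ∑ A, (ν A).real Set.univ ≤
      ∑ A, (ν A).real {t | x ^ 2 ≤ ‖Bf (chR θ) a D (t - y A)‖ ^ 2} := by
  choose y hy using fun A => shift_one θ a hD (ν A) hx
  refine ⟨y, le_trans ?_ (Finset.sum_le_sum fun A _ => hy A)⟩
  rw [Finset.sum_sub_distrib, ← Finset.mul_sum, Finset.sum_comm, sub_mul]
  refine sub_le_sub_right ?_ _
  calc s ^ 2 * ∑ A, (ν A).real Set.univ = ∑ n, D n * (s ^ 2 * ∑ A, (ν A).real Set.univ) := by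
        rw [← Finset.sum_mul, hD.one, one_mul]
    _ ≤ _ := Finset.sum_le_sum fun n _ => ?_
  rw [← Finset.mul_sum]
  refine mul_le_mul_of_nonneg_left ?_ (hD.nn n)
  -- `u² / m ≥ 2 s u - s² m`
  have key : ∀ A, 2 * s * ‖∫ t, chR θ (a n) t ∂ν A‖ - s ^ 2 * (ν A).real Set.univ ≤
      ‖∫ t, chR θ (a n) t ∂ν A‖ ^ 2 / (ν A).real Set.univ := fun A => by
    by_cases h0 : ν A = 0
    · simp [h0]
    haveI : NeZero (ν A) := ⟨h0⟩
    have hm : 0 < (ν A).real Set.univ := measureReal_univ_pos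
    rw [le_div_iff₀ hm]
    nlinarith [sq_nonneg (‖∫ t, chR θ (a n) t ∂ν A‖ - s * (ν A).real Set.univ)]
  have h1 := Finset.sum_le_sum fun A (_ : A ∈ Finset.univ) => key A
  rw [Finset.sum_sub_distrib, ← Finset.mul_sum, ← Finset.mul_sum] at h1
  have h2 := mul_le_mul_of_nonneg_left (hν n) (by positivity : 0 ≤ 2 * s)
  linarith

section Circle

variable {θ : ℝ} [Fact (0 < 2 * Real.pi / θ)]

/-- the characters of the circle -/
def chC (θ : ℝ) (z : ℤ) (t : AddCircle (2 * Real.pi / θ)) : ℂ := fourier (-z) t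

theorem chC_coe (hθ : 0 < θ) (z : ℤ) (t : ℝ) : chC θ z (t : AddCircle (2 * Real.pi / θ)) =
    chR θ z t := by
  unfold chC chR ex
  rw [fourier_coe_apply]
  congr 1
  have h1 : (θ : ℂ) ≠ 0 := by exact_mod_cast hθ.ne'
  have h2 : (Real.pi : ℂ) ≠ 0 := by exact_mod_cast Real.pi_pos.ne'
  push_cast
  field_simp

theorem chC_char : IsChar (chC θ) where
  meas z := (fourier (-z)).continuous.measurable
  norm z t := by unfold chC; simp [fourier_apply]
  mul z z' t := by unfold chC; rw [neg_add, fourier_add]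

theorem chC_add (z : ℤ) (t t' : AddCircle (2 * Real.pi / θ)) :
    chC θ z (t + t') = chC θ z t * chC θ z t' := by
  unfold chC
  simp only [fourier_apply, smul_add, AddCircle.toCircle_add, Circle.coe_mul]

theorem chC_orth (z : ℤ) (hz : z ≠ 0) : ∫ t, chC θ z t ∂AddCircle.haarAddCircle = 0 := by
  unfold chC
  have hp : (0 : ℝ) < 2 * Real.pi / θ := Fact.out
  exact integral_eq_zero_of_add_right_eq_neg (μ := AddCircle.haarAddCircle)
    (fourier_add_half_inv_index (neg_ne_zero.2 hz) hp)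

theorem Bf_coe (hθ : 0 < θ) (a : ι → ℤ) (D : ι → ℝ) (t : ℝ) :
    Bf (chC θ) a D (t : AddCircle (2 * Real.pi / θ)) = Bf (chR θ) a D t := by
  unfold Bf
  simp only [chC_coe hθ]

/-- from an atom to Haar measure -/
theorem haar_ge (hθ : 0 < θ) (a : ι → ℤ) (D : ι → ℝ) (ν : Measure ℝ) {α ℓ c : ℝ} (hc : 0 ≤ c)
    (hℓ : ℓ ≤ 2 * Real.pi / θ) (hν : ν ≤ ENNReal.ofReal c • volume.restrict (Set.Ioc α (α + ℓ)))
    (x y : ℝ) : ν.real {t | x ≤ ‖Bf (chR θ) a D (t - y)‖ ^ 2} ≤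
      c * (2 * Real.pi / θ) *
        (AddCircle.haarAddCircle (T := 2 * Real.pi / θ)).real {t | x ≤ ‖Bf (chC θ) a D t‖ ^ 2} := by
  have hp : (0 : ℝ) < 2 * Real.pi / θ := Fact.out
  set S : Set (AddCircle (2 * Real.pi / θ)) := {t | x ≤ ‖Bf (chC θ) a D t‖ ^ 2} with hS
  have hSm : MeasurableSet S := meas_ge chC_char D x
  have hS' : MeasurableSet ((fun u => u + -(y : AddCircle (2 * Real.pi / θ))) ⁻¹' S) :=
    (measurable_id.add_const _) hSm
  have e : {t : ℝ | x ≤ ‖Bf (chR θ) a D (t - y)‖ ^ 2} =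
      ((↑) : ℝ → AddCircle (2 * Real.pi / θ)) ⁻¹'
        ((fun u => u + -(y : AddCircle (2 * Real.pi / θ))) ⁻¹' S) := by
    ext t
    simp only [Set.mem_ofPred_eq, Set.mem_preimage, hS, ← Bf_coe hθ, sub_eq_add_neg,
      AddCircle.coe_add, AddCircle.coe_neg]
  have h1 := (AddCircle.measurePreserving_mk (2 * Real.pi / θ) α).measure_preimage
    hS'.nullMeasurableSet
  have h2 : ν {t : ℝ | x ≤ ‖Bf (chR θ) a D (t - y)‖ ^ 2} ≤
      ENNReal.ofReal c * (ENNReal.ofReal (2 * Real.pi / θ) * AddCircle.haarAddCircle S) := by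
    refine (hν _).trans ?_
    rw [Measure.smul_apply, smul_eq_mul, e]
    refine mul_le_mul_right ?_ _
    refine (Measure.restrict_mono_set _ (Set.Ioc_subset_Ioc_right (by linarith :
      α + ℓ ≤ α + 2 * Real.pi / θ)) _).trans (le_of_eq (h1.trans ?_))
    rw [measure_preimage_add_right, AddCircle.volume_eq_smul_haarAddCircle, Measure.smul_apply,
      smul_eq_mul]
  have := ENNReal.toReal_mono (ENNReal.mul_ne_top ENNReal.ofReal_ne_top
    (ENNReal.mul_ne_top ENNReal.ofReal_ne_top (measure_ne_top _ _))) h2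
  rwa [ENNReal.toReal_mul, ENNReal.toReal_mul, ENNReal.toReal_ofReal hc,
    ENNReal.toReal_ofReal hp.le, ← mul_assoc] at this

end Circle

theorem numK {w R : ℝ} (hw : 10 ^ 9 ≤ w) (hR : R = Real.exp (w ^ 100)) :
    0 < R ∧ R ≤ (⌈w ^ 12⌉₊ : ℝ) * (R / w ^ 12) ∧
      ((⌈w ^ 12⌉₊ : ℝ) + 1) * (R / w ^ 25) ≤ 3 * R / w ^ 12 ∧
      4 * Real.exp (R / w ^ 25 + R / w ^ 12) ≤ Real.exp (3 * R / w ^ 12) := by
  have w1 : 1 ≤ w := le_trans (by norm_num) hw
  have w0 : 0 < w := by linarith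
  have R0 : 0 < R := hR ▸ Real.exp_pos _
  have h12 : 1 ≤ w ^ 12 := one_le_pow₀ w1
  have c1 := Nat.le_ceil (w ^ 12)
  have c2 := Nat.ceil_lt_add_one (by positivity : 0 ≤ w ^ 12)
  have hK : R / w ^ 25 ≤ R / w ^ 12 / w ^ 12 := by
    rw [div_div, ← pow_add]
    exact div_le_div_of_nonneg_left R0.le (by positivity) (pow_le_pow_right₀ w1 (by norm_num))
  have hq : 0 < R / w ^ 12 := by positivity
  refine ⟨R0, ?_, ?_, ?_⟩
  · calc R = w ^ 12 * (R / w ^ 12) := by field_simp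
      _ ≤ _ := mul_le_mul_of_nonneg_right c1 hq.le
  · calc _ ≤ (3 * w ^ 12) * (R / w ^ 12 / w ^ 12) :=
          mul_le_mul (by linarith) hK (by positivity) (by positivity)
      _ = _ := by field_simp
  · have h1 : R / w ^ 25 ≤ R / w ^ 12 :=
      div_le_div_of_nonneg_left R0.le (by positivity) (pow_le_pow_right₀ w1 (by norm_num))
    have h2 : 3 ≤ R / w ^ 12 := by
      rw [le_div_iff₀ (by positivity)]
      have a1 := Real.add_one_le_exp (w ^ 100)
      have a2 : w ^ 13 ≤ w ^ 100 := pow_le_pow_right₀ w1 (by norm_num)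
      have a3 : 3 * w ^ 12 ≤ w ^ 13 := by
        rw [pow_succ w 12, mul_comm]
        exact mul_le_mul_of_nonneg_left (by linarith) (by positivity)
      linarith
    have h3 : (4 : ℝ) ≤ Real.exp (R / w ^ 12) := by linarith [Real.add_one_le_exp (R / w ^ 12)]
    calc _ ≤ Real.exp (R / w ^ 12) * Real.exp (R / w ^ 12 + R / w ^ 12) :=
          mul_le_mul h3 (Real.exp_le_exp.2 (by linarith)) (by positivity) (by positivity)
      _ = _ := by rw [← Real.exp_add]; congr 1; ring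

/-- **AD+ on the line**: finitely many finite measures `ν A` with density at most `c` on an
interval of length at most the period. -/
theorem ad_line {θ α ℓ c s w R ε : ℝ} (hθ : 0 < θ) (hℓ : θ * ℓ ≤ 2 * Real.pi) (hc : 0 < c)
    (ν : 𝒜 → Measure ℝ) [∀ A, IsFiniteMeasure (ν A)]
    (hν : ∀ A, ν A ≤ ENNReal.ofReal c • volume.restrict (Set.Ioc α (α + ℓ)))
    (hP : 0 < ∑ A, (ν A).real Set.univ) (a : ι → ℤ) (hs : 0 < s) (hs1 : s ≤ 1)
    (hS : ∀ n, s * ∑ A, (ν A).real Set.univ ≤ ∑ A, ‖∫ t, ex (θ * a n) t ∂ν A‖)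
    (hw : 10 ^ 9 ≤ w) (hR : R = Real.exp (w ^ 100)) (hε : 1 / w ≤ ε) (hεs : 32 * ε ≤ s ^ 8)
    (hι : Real.log (Fintype.card ι) ≤ R)
    (hV : 16 * Real.pi * Fintype.card 𝒜 * c ≤
      s ^ 2 * (∑ A, (ν A).real Set.univ) * θ * Real.exp R)
    {D : ι → ℝ} (hD : IsProb D) :
    ∃ (E : ι → ℝ) (m : ℕ) (y : 𝒜 → Fin m → ℝ) (B : 𝒜 → Fin m → Set ℝ), IsProb E ∧
      (∀ n, E n ≤ Real.exp (3 * R / w ^ 12) * D n) ∧ (m : ℝ) ≤ Real.exp (3 * R / w ^ 12) ∧
      (∀ A k, MeasurableSet (B A k)) ∧ (∀ A k k', k ≠ k' → Disjoint (B A k) (B A k')) ∧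
      (∀ A k, ∀ t ∈ B A k, 1 - ‖∑ n, (E n : ℂ) * ex (θ * a n) (t - y A k)‖ ^ 2 ≤ 4 * ε) ∧
      s ^ 2 / 4 * ∑ A, (ν A).real Set.univ ≤ ∑ A, ∑ k, (ν A).real (B A k) := by
  classical
  have hp : 0 < 2 * Real.pi / θ := by have := Real.pi_pos; positivity
  haveI : Fact (0 < 2 * Real.pi / θ) := ⟨hp⟩
  obtain ⟨R0, n1, n2, n3⟩ := numK hw hR
  have w0 : 0 < w := lt_of_lt_of_le (by norm_num) hw
  set P := ∑ A, (ν A).real Set.univ with hPe
  have hne : Nonempty 𝒜 := by
    by_contra h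
    rw [not_nonempty_iff] at h
    simp [hPe] at hP
  have hcard : (0 : ℝ) < Fintype.card 𝒜 := by exact_mod_cast Fintype.card_pos
  have pi0 := Real.pi_pos
  set V := s ^ 2 * P * θ / (4 * Real.pi * Fintype.card 𝒜 * c) with hVe
  have hV0 : 0 < V := by positivity
  have hM : 4 / V ≤ Real.exp R := by
    rw [div_le_iff₀ hV0, hVe, mul_div_assoc', le_div_iff₀ (by positivity)]; linarith
  have s8 : s ^ 8 ≤ s ^ 2 := pow_le_pow_of_le_one hs.le hs1 (by norm_num)
  have s2 : s ^ 2 ≤ 1 := pow_le_one₀ hs.le hs1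
  have hε0 : 0 ≤ ε := le_trans (by positivity) hε
  have had : AD1 (chC θ) a AddCircle.haarAddCircle (s ^ 2 / 2 / 2) (Real.exp R) (R / w ^ 25) ε := by
    intro D' σ hσ hD' hb hle
    exact AD chC_char hD' hw hR (by linarith) hε (by linarith) hb hι
      (bessel_of_le chC_char chC_orth hle)
  have hℓ' : ℓ ≤ 2 * Real.pi / θ := by rw [le_div_iff₀ hθ]; linarith
  have hvol : ∀ D' : ι → ℝ, IsProb D' → V ≤ (AddCircle.haarAddCircle (T := 2 * Real.pi / θ)).real
      {t | (s ^ 2 / 2) ^ 2 ≤ ‖Bf (chC θ) a D' t‖ ^ 2} := by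
    intro D' hD'
    obtain ⟨y, hy⟩ := shift_all θ a hD' ν hs.le (x := s ^ 2 / 2) (by positivity) hP hS
    have h1 := Finset.sum_le_sum fun A (_ : A ∈ Finset.univ) =>
      haar_ge hθ a D' (ν A) hc.le hℓ' (hν A) ((s ^ 2 / 2) ^ 2) (y A)
    rw [Finset.sum_const, Finset.card_univ, nsmul_eq_mul] at h1
    have h2 := hy.trans h1
    rw [hVe, div_le_iff₀ (by positivity)]
    have h3 := mul_le_mul_of_nonneg_right h2 (by positivity : 0 ≤ 2 * θ)
    refine le_trans (le_of_eq ?_) (h3.trans (le_of_eq ?_))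
    · rw [← hPe]; ring
    · field_simp; ring
  have hn : Real.exp (-((⌈w ^ 12⌉₊ : ℕ) * (R / w ^ 12))) ≤ V := by
    refine (Real.exp_le_exp.2 (neg_le_neg n1)).trans ?_
    rw [div_le_iff₀ hV0] at hM
    rw [Real.exp_neg, inv_le_iff_one_le_mul₀ (Real.exp_pos _)]
    linarith
  obtain ⟨E, C, hE, hED, hC, hcov⟩ := ad_plus (μ := AddCircle.haarAddCircle) chC_char chC_add
    (β := s ^ 2 / 2) (by positivity) hV0 hM (by positivity) (by positivity : 0 ≤ R / w ^ 12) hε0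
    (by nlinarith) had hvol _ hn hD
  obtain ⟨y, hy⟩ := shift_all θ a hE ν hs.le (x := 3 * s ^ 2 / 4) (by positivity) hP hS
  set e := C.equivFin.symm with he
  choose r hr using fun k : Fin C.card =>
    QuotientAddGroup.mk_surjective ((e k : C) : AddCircle (2 * Real.pi / θ))
  set F : 𝒜 → Fin C.card → Set ℝ := fun A k =>
    {t | 1 - 4 * ε ≤ ‖Bf (chR θ) a E (t - (y A + r k))‖ ^ 2} with hF
  have hFm : ∀ A k, MeasurableSet (F A k) := fun A k =>
    (measurable_id.sub_const _) (meas_ge (a := a) (chR_char θ) E _)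
  have hBm : ∀ A k, MeasurableSet (disjointed (F A) k) := fun A k => by
    rw [disjointed_apply, Finset.sup_eq_iSup]
    exact (hFm A k).diff (MeasurableSet.iUnion fun j => MeasurableSet.iUnion fun _ => hFm A j)
  refine ⟨E, C.card, fun A k => y A + r k, fun A => disjointed (F A), hE,
    fun n => (hED n).trans (mul_le_mul_of_nonneg_right (Real.exp_le_exp.2 n2) (hD.nn n)),
    hC.trans n3, hBm, fun A k k' h => disjoint_disjointed (F A) h, fun A k t ht => ?_, ?_⟩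
  · have : t ∈ F A k := disjointed_subset (F A) k ht
    have h2 : 1 - 4 * ε ≤ ‖Bf (chR θ) a E (t - (y A + r k))‖ ^ 2 := this
    show 1 - ‖Bf (chR θ) a E (t - (y A + r k))‖ ^ 2 ≤ 4 * ε
    linarith
  · refine le_trans (le_of_eq (by rw [← hPe]; ring)) (hy.trans (Finset.sum_le_sum fun A _ => ?_))
    refine le_trans (measureReal_mono (s₂ := ⋃ k, disjointed (F A) k) fun t ht => ?_)
      (measureReal_iUnion_fintype_le _)
    rw [iUnion_disjointed]
    have h1 : (3 * s ^ 2 / 4) ^ 2 ≤ ‖Bf (chR θ) a E (t - y A)‖ ^ 2 := ht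
    obtain ⟨c', hc', h2⟩ := hcov ((t - y A : ℝ) : AddCircle (2 * Real.pi / θ)) (by
      rw [Bf_coe hθ]; nlinarith [sq_nonneg (s ^ 2)])
    refine Set.mem_iUnion.2 ⟨e.symm ⟨c', hc'⟩, ?_⟩
    have h3 := hr (e.symm ⟨c', hc'⟩)
    rw [Equiv.apply_symm_apply] at h3
    have h4 : ((t - y A : ℝ) : AddCircle (2 * Real.pi / θ)) - c' =
        ((t - (y A + r (e.symm ⟨c', hc'⟩)) : ℝ) : AddCircle (2 * Real.pi / θ)) := by
      have h3' : ((r (e.symm ⟨c', hc'⟩) : ℝ) : AddCircle (2 * Real.pi / θ)) = c' := h3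
      rw [← sub_sub, AddCircle.coe_sub _ (t - y A), h3']
    rw [h4, Bf_coe hθ] at h2
    show 1 - 4 * ε ≤ _
    linarith

end Crest.Agent.R100.AdP
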