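import Crest.Agent.R100.LowDefs

set_option autoImplicit false

open MeasureTheory Set

noncomputable section

namespace Crest.Agent.R100.Low

open Crest.Agent.R100

theorem nd_snoc (α ℓ : ℝ) (v : List Bool) (c : Bool) :
    nd α ℓ (v ++ [c]) = ch c (nd α ℓ v) (ln ℓ v) := by
  induction v generalizing α ℓ with
  | nil => simp [nd, ln]
  | cons d u ih =>
    have e : ln ℓ (d :: u) = ln (ℓ / 2) u := by
      simp only [ln, List.length_cons, pow_succ]
      ring
    rw [List.cons_append, e]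
    exact ih _ _

theorem ln_snoc (ℓ : ℝ) (v : List Bool) (c : Bool) : ln ℓ (v ++ [c]) = ln ℓ v / 2 := by
  simp only [ln, List.length_append, List.length_singleton, pow_succ]
  ring

theorem lowFamA_ln_pos {ℓ : ℝ} (hℓ : 0 < ℓ) (v : List Bool) : 0 < ln ℓ v := by
  unfold ln
  positivity

theorem lowFamA_ch_false (a l : ℝ) : ch false a l = a := by simp [ch]

theorem lowFamA_ch_true (a l : ℝ) : ch true a l = a + l / 2 := by simp [ch]

theorem lowFamA_norm_ex (ξ y : ℝ) : ‖ex ξ y‖ = 1 := by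
  unfold ex
  rw [Complex.norm_exp]
  simp

theorem lowFamA_meas_ex (ξ : ℝ) : Measurable (ex ξ) := by
  unfold ex
  fun_prop

theorem lowFamA_bdd {E : Type} [NormedAddCommGroup E] {g : ℝ → E}
    (hg : AEStronglyMeasurable g volume) {M : ℝ} (hM : ∀ y, ‖g y‖ ≤ M) (a b : ℝ) :
    IntervalIntegrable g volume a b :=
  ⟨Measure.integrableOn_of_bounded measure_Ioc_lt_top.ne hg (Filter.Eventually.of_forall hM),
    Measure.integrableOn_of_bounded measure_Ioc_lt_top.ne hg (Filter.Eventually.of_forall hM)⟩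

theorem lowFamA_int {f : ℝ → ℂ} (hf : Measurable f) {M : ℝ} (hM : ∀ y, ‖f y‖ ≤ M) (ξ a b : ℝ) :
    IntervalIntegrable (fun y => f y * ex ξ y) volume a b :=
  lowFamA_bdd (hf.mul (lowFamA_meas_ex ξ)).aestronglyMeasurable (M := M)
    (fun y => by rw [Pi.mul_apply, norm_mul, lowFamA_norm_ex, mul_one]; exact hM y) a b

theorem lowFamA_cu_le (f : ℝ → ℂ) (ξ a : ℝ) {l : ℝ} (hl : 0 < l) : ‖cu f ξ a l‖ ≤ ca f a l := by
  unfold cu ca
  rw [norm_div, Complex.norm_real, Real.norm_of_nonneg hl.le]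
  refine div_le_div_of_nonneg_right ?_ hl.le
  refine (intervalIntegral.norm_integral_le_integral_norm (by linarith)).trans (le_of_eq ?_)
  simp only [norm_mul, lowFamA_norm_ex, mul_one]

theorem lowFamA_ca_child {f : ℝ → ℂ} (hf : Measurable f) {M : ℝ} (hM : ∀ y, ‖f y‖ ≤ M) (a : ℝ)
    {l : ℝ} (hl : 0 < l) (c : Bool) : ca f (ch c a l) (l / 2) ≤ 2 * ca f a l := by
  have hi : IntervalIntegrable (fun y => ‖f y‖) volume a (a + l) :=
    lowFamA_bdd hf.norm.aestronglyMeasurable (M := M) (fun y => by rw [norm_norm]; exact hM y) _ _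
  have h : ∫ y in ch c a l..ch c a l + l / 2, ‖f y‖ ≤ ∫ y in a..a + l, ‖f y‖ := by
    refine intervalIntegral.integral_mono_interval ?_ (by linarith) ?_
      (Filter.Eventually.of_forall fun y => norm_nonneg _) hi
    · cases c
      · rw [lowFamA_ch_false]
      · rw [lowFamA_ch_true]; linarith
    · cases c
      · rw [lowFamA_ch_false]; linarith
      · rw [lowFamA_ch_true]; linarith
  unfold ca
  rw [div_le_iff₀ (by linarith)]
  refine h.trans (le_of_eq ?_)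
  field_simp

theorem U_mart {f : ℝ → ℂ} (hf : Measurable f) {M : ℝ} (hM : ∀ y, ‖f y‖ ≤ M) (α : ℝ) {ℓ : ℝ}
    (hℓ : 0 < ℓ) (ξ : ℝ) : Mart (U f α ℓ ξ) := by
  intro v
  have hl := lowFamA_ln_pos hℓ v
  simp only [U, cu, nd_snoc, ln_snoc, lowFamA_ch_false, lowFamA_ch_true]
  rw [← intervalIntegral.integral_add_adjacent_intervals (b := nd α ℓ v + ln ℓ v / 2)
    (lowFamA_int hf hM ξ _ _) (lowFamA_int hf hM ξ _ _),
    show nd α ℓ v + ln ℓ v / 2 + ln ℓ v / 2 = nd α ℓ v + ln ℓ v by ring]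
  have : (ln ℓ v : ℂ) ≠ 0 := by exact_mod_cast hl.ne'
  push_cast
  field_simp

theorem alive_take (f : ℝ → ℂ) (α ℓ : ℝ) (v : List Bool) (k : ℕ) (h : Alive f α ℓ v) :
    Alive f α ℓ (v.take k) := by
  intro j hj
  rw [List.take_take]
  exact h _ ((min_le_left j k).trans (hj.trans (List.length_take_le' k v)))

theorem U_bd {f : ℝ → ℂ} (hf : Measurable f) {M : ℝ} (hM : ∀ y, ‖f y‖ ≤ M) (α : ℝ) {ℓ : ℝ}
    (hℓ : 0 < ℓ) (ξ : ℝ) (v : List Bool) (h : Alive f α ℓ v) :
    ‖U f α ℓ ξ v‖ ≤ 1 ∧ ∀ c, ‖U f α ℓ ξ (v ++ [c])‖ ≤ 2 := by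
  have hl := lowFamA_ln_pos hℓ v
  have h1 := h v.length le_rfl
  rw [List.take_length] at h1
  refine ⟨(lowFamA_cu_le f ξ _ hl).trans h1, fun c => ?_⟩
  refine (lowFamA_cu_le f ξ _ (lowFamA_ln_pos hℓ _)).trans ?_
  rw [nd_snoc, ln_snoc]
  linarith [lowFamA_ca_child hf hM (nd α ℓ v) hl c]

theorem famA_nd_mem : ∀ (l : List Bool) (α ℓ : ℝ), 0 < ℓ → α ≤ nd α ℓ l ∧ nd α ℓ l ≤ α + ℓ
  | [], α, ℓ, h => ⟨le_rfl, by simp only [nd]; linarith⟩
  | c :: u, α, ℓ, h => by
    have := famA_nd_mem u (ch c α ℓ) (ℓ / 2) (by linarith)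
    simp only [nd]
    cases c <;> simp only [ch] at this ⊢ <;> simp at this ⊢ <;> constructor <;> linarith [this.1, this.2]

theorem famA_nd_append : ∀ (u w : List Bool) (α ℓ : ℝ),
    nd α ℓ (u ++ w) = nd (nd α ℓ u) (ln ℓ u) w
  | [], w, α, ℓ => by simp [nd, ln]
  | c :: u, w, α, ℓ => by
    have e : ln ℓ (c :: u) = ln (ℓ / 2) u := by
      simp only [ln, List.length_cons, pow_succ]; ring
    rw [List.cons_append, e]
    exact famA_nd_append u w _ _

theorem famA_norm_ex (ξ y : ℝ) : ‖ex ξ y‖ = 1 := by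
  unfold ex
  rw [← Complex.ofReal_neg, Complex.norm_exp_ofReal_mul_I]

theorem famA_ex_sub (ξ β y x : ℝ) : ‖ex ξ y - ex (ξ - β) x * ex β y‖ ≤ |ξ - β| * |y - x| := by
  have e : ex ξ y - ex (ξ - β) x * ex β y = ex (ξ - β) x * ex β y *
      (Complex.exp (Complex.I * ((-((ξ - β) * (y - x)) : ℝ) : ℂ)) - 1) := by
    unfold ex
    rw [mul_sub, mul_one, ← Complex.exp_add, ← Complex.exp_add]
    congr 2
    push_cast; ring
  rw [e, norm_mul, norm_mul, famA_norm_ex, famA_norm_ex, one_mul, one_mul]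
  refine Real.norm_exp_I_mul_ofReal_sub_one_le.trans ?_
  rw [Real.norm_eq_abs, abs_neg, abs_mul]

theorem famA_int {f : ℝ → ℂ} (hf : Measurable f) {M : ℝ} (hM : ∀ y, ‖f y‖ ≤ M) (a b : ℝ) :
    IntervalIntegrable f volume a b :=
  (intervalIntegrable_const (c := M)).mono_fun' hf.aestronglyMeasurable
    (Filter.Eventually.of_forall hM)

theorem famA_core {f : ℝ → ℂ} (hf : Measurable f) {M : ℝ} (hM : ∀ y, ‖f y‖ ≤ M) (ξ β : ℝ)
    {a b lam x : ℝ} (hl : 0 < lam) (hab : a ≤ b) (hb : b ≤ a + lam) (h1 : a ≤ x) (h2 : x ≤ a + lam)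
    (hA : ca f a lam ≤ 1) :
    ‖(∫ y in a..b, f y * ex ξ y) - ex (ξ - β) x * ∫ y in a..b, f y * ex β y‖ ≤
      |ξ - β| * lam * lam := by
  have hc : ∀ t : ℝ, Continuous (ex t) := fun t => by unfold ex; fun_prop
  have hi : ∀ t : ℝ, IntervalIntegrable (fun y => f y * ex t y) volume a b := fun t =>
    (famA_int hf hM a b).mul_continuousOn (hc t).continuousOn
  have hn := (famA_int hf hM a (a + lam)).norm
  have hn' := (famA_int hf hM a b).norm
  have h3 : ∫ y in a..b, ‖f y‖ ≤ lam := by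
    have h4 : ∫ y in a..b, ‖f y‖ ≤ ∫ y in a..a + lam, ‖f y‖ :=
      intervalIntegral.integral_mono_interval le_rfl hab hb
        (Filter.Eventually.of_forall fun y => norm_nonneg _) hn
    unfold ca at hA
    rw [div_le_one hl] at hA
    linarith
  rw [← intervalIntegral.integral_const_mul, ← intervalIntegral.integral_sub (hi ξ)
    ((hi β).const_mul _)]
  refine (intervalIntegral.norm_integral_le_of_norm_le hab (g := fun y => |ξ - β| * lam * ‖f y‖)
    (Filter.Eventually.of_forall fun y hy => ?_) (hn'.const_mul _)).trans ?_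
  · have e : f y * ex ξ y - ex (ξ - β) x * (f y * ex β y) =
        (ex ξ y - ex (ξ - β) x * ex β y) * f y := by ring
    rw [e, norm_mul]
    refine mul_le_mul_of_nonneg_right ((famA_ex_sub ξ β y x).trans ?_) (norm_nonneg _)
    refine mul_le_mul_of_nonneg_left (abs_le.2 ⟨?_, ?_⟩) (abs_nonneg _) <;> linarith [hy.1, hy.2]
  · rw [intervalIntegral.integral_const_mul]
    exact mul_le_mul_of_nonneg_left h3 (by positivity)

theorem U_lip {f : ℝ → ℂ} (hf : Measurable f) {M : ℝ} (hM : ∀ y, ‖f y‖ ≤ M) (α : ℝ) {ℓ : ℝ}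
    (hℓ : 0 < ℓ) (ξ β : ℝ) (l : List Bool) :
    ∃ ω : ℂ, ‖ω‖ = 1 ∧ ∀ k, k ≤ l.length → Alive f α ℓ (l.take k) →
      ‖U f α ℓ ξ (l.take k) - ω * U f α ℓ β (l.take k)‖ ≤ |ξ - β| * ℓ / 2 ^ k ∧
        ‖U f α ℓ ξ (l.take k ++ [false]) - ω * U f α ℓ β (l.take k ++ [false])‖ ≤
          2 * (|ξ - β| * ℓ / 2 ^ k) := by
  refine ⟨ex (ξ - β) (nd α ℓ l), famA_norm_ex _ _, fun k hk hA => ?_⟩
  have hlen : (l.take k).length = k := by simp [hk]
  have hln : ln ℓ (l.take k) = ℓ / 2 ^ k := by rw [ln, hlen]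
  have hl : 0 < ln ℓ (l.take k) := by rw [hln]; positivity
  have hA' := hA k hlen.ge
  rw [List.take_take, min_self] at hA'
  have hx := famA_nd_mem (l.drop k) (nd α ℓ (l.take k)) _ hl
  rw [← famA_nd_append, List.take_append_drop] at hx
  have e : |ξ - β| * ℓ / 2 ^ k = |ξ - β| * ln ℓ (l.take k) := by rw [hln]; ring
  rw [e]
  constructor
  · have h := famA_core hf hM ξ β hl (by linarith) le_rfl hx.1 hx.2 hA'
    unfold U cu
    rw [← mul_div_assoc, ← sub_div, norm_div, Complex.norm_real, Real.norm_of_nonneg hl.le,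
      div_le_iff₀ hl]
    exact h
  · have h := famA_core hf hM ξ β (b := nd α ℓ (l.take k) + ln ℓ (l.take k) / 2) hl (by linarith)
      (by linarith) hx.1 hx.2 hA'
    have hl2 : 0 < ln ℓ (l.take k) / 2 := by linarith
    have e2 : ch false (nd α ℓ (l.take k)) (ln ℓ (l.take k)) = nd α ℓ (l.take k) := by simp [ch]
    unfold U cu
    rw [nd_snoc, ln_snoc, e2, ← mul_div_assoc, ← sub_div, norm_div, Complex.norm_real,
      Real.norm_of_nonneg hl2.le, div_le_iff₀ hl2]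
    linarith

end Crest.Agent.R100.Low
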