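import Crest.Agent.R100.Pot46
import Crest.Agent.R100.LowFamA

/-!
# Row 100, STRUCT (helper43): the mask of a new family
Difference law, death depth, symmetrisation, exact mask identity, Parseval at birth.
-/

set_option autoImplicit false

open MeasureTheory Set Real

noncomputable section

namespace Crest.Agent.R100.Birth

open Crest.Agent.R100 Crest.Agent.R100.Low

variable {ι Ω : Type} [Fintype ι] [Fintype Ω]

/-- the real characteristic function of the mask -/
def Fc (P Z : Ω → ℝ) (τ : ℝ) : ℝ := ∑ ω, P ω * Real.cos (Z ω * τ)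

/-- the characteristic function is real -/
def Sym (P Z : Ω → ℝ) : Prop := ∀ τ, ∑ ω, (P ω : ℂ) * ex (Z ω) τ = (Fc P Z τ : ℂ)

/-- the characteristic function of a law on the lattice `h ℤ` -/
def Eh (E : ι → ℝ) (a : ι → ℤ) (h τ : ℝ) : ℂ := ∑ i, (E i : ℂ) * ex (h * a i) τ

theorem ex_re (ξ τ : ℝ) : (ex ξ τ).re = Real.cos (ξ * τ) := by
  have : ex ξ τ = Complex.exp (((-(ξ * τ) : ℝ) : ℂ) * Complex.I) := by
    simp only [ex]; push_cast; ring_nf
  rw [this, Complex.exp_ofReal_mul_I_re, Real.cos_neg]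

theorem ex_add_neg (ξ τ : ℝ) : ex ξ τ + ex (-ξ) τ = ((2 * Real.cos (ξ * τ) : ℝ) : ℂ) := by
  have h1 : ex (-ξ) τ = (starRingEnd ℂ) (ex ξ τ) := by
    simp only [ex, ← Complex.exp_conj]; congr 1; simp
  rw [h1, Complex.add_conj, ex_re]

theorem ex_add_freq (ξ β y : ℝ) : ex (ξ + β) y = ex ξ y * ex β y := by
  simp only [ex, ← Complex.exp_add]; congr 1; push_cast; ring

theorem ex_sub_arg (ξ x y : ℝ) : ex ξ (x - y) = ex ξ x * ex (-ξ) y := by
  simp only [ex, ← Complex.exp_add]; congr 1; push_cast; ring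

theorem Fc_le_one {P Z : Ω → ℝ} (h0 : ∀ ω, 0 ≤ P ω) (h1 : ∑ ω, P ω = 1) (τ : ℝ) :
    Fc P Z τ ≤ 1 := by
  rw [← h1]
  exact Finset.sum_le_sum fun ω _ => mul_le_of_le_one_right (h0 ω) (Real.cos_le_one _)

theorem Fc_cont (P Z : Ω → ℝ) : Continuous (Fc P Z) := by
  unfold Fc; fun_prop

/-- `|E^|²` is the characteristic function of the difference law -/
theorem normSq_Eh (E : ι → ℝ) (a : ι → ℤ) (h τ : ℝ) :
    ∑ p : ι × ι, ((E p.1 * E p.2 : ℝ) : ℂ) * ex (h * ((a p.1 - a p.2 : ℤ) : ℝ)) τ =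
      ((‖Eh E a h τ‖ ^ 2 : ℝ) : ℂ) := by
  rw [← Complex.normSq_eq_norm_sq, ← Complex.mul_conj, Eh, map_sum, Finset.sum_mul_sum,
    Fintype.sum_prod_type]
  refine Finset.sum_congr rfl fun i _ => Finset.sum_congr rfl fun j _ => ?_
  rw [map_mul, Complex.conj_ofReal, mul_mul_mul_comm, P46.ex_mul_conj]
  push_cast; ring_nf

theorem diff_atom {E : ι → ℝ} (h0 : ∀ i, 0 ≤ E i) (h1 : ∑ i, E i = 1) {a : ι → ℤ}
    (ha : Function.Injective a) {m0 : ℝ} (hm : ∀ i, E i ≤ m0) (j : ℤ) :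
    ∑ p : ι × ι with a p.1 - a p.2 = j, E p.1 * E p.2 ≤ m0 := by
  classical
  have hm0 : 0 ≤ m0 := by
    by_contra hneg
    have : ∑ i, E i ≤ ∑ _i : ι, (0 : ℝ) := Finset.sum_le_sum fun i _ => by linarith [hm i]
    simp [h1] at this; linarith
  rw [Finset.sum_filter, Fintype.sum_prod_type_right]
  calc ∑ y, ∑ x, (if a x - a y = j then E x * E y else 0)
      ≤ ∑ y, m0 * E y := by
        refine Finset.sum_le_sum fun y _ => ?_
        by_cases hx : ∃ x, a x - a y = j
        · obtain ⟨x, hx⟩ := hx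
          rw [Finset.sum_eq_single x]
          · rw [if_pos hx]; exact mul_le_mul_of_nonneg_right (hm x) (h0 y)
          · intro x' _ hx'
            rw [if_neg]
            intro h
            exact hx' (ha (by omega))
          · simp
        · push Not at hx
          simp only [hx, if_false, Finset.sum_const_zero]
          exact mul_nonneg hm0 (h0 y)
    _ = m0 := by rw [← Finset.mul_sum, h1, mul_one]

/-- **exact mask identity** for the Fourier coefficients -/
theorem cu_mask {P Z : Ω → ℝ} (hS : Sym P Z) {g hf : ℝ → ℝ} (hm : Measurable hf) {M : ℝ}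
    (hM : ∀ t, |hf t| ≤ M) (t0 : ℝ) (hg : ∀ t, g t = hf t * Fc P Z (t - t0)) (ξ a lam : ℝ) :
    cu (fun t => (g t : ℂ)) ξ a lam =
      ∑ ω, (P ω : ℂ) * (ex (-Z ω) t0 * cu (fun t => (hf t : ℂ)) (ξ + Z ω) a lam) := by
  have hmc : Measurable fun t => (hf t : ℂ) := Complex.measurable_ofReal.comp hm
  have hMc : ∀ t, ‖(hf t : ℂ)‖ ≤ M := fun t => by simpa using hM t
  have e : ∀ t, (g t : ℂ) * ex ξ t =
      ∑ ω, ((P ω : ℂ) * ex (-Z ω) t0) * ((hf t : ℂ) * ex (ξ + Z ω) t) := by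
    intro t
    rw [hg t]; push_cast
    rw [← hS, Finset.mul_sum, Finset.sum_mul]
    refine Finset.sum_congr rfl fun ω _ => ?_
    rw [ex_sub_arg, ex_add_freq]; ring
  simp only [cu, e]
  rw [intervalIntegral.integral_finsetSum
    (fun ω _ => (lowFamA_int hmc hMc (ξ + Z ω) _ _).const_mul _), Finset.sum_div]
  refine Finset.sum_congr rfl fun ω _ => ?_
  rw [intervalIntegral.integral_const_mul]; ring

/-- **Parseval at birth**: a function supported where `|E^(· - t0)|² ≥ 1/2` has small mass -/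
theorem birth_mass {E : ι → ℝ} (h0 : ∀ i, 0 ≤ E i) (h1 : ∑ i, E i = 1) {a : ι → ℤ}
    (ha : Function.Injective a) {m0 : ℝ} (hm : ∀ i, E i ≤ m0) {h : ℝ} (hh : 0 < h) (α : ℝ)
    {ℓ : ℝ} (hℓ : 0 < ℓ) (t0 : ℝ) {g : ℝ → ℝ} (hg : Measurable g) {M : ℝ} (hM : 0 ≤ M)
    (hg0 : ∀ t, 0 ≤ g t ∧ g t ≤ M)
    (hp : ∀ t ∈ Icc α (α + ℓ), g t ≠ 0 → 1 / 2 ≤ ‖Eh E a h (t - t0)‖ ^ 2) :
    av g α ℓ ≤ 2 * M * (1 + 2 * π / (h * ℓ)) * m0 := by
  classical
  have hb := P46.bessel E h0 a hh (m0 := m0) (fun j => ?_) α hℓ.le t0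
  swap
  · by_cases hx : ∃ x, a x = j
    · obtain ⟨x, hx⟩ := hx
      rw [Finset.sum_filter, Finset.sum_eq_single x]
      · rw [if_pos hx]; exact hm x
      · intro x' _ hx'
        rw [if_neg]
        intro h
        exact hx' (ha (by omega))
      · simp
    · push Not at hx
      have hm0 : 0 ≤ m0 := by
        by_contra hneg
        have : ∑ i, E i ≤ ∑ _i : ι, (0 : ℝ) := Finset.sum_le_sum fun i _ => by linarith [hm i]
        simp [h1] at this; linarith
      rw [Finset.sum_filter]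
      simpa [hx] using hm0
  rw [h1, mul_one] at hb
  have hc : Continuous fun t => ‖Eh E a h (t - t0)‖ ^ 2 := by
    have := fun ξ => P46.cont_ex ξ
    unfold Eh
    fun_prop
  have hle : ∫ t in α..α + ℓ, g t ≤ ∫ t in α..α + ℓ, 2 * M * ‖Eh E a h (t - t0)‖ ^ 2 := by
    refine intervalIntegral.integral_mono_on (by linarith)
      (lowFamA_bdd hg.aestronglyMeasurable (M := M) (fun t => ?_) _ _)
      ((hc.const_mul _).intervalIntegrable _ _) fun t ht => ?_
    · rw [Real.norm_eq_abs, abs_of_nonneg (hg0 t).1]; exact (hg0 t).2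
    · by_cases hz : g t = 0
      · rw [hz]; positivity
      · have := hp t ht hz
        nlinarith [(hg0 t).2]
  rw [intervalIntegral.integral_const_mul] at hle
  unfold av
  rw [div_le_iff₀ hℓ]
  have e : 2 * M * (1 + 2 * π / (h * ℓ)) * m0 * ℓ = 2 * M * ((ℓ + 2 * π / h) * m0) := by
    field_simp
  rw [e]
  exact hle.trans (mul_le_mul_of_nonneg_left hb (by positivity))

/-- the bin of depth `k` -/
def bin (x ℓ : ℝ) (k : ℕ) : ℤ := ⌊x / (2 ^ k / (100 * ℓ))⌋

theorem bin_mono {x y ℓ : ℝ} (hℓ : 0 < ℓ) {j k : ℕ} (hjk : j ≤ k) (h : bin x ℓ j = bin y ℓ j) :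
    bin x ℓ k = bin y ℓ k := by
  obtain ⟨d, rfl⟩ := Nat.exists_eq_add_of_le hjk
  have e : ∀ u : ℝ, bin u ℓ (j + d) = bin u ℓ j / ((2 ^ d : ℕ) : ℤ) := fun u => by
    unfold bin
    rw [← Int.floor_div_natCast]
    congr 1
    push_cast
    rw [pow_add]
    field_simp
  rw [e, e, h]

theorem bin_close {x y ℓ : ℝ} (hℓ : 0 < ℓ) {k : ℕ} (h : bin x ℓ k = bin y ℓ k) :
    |x - y| ≤ 2 ^ k / (100 * ℓ) := by
  have hw : (0 : ℝ) < 2 ^ k / (100 * ℓ) := by positivity
  have := Int.abs_sub_lt_one_of_floor_eq_floor h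
  rw [← sub_div, abs_div, abs_of_pos hw, div_lt_one hw] at this
  exact this.le

open Classical in
theorem win_mass (lam X : Ω → ℝ) (h0 : ∀ p, 0 ≤ lam p) (G : Ω → Prop) {ℓ θ : ℝ} (hℓ : 0 < ℓ)
    (hθ : 0 ≤ θ) (k : ℕ)
    (hG : ∀ p, G p → ∑ p' with bin (X p') ℓ k = bin (X p) ℓ k, lam p' ≤ θ) (x : ℝ) :
    ∑ p, (if G p ∧ x ≤ X p ∧ X p ≤ x + 2 ^ k / ℓ then lam p else 0) ≤ 102 * θ := by
  have hw : (0 : ℝ) < 2 ^ k / (100 * ℓ) := by positivity
  set b0 := bin x ℓ k with hb0
  have key : ∀ p, (if G p ∧ x ≤ X p ∧ X p ≤ x + 2 ^ k / ℓ then lam p else 0) ≤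
      ∑ b ∈ Finset.Icc b0 (b0 + 101), if G p ∧ bin (X p) ℓ k = b then lam p else 0 := by
    intro p
    split_ifs with hp
    · have hmem : bin (X p) ℓ k ∈ Finset.Icc b0 (b0 + 101) := by
        rw [Finset.mem_Icc]
        refine ⟨Int.floor_mono (div_le_div_of_nonneg_right hp.2.1 hw.le), ?_⟩
        have h1 : X p / (2 ^ k / (100 * ℓ)) ≤ x / (2 ^ k / (100 * ℓ)) + (100 : ℤ) := by
          refine (div_le_div_of_nonneg_right hp.2.2 hw.le).trans (le_of_eq ?_)
          push_cast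
          field_simp
        have h2 := Int.floor_mono h1
        rw [Int.floor_add_intCast] at h2
        unfold bin at hb0 ⊢
        omega
      refine le_trans (le_of_eq ?_) (Finset.single_le_sum (f := fun b =>
        if G p ∧ bin (X p) ℓ k = b then lam p else 0) (fun b _ => ?_) hmem)
      · simp [hp.1]
      · split_ifs
        · exact h0 p
        · exact le_rfl
    · refine Finset.sum_nonneg fun b _ => ?_
      split_ifs
      · exact h0 p
      · exact le_rfl
  refine (Finset.sum_le_sum fun p _ => key p).trans ?_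
  rw [Finset.sum_comm]
  have hb : ∀ b ∈ Finset.Icc b0 (b0 + 101),
      ∑ p, (if G p ∧ bin (X p) ℓ k = b then lam p else 0) ≤ θ := by
    intro b _
    by_cases hx : ∃ p0, G p0 ∧ bin (X p0) ℓ k = b
    · obtain ⟨p0, hp0, hb⟩ := hx
      refine le_trans ?_ (hG p0 hp0)
      rw [Finset.sum_filter]
      refine Finset.sum_le_sum fun p _ => ?_
      by_cases h1 : bin (X p) ℓ k = b
      · rw [if_pos (h1.trans hb.symm)]
        split_ifs
        · exact le_rfl
        · exact h0 p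
      · rw [if_neg (fun h => h1 h.2), if_neg (fun h => h1 (h.trans hb))]
    · push Not at hx
      have : ∀ p, ¬ (G p ∧ bin (X p) ℓ k = b) := fun p h => hx p h.1 h.2
      simpa [this] using hθ
  refine (Finset.sum_le_sum hb).trans (le_of_eq ?_)
  rw [Finset.sum_const, Int.card_Icc, nsmul_eq_mul]
  have : (b0 + 101 + 1 - b0).toNat = 102 := by omega
  rw [this]; norm_num

open Classical in
/-- **The mask of a new family.**  `E` is a law on the lattice `h ℤ` with atoms `≤ m0`; `θ` is the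
bin threshold (`m0 e^δ`); `Liv k` says that the depth `k` is before the death depth. -/
theorem birth {E : ι → ℝ} (h0 : ∀ i, 0 ≤ E i) (h1 : ∑ i, E i = 1) {a : ι → ℤ}
    (ha : Function.Injective a) {m0 : ℝ} (hm : ∀ i, E i ≤ m0) {h : ℝ} (hh : 0 < h) (α : ℝ)
    {ℓ : ℝ} (hℓ : 0 < ℓ) {θ : ℝ} (hθ : 0 < θ) :
    ∃ (P Z : (ι × ι) × Bool → ℝ) (Liv : ℕ → Prop),
      (∀ ω, 0 ≤ P ω) ∧ ∑ ω, P ω = 1 ∧ Sym P Z ∧ (∀ j k, j ≤ k → Liv k → Liv j) ∧
      (∀ τ, 1 - 10 / 9 * (1 - ‖Eh E a h τ‖ ^ 2) ≤ Fc P Z τ) ∧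
      (∀ k, Liv k → ∀ x : ℝ,
        ∑ ω, (if x ≤ Z ω ∧ Z ω ≤ x + 2 ^ k / ℓ then P ω else 0) ≤ 120 * θ) ∧
      (∀ k, ¬ Liv k → ∀ (t0 : ℝ) (S : List Bool → Prop),
        (∀ v : List Bool, v.length = k → S v → ∃ s ∈ Icc (nd α ℓ v) (nd α ℓ v + ln ℓ v),
          1 - ‖Eh E a h (s - t0)‖ ^ 2 ≤ 1 / 100) →
        avg k (fun v => if S v then 1 else 0) ≤ 4 * (1 + 2 * π / (h * ℓ)) * m0 / θ) := by
  set lam : ι × ι → ℝ := fun p => E p.1 * E p.2 with hlam
  set z : ι × ι → ℤ := fun p => a p.1 - a p.2 with hz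
  set X : ι × ι → ℝ := fun p => h * (z p : ℝ) with hX
  have hl0 : ∀ p, 0 ≤ lam p := fun p => mul_nonneg (h0 _) (h0 _)
  have hl1 : ∑ p, lam p = 1 := by
    rw [Fintype.sum_prod_type]
    simp only [hlam, ← Finset.mul_sum, h1, mul_one]
  set bm : ℕ → ι × ι → ℝ := fun k p => ∑ p' with bin (X p') ℓ k = bin (X p) ℓ k, lam p' with hbm
  have hbmono : ∀ j k p, j ≤ k → bm j p ≤ bm k p := fun j k p hjk =>
    Finset.sum_le_sum_of_subset_of_nonneg (fun p' hp' => by
      simp only [Finset.mem_filter, Finset.mem_univ, true_and] at hp' ⊢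
      exact bin_mono hℓ hjk hp') (fun p _ _ => hl0 p)
  set Liv : ℕ → Prop := fun k => ∑ p with θ < bm k p, lam p ≤ 1 / 10 with hLiv
  set G : ι × ι → Prop := fun p => ∀ k, Liv k → bm k p ≤ θ with hG
  have hbad : ∑ p with ¬ G p, lam p ≤ 1 / 10 := by
    by_cases hne : (Finset.univ.filter fun p => ¬ G p).Nonempty
    · have hw : ∀ p, ¬ G p → ∃ k, Liv k ∧ θ < bm k p := fun p hp => by
        simp only [hG] at hp
        push Not at hp
        exact hp
      choose! kk hkk using hw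
      obtain ⟨p0, hp0, hmax⟩ := Finset.exists_max_image _ kk hne
      have hp0' : ¬ G p0 := (Finset.mem_filter.1 hp0).2
      refine le_trans (Finset.sum_le_sum_of_subset_of_nonneg (fun p hp => ?_)
        (fun p _ _ => hl0 p)) (hkk p0 hp0').1
      have hp' : ¬ G p := (Finset.mem_filter.1 hp).2
      exact Finset.mem_filter.2 ⟨Finset.mem_univ _,
        (hkk p hp').2.trans_le (hbmono _ _ p (hmax p hp))⟩
    · rw [Finset.not_nonempty_iff_eq_empty.1 hne]; norm_num
  set s : ℝ := ∑ p with G p, lam p with hs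
  have hs9 : 9 / 10 ≤ s := by
    have := Finset.sum_filter_add_sum_filter_not Finset.univ G lam
    linarith
  have hs0 : 0 < s := by linarith
  have hre : ∀ τ, ∑ p, lam p * Real.cos (X p * τ) = ‖Eh E a h τ‖ ^ 2 := fun τ => by
    have := congrArg Complex.re (normSq_Eh E a h τ)
    rw [Complex.re_sum, Complex.ofReal_re] at this
    rw [← this]
    refine Finset.sum_congr rfl fun p _ => ?_
    rw [Complex.re_ofReal_mul, ex_re]
  have hFc : ∀ τ, Fc (fun ω : (ι × ι) × Bool => if G ω.1 then lam ω.1 / (2 * s) else 0)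
      (fun ω => if ω.2 then X ω.1 else -X ω.1) τ =
      (∑ p with G p, lam p * Real.cos (X p * τ)) / s := fun τ => by
    unfold Fc
    rw [Fintype.sum_prod_type, Finset.sum_filter, Finset.sum_div]
    refine Finset.sum_congr rfl fun p _ => ?_
    rw [Fintype.sum_bool]
    simp only [if_true, Bool.false_eq_true, if_false, neg_mul, Real.cos_neg]
    split_ifs
    · field_simp; ring
    · simp
  refine ⟨fun ω => if G ω.1 then lam ω.1 / (2 * s) else 0,
    fun ω => if ω.2 then X ω.1 else -X ω.1, Liv, fun ω => ?_, ?_, fun τ => ?_,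
    fun j k hjk hk => ?_, fun τ => ?_, fun k hk x => ?_, fun k hk t0 S hS => ?_⟩
  · dsimp only
    split_ifs
    · exact div_nonneg (hl0 _) (by positivity)
    · exact le_rfl
  · rw [Fintype.sum_prod_type]
    have : ∀ p : ι × ι, ∑ _b : Bool, (if G p then lam p / (2 * s) else 0) =
        (if G p then lam p else 0) / s := fun p => by
      rw [Fintype.sum_bool]
      split_ifs
      · field_simp; ring
      · simp
    simp only [this]
    rw [← Finset.sum_div, ← Finset.sum_filter, div_self hs0.ne']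
  · unfold Fc
    rw [Fintype.sum_prod_type (α₁ := ι × ι), Fintype.sum_prod_type (α₁ := ι × ι),
      Complex.ofReal_sum]
    refine Finset.sum_congr rfl fun p _ => ?_
    rw [Fintype.sum_bool, Fintype.sum_bool]
    simp only [if_true, Bool.false_eq_true, if_false, neg_mul, Real.cos_neg]
    rw [← mul_add, ex_add_neg, ← Complex.ofReal_mul]
    congr 1
    ring
  · refine le_trans (Finset.sum_le_sum_of_subset_of_nonneg (fun p hp => ?_)
      (fun p _ _ => hl0 p)) hk
    exact Finset.mem_filter.2 ⟨Finset.mem_univ _,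
      (Finset.mem_filter.1 hp).2.trans_le (hbmono _ _ p hjk)⟩
  · rw [hFc, le_div_iff₀ hs0]
    have e1 : ∑ p with G p, lam p * (1 - Real.cos (X p * τ)) ≤
        ∑ p, lam p * (1 - Real.cos (X p * τ)) :=
      Finset.sum_le_sum_of_subset_of_nonneg (Finset.filter_subset _ _) fun p _ _ =>
        mul_nonneg (hl0 p) (by linarith [Real.cos_le_one (X p * τ)])
    have e0 : 0 ≤ ∑ p with G p, lam p * (1 - Real.cos (X p * τ)) :=
      Finset.sum_nonneg fun p _ => mul_nonneg (hl0 p) (by linarith [Real.cos_le_one (X p * τ)])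
    simp only [mul_sub, mul_one, Finset.sum_sub_distrib] at e1 e0
    rw [hl1, hre] at e1
    rw [← hs] at e1 e0
    nlinarith
  · have hGk : ∀ p, G p → ∑ p' with bin (X p') ℓ k = bin (X p) ℓ k, lam p' ≤ θ :=
      fun p hp => hp k hk
    have w1 := win_mass lam X hl0 G hℓ hθ.le k hGk x
    have w2 := win_mass lam X hl0 G hℓ hθ.le k hGk (-(x + 2 ^ k / ℓ))
    rw [Fintype.sum_prod_type]
    have : ∀ p : ι × ι, ∑ b : Bool, (if x ≤ (if b then X p else -X p) ∧
        (if b then X p else -X p) ≤ x + 2 ^ k / ℓ then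
          (if G p then lam p / (2 * s) else 0) else 0) =
        ((if G p ∧ x ≤ X p ∧ X p ≤ x + 2 ^ k / ℓ then lam p else 0) +
          (if G p ∧ -(x + 2 ^ k / ℓ) ≤ X p ∧ X p ≤ -(x + 2 ^ k / ℓ) + 2 ^ k / ℓ then lam p
            else 0)) / (2 * s) := fun p => by
      rw [Fintype.sum_bool]
      simp only [if_true, Bool.false_eq_true, if_false]
      have hiff : (x ≤ -X p ∧ -X p ≤ x + 2 ^ k / ℓ) ↔
          (-(x + 2 ^ k / ℓ) ≤ X p ∧ X p ≤ -(x + 2 ^ k / ℓ) + 2 ^ k / ℓ) :=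
        ⟨fun h => ⟨by linarith [h.2], by linarith [h.1]⟩,
          fun h => ⟨by linarith [h.2], by linarith [h.1]⟩⟩
      rw [add_div]
      congr 1
      · by_cases hp : G p <;> simp [hp, ite_div]
      · rw [if_congr hiff rfl rfl]
        by_cases hp : G p <;> simp [hp, ite_div]
    simp only [this]
    rw [← Finset.sum_div, Finset.sum_add_distrib, div_le_iff₀ (by positivity)]
    nlinarith
  · by_contra hlt
    push Not at hlt
    apply hk
    have hP := P46.lemmaP lam hl0 hl1 z hh (m0 := m0) (fun j => diff_atom h0 h1 ha hm j)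
      (fun p => bin (X p) ℓ k) (w := 2 ^ k / (100 * ℓ)) (fun i i' hb => bin_close hℓ hb) α hℓ k t0
      (η := 1 / 100) (κ := 1 / 100) (by norm_num) (le_of_eq (by field_simp)) S
      (fun v hv hSv => by
        obtain ⟨s, hs, hle⟩ := hS v hv hSv
        refine ⟨s, hs, ?_⟩
        have := normSq_Eh E a h (s - t0)
        simp only [hlam, hz]
        rw [this, Complex.norm_real, Real.norm_eq_abs, abs_of_nonneg (by positivity)]
        linarith)
    refine le_trans (le_trans (Finset.sum_le_sum_of_subset_of_nonneg (fun p hp => ?_)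
      (fun p _ _ => hl0 p)) (le_of_eq_of_le (by congr) hP)) (by norm_num)
    refine Finset.mem_filter.2 ⟨Finset.mem_univ _, ?_⟩
    have hp' : θ < bm k p := (Finset.mem_filter.1 hp).2
    rw [div_lt_iff₀ hθ] at hlt
    have hσ : 0 ≤ avg k (fun v => if S v then (1 : ℝ) else 0) :=
      avg_nonneg_len k fun l _ => by split_ifs <;> norm_num
    refine hlt.trans_le (mul_le_mul_of_nonneg_left (hp'.le.trans (le_of_eq ?_)) hσ)
    simp only [hbm]
    congr

end Crest.Agent.R100.Birth
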