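import Crest.Agent.R100.CandHarm

/-! # Row 100, CAND (helper86): clusters -/

set_option autoImplicit false

open MeasureTheory Set

noncomputable section

namespace Crest.Agent.R100.Cand

open Crest.Agent.R100 Crest.Agent.R100.Low

variable {Λ : Type} [Fintype Λ]

/-! ### part A -/

theorem h35_ex_close (θ x a y : ℝ) :
    ‖ex θ y - ex (θ - x) a * ex x y‖ ≤ |θ - x| * |y - a| := by
  have e : ex θ y - ex (θ - x) a * ex x y =
      (ex (θ - x) a * ex x y) *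
        (Complex.exp (Complex.I * ((-((θ - x) * (y - a)) : ℝ) : ℂ)) - 1) := by
    rw [mul_sub, mul_one]
    congr 1
    unfold ex
    rw [← Complex.exp_add, ← Complex.exp_add]
    congr 1
    push_cast
    ring
  rw [e, norm_mul, norm_mul, LowPsi_ex_norm, LowPsi_ex_norm, one_mul, one_mul]
  refine Real.norm_exp_I_mul_ofReal_sub_one_le.trans (le_of_eq ?_)
  rw [norm_neg, Real.norm_eq_abs, abs_mul]

theorem clus_red {K : Type} [Fintype K] (θ : K → ℝ) (γ : Λ → K → ℂ) {a0 l0 l d A : ℝ}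
    (hl : 0 < l) (hll : l ≤ l0) (hd : 0 ≤ d) (hdA : 2 * d ≤ A)
    (hgap : ∀ k k', |θ k - θ k'| * l0 ≤ d ∨ A < |θ k - θ k'| * l) :
    ∃ (T : Finset ℝ) (c : Λ → ℝ → ℂ), T.card ≤ Fintype.card K ∧
      (∀ x ∈ T, ∀ x' ∈ T, x ≠ x' → A / l ≤ |x - x'|) ∧
        ∀ L y, a0 ≤ y → y ≤ a0 + l0 →
          ‖∑ k, γ L k * ex (θ k) y - ∑ x ∈ T, c L x * ex x y‖ ≤ d * ∑ k, ‖γ L k‖ := by
  classical
  have hsymm : ∀ {k k' : K}, |θ k - θ k'| * l0 ≤ d → |θ k' - θ k| * l0 ≤ d := fun h => by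
    rwa [abs_sub_comm]
  have htrans : ∀ {k k' k'' : K}, |θ k - θ k'| * l0 ≤ d → |θ k' - θ k''| * l0 ≤ d →
      |θ k - θ k''| * l0 ≤ d := by
    intro k k' k'' h1 h2
    refine (hgap k k'').resolve_right (not_lt.2 ?_)
    have h3 := abs_sub_le (θ k) (θ k') (θ k'')
    have h4 : |θ k - θ k''| * l ≤ |θ k - θ k''| * l0 :=
      mul_le_mul_of_nonneg_left hll (abs_nonneg _)
    have h5 : |θ k - θ k''| * l0 ≤ (|θ k - θ k'| + |θ k' - θ k''|) * l0 :=
      mul_le_mul_of_nonneg_right h3 (hl.le.trans hll)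
    linarith
  let s : Setoid K := ⟨fun k k' => |θ k - θ k'| * l0 ≤ d, fun k => by simpa using hd, hsymm, htrans⟩
  let r : K → K := fun k => (Quotient.mk s k).out
  have hr1 : ∀ k, |θ (r k) - θ k| * l0 ≤ d := fun k => Quotient.mk_out (s := s) k
  have hr2 : ∀ k k', |θ k - θ k'| * l0 ≤ d → r k = r k' := fun k k' h => by
    have : Quotient.mk s k = Quotient.mk s k' := Quotient.sound h
    simp only [r, this]
  refine ⟨Finset.univ.image fun k => θ (r k), fun L x =>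
    ∑ k ∈ Finset.univ.filter (fun k => θ (r k) = x), γ L k * ex (θ k - x) a0,
    Finset.card_image_le.trans (by simp), ?_, fun L y hy1 hy2 => ?_⟩
  · intro x hx x' hx' hne
    obtain ⟨k, -, rfl⟩ := Finset.mem_image.1 hx
    obtain ⟨k', -, rfl⟩ := Finset.mem_image.1 hx'
    rcases hgap (r k) (r k') with h | h
    · exact absurd (by rw [hr2 k k' (htrans (hsymm (hr1 k)) (htrans h (hr1 k')))]) hne
    · exact (div_le_iff₀ hl).2 h.le
  · have e : ∑ x ∈ Finset.univ.image (fun k => θ (r k)),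
        (∑ k ∈ Finset.univ.filter (fun k => θ (r k) = x), γ L k * ex (θ k - x) a0) * ex x y =
        ∑ k, γ L k * (ex (θ k - θ (r k)) a0 * ex (θ (r k)) y) := by
      rw [← Finset.sum_fiberwise_of_maps_to (s := Finset.univ)
        (t := Finset.univ.image fun k => θ (r k)) (g := fun k => θ (r k))
        (fun k _ => Finset.mem_image_of_mem _ (Finset.mem_univ k))]
      refine Finset.sum_congr rfl fun x _ => ?_
      rw [Finset.sum_mul]
      refine Finset.sum_congr rfl fun k hk => ?_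
      rw [(Finset.mem_filter.1 hk).2, mul_assoc]
    rw [e, ← Finset.sum_sub_distrib, Finset.mul_sum]
    refine (norm_sum_le _ _).trans (Finset.sum_le_sum fun k _ => ?_)
    rw [← mul_sub, norm_mul, mul_comm d]
    refine mul_le_mul_of_nonneg_left ((h35_ex_close _ _ _ _).trans ?_) (norm_nonneg _)
    refine le_trans (mul_le_mul_of_nonneg_left ?_ (abs_nonneg _)) (hsymm (hr1 k))
    rw [abs_of_nonneg (by linarith)]
    linarith

/-! ### part B -/

theorem clus_sep (G : Λ → ℝ → ℝ) (hG0 : ∀ L y, 0 ≤ G L y) (hGc : ∀ L, Continuous (G L))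
    (T : Finset ℝ) (c : Λ → ℝ → ℂ) (e : Λ → ℝ) {a0 l0 a l A κ : ℝ} {M : ℕ} (hl : 0 < l)
    (h1 : a0 ≤ a) (h2 : a + l ≤ a0 + l0) (hA : 0 < A) (hM : T.card ≤ M) (hM1 : 1 ≤ M)
    (hsep : ∀ x ∈ T, ∀ x' ∈ T, x ≠ x' → A / l ≤ |x - x'|)
    (he : ∀ L y, a0 ≤ y → y ≤ a0 + l0 → ‖(G L y : ℂ) - ∑ x ∈ T, c L x * ex x y‖ ≤ e L)
    (he1 : ∑ L, e L ≤ 1) (hκ : 16 * (1 + Real.log M) ≤ κ * A) (hκ1 : κ ≤ 1 / 2)
    (hm : ∑ L, ‖cu (fun y => (G L y : ℂ)) 0 a0 l0‖ ≤ 2) (ξ : ℝ) :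
    ∃ (ξ' : ℝ) (φ : ℂ), ‖φ‖ ≤ 1 ∧ ‖φ‖ * (|ξ - ξ'| * l) ≤ 2 ∧
      ∑ L, ‖cu (fun y => (G L y : ℂ)) ξ a l - φ * cu (fun y => (G L y : ℂ)) ξ' a0 l0‖ ≤
        12 * κ + 2 * ∑ L, e L := by
  classical
  have hll : l ≤ l0 := by linarith
  have hl0 : 0 < l0 := by linarith
  have hσ : 0 < A / l := by positivity
  have hlog : 0 ≤ Real.log M := Real.log_natCast_nonneg _
  have hκ0 : 0 ≤ κ := by
    by_contra h
    nlinarith [mul_pos (neg_pos.2 (not_le.1 h)) hA]
  have hGc' : ∀ L, Continuous fun y => (G L y : ℂ) := fun L =>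
    Complex.continuous_ofReal.comp (hGc L)
  have he0 : ∀ L, 0 ≤ e L := fun L => (norm_nonneg _).trans (he L a0 le_rfl (by linarith))
  have far : ∀ (T' : Finset ℝ) (ζ a' l' : ℝ), T' ⊆ T → l ≤ l' →
      (∀ x ∈ T', A / l / 2 ≤ |x + ζ|) → ∑ x ∈ T', ‖cu (ex x) ζ a' l'‖ ≤ κ := by
    intro T' ζ a' l' hT' hl' hf
    have h := harm T' hσ (-ζ) ((Finset.card_le_card hT').trans hM) hM1
      (fun x hx x' hx' => hsep x (hT' hx) x' (hT' hx')) (fun x hx => by
        rw [sub_neg_eq_add]; exact hf x hx)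
    calc ∑ x ∈ T', ‖cu (ex x) ζ a' l'‖ ≤ ∑ x ∈ T', 2 / l * (1 / |x - -ζ|) := by
          refine Finset.sum_le_sum fun x hx => ?_
          rw [sub_neg_eq_add]
          have h3 := cu_ex_mul x ζ a' (hl.trans_le hl')
          have h4 : 0 < |x + ζ| := lt_of_lt_of_le (by positivity) (hf x hx)
          rw [div_mul_div_comm, mul_one, le_div_iff₀ (by positivity)]
          refine le_trans (mul_le_mul_of_nonneg_left ?_ (norm_nonneg _)) h3
          rw [mul_comm]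
          exact mul_le_mul_of_nonneg_left hl' h4.le
      _ = 2 / l * ∑ x ∈ T', 1 / |x - -ζ| := by rw [Finset.mul_sum]
      _ ≤ 2 / l * (8 / (A / l) * (1 + Real.log M)) :=
          mul_le_mul_of_nonneg_left h (by positivity)
      _ = 16 * (1 + Real.log M) / A := by field_simp; ring
      _ ≤ κ := by rw [div_le_iff₀ hA]; exact hκ
  have hμ : ∀ L, ∃ μ : ℝ, 0 ≤ μ ∧ (∀ x ∈ T, ‖c L x‖ ≤ μ) ∧ (μ = 0 ∨ ∃ x ∈ T, μ = ‖c L x‖) := by
    intro L
    rcases T.eq_empty_or_nonempty with hT | hT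
    · exact ⟨0, le_rfl, by simp [hT], Or.inl rfl⟩
    · obtain ⟨x, hx, hmax⟩ := T.exists_max_image (fun x => ‖c L x‖) hT
      exact ⟨‖c L x‖, norm_nonneg _, hmax, Or.inr ⟨x, hx, rfl⟩⟩
  choose μ hμ0 hμ1 hμ2 using hμ
  have farsum : ∀ L (T' : Finset ℝ) (ζ a' l' : ℝ), T' ⊆ T → l ≤ l' →
      (∀ x ∈ T', A / l / 2 ≤ |x + ζ|) → ‖∑ x ∈ T', c L x * cu (ex x) ζ a' l'‖ ≤ μ L * κ := by
    intro L T' ζ a' l' hT' hl' hf
    refine (norm_sum_le _ _).trans ?_
    refine le_trans ?_ (mul_le_mul_of_nonneg_left (far T' ζ a' l' hT' hl' hf) (hμ0 L))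
    rw [Finset.mul_sum]
    refine Finset.sum_le_sum fun x hx => ?_
    rw [norm_mul]
    exact mul_le_mul_of_nonneg_right (hμ1 L x (hT' hx)) (norm_nonneg _)
  have base : ∀ L, ∀ x ∈ T,
      ‖cu (fun y => (G L y : ℂ)) (-x) a0 l0 - c L x‖ ≤ e L + μ L * κ := by
    intro L x hx
    have h3 := cu_near (hGc' L) T (c L) (-x) a0 hl0 (he L)
    rw [← Finset.add_sum_erase T _ hx, cu_ex_self x a0 hl0, mul_one] at h3
    have h4 := farsum L (T.erase x) (-x) a0 l0 (Finset.erase_subset _ _) hll (fun x' hx' => by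
      have := hsep x' (Finset.mem_of_mem_erase hx') x hx (Finset.ne_of_mem_erase hx')
      rw [← sub_eq_add_neg]; linarith)
    calc _ = ‖(cu (fun y => (G L y : ℂ)) (-x) a0 l0 -
          (c L x + ∑ x' ∈ T.erase x, c L x' * cu (ex x') (-x) a0 l0)) +
          ∑ x' ∈ T.erase x, c L x' * cu (ex x') (-x) a0 l0‖ := by congr 1; ring
      _ ≤ _ := (norm_add_le _ _).trans (add_le_add h3 h4)
  have hμb : ∀ L, μ L ≤ 2 * (‖cu (fun y => (G L y : ℂ)) 0 a0 l0‖ + e L) := by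
    intro L
    rcases hμ2 L with h | ⟨x, hx, h⟩
    · rw [h]; have := he0 L; positivity
    · have h3 := base L x hx
      have h4 := cu_le_zero (hG0 L) (-x) a0 hl0
      have h5 := norm_sub_norm_le (c L x) (cu (fun y => (G L y : ℂ)) (-x) a0 l0)
      rw [norm_sub_rev] at h3
      have h6 := mul_le_mul_of_nonneg_left hκ1 (hμ0 L)
      linarith
  have hμs : ∑ L, μ L ≤ 6 := by
    refine (Finset.sum_le_sum fun L _ => hμb L).trans ?_
    rw [← Finset.mul_sum, Finset.sum_add_distrib]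
    linarith
  have fin : ∑ L, 2 * (μ L * κ + e L) ≤ 12 * κ + 2 * ∑ L, e L := by
    rw [← Finset.mul_sum, Finset.sum_add_distrib, ← Finset.sum_mul]
    nlinarith
  have heI : ∀ L y, a ≤ y → y ≤ a + l → ‖(G L y : ℂ) - ∑ x ∈ T, c L x * ex x y‖ ≤ e L :=
    fun L y hy1 hy2 => he L y (by linarith) (by linarith)
  by_cases hex : ∃ x ∈ T, |x + ξ| < A / l / 2
  · obtain ⟨x, hx, hxξ⟩ := hex
    refine ⟨-x, cu (ex x) ξ a l, cu_ex_le x ξ a hl, ?_,
      (Finset.sum_le_sum fun L _ => ?_).trans fin⟩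
    · rw [sub_neg_eq_add, add_comm]
      exact cu_ex_mul x ξ a hl
    · have h3 := cu_near (hGc' L) T (c L) ξ a hl (heI L)
      rw [← Finset.add_sum_erase T _ hx] at h3
      have h4 := farsum L (T.erase x) ξ a l (Finset.erase_subset _ _) le_rfl (fun x' hx' => by
        have h5 := hsep x' (Finset.mem_of_mem_erase hx') x hx (Finset.ne_of_mem_erase hx')
        have h6 : |x' - x| ≤ |x' + ξ| + |x + ξ| := by
          calc |x' - x| = |(x' + ξ) - (x + ξ)| := by congr 1; ring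
            _ ≤ _ := abs_sub _ _
        linarith)
      have h5 := base L x hx
      have h6 : ‖cu (ex x) ξ a l * (cu (fun y => (G L y : ℂ)) (-x) a0 l0 - c L x)‖ ≤
          e L + μ L * κ := by
        rw [norm_mul]
        exact (mul_le_of_le_one_left (norm_nonneg _) (cu_ex_le x ξ a hl)).trans h5
      calc _ = ‖((cu (fun y => (G L y : ℂ)) ξ a l -
            (c L x * cu (ex x) ξ a l + ∑ x' ∈ T.erase x, c L x' * cu (ex x') ξ a l)) +
            ∑ x' ∈ T.erase x, c L x' * cu (ex x') ξ a l) -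
            cu (ex x) ξ a l * (cu (fun y => (G L y : ℂ)) (-x) a0 l0 - c L x)‖ := by
            congr 1; ring
        _ ≤ _ := (norm_sub_le _ _).trans (add_le_add (norm_add_le _ _) le_rfl)
        _ ≤ _ := by linarith
  · push Not at hex
    refine ⟨ξ, 0, by simp, by simp, (Finset.sum_le_sum fun L _ => ?_).trans fin⟩
    have h3 := cu_near (hGc' L) T (c L) ξ a hl (heI L)
    have h4 := farsum L T ξ a l subset_rfl le_rfl hex
    have h5 := he0 L
    have h6 := mul_nonneg (hμ0 L) hκ0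
    rw [zero_mul, sub_zero]
    calc _ = ‖(cu (fun y => (G L y : ℂ)) ξ a l - ∑ x' ∈ T, c L x' * cu (ex x') ξ a l) +
            ∑ x' ∈ T, c L x' * cu (ex x') ξ a l‖ := by congr 1; ring
      _ ≤ _ := norm_add_le _ _
      _ ≤ _ := by linarith

end Crest.Agent.R100.Cand
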