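import Crest.Agent.R100.CandExp

/-! # Row 100, CAND (helper86): the number of resonant scales -/

set_option autoImplicit false

open MeasureTheory Set

noncomputable section

namespace Crest.Agent.R100.Cand

open Crest.Agent.R100 Crest.Agent.R100.Low

variable {Λ : Type} [Fintype Λ]

/-! ### part A -/

private theorem h47_sum_mem (t : List ℝ) (δ : ℕ → ℝ) (S : Finset ℕ)
    (hmem : ∀ k ∈ S, δ k ∈ comb 2 t) : ∑ k ∈ S, δ k ∈ comb (2 * S.card) t := by
  classical
  induction S using Finset.induction_on with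
  | empty => simpa using comb_zero_mem 0 t
  | insert a S ha ih =>
    rw [Finset.sum_insert ha, Finset.card_insert_of_notMem ha, mul_add, mul_one, add_comm (2 * _)]
    exact comb_add (hmem a (Finset.mem_insert_self _ _))
      (ih fun k hk => hmem k (Finset.mem_insert_of_mem hk))

private theorem h47_lt (δ : ℕ → ℝ) (S : Finset ℕ)
    (hlac : ∀ k ∈ S, ∀ k' ∈ S, k < k' → 2 * |δ k| ≤ |δ k'|) :
    ∀ x : ℝ, 0 < x → (∀ k ∈ S, 2 * |δ k| ≤ x) → (∀ k ∈ S, δ k ≠ 0) → ∑ k ∈ S, |δ k| < x := by
  induction S using Finset.induction_on_max with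
  | empty => intro x hx _ _; simpa using hx
  | insert a S ha ih =>
    intro x _ h2 h3
    have hna : a ∉ S := fun h => lt_irrefl _ (ha a h)
    rw [Finset.sum_insert hna]
    have h4 := ih (fun k hk k' hk' => hlac k (Finset.mem_insert_of_mem hk) k'
      (Finset.mem_insert_of_mem hk')) |δ a| (abs_pos.2 (h3 a (Finset.mem_insert_self _ _)))
      (fun k hk => hlac k (Finset.mem_insert_of_mem hk) a (Finset.mem_insert_self _ _) (ha k hk))
      (fun k hk => h3 k (Finset.mem_insert_of_mem hk))
    have := h2 a (Finset.mem_insert_self _ _)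
    linarith

private theorem h47_ne (δ : ℕ → ℝ) (D : Finset ℕ) (e : ℕ → ℝ) (he : ∀ k ∈ D, |e k| = |δ k|)
    (hne : ∀ k ∈ D, δ k ≠ 0) (hlac : ∀ k ∈ D, ∀ k' ∈ D, k < k' → 2 * |δ k| ≤ |δ k'|)
    (hD : D.Nonempty) : ∑ k ∈ D, e k ≠ 0 := by
  intro h0
  have hm := D.max'_mem hD
  set a := D.max' hD with ha
  rw [← Finset.add_sum_erase D e hm] at h0
  have h1 := h47_lt δ (D.erase a) (fun k hk k' hk' => hlac k (Finset.mem_of_mem_erase hk) k'
    (Finset.mem_of_mem_erase hk')) |δ a| (abs_pos.2 (hne a hm))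
    (fun k hk => hlac k (Finset.mem_of_mem_erase hk) a hm
      (lt_of_le_of_ne (D.le_max' k (Finset.mem_of_mem_erase hk)) (Finset.ne_of_mem_erase hk)))
    (fun k hk => hne k (Finset.mem_of_mem_erase hk))
  have h2 : |∑ k ∈ D.erase a, e k| ≤ ∑ k ∈ D.erase a, |δ k| :=
    (Finset.abs_sum_le_sum_abs _ _).trans
      (le_of_eq (Finset.sum_congr rfl fun k hk => he k (Finset.mem_of_mem_erase hk)))
  have h3 : e a = -∑ k ∈ D.erase a, e k := by linarith
  have h4 := he a hm
  rw [h3, abs_neg] at h4
  linarith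

/-- subset sums of a lacunary family are distinct -/
theorem lac (t : List ℝ) (J : Finset ℕ) (δ : ℕ → ℝ) (hmem : ∀ k ∈ J, δ k ∈ comb 2 t)
    (hne : ∀ k ∈ J, δ k ≠ 0) (hlac : ∀ k ∈ J, ∀ k' ∈ J, k < k' → 2 * |δ k| ≤ |δ k'|) :
    2 ^ J.card ≤ (4 * J.card + 1) ^ t.length := by
  classical
  have h1 : J.powerset.card ≤ (comb (2 * J.card) t).card := by
    refine Finset.card_le_card_of_injOn (fun S => ∑ k ∈ S, δ k) (fun S hS => ?_) ?_
    · have hSJ : S ⊆ J := Finset.mem_powerset.1 hS
      have h2 := comb_add (h47_sum_mem t δ S fun k hk => hmem k (hSJ hk))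
        (comb_zero_mem (2 * (J.card - S.card)) t)
      have h3 : 2 * S.card + 2 * (J.card - S.card) = 2 * J.card := by
        have := Finset.card_le_card hSJ
        omega
      rw [h3, add_zero] at h2
      exact h2
    · intro S hS T hT hST
      have hSJ : S ⊆ J := Finset.mem_powerset.1 hS
      have hTJ : T ⊆ J := Finset.mem_powerset.1 hT
      by_contra hne'
      have hsub : (S \ T) ∪ (T \ S) ⊆ J := Finset.union_subset
        (Finset.sdiff_subset.trans hSJ) (Finset.sdiff_subset.trans hTJ)
      refine h47_ne δ ((S \ T) ∪ (T \ S)) (fun k => if k ∈ S then δ k else -δ k)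
        (fun k _ => by split_ifs <;> simp) (fun k hk => hne k (hsub hk))
        (fun k hk k' hk' => hlac k (hsub hk) k' (hsub hk')) ?_ ?_
      · rw [Finset.nonempty_iff_ne_empty]
        intro h
        rw [Finset.union_eq_empty, Finset.sdiff_eq_empty_iff_subset,
          Finset.sdiff_eq_empty_iff_subset] at h
        exact hne' (Finset.Subset.antisymm h.1 h.2)
      · rw [Finset.sum_union disjoint_sdiff_sdiff,
          Finset.sum_congr rfl (fun k hk => if_pos (Finset.mem_sdiff.1 hk).1),
          Finset.sum_congr rfl (fun k hk => if_neg (Finset.mem_sdiff.1 hk).2),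
          Finset.sum_neg_distrib, ← sub_eq_add_neg, Finset.sum_sdiff_sub_sum_sdiff]
        exact sub_eq_zero.2 hST
  rw [Finset.card_powerset] at h1
  have h2 := comb_card (2 * J.card) t
  rw [← mul_assoc] at h2
  exact h1.trans h2

theorem lac_num {r m : ℕ} (h : 2 ^ r ≤ (4 * r + 1) ^ m) : r ≤ 50 * m ^ 2 := by
  by_contra hcon
  push Not at hcon
  have hr : (50 : ℝ) * (m : ℝ) ^ 2 < r := by exact_mod_cast hcon
  have hr1 : (1 : ℝ) ≤ r := by
    have : 1 ≤ r := by omega
    exact_mod_cast this
  have h1 : (2 : ℝ) ^ r ≤ (4 * r + 1) ^ m := by exact_mod_cast h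
  have h2 := Real.log_le_log (by positivity) h1
  rw [Real.log_pow, Real.log_pow] at h2
  set s := Real.sqrt (5 * r) with hs
  have hs0 : 0 < s := Real.sqrt_pos.2 (by linarith)
  have hs2 : s ^ 2 = 5 * r := Real.sq_sqrt (by linarith)
  have h3 : Real.log (4 * r + 1) ≤ 2 * s := by
    have h4 : Real.log (4 * r + 1) ≤ Real.log (s ^ 2) :=
      Real.log_le_log (by positivity) (by linarith)
    rw [Real.log_pow] at h4
    have := Real.log_le_sub_one_of_pos hs0
    push_cast at h4
    linarith
  have hm : (0 : ℝ) ≤ m := Nat.cast_nonneg m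
  have h5 : (m : ℝ) * s ≤ 0.32 * r := by
    have h6 : ((m : ℝ) * s) ^ 2 ≤ (0.32 * r) ^ 2 := by
      rw [mul_pow, hs2]
      nlinarith
    exact (pow_le_pow_iff_left₀ (by positivity) (by positivity) two_ne_zero).1 h6
  have h7 := Real.log_two_gt_d9
  have h8 := mul_le_mul_of_nonneg_left h3 hm
  nlinarith

/-! ### part B -/

open Classical in
theorem res_count (t : List ℝ) {d A ℓ : ℝ} (hd : 0 < d) (hℓ : 0 < ℓ) {q : ℕ} (hq : A ≤ d * 2 ^ q)
    (n : ℕ) : ((Finset.range n).filter fun k => Res d A t (ℓ / 2 ^ k)).card ≤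
      (q + 1) * (50 * t.length ^ 2) := by
  set S := (Finset.range n).filter fun k => Res d A t (ℓ / 2 ^ k) with hS
  have hex : ∀ k : ℕ, ∃ δ : ℝ, Res d A t (ℓ / 2 ^ k) →
      δ ∈ comb 2 t ∧ d < |δ| * (ℓ / 2 ^ k) ∧ |δ| * (ℓ / 2 ^ k) ≤ A := fun k => by
    by_cases h : Res d A t (ℓ / 2 ^ k)
    · obtain ⟨δ, h1, h2⟩ := h
      exact ⟨δ, fun _ => ⟨h1, h2⟩⟩
    · exact ⟨0, fun h' => absurd h' h⟩
  choose δ hδ using hex
  have h1 := Finset.card_le_mul_card_image (f := fun k => k % (q + 1)) S (50 * t.length ^ 2)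
    fun b _ => by
      refine lac_num (lac t _ δ (fun k hk => ?_) (fun k hk => ?_) fun k hk k' hk' hlt => ?_)
      · exact (hδ k (Finset.mem_filter.1 (Finset.mem_filter.1 hk).1).2).1
      · have := (hδ k (Finset.mem_filter.1 (Finset.mem_filter.1 hk).1).2).2.1
        intro h0
        rw [h0, abs_zero, zero_mul] at this
        linarith
      · have a1 := (hδ k (Finset.mem_filter.1 (Finset.mem_filter.1 hk).1).2).2.2
        have a2 := (hδ k' (Finset.mem_filter.1 (Finset.mem_filter.1 hk').1).2).2.1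
        have e : k % (q + 1) = k' % (q + 1) :=
          (Finset.mem_filter.1 hk).2.trans (Finset.mem_filter.1 hk').2.symm
        have hle : k + (q + 1) ≤ k' := by
          have := Nat.le_of_dvd (Nat.sub_pos_of_lt hlt) ((Nat.modEq_iff_dvd' hlt.le).1 e)
          omega
        have p1 : (0 : ℝ) < 2 ^ k := by positivity
        have p2 : (0 : ℝ) < 2 ^ k' := by positivity
        have p3 : (2 : ℝ) ^ k * (2 ^ q * 2) ≤ 2 ^ k' := by
          rw [← pow_succ, ← pow_add]
          exact pow_le_pow_right₀ one_le_two hle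
        rw [← mul_div_assoc, div_le_iff₀ p1] at a1
        rw [← mul_div_assoc, lt_div_iff₀ p2] at a2
        have a3 : |δ k| * ℓ ≤ d * 2 ^ q * 2 ^ k := a1.trans (mul_le_mul_of_nonneg_right hq p1.le)
        have a4 := mul_le_mul_of_nonneg_left p3 hd.le
        have a5 : 2 * |δ k| * ℓ ≤ |δ k'| * ℓ := by nlinarith
        exact le_of_mul_le_mul_right a5 hℓ
  have h2 : (S.image fun k => k % (q + 1)).card ≤ q + 1 := by
    refine (Finset.card_le_card fun b hb => ?_).trans (Finset.card_range (q + 1)).le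
    obtain ⟨k, -, rfl⟩ := Finset.mem_image.1 hb
    exact Finset.mem_range.2 (Nat.mod_lt _ (Nat.succ_pos q))
  exact h1.trans ((Nat.mul_le_mul_left _ h2).trans (Nat.mul_comm _ _).le)

open Classical in
/-- the state changes only at the steps `up` -/
theorem path_count {σ : Type} (s : ℕ → σ) (up : ℕ → Prop) (res : σ → ℕ → Prop) (Q n : ℕ)
    (hs : ∀ k, k + 1 < n → ¬up k → s (k + 1) = s k)
    (hQ : ∀ j < n, ((Finset.range n).filter fun k => res (s j) k).card ≤ Q) :
    ((Finset.range n).filter fun k => res (s k) k).card ≤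
      Q * (1 + ((Finset.range n).filter up).card) := by
  set f : ℕ → ℕ := fun k => ((Finset.range k).filter up).card with hf
  have mono : ∀ k k', k ≤ k' → f k ≤ f k' := fun k k' h =>
    Finset.card_le_card (Finset.filter_subset_filter _ (Finset.range_mono h))
  have key : ∀ k k', k ≤ k' → k' < n → f k = f k' → s k' = s k := by
    intro k k' h
    induction k', h using Nat.le_induction with
    | base => intro _ _; rfl
    | succ m hm ih =>
      intro hn he
      have a1 := mono k m hm
      have a2 := mono m (m + 1) (Nat.le_succ m)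
      have hu : ¬up m := fun hu => by
        have : f (m + 1) = f m + 1 := by
          simp only [hf]
          rw [Finset.range_add_one, Finset.filter_insert, if_pos hu,
            Finset.card_insert_of_notMem (by simp)]
        omega
      rw [hs m hn hu, ih (by omega) (by omega)]
  have h1 := Finset.card_le_mul_card_image (f := f)
    ((Finset.range n).filter fun k => res (s k) k) Q fun b hb => by
      obtain ⟨j, hj, rfl⟩ := Finset.mem_image.1 hb
      have hjn := Finset.mem_range.1 (Finset.mem_filter.1 hj).1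
      refine (Finset.card_le_card fun k hk => ?_).trans (hQ j hjn)
      obtain ⟨hk1, hk2⟩ := Finset.mem_filter.1 hk
      obtain ⟨hk3, hk4⟩ := Finset.mem_filter.1 hk1
      have e : s k = s j := by
        rcases le_total k j with h | h
        · exact (key k j h hjn hk2).symm
        · exact key j k h (Finset.mem_range.1 hk3) hk2.symm
      exact Finset.mem_filter.2 ⟨hk3, e ▸ hk4⟩
  refine h1.trans (Nat.mul_le_mul_left _ ?_)
  refine (Finset.card_le_card fun b hb => ?_).trans (Finset.card_range (1 + f n)).le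
  obtain ⟨k, hk, rfl⟩ := Finset.mem_image.1 hb
  have := mono k n (Finset.mem_range.1 (Finset.mem_filter.1 hk).1).le
  exact Finset.mem_range.2 (by omega)

end Crest.Agent.R100.Cand
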