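import Crest.Agent.R100.CandMach
import Crest.Agent.R100.CandClus
import Crest.Agent.R100.CandRes

/-! # Row 100, CAND (helper86): candidate tops -/

set_option autoImplicit false

open MeasureTheory Set

noncomputable section

namespace Crest.Agent.R100.Cand

open Crest.Agent.R100 Crest.Agent.R100.Low

variable {Λ : Type} [Fintype Λ]

theorem nd_sub : ∀ (u : List Bool) (α ℓ : ℝ), 0 < ℓ →
    α ≤ nd α ℓ u ∧ nd α ℓ u + ln ℓ u ≤ α + ℓ
  | [], α, ℓ, _ => by simp [nd, ln]
  | c :: u, α, ℓ, h => by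
    have := nd_sub u (ch c α ℓ) (ℓ / 2) (by linarith)
    have e : ln ℓ (c :: u) = ln (ℓ / 2) u := by
      simp only [ln, List.length_cons, pow_succ]; ring
    rw [e]
    simp only [nd]
    cases c <;> simp only [ch] at this ⊢ <;> simp at this ⊢ <;> constructor <;>
      linarith [this.1, this.2]

theorem nd_take (α : ℝ) {ℓ : ℝ} (hℓ : 0 < ℓ) (v : List Bool) (k : ℕ) :
    nd α ℓ (v.take k) ≤ nd α ℓ v ∧
      nd α ℓ v + ln ℓ v ≤ nd α ℓ (v.take k) + ln ℓ (v.take k) := by
  have h := nd_sub (v.drop k) (nd α ℓ (v.take k)) (ln ℓ (v.take k)) (lowFamA_ln_pos hℓ _)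
  rw [← famA_nd_append, List.take_append_drop] at h
  have e : ln (ln ℓ (v.take k)) (v.drop k) = ln ℓ v := by
    conv_rhs => rw [← List.take_append_drop k v]
    simp only [ln, List.length_append, pow_add]
    field_simp
  rwa [e] at h

theorem ln_take (ℓ : ℝ) (v : List Bool) {k : ℕ} (hk : k ≤ v.length) :
    ln ℓ (v.take k) = ℓ / 2 ^ k := by
  simp [ln, List.length_take, min_eq_left hk]

theorem take_step (v : List Bool) {j : ℕ} (hj : j < v.length) :
    v.take (j + 1) = v.take j ++ [v[j]] := by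
  rw [List.take_add_one, List.getElem?_eq_getElem hj]; rfl

open Classical in
theorem cnt_eq (P : List Bool → Prop) (n : ℕ) (l : List Bool) :
    cnt P n l = (((Finset.range (n + 1)).filter fun k => P (l.take k)).card : ℝ) := by
  unfold cnt
  rw [Finset.card_filter]
  push_cast
  rfl

open Classical in
theorem cnt_cd (B : List Bool → Prop) (n : ℕ) (l : List Bool) (hl : l.length = n) :
    cnt (fun v => v.length = 0 ∨ B v ∨ B (v.take (v.length - 1))) n l ≤ 1 + 2 * cnt B n l := by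
  unfold cnt
  have h1 : ∑ k ∈ Finset.range (n + 1), (if (l.take k).length = 0 ∨ B (l.take k) ∨
      B ((l.take k).take ((l.take k).length - 1)) then (1 : ℝ) else 0) ≤
      ∑ k ∈ Finset.range (n + 1), ((if B (l.take k) then (1 : ℝ) else 0) +
        (if k = 0 then (1 : ℝ) else if B (l.take (k - 1)) then 1 else 0)) := by
    refine Finset.sum_le_sum fun k hk => ?_
    have hk' : k ≤ l.length := by have := Finset.mem_range.1 hk; omega
    have e1 : (l.take k).length = k := by simp [List.length_take, min_eq_left hk']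
    rw [e1, List.take_take, min_eq_left (Nat.sub_le k 1)]
    by_cases a1 : k = 0 <;> by_cases a2 : B (l.take k) <;> by_cases a3 : B (l.take (k - 1)) <;>
      simp [a1, a2, a3] <;> split_ifs <;> norm_num
  have h2 : ∑ k ∈ Finset.range (n + 1),
      (if k = 0 then (1 : ℝ) else if B (l.take (k - 1)) then 1 else 0) ≤
      1 + ∑ k ∈ Finset.range (n + 1), (if B (l.take k) then (1 : ℝ) else 0) := by
    rw [Finset.sum_range_succ', Finset.sum_range_succ]
    simp only [Nat.add_one_ne_zero, if_false, Nat.add_sub_cancel, if_true]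
    have : (0 : ℝ) ≤ if B (l.take n) then 1 else 0 := by split_ifs <;> norm_num
    linarith
  rw [Finset.sum_add_distrib] at h1
  refine le_trans (le_of_eq ?_) (h1.trans (by linarith))
  exact Finset.sum_congr rfl fun k _ => by congr

open Classical in
theorem cnt_or (B B' : List Bool → Prop) (n : ℕ) (l : List Bool) :
    cnt (fun v => B v ∨ B' v) n l ≤ cnt B n l + cnt B' n l := by
  unfold cnt
  rw [← Finset.sum_add_distrib]
  refine Finset.sum_le_sum fun k _ => ?_
  by_cases a2 : B (l.take k) <;> by_cases a3 : B' (l.take k) <;> simp [a2, a3]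

theorem fr_len (s : St Λ) : (fr s).length = s.length := by simp [fr]

open Classical in
theorem cnt_res (sta : List Bool → St Λ) (Up : List Bool → Prop) {m q : ℕ} {d A ℓ : ℝ}
    (hd : 0 < d) (hℓ : 0 < ℓ) (hq : A ≤ d * 2 ^ q) (hm : ∀ v, (sta v).length ≤ m)
    (hs : ∀ v c, ¬Up v → sta (v ++ [c]) = sta v) (n : ℕ) (l : List Bool) (hl : l.length = n) :
    cnt (fun v => Res d A (fr (sta v)) (ln ℓ v)) n l ≤
      (((q + 1) * (50 * m ^ 2) : ℕ) : ℝ) * (1 + cnt Up n l) := by
  have h := path_count (fun k => sta (l.take k)) (fun k => Up (l.take k))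
    (fun s k => Res d A (fr s) (ℓ / 2 ^ k)) ((q + 1) * (50 * m ^ 2)) (n + 1)
    (fun k hk hu => by
      have hk' : k < l.length := by omega
      change sta (l.take (k + 1)) = sta (l.take k)
      rw [take_step l hk', hs _ _ hu])
    (fun j _ => by
      refine le_trans (le_of_eq ?_) ((res_count (fr (sta (l.take j))) hd hℓ hq (n + 1)).trans ?_)
      · congr
      · rw [fr_len]
        have := hm (l.take j)
        gcongr)
  rw [cnt_eq, cnt_eq]
  have e : ((Finset.range (n + 1)).filter fun k =>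
      Res d A (fr (sta (l.take k))) (ln ℓ (l.take k))) =
      (Finset.range (n + 1)).filter fun k => Res d A (fr (sta (l.take k))) (ℓ / 2 ^ k) := by
    refine Finset.filter_congr fun k hk => ?_
    rw [ln_take ℓ l (by have := Finset.mem_range.1 hk; omega)]
  rw [e]
  have h' : (((Finset.range (n + 1)).filter fun k =>
      Res d A (fr (sta (l.take k))) (ℓ / 2 ^ k)).card : ℝ) ≤
      (((q + 1) * (50 * m ^ 2) * (1 + ((Finset.range (n + 1)).filter
        fun k => Up (l.take k)).card) : ℕ) : ℝ) := by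
    refine Nat.cast_le.2 ?_
    convert h
  rw [Nat.cast_mul, Nat.cast_add, Nat.cast_one] at h'
  convert h'

/-- the static step -/
theorem stat [Nonempty Λ] {ε : ℝ} (h0 : 0 < ε) (h1 : ε ≤ 1) {s : St Λ} (hs : OK s) {m : ℕ}
    (hm : s.length ≤ m) {a0 l0 a l : ℝ} (hl : 0 < l) (ha : a0 ≤ a) (hb : a + l ≤ a0 + l0)
    (hgap : ∀ δ ∈ comb 2 (fr s), |δ| * l0 ≤ ε / (4 * 2 ^ m) ∨ 384 * (1 + 2 * m) / ε < |δ| * l)
    (hz : ∑ L, ‖cu (fun y => (Gm (ε / 2) s L y : ℂ)) 0 a0 l0‖ ≤ 2) (ξ : ℝ) :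
    ∃ (ξ' : ℝ) (φ : ℂ), ‖φ‖ ≤ 1 ∧ ‖φ‖ * (|ξ - ξ'| * l) ≤ 2 ∧
      ∑ L, ‖cu (fun y => (Gm (ε / 2) s L y : ℂ)) ξ a l -
        φ * cu (fun y => (Gm (ε / 2) s L y : ℂ)) ξ' a0 l0‖ ≤ ε := by
  obtain ⟨K, _, θ, γ, hK, hθ, hγ, hG⟩ := expand (η := ε / 2) (by linarith) (by linarith) hs
  have hm0 : (0 : ℝ) ≤ m := Nat.cast_nonneg m
  have h2m : (1 : ℝ) ≤ 2 ^ m := one_le_pow₀ (by norm_num)
  have hd0 : 0 ≤ ε / (4 * 2 ^ m) := by positivity
  have hA1 : (384 : ℝ) ≤ 384 * (1 + 2 * m) / ε := by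
    rw [le_div_iff₀ h0]; nlinarith
  have hd1 : ε / (4 * 2 ^ m) ≤ 1 := by
    rw [div_le_one (by positivity)]; linarith
  obtain ⟨T, c, hT, hsep, he⟩ := clus_red θ γ (a0 := a0) (l0 := l0) (l := l)
    (d := ε / (4 * 2 ^ m)) (A := 384 * (1 + 2 * m) / ε) hl (by linarith) hd0 (by linarith)
    (fun k k' => hgap _ (by
      have := comb_add (hθ k) (comb_neg (hθ k'))
      rwa [← sub_eq_add_neg] at this))
  have hE : ∑ L, ε / (4 * 2 ^ m) * ∑ k, ‖γ L k‖ ≤ ε / 4 := by
    rw [← Finset.mul_sum]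
    have h3 : (2 : ℝ) ^ s.length ≤ 2 ^ m := pow_le_pow_right₀ (by norm_num) hm
    calc ε / (4 * 2 ^ m) * ∑ L, ∑ k, ‖γ L k‖ ≤ ε / (4 * 2 ^ m) * 2 ^ m :=
          mul_le_mul_of_nonneg_left (hγ.trans h3) hd0
      _ = ε / 4 := by field_simp
  have hlog : Real.log ((3 ^ m : ℕ) : ℝ) ≤ 2 * m := by
    rw [Nat.cast_pow, Real.log_pow]
    have := Real.log_le_sub_one_of_pos (show (0 : ℝ) < ((3 : ℕ) : ℝ) by norm_num)
    have h3 : Real.log ((3 : ℕ) : ℝ) ≤ 2 := by push_cast at this ⊢; linarith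
    nlinarith
  obtain ⟨ξ', φ, p1, p2, p3⟩ := clus_sep (fun L y => Gm (ε / 2) s L y)
    (fun L y => (Gm_pos (by linarith) (by linarith) hs L y).le) (fun L => Gm_cont _ s L) T c
    (fun L => ε / (4 * 2 ^ m) * ∑ k, ‖γ L k‖) (A := 384 * (1 + 2 * m) / ε) (κ := ε / 24)
    (M := 3 ^ m) hl ha hb (by linarith)
    (hT.trans (hK.trans (Nat.pow_le_pow_right (by norm_num) hm))) (Nat.one_le_pow _ _ (by norm_num))
    hsep (fun L y y1 y2 => by rw [hG]; exact he L y y1 y2) (by linarith)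
    (by
      have : ε / 24 * (384 * (1 + 2 * m) / ε) = 16 * (1 + 2 * m) := by field_simp; ring
      rw [this]; linarith)
    (by linarith) hz ξ
  exact ⟨ξ', φ, p1, p2, by linarith⟩

/-- **CAND** -/
theorem cand : ∃ C : ℝ, 0 < C ∧ ∀ (Λ : Type) [Fintype Λ] [Nonempty Λ] (g : Λ → ℝ → ℝ)
    (R ε α ℓ : ℝ) (A : List Bool → Prop) (n : ℕ), 1 ≤ R → 0 < ε → ε ≤ 1 → 0 < ℓ →
    (∀ L, Measurable (g L)) → (∀ L y, 0 ≤ g L y ∧ g L y ≤ Real.exp R) →
    (∀ v k, A v → A (v.take k)) →
    (∀ v, A v → ∑ L, ‖U (fun y => (g L y : ℂ)) α ℓ 0 v‖ ≤ 1) →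
    ∃ Cd : List Bool → Prop, Cd [] ∧
      avg n (cnt Cd n) ≤ C * ((R + Real.log (Fintype.card Λ) + 1) / ε ^ 2) ^ 4 ∧
      ∀ v, A v → ∀ ξ : ℝ, ∃ k, k ≤ v.length ∧ Cd (v.take k) ∧
        (∀ j, k < j → j ≤ v.length → ¬Cd (v.take j)) ∧
        ∃ (ξ' : ℝ) (φ : ℂ), ‖φ‖ ≤ 1 ∧ ‖φ‖ * (|ξ - ξ'| * ln ℓ v) ≤ 2 ∧
          ∑ L, ‖U (fun y => (g L y : ℂ)) α ℓ ξ v -
            φ * U (fun y => (g L y : ℂ)) α ℓ ξ' (v.take k)‖ ≤ 3 * ε := by
  classical
  refine ⟨11000000, by norm_num, ?_⟩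
  intro Λ _ _ g R ε α ℓ A n hR h0 h1 hℓ hg hM hA hp
  have hlog : 0 ≤ Real.log (Fintype.card Λ) := Real.log_natCast_nonneg _
  set X : ℝ := (R + Real.log (Fintype.card Λ) + 1) / ε ^ 2 with hX
  have hε2 : ε ^ 2 ≤ 1 := pow_le_one₀ h0.le h1
  have hε2' : 0 < ε ^ 2 := by positivity
  have hX2 : 2 ≤ X := by rw [hX, le_div_iff₀ hε2']; linarith
  have hXε : 1 ≤ X * ε ^ 2 := by rw [hX, div_mul_cancel₀ _ hε2'.ne']; linarith
  set m : ℕ := ⌈8 * X + 1⌉₊ with hmd
  have hm1 : 8 * X + 1 ≤ m := Nat.le_ceil _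
  have hm2 : (m : ℝ) ≤ 9 * X := by
    have := Nat.ceil_lt_add_one (show 0 ≤ 8 * X + 1 by linarith)
    linarith
  have e8 : 8 * (R + Real.log (Fintype.card Λ) + 1) / ε ^ 2 = 8 * X := by
    rw [hX, mul_div_assoc]
  obtain ⟨sta, Up, s1, s2, s3, s4, s5⟩ := machine g R ε α ℓ A n m hR h0 h1 hℓ hg hM hA hp
    (by rw [e8]; exact hm1)
  rw [e8] at s5
  set d : ℝ := ε / (4 * 2 ^ m) with hd
  set AA : ℝ := 384 * (1 + 2 * m) / ε with hAA
  have hd0 : 0 < d := by positivity
  have hm0 : (0 : ℝ) ≤ m := Nat.cast_nonneg m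
  have h2m : (m : ℝ) + 1 ≤ 2 ^ m := by exact_mod_cast Nat.lt_two_pow_self
  have hq : AA ≤ d * 2 ^ (3 * m + 12) := by
    rw [hAA, div_le_iff₀ h0]
    have e : d * 2 ^ (3 * m + 12) * ε = 1024 * (2 ^ m * (2 ^ m * ε ^ 2)) := by
      rw [hd, pow_add, show 3 * m = m + m + m by ring, pow_add, pow_add]; field_simp; norm_num
    have h3 : 1 ≤ 2 ^ m * ε ^ 2 := hXε.trans (mul_le_mul_of_nonneg_right (by linarith) hε2'.le)
    rw [e]
    nlinarith
  have hdA : 2 * d ≤ AA := by
    have h3 : d ≤ 1 := by rw [hd, div_le_one (by positivity)]; linarith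
    have h4 : (384 : ℝ) ≤ AA := by rw [hAA, le_div_iff₀ h0]; nlinarith
    linarith
  set B : List Bool → Prop := fun v => Up v ∨ Res d AA (fr (sta v)) (ln ℓ v) with hB
  refine ⟨fun v => v.length = 0 ∨ B v ∨ B (v.take (v.length - 1)), Or.inl rfl, ?_, ?_⟩
  · set Q : ℝ := (((3 * m + 12 + 1) * (50 * m ^ 2) : ℕ) : ℝ) with hQ
    have hQ0 : 0 ≤ Q := Nat.cast_nonneg _
    have hQ1 : Q ≤ 583200 * X ^ 3 := by
      have : Q ≤ 800 * (m : ℝ) ^ 3 := by
        rw [hQ]; push_cast
        have : (1 : ℝ) ≤ m := by linarith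
        nlinarith [sq_nonneg (m : ℝ), mul_nonneg (sq_nonneg (m : ℝ)) (sub_nonneg.2 this)]
      have h3 : (m : ℝ) ^ 3 ≤ (9 * X) ^ 3 := pow_le_pow_left₀ hm0 hm2 3
      nlinarith
    have h3 : avg n (cnt (fun v => v.length = 0 ∨ B v ∨ B (v.take (v.length - 1))) n) ≤
        avg n (fun l => (2 + 2 * Q) * cnt Up n l + (1 + 2 * Q)) := by
      refine avg_mono_len n fun l hl => ?_
      have a1 := cnt_cd B n l hl
      have a2 := cnt_or Up (fun v => Res d AA (fr (sta v)) (ln ℓ v)) n l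
      have a3 := cnt_res sta Up hd0 hℓ hq s2 s3 n l hl
      rw [← hQ] at a3
      have a4 : cnt B n l = cnt (fun v => Up v ∨ Res d AA (fr (sta v)) (ln ℓ v)) n l := rfl
      nlinarith
    rw [avg_add', avg_mul_left, avg_const] at h3
    have h4 : (2 + 2 * Q) * avg n (cnt Up n) ≤ (2 + 2 * Q) * (8 * X) :=
      mul_le_mul_of_nonneg_left s5 (by linarith)
    have h5 : X ≤ X ^ 3 := by nlinarith [mul_nonneg (sub_nonneg.2 hX2) (sub_nonneg.2 hX2)]
    have h6 : 2 * X ^ 3 ≤ X ^ 4 := by nlinarith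
    have h7 : Q * X ≤ 583200 * X ^ 4 := by nlinarith
    nlinarith
  · intro v hv ξ
    set Cd : ℕ → Prop := fun j => (v.take j).length = 0 ∨ B (v.take j) ∨
      B ((v.take j).take ((v.take j).length - 1)) with hCd
    set k := Nat.findGreatest Cd v.length with hk
    have hk1 : k ≤ v.length := Nat.findGreatest_le _
    have hk2 : Cd k := Nat.findGreatest_spec (Nat.zero_le _) (Or.inl (by simp))
    have hk3 : ∀ j, k < j → j ≤ v.length → ¬Cd j := fun j a b => Nat.findGreatest_is_greatest a b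
    refine ⟨k, hk1, hk2, hk3, ?_⟩
    rcases hk1.eq_or_lt with he | hlt
    · refine ⟨ξ, 1, by simp, by simp, ?_⟩
      rw [he, List.take_length]
      simp only [one_mul, sub_self, norm_zero, Finset.sum_const_zero]
      linarith
    have nb : ∀ j, k ≤ j → j ≤ v.length → ¬B (v.take j) := by
      intro j a b hb
      rcases a.eq_or_lt with a | a
      · refine hk3 (k + 1) (Nat.lt_succ_self k) hlt (Or.inr (Or.inr ?_))
        have e1 : (v.take (k + 1)).length = k + 1 := by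
          simp [List.length_take, min_eq_left (show k + 1 ≤ v.length from hlt)]
        rw [e1, List.take_take, Nat.add_sub_cancel, min_eq_left (Nat.le_succ k), a]
        exact hb
      · exact hk3 j a b (Or.inr (Or.inl hb))
    have hst : ∀ j, k ≤ j → j ≤ v.length → sta (v.take j) = sta (v.take k) := by
      intro j a
      induction j, a using Nat.le_induction with
      | base => intro _; rfl
      | succ j a ih =>
        intro b
        rw [take_step v (show j < v.length from b), s3 _ _ (fun h => nb j a (by omega) (Or.inl h)),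
          ih (by omega)]
    have hgap : ∀ δ ∈ comb 2 (fr (sta (v.take k))), ∀ j, k ≤ j → j ≤ v.length →
        |δ| * (ℓ / 2 ^ k) ≤ d ∨ AA < |δ| * (ℓ / 2 ^ j) := by
      intro δ hδ j a
      have nr : ∀ j, k ≤ j → j ≤ v.length → d < |δ| * (ℓ / 2 ^ j) → AA < |δ| * (ℓ / 2 ^ j) := by
        intro j a b h
        by_contra h'
        refine nb j a b (Or.inr ⟨δ, by rw [hst j a b]; exact hδ, ?_, ?_⟩)
        · rwa [ln_take ℓ v b]
        · rw [ln_take ℓ v b]; exact not_lt.1 h'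
      induction j, a using Nat.le_induction with
      | base =>
        intro b
        rcases le_or_gt (|δ| * (ℓ / 2 ^ k)) d with h | h
        · exact Or.inl h
        · exact Or.inr (nr k le_rfl b h)
      | succ j a ih =>
        intro b
        rcases ih (by omega) with h | h
        · exact Or.inl h
        · refine Or.inr (nr (j + 1) (by omega) b ?_)
          have : |δ| * (ℓ / 2 ^ (j + 1)) = |δ| * (ℓ / 2 ^ j) / 2 := by rw [pow_succ]; field_simp
          linarith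
    have hvv : sta v = sta (v.take k) := by
      have := hst v.length hk1 le_rfl
      rwa [List.take_length] at this
    have m0 := s4 (v.take k) (hA v k hv) (fun h => nb k le_rfl hk1 (Or.inl h))
    have m1 := s4 v hv (fun h => nb v.length hk1 le_rfl (Or.inl (by rwa [List.take_length]))) ξ
    rw [hvv] at m1
    obtain ⟨ξ', φ, p1, p2, p3⟩ := stat h0 h1 (s1 (v.take k)) (s2 (v.take k))
      (lowFamA_ln_pos hℓ v) (nd_take α hℓ v k).1 (nd_take α hℓ v k).2
      (fun δ hδ => by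
        have := hgap δ hδ v.length hk1 le_rfl
        rw [ln_take ℓ v hk1]
        exact this)
      (by
        have a1 := m0 0
        have a2 := hp (v.take k) (hA v k hv)
        unfold mis at a1
        unfold U at a2
        refine le_trans (Finset.sum_le_sum fun L _ => norm_le_insert
          (cu (fun y => (g L y : ℂ)) 0 (nd α ℓ (v.take k)) (ln ℓ (v.take k))) _) ?_
        rw [Finset.sum_add_distrib]
        linarith) ξ
    refine ⟨ξ', φ, p1, p2, ?_⟩
    have a1 := m0 ξ'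
    unfold mis at a1 m1
    unfold U
    have key : ∀ x x' y y' : ℂ, ‖x - φ * y‖ ≤ ‖x - x'‖ + ‖x' - φ * y'‖ + ‖y - y'‖ := by
      intro x x' y y'
      have e : x - φ * y = (x - x') + (x' - φ * y') - φ * (y - y') := by ring
      rw [e]
      refine (norm_sub_le _ _).trans (add_le_add (norm_add_le _ _) ?_)
      rw [norm_mul]
      exact mul_le_of_le_one_left (norm_nonneg _) p1
    refine le_trans (Finset.sum_le_sum fun L _ => key _
      (cu (fun y => (Gm (ε / 2) (sta (v.take k)) L y : ℂ)) ξ (nd α ℓ v) (ln ℓ v)) _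
      (cu (fun y => (Gm (ε / 2) (sta (v.take k)) L y : ℂ)) ξ' (nd α ℓ (v.take k))
        (ln ℓ (v.take k)))) ?_
    rw [Finset.sum_add_distrib, Finset.sum_add_distrib]
    linarith

end Crest.Agent.R100.Cand
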