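import Crest.Agent.R100.LowDefs

set_option autoImplicit false

open MeasureTheory Set

noncomputable section

namespace Crest.Agent.R100.Low

open Crest.Agent.R100

/-- the model function built from the tops `(β, ω)` since the last reset -/
def mdl (L : List (ℝ × ℂ)) (y : ℝ) : ℂ := (L.map fun p => p.2 * ex (-p.1) y).sum

/-- the potential at the interval `[a, a+lam)` -/
def Psi (f : ℝ → ℂ) (d : ℝ) (L : List (ℝ × ℂ)) (a lam : ℝ) : ℝ :=
  (∫ y in a..a + lam, ‖f y - (d / 2 : ℝ) * mdl L y‖ ^ 2) / lam + d ^ 2 / 4 * L.length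

/-- admissible states: unit phases, frequencies in `B`, at most `K/4` of them -/
def St (K : ℝ) (B : Finset ℝ) (L : List (ℝ × ℂ)) : Prop :=
  (∀ p ∈ L, ‖p.2‖ = 1 ∧ p.1 ∈ B) ∧ (L.length : ℝ) ≤ K / 4

theorem LowPsi_ex_cont (ξ : ℝ) : Continuous (ex ξ) := by
  unfold ex
  fun_prop

theorem LowPsi_mdl_cont (L : List (ℝ × ℂ)) : Continuous (mdl L) := by
  induction L with
  | nil =>
    have h : mdl [] = fun _ => (0 : ℂ) := by funext y; simp [mdl]
    rw [h]; exact continuous_const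
  | cons p L ih =>
    have h : mdl (p :: L) = fun y => p.2 * ex (-p.1) y + mdl L y := by funext y; simp [mdl]
    rw [h]; exact (continuous_const.mul (LowPsi_ex_cont _)).add ih

theorem LowPsi_norm_ii {f : ℝ → ℂ} (hf : Measurable f) {M : ℝ} (hM : ∀ y, ‖f y‖ ≤ M) (a b : ℝ) :
    IntervalIntegrable (fun y => ‖f y‖) volume a b := by
  refine (intervalIntegrable_const (c := M)).mono_fun' hf.norm.aestronglyMeasurable ?_
  exact Filter.Eventually.of_forall fun y => by simpa using hM y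

theorem LowPsi_sq_ii {f : ℝ → ℂ} (hf : Measurable f) {M : ℝ} (hM : ∀ y, ‖f y‖ ≤ M)
    {g : ℝ → ℂ} (hg : Continuous g) (a b : ℝ) :
    IntervalIntegrable (fun y => ‖f y - g y‖ ^ 2) volume a b := by
  have hc : Continuous fun y => (M + ‖g y‖) ^ 2 := by fun_prop
  refine (hc.intervalIntegrable a b).mono_fun'
    (((hf.sub hg.measurable).norm.pow_const 2).aestronglyMeasurable) ?_
  refine Filter.Eventually.of_forall fun y => ?_
  have h1 : ‖f y - g y‖ ≤ M + ‖g y‖ := (norm_sub_le _ _).trans (by linarith [hM y])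
  have h0 : 0 ≤ ‖f y - g y‖ := norm_nonneg _
  show ‖‖f y - g y‖ ^ 2‖ ≤ (M + ‖g y‖) ^ 2
  rw [Real.norm_of_nonneg (by positivity)]
  exact pow_le_pow_left₀ h0 h1 2

theorem Psi_nonneg (f : ℝ → ℂ) (d : ℝ) (L : List (ℝ × ℂ)) (a : ℝ) {lam : ℝ} (hlam : 0 < lam) :
    0 ≤ Psi f d L a lam := by
  unfold Psi
  have h : 0 ≤ ∫ y in a..a + lam, ‖f y - (d / 2 : ℝ) * mdl L y‖ ^ 2 :=
    intervalIntegral.integral_nonneg (by linarith) fun y _ => by positivity
  positivity

theorem Psi_mart {f : ℝ → ℂ} (hf : Measurable f) {M : ℝ} (hM : ∀ y, ‖f y‖ ≤ M) (d : ℝ)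
    (L : List (ℝ × ℂ)) (a : ℝ) {lam : ℝ} (hlam : 0 < lam) :
    Psi f d L a lam = (Psi f d L a (lam / 2) + Psi f d L (a + lam / 2) (lam / 2)) / 2 := by
  unfold Psi
  have hg : Continuous fun y => ((d / 2 : ℝ) : ℂ) * mdl L y :=
    continuous_const.mul (LowPsi_mdl_cont L)
  have h := intervalIntegral.integral_add_adjacent_intervals
    (LowPsi_sq_ii hf hM hg a (a + lam / 2)) (LowPsi_sq_ii hf hM hg (a + lam / 2) (a + lam))
  have e : a + lam / 2 + lam / 2 = a + lam := by ring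
  rw [e, ← h]
  field_simp
  ring

theorem Psi_nil {f : ℝ → ℂ} (hf : Measurable f) {M : ℝ} (hM : ∀ y, ‖f y‖ ≤ M) (d a : ℝ)
    {lam : ℝ} (hlam : 0 < lam) (h1 : ca f a lam ≤ 1) : Psi f d [] a lam ≤ M := by
  unfold Psi
  unfold ca at h1
  have hM0 : 0 ≤ M := (norm_nonneg _).trans (hM 0)
  have hle : a ≤ a + lam := by linarith
  have hg : Continuous fun y => ((d / 2 : ℝ) : ℂ) * mdl [] y :=
    continuous_const.mul (LowPsi_mdl_cont [])
  have h2 : (∫ y in a..a + lam, ‖f y - (d / 2 : ℝ) * mdl [] y‖ ^ 2)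
      ≤ ∫ y in a..a + lam, M * ‖f y‖ := by
    refine intervalIntegral.integral_mono_on hle (LowPsi_sq_ii hf hM hg _ _)
      ((LowPsi_norm_ii hf hM _ _).const_mul M) fun y _ => ?_
    have h0 : mdl [] y = 0 := by simp [mdl]
    rw [h0, mul_zero, sub_zero, sq]
    exact mul_le_mul_of_nonneg_right (hM y) (norm_nonneg _)
  rw [intervalIntegral.integral_const_mul] at h2
  rw [div_le_one hlam] at h1
  simp only [List.length_nil, Nat.cast_zero, mul_zero, add_zero]
  rw [div_le_iff₀ hlam]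
  exact h2.trans (mul_le_mul_of_nonneg_left h1 hM0)

theorem LowPsi_ex_mul (ξ β y : ℝ) : ex ξ y * ex (-β) y = ex (ξ - β) y := by
  unfold ex
  rw [← Complex.exp_add]
  congr 1
  push_cast
  ring

theorem LowPsi_ex_norm (ξ y : ℝ) : ‖ex ξ y‖ = 1 := by
  unfold ex
  have : -((ξ * y : ℝ) : ℂ) * Complex.I = ((-(ξ * y) : ℝ) : ℂ) * Complex.I := by push_cast; ring
  rw [this, Complex.norm_exp_ofReal_mul_I]

theorem LowPsi_ex_conj (ξ y : ℝ) : (starRingEnd ℂ) (ex (-ξ) y) = ex ξ y := by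
  unfold ex
  rw [← Complex.exp_conj]
  congr 1
  simp only [map_mul, map_neg, Complex.conj_ofReal, Complex.conj_I]
  push_cast
  ring

theorem LowPsi_int_ex {θ : ℝ} (hθ : θ ≠ 0) (a b : ℝ) : ‖∫ y in a..b, ex θ y‖ ≤ 2 / |θ| := by
  have hc : (-(θ : ℂ) * Complex.I) ≠ 0 :=
    mul_ne_zero (neg_ne_zero.2 (Complex.ofReal_ne_zero.2 hθ)) Complex.I_ne_zero
  have h1 : ∀ y : ℝ, ex θ y = Complex.exp ((-(θ : ℂ) * Complex.I) * y) := fun y => by
    unfold ex
    congr 1
    push_cast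
    ring
  have h2 : (∫ y in a..b, ex θ y) = (ex θ b - ex θ a) / (-(θ : ℂ) * Complex.I) := by
    simp only [h1]
    exact integral_exp_mul_complex hc
  rw [h2, norm_div]
  have h3 : ‖-(θ : ℂ) * Complex.I‖ = |θ| := by simp
  rw [h3]
  refine div_le_div_of_nonneg_right ?_ (abs_nonneg _)
  have := norm_sub_le (ex θ b) (ex θ a)
  rw [LowPsi_ex_norm, LowPsi_ex_norm] at this
  linarith

theorem LowPsi_int_mdl {K : ℝ} (hK : 0 < K) (a : ℝ) {lam : ℝ} (hlam : 0 < lam) (ξ : ℝ) :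
    ∀ L : List (ℝ × ℂ), (∀ p ∈ L, ‖p.2‖ = 1) → (∀ p ∈ L, K ≤ |ξ - p.1| * lam) →
      ‖∫ y in a..a + lam, ex ξ y * mdl L y‖ ≤ L.length * (2 * lam / K)
  | [], _, _ => by simp [mdl]
  | p :: L, hL, hsep => by
    have ih := LowPsi_int_mdl hK a hlam ξ L (fun q hq => hL q (List.mem_cons_of_mem _ hq))
      (fun q hq => hsep q (List.mem_cons_of_mem _ hq))
    have hp := hL p List.mem_cons_self
    have hs := hsep p List.mem_cons_self
    have hpos : 0 < |ξ - p.1| := by
      by_contra h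
      have h0 : |ξ - p.1| = 0 := le_antisymm (not_lt.1 h) (abs_nonneg _)
      rw [h0, zero_mul] at hs
      linarith
    have h : ∀ y, ex ξ y * mdl (p :: L) y = p.2 * ex (ξ - p.1) y + ex ξ y * mdl L y := fun y => by
      rw [← LowPsi_ex_mul]
      simp only [mdl, List.map_cons, List.sum_cons]
      ring
    simp only [h]
    have i1 : IntervalIntegrable (fun y => p.2 * ex (ξ - p.1) y) volume a (a + lam) :=
      (continuous_const.mul (LowPsi_ex_cont _)).intervalIntegrable _ _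
    have i2 : IntervalIntegrable (fun y => ex ξ y * mdl L y) volume a (a + lam) :=
      ((LowPsi_ex_cont _).mul (LowPsi_mdl_cont L)).intervalIntegrable _ _
    rw [intervalIntegral.integral_add i1 i2, intervalIntegral.integral_const_mul]
    have h1 := LowPsi_int_ex (abs_pos.1 hpos) a (a + lam)
    have h2 : 2 / |ξ - p.1| ≤ 2 * lam / K := by
      rw [div_le_div_iff₀ hpos hK]
      nlinarith
    refine (norm_add_le _ _).trans ?_
    rw [norm_mul, hp, one_mul, List.length_cons]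
    push_cast
    linarith

theorem LowPsi_sq_expand (g h : ℂ) (hh : ‖h‖ = 1) (d : ℝ) :
    ‖g - ((d / 2 : ℝ) : ℂ) * h‖ ^ 2 =
      ‖g‖ ^ 2 - d * ((starRingEnd ℂ) h * g).re + d ^ 2 / 4 := by
  have h1 : h.re ^ 2 + h.im ^ 2 = 1 := by
    have := Complex.sq_norm h
    rw [hh, Complex.normSq_apply] at this
    nlinarith
  rw [Complex.sq_norm, Complex.sq_norm, Complex.normSq_apply, Complex.normSq_apply]
  simp only [Complex.sub_re, Complex.sub_im, Complex.mul_re, Complex.mul_im, Complex.ofReal_re,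
    Complex.ofReal_im, Complex.conj_re, Complex.conj_im]
  linear_combination (d ^ 2 / 4) * h1

/-- adding one separated top lowers the potential by `d²/4` -/
theorem Psi_add {f : ℝ → ℂ} (hf : Measurable f) {M : ℝ} (hM : ∀ y, ‖f y‖ ≤ M) {d K : ℝ}
    (hd : 0 < d) (hK : 0 < K) (L : List (ℝ × ℂ)) (hL : ∀ p ∈ L, ‖p.2‖ = 1)
    (hlen : (L.length : ℝ) ≤ K / 4) (a : ℝ) {lam : ℝ} (hlam : 0 < lam) (ξ : ℝ)
    (hξ : d ≤ ‖cu f ξ a lam‖) (hsep : ∀ p ∈ L, K ≤ |ξ - p.1| * lam) :
    ∃ ω : ℂ, ‖ω‖ = 1 ∧ Psi f d ((ξ, ω) :: L) a lam + d ^ 2 / 4 ≤ Psi f d L a lam := by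
  set c := cu f ξ a lam with hc
  have hc0 : 0 < ‖c‖ := hd.trans_le hξ
  have hcn : (‖c‖ : ℂ) ≠ 0 := Complex.ofReal_ne_zero.2 hc0.ne'
  set ω : ℂ := c / ‖c‖ with hω
  have hω1 : ‖ω‖ = 1 := by
    rw [hω, norm_div, Complex.norm_real, Real.norm_of_nonneg hc0.le, div_self hc0.ne']
  refine ⟨ω, hω1, ?_⟩
  have hmc := LowPsi_mdl_cont L
  have hg : Continuous fun y => ((d / 2 : ℝ) : ℂ) * mdl L y := continuous_const.mul hmc
  have hfe : IntervalIntegrable (fun y => f y * ex ξ y) volume a (a + lam) := by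
    refine (intervalIntegrable_const (c := M)).mono_fun'
      ((hf.mul (LowPsi_ex_cont ξ).measurable).aestronglyMeasurable) ?_
    refine Filter.Eventually.of_forall fun y => ?_
    show ‖f y * ex ξ y‖ ≤ M
    rw [norm_mul, LowPsi_ex_norm, mul_one]
    exact hM y
  have hem : IntervalIntegrable (fun y => ex ξ y * mdl L y) volume a (a + lam) :=
    ((LowPsi_ex_cont _).mul hmc).intervalIntegrable _ _
  set W : ℝ → ℂ := fun y => (starRingEnd ℂ) ω * (f y * ex ξ y) -
    ((d / 2 : ℝ) : ℂ) * ((starRingEnd ℂ) ω * (ex ξ y * mdl L y)) with hW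
  have hWi : IntervalIntegrable W volume a (a + lam) :=
    (hfe.const_mul _).sub ((hem.const_mul _).const_mul _)
  have hpt : ∀ y, ‖f y - ((d / 2 : ℝ) : ℂ) * mdl ((ξ, ω) :: L) y‖ ^ 2 =
      ‖f y - ((d / 2 : ℝ) : ℂ) * mdl L y‖ ^ 2 - d * (W y).re + d ^ 2 / 4 := fun y => by
    have hh : ‖ω * ex (-ξ) y‖ = 1 := by rw [norm_mul, hω1, LowPsi_ex_norm, mul_one]
    have e1 : f y - ((d / 2 : ℝ) : ℂ) * mdl ((ξ, ω) :: L) y =
        (f y - ((d / 2 : ℝ) : ℂ) * mdl L y) - ((d / 2 : ℝ) : ℂ) * (ω * ex (-ξ) y) := by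
      simp only [mdl, List.map_cons, List.sum_cons]
      ring
    rw [e1, LowPsi_sq_expand _ _ hh, map_mul, LowPsi_ex_conj]
    have e2 : (starRingEnd ℂ) ω * ex ξ y * (f y - ((d / 2 : ℝ) : ℂ) * mdl L y) = W y := by
      simp only [hW]
      ring
    rw [e2]
  have hWre : IntervalIntegrable (fun y => (W y).re) volume a (a + lam) :=
    ⟨hWi.1.re, hWi.2.re⟩
  have hint : (∫ y in a..a + lam, (W y).re) = (∫ y in a..a + lam, W y).re := by
    have := Complex.reCLM.intervalIntegral_comp_comm hWi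
    simpa using this
  have hI : (∫ y in a..a + lam, W y) = (starRingEnd ℂ) ω * (c * lam) -
      ((d / 2 : ℝ) : ℂ) * ((starRingEnd ℂ) ω * ∫ y in a..a + lam, ex ξ y * mdl L y) := by
    simp only [hW]
    rw [intervalIntegral.integral_sub (hfe.const_mul _) ((hem.const_mul _).const_mul _),
      intervalIntegral.integral_const_mul, intervalIntegral.integral_const_mul,
      intervalIntegral.integral_const_mul, hc, cu,
      div_mul_cancel₀ _ (Complex.ofReal_ne_zero.2 hlam.ne')]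
  have hA : (starRingEnd ℂ) ω * (c * lam) = ((‖c‖ * lam : ℝ) : ℂ) := by
    have h1 : (starRingEnd ℂ) c * c = (‖c‖ : ℂ) ^ 2 := by
      rw [mul_comm, Complex.mul_conj, Complex.normSq_eq_norm_sq]
      push_cast
      rfl
    rw [hω, map_div₀, Complex.conj_ofReal, ← mul_assoc, div_mul_eq_mul_div, h1]
    push_cast
    field_simp
  have hB : ((starRingEnd ℂ) ω * ∫ y in a..a + lam, ex ξ y * mdl L y).re ≤ lam / 2 := by
    refine (Complex.re_le_norm _).trans ?_
    rw [norm_mul, Complex.norm_conj, hω1, one_mul]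
    refine (LowPsi_int_mdl hK a hlam ξ L hL hsep).trans ?_
    have h1 : (L.length : ℝ) * (2 * lam / K) ≤ K / 4 * (2 * lam / K) :=
      mul_le_mul_of_nonneg_right hlen (by positivity)
    have h2 : K / 4 * (2 * lam / K) = lam / 2 := by field_simp; ring
    linarith
  have hre : d * lam - d / 2 * (lam / 2) ≤ ∫ y in a..a + lam, (W y).re := by
    rw [hint, hI, hA, Complex.sub_re, Complex.ofReal_re, Complex.re_ofReal_mul]
    have h1 : d * lam ≤ ‖c‖ * lam := mul_le_mul_of_nonneg_right hξ hlam.le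
    have h2 := mul_le_mul_of_nonneg_left hB (by positivity : 0 ≤ d / 2)
    linarith
  unfold Psi
  simp only [hpt]
  rw [intervalIntegral.integral_add ((LowPsi_sq_ii hf hM hg _ _).sub (hWre.const_mul d))
      intervalIntegrable_const,
    intervalIntegral.integral_sub (LowPsi_sq_ii hf hM hg _ _) (hWre.const_mul d),
    intervalIntegral.integral_const_mul, intervalIntegral.integral_const, List.length_cons]
  set S := ∫ y in a..a + lam, ‖f y - ((d / 2 : ℝ) : ℂ) * mdl L y‖ ^ 2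
  set Wr := ∫ y in a..a + lam, (W y).re
  have h3 : (S - d * Wr + (a + lam - a) • (d ^ 2 / 4)) / lam ≤ S / lam - d ^ 2 / 2 := by
    rw [smul_eq_mul, div_le_iff₀ hlam, sub_mul (S / lam), div_mul_cancel₀ _ hlam.ne']
    have := mul_le_mul_of_nonneg_left hre hd.le
    nlinarith
  push_cast
  linarith

end Crest.Agent.R100.Low
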