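import Crest.Agent.R100.LowFamA
import Crest.Agent.R100.LowPsi

/-! # Row 100, CAND (helper86): definitions -/

set_option autoImplicit false

open MeasureTheory Set

noncomputable section

namespace Crest.Agent.R100.Cand

open Crest.Agent.R100 Crest.Agent.R100.Low

variable {Λ : Type} [Fintype Λ]

/-- the state: a list of frequencies with one phase for every cell -/
abbrev St (Λ : Type) : Type := List (ℝ × (Λ → ℂ))

/-- the model density of the cell `L` -/
def Gm (η : ℝ) : St Λ → Λ → ℝ → ℝ
  | [], _, _ => (Fintype.card Λ : ℝ)⁻¹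
  | p :: s, L, y => Gm η s L y * (1 + η * (p.2 L * ex p.1 y).re)

/-- all phases have norm at most one -/
def OK (s : St Λ) : Prop := ∀ p ∈ s, ∀ L, ‖p.2 L‖ ≤ 1

open Classical in
/-- integer combinations with coefficients in `[-b, b]` -/
def comb (b : ℕ) : List ℝ → Finset ℝ
  | [] => {0}
  | a :: t => Finset.image₂ (fun (κ : ℤ) (y : ℝ) => (κ : ℝ) * a + y) (Finset.Icc (-(b : ℤ)) b)
      (comb b t)

/-- the frequencies of a state -/
def fr (s : St Λ) : List ℝ := s.map Prod.fst

/-- the mismatch of the coefficients of `g` and of the model at the frequency `ξ` -/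
def mis (g : Λ → ℝ → ℝ) (η : ℝ) (s : St Λ) (ξ a lam : ℝ) : ℝ :=
  ∑ L, ‖cu (fun y => (g L y : ℂ)) ξ a lam - cu (fun y => (Gm η s L y : ℂ)) ξ a lam‖

/-- the scale `lam` is resonant -/
def Res (d A : ℝ) (t : List ℝ) (lam : ℝ) : Prop :=
  ∃ δ ∈ comb 2 t, d < |δ| * lam ∧ |δ| * lam ≤ A

/-- the potential (unnormalised relative entropy, `g log g` replaced by `g R`) -/
def Phi (g : Λ → ℝ → ℝ) (R η : ℝ) (s : St Λ) (a lam : ℝ) : ℝ :=
  ∑ L, (∫ y in a..a + lam,
    (g L y * R - g L y * Real.log (Gm η s L y) - g L y + Gm η s L y)) / lam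

open Classical in
/-- the number of nodes of depth at most `n` on the path `l` with the property `P` -/
def cnt (P : List Bool → Prop) (n : ℕ) (l : List Bool) : ℝ :=
  ∑ k ∈ Finset.range (n + 1), if P (l.take k) then 1 else 0

end Crest.Agent.R100.Cand
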