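import Crest.Agent.R100.CandDefs

/-! # Row 100, CAND (helper86): expansion of the model -/

set_option autoImplicit false

open MeasureTheory Set

noncomputable section

namespace Crest.Agent.R100.Cand

open Crest.Agent.R100 Crest.Agent.R100.Low

variable {Λ : Type} [Fintype Λ]

private theorem h67_mem {b : ℕ} {a : ℝ} {t : List ℝ} {x : ℝ} :
    x ∈ comb b (a :: t) ↔ ∃ κ : ℤ, (-(b : ℤ) ≤ κ ∧ κ ≤ b) ∧ ∃ y ∈ comb b t, (κ : ℝ) * a + y = x := by
  classical
  simp only [comb, Finset.mem_image₂, Finset.mem_Icc]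

theorem comb_zero_mem (b : ℕ) (t : List ℝ) : (0 : ℝ) ∈ comb b t := by
  induction t with
  | nil => simp [comb]
  | cons a t ih => exact h67_mem.2 ⟨0, ⟨by omega, by omega⟩, 0, ih, by simp⟩

theorem comb_add {b b' : ℕ} {t : List ℝ} {x y : ℝ} (hx : x ∈ comb b t) (hy : y ∈ comb b' t) :
    x + y ∈ comb (b + b') t := by
  induction t generalizing x y with
  | nil =>
    simp only [comb, Finset.mem_singleton] at hx hy ⊢
    rw [hx, hy, add_zero]
  | cons a t ih =>
    obtain ⟨κ, hκ, u, hu, rfl⟩ := h67_mem.1 hx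
    obtain ⟨κ', hκ', u', hu', rfl⟩ := h67_mem.1 hy
    refine h67_mem.2 ⟨κ + κ', ⟨by push_cast; omega, by push_cast; omega⟩, u + u', ih hu hu', ?_⟩
    push_cast; ring

theorem comb_neg {b : ℕ} {t : List ℝ} {x : ℝ} (hx : x ∈ comb b t) : -x ∈ comb b t := by
  induction t generalizing x with
  | nil =>
    simp only [comb, Finset.mem_singleton] at hx ⊢
    rw [hx, neg_zero]
  | cons a t ih =>
    obtain ⟨κ, hκ, u, hu, rfl⟩ := h67_mem.1 hx
    refine h67_mem.2 ⟨-κ, ⟨by omega, by omega⟩, -u, ih hu, ?_⟩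
    push_cast; ring

theorem comb_card (b : ℕ) (t : List ℝ) : (comb b t).card ≤ (2 * b + 1) ^ t.length := by
  classical
  induction t with
  | nil => simp [comb]
  | cons a t ih =>
    have h1 : (Finset.Icc (-(b : ℤ)) b).card = 2 * b + 1 := by
      rw [Int.card_Icc]; omega
    calc (comb b (a :: t)).card ≤ (Finset.Icc (-(b : ℤ)) b).card * (comb b t).card := by
          rw [comb]
          convert Finset.card_image₂_le _ _ _
      _ ≤ (2 * b + 1) * (2 * b + 1) ^ t.length := by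
          rw [h1]; exact Nat.mul_le_mul_left _ ih
      _ = _ := by rw [List.length_cons, pow_succ']

private theorem h67_ex_add (x x' y : ℝ) : ex (x + x') y = ex x y * ex x' y := by
  unfold ex
  rw [← Complex.exp_add]
  congr 1
  push_cast
  ring

private theorem h67_ex_neg (x y : ℝ) : ex (-x) y = (starRingEnd ℂ) (ex x y) := by
  unfold ex
  rw [← Complex.exp_conj]
  congr 1
  simp only [map_mul, map_neg, Complex.conj_ofReal, Complex.conj_I]
  push_cast
  ring

theorem expand {η : ℝ} (h0 : 0 ≤ η) (h1 : η ≤ 1) {s : St Λ} (hs : OK s) :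
    ∃ (K : Type) (_ : Fintype K) (θ : K → ℝ) (γ : Λ → K → ℂ),
      Fintype.card K ≤ 3 ^ s.length ∧ (∀ k, θ k ∈ comb 1 (fr s)) ∧
        ∑ L, ∑ k, ‖γ L k‖ ≤ 2 ^ s.length ∧
          ∀ L y, (Gm η s L y : ℂ) = ∑ k, γ L k * ex (θ k) y := by
  induction s with
  | nil =>
    refine ⟨Unit, inferInstance, fun _ => 0, fun _ _ => ((Fintype.card Λ : ℝ)⁻¹ : ℝ), by simp,
      fun _ => comb_zero_mem _ _, ?_, fun L y => ?_⟩
    · simp only [Finset.univ_unique, Finset.sum_singleton, Finset.sum_const, Finset.card_univ,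
        nsmul_eq_mul, Complex.norm_real, Real.norm_eq_abs, List.length_nil, pow_zero]
      have hc0 : (0 : ℝ) ≤ (Fintype.card Λ : ℝ)⁻¹ := by positivity
      rw [abs_of_nonneg hc0]
      rcases eq_or_ne (Fintype.card Λ : ℝ) 0 with h | h
      · rw [h]; simp
      · simp [h]
    · simp [Gm, ex]
  | cons p s ih =>
    obtain ⟨K, iK, θ, γ, hc, hθ, hn, he⟩ := ih fun q hq => hs q (List.mem_cons_of_mem _ hq)
    have hp : ∀ L, ‖p.2 L‖ ≤ 1 := hs p List.mem_cons_self
    refine ⟨K ⊕ K ⊕ K, inferInstance,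
      Sum.elim θ (Sum.elim (fun k => p.1 + θ k) (fun k => -p.1 + θ k)),
      fun L => Sum.elim (γ L) (Sum.elim (fun k => γ L k * ((η / 2 : ℝ) * p.2 L))
        (fun k => γ L k * ((η / 2 : ℝ) * (starRingEnd ℂ) (p.2 L)))), ?_, ?_, ?_, fun L y => ?_⟩
    · simp only [Fintype.card_sum, List.length_cons, pow_succ]
      omega
    · have hfr : fr (p :: s) = p.1 :: fr s := rfl
      rw [hfr]
      rintro (k | k | k)
      · exact h67_mem.2 ⟨0, ⟨by omega, by omega⟩, θ k, hθ k, by simp⟩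
      · exact h67_mem.2 ⟨1, ⟨by omega, by omega⟩, θ k, hθ k, by simp⟩
      · exact h67_mem.2 ⟨-1, ⟨by omega, by omega⟩, θ k, hθ k, by simp⟩
    · have hb : ∀ (L : Λ) (k : K) (z : ℂ), ‖z‖ ≤ 1 →
          ‖γ L k * (((η / 2 : ℝ) : ℂ) * z)‖ ≤ ‖γ L k‖ * (1 / 2) := fun L k z hz => by
        rw [norm_mul, norm_mul, Complex.norm_real, Real.norm_eq_abs, abs_of_nonneg (by linarith)]
        refine mul_le_mul_of_nonneg_left ?_ (norm_nonneg _)
        nlinarith [norm_nonneg z]
      calc _ ≤ ∑ L, 2 * ∑ k, ‖γ L k‖ := by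
            refine Finset.sum_le_sum fun L _ => ?_
            simp only [Fintype.sum_sum_type, Sum.elim_inl, Sum.elim_inr]
            have a1 : ∑ k, ‖γ L k * (((η / 2 : ℝ) : ℂ) * p.2 L)‖ ≤ ∑ k, ‖γ L k‖ * (1 / 2) :=
              Finset.sum_le_sum fun k _ => hb L k _ (hp L)
            have a2 : ∑ k, ‖γ L k * (((η / 2 : ℝ) : ℂ) * (starRingEnd ℂ) (p.2 L))‖ ≤
                ∑ k, ‖γ L k‖ * (1 / 2) :=
              Finset.sum_le_sum fun k _ => hb L k _ (by rw [Complex.norm_conj]; exact hp L)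
            rw [← Finset.sum_mul] at a1 a2
            linarith
        _ = 2 * ∑ L, ∑ k, ‖γ L k‖ := by rw [Finset.mul_sum]
        _ ≤ 2 ^ (p :: s).length := by rw [List.length_cons, pow_succ]; linarith
    · simp only [Fintype.sum_sum_type, Sum.elim_inl, Sum.elim_inr, h67_ex_add, h67_ex_neg]
      have e1 : ((Gm η (p :: s) L y : ℝ) : ℂ) =
          (Gm η s L y : ℂ) * (1 + η * ((p.2 L * ex p.1 y +
            (starRingEnd ℂ) (p.2 L) * (starRingEnd ℂ) (ex p.1 y)) / 2)) := by
        rw [← map_mul, ← Complex.re_eq_add_conj]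
        simp only [Gm]
        push_cast
        rfl
      rw [e1, he L y, ← Finset.sum_add_distrib, ← Finset.sum_add_distrib, Finset.sum_mul]
      refine Finset.sum_congr rfl fun k _ => ?_
      push_cast
      ring

end Crest.Agent.R100.Cand
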