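import Crest.Agent.R100.Cand

/-! # Row 100, CAND (helper86): candidate tops, frozen centres -/

set_option autoImplicit false

open MeasureTheory Set

noncomputable section

namespace Crest.Agent.R100.Cand

open Crest.Agent.R100 Crest.Agent.R100.Low

variable {Λ : Type} [Fintype Λ]

theorem clus_sepF (G : Λ → ℝ → ℝ) (hG0 : ∀ L y, 0 ≤ G L y) (hGc : ∀ L, Continuous (G L))
    (T : Finset ℝ) (c : Λ → ℝ → ℂ) (e : Λ → ℝ) {a0 l0 a l A κ : ℝ} {M : ℕ} (hl : 0 < l)
    (h1 : a0 ≤ a) (h2 : a + l ≤ a0 + l0) (hA : 0 < A) (hM : T.card ≤ M) (hM1 : 1 ≤ M)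
    (hsep : ∀ x ∈ T, ∀ x' ∈ T, x ≠ x' → A / l ≤ |x - x'|)
    (he : ∀ L y, a0 ≤ y → y ≤ a0 + l0 → ‖(G L y : ℂ) - ∑ x ∈ T, c L x * ex x y‖ ≤ e L)
    (he1 : ∑ L, e L ≤ 1) (hκ : 16 * (1 + Real.log M) ≤ κ * A) (hκ1 : κ ≤ 1 / 2)
    (hm : ∑ L, ‖cu (fun y => (G L y : ℂ)) 0 a0 l0‖ ≤ 2) (ξ : ℝ) :
    ∃ (ξ' : ℝ) (φ : ℂ), ‖φ‖ ≤ 1 ∧ ‖φ‖ * (|ξ - ξ'| * l) ≤ 2 ∧
      ∑ L, ‖cu (fun y => (G L y : ℂ)) ξ a l - φ * cu (fun y => (G L y : ℂ)) ξ' a0 l0‖ ≤
        12 * κ + 2 * ∑ L, e L ∧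
      ∀ a' l', a0 ≤ a' → a' + l' ≤ a0 + l0 → l ≤ l' →
        ∑ L, ‖cu (fun y => (G L y : ℂ)) ξ' a' l' - cu (fun y => (G L y : ℂ)) ξ' a0 l0‖ ≤
          12 * κ + 2 * ∑ L, e L := by
  classical
  have hll : l ≤ l0 := by linarith
  have hl0 : 0 < l0 := by linarith
  have hσ : 0 < A / l := by positivity
  have hlog : 0 ≤ Real.log M := Real.log_natCast_nonneg _
  have hκ0 : 0 ≤ κ := by
    by_contra h
    nlinarith [mul_pos (neg_pos.2 (not_le.1 h)) hA]
  have hGc' : ∀ L, Continuous fun y => (G L y : ℂ) := fun L =>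
    Complex.continuous_ofReal.comp (hGc L)
  have he0 : ∀ L, 0 ≤ e L := fun L => (norm_nonneg _).trans (he L a0 le_rfl (by linarith))
  have far : ∀ (T' : Finset ℝ) (ζ a' l' : ℝ), T' ⊆ T → l ≤ l' →
      (∀ x ∈ T', A / l / 2 ≤ |x + ζ|) → ∑ x ∈ T', ‖cu (ex x) ζ a' l'‖ ≤ κ := by
    intro T' ζ a' l' hT' hl' hf
    have h := harm T' hσ (-ζ) ((Finset.card_le_card hT').trans hM) hM1
      (fun x hx x' hx' => hsep x (hT' hx) x' (hT' hx')) (fun x hx => by
        rw [sub_neg_eq_add]; exact hf x hx)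
    calc ∑ x ∈ T', ‖cu (ex x) ζ a' l'‖ ≤ ∑ x ∈ T', 2 / l * (1 / |x - -ζ|) := by
          refine Finset.sum_le_sum fun x hx => ?_
          rw [sub_neg_eq_add]
          have h3 := cu_ex_mul x ζ a' (hl.trans_le hl')
          have h4 : 0 < |x + ζ| := lt_of_lt_of_le (by positivity) (hf x hx)
          rw [div_mul_div_comm, mul_one, le_div_iff₀ (by positivity)]
          refine le_trans (mul_le_mul_of_nonneg_left ?_ (norm_nonneg _)) h3
          rw [mul_comm]
          exact mul_le_mul_of_nonneg_left hl' h4.le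
      _ = 2 / l * ∑ x ∈ T', 1 / |x - -ζ| := by rw [Finset.mul_sum]
      _ ≤ 2 / l * (8 / (A / l) * (1 + Real.log M)) :=
          mul_le_mul_of_nonneg_left h (by positivity)
      _ = 16 * (1 + Real.log M) / A := by field_simp; ring
      _ ≤ κ := by rw [div_le_iff₀ hA]; exact hκ
  have hμ : ∀ L, ∃ μ : ℝ, 0 ≤ μ ∧ (∀ x ∈ T, ‖c L x‖ ≤ μ) ∧ (μ = 0 ∨ ∃ x ∈ T, μ = ‖c L x‖) := by
    intro L
    rcases T.eq_empty_or_nonempty with hT | hT
    · exact ⟨0, le_rfl, by simp [hT], Or.inl rfl⟩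
    · obtain ⟨x, hx, hmax⟩ := T.exists_max_image (fun x => ‖c L x‖) hT
      exact ⟨‖c L x‖, norm_nonneg _, hmax, Or.inr ⟨x, hx, rfl⟩⟩
  choose μ hμ0 hμ1 hμ2 using hμ
  have farsum : ∀ L (T' : Finset ℝ) (ζ a' l' : ℝ), T' ⊆ T → l ≤ l' →
      (∀ x ∈ T', A / l / 2 ≤ |x + ζ|) → ‖∑ x ∈ T', c L x * cu (ex x) ζ a' l'‖ ≤ μ L * κ := by
    intro L T' ζ a' l' hT' hl' hf
    refine (norm_sum_le _ _).trans ?_
    refine le_trans ?_ (mul_le_mul_of_nonneg_left (far T' ζ a' l' hT' hl' hf) (hμ0 L))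
    rw [Finset.mul_sum]
    refine Finset.sum_le_sum fun x hx => ?_
    rw [norm_mul]
    exact mul_le_mul_of_nonneg_right (hμ1 L x (hT' hx)) (norm_nonneg _)
  have base : ∀ L, ∀ x ∈ T,
      ‖cu (fun y => (G L y : ℂ)) (-x) a0 l0 - c L x‖ ≤ e L + μ L * κ := by
    intro L x hx
    have h3 := cu_near (hGc' L) T (c L) (-x) a0 hl0 (he L)
    rw [← Finset.add_sum_erase T _ hx, cu_ex_self x a0 hl0, mul_one] at h3
    have h4 := farsum L (T.erase x) (-x) a0 l0 (Finset.erase_subset _ _) hll (fun x' hx' => by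
      have := hsep x' (Finset.mem_of_mem_erase hx') x hx (Finset.ne_of_mem_erase hx')
      rw [← sub_eq_add_neg]; linarith)
    calc _ = ‖(cu (fun y => (G L y : ℂ)) (-x) a0 l0 -
          (c L x + ∑ x' ∈ T.erase x, c L x' * cu (ex x') (-x) a0 l0)) +
          ∑ x' ∈ T.erase x, c L x' * cu (ex x') (-x) a0 l0‖ := by congr 1; ring
      _ ≤ _ := (norm_add_le _ _).trans (add_le_add h3 h4)
  have base' : ∀ L, ∀ x ∈ T, ∀ a' l', a0 ≤ a' → a' + l' ≤ a0 + l0 → l ≤ l' →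
      ‖cu (fun y => (G L y : ℂ)) (-x) a' l' - c L x‖ ≤ e L + μ L * κ := by
    intro L x hx a' l' b1 b2 b3
    have hl' : 0 < l' := by linarith
    have h3 := cu_near (hGc' L) T (c L) (-x) a' hl'
      (fun y y1 y2 => he L y (by linarith) (by linarith))
    rw [← Finset.add_sum_erase T _ hx, cu_ex_self x a' hl', mul_one] at h3
    have h4 := farsum L (T.erase x) (-x) a' l' (Finset.erase_subset _ _) b3 (fun x' hx' => by
      have := hsep x' (Finset.mem_of_mem_erase hx') x hx (Finset.ne_of_mem_erase hx')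
      rw [← sub_eq_add_neg]; linarith)
    calc _ = ‖(cu (fun y => (G L y : ℂ)) (-x) a' l' -
          (c L x + ∑ x' ∈ T.erase x, c L x' * cu (ex x') (-x) a' l')) +
          ∑ x' ∈ T.erase x, c L x' * cu (ex x') (-x) a' l'‖ := by congr 1; ring
      _ ≤ _ := (norm_add_le _ _).trans (add_le_add h3 h4)
  have hμb : ∀ L, μ L ≤ 2 * (‖cu (fun y => (G L y : ℂ)) 0 a0 l0‖ + e L) := by
    intro L
    rcases hμ2 L with h | ⟨x, hx, h⟩
    · rw [h]; have := he0 L; positivity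
    · have h3 := base L x hx
      have h4 := cu_le_zero (hG0 L) (-x) a0 hl0
      have h5 := norm_sub_norm_le (c L x) (cu (fun y => (G L y : ℂ)) (-x) a0 l0)
      rw [norm_sub_rev] at h3
      have h6 := mul_le_mul_of_nonneg_left hκ1 (hμ0 L)
      linarith
  have hμs : ∑ L, μ L ≤ 6 := by
    refine (Finset.sum_le_sum fun L _ => hμb L).trans ?_
    rw [← Finset.mul_sum, Finset.sum_add_distrib]
    linarith
  have fin : ∑ L, 2 * (μ L * κ + e L) ≤ 12 * κ + 2 * ∑ L, e L := by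
    rw [← Finset.mul_sum, Finset.sum_add_distrib, ← Finset.sum_mul]
    nlinarith
  have heI : ∀ L y, a ≤ y → y ≤ a + l → ‖(G L y : ℂ) - ∑ x ∈ T, c L x * ex x y‖ ≤ e L :=
    fun L y hy1 hy2 => he L y (by linarith) (by linarith)
  by_cases hex : ∃ x ∈ T, |x + ξ| < A / l / 2
  · obtain ⟨x, hx, hxξ⟩ := hex
    refine ⟨-x, cu (ex x) ξ a l, cu_ex_le x ξ a hl, ?_,
      (Finset.sum_le_sum fun L _ => ?_).trans fin,
      fun a' l' b1 b2 b3 => (Finset.sum_le_sum fun L _ => ?_).trans fin⟩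
    · rw [sub_neg_eq_add, add_comm]
      exact cu_ex_mul x ξ a hl
    · have h3 := cu_near (hGc' L) T (c L) ξ a hl (heI L)
      rw [← Finset.add_sum_erase T _ hx] at h3
      have h4 := farsum L (T.erase x) ξ a l (Finset.erase_subset _ _) le_rfl (fun x' hx' => by
        have h5 := hsep x' (Finset.mem_of_mem_erase hx') x hx (Finset.ne_of_mem_erase hx')
        have h6 : |x' - x| ≤ |x' + ξ| + |x + ξ| := by
          calc |x' - x| = |(x' + ξ) - (x + ξ)| := by congr 1; ring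
            _ ≤ _ := abs_sub _ _
        linarith)
      have h5 := base L x hx
      have h6 : ‖cu (ex x) ξ a l * (cu (fun y => (G L y : ℂ)) (-x) a0 l0 - c L x)‖ ≤
          e L + μ L * κ := by
        rw [norm_mul]
        exact (mul_le_of_le_one_left (norm_nonneg _) (cu_ex_le x ξ a hl)).trans h5
      calc _ = ‖((cu (fun y => (G L y : ℂ)) ξ a l -
            (c L x * cu (ex x) ξ a l + ∑ x' ∈ T.erase x, c L x' * cu (ex x') ξ a l)) +
            ∑ x' ∈ T.erase x, c L x' * cu (ex x') ξ a l) -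
            cu (ex x) ξ a l * (cu (fun y => (G L y : ℂ)) (-x) a0 l0 - c L x)‖ := by
            congr 1; ring
        _ ≤ _ := (norm_sub_le _ _).trans (add_le_add (norm_add_le _ _) le_rfl)
        _ ≤ _ := by linarith
    · have h3 := base' L x hx a' l' b1 b2 b3
      have h4 := base L x hx
      have h5 := norm_sub_le (cu (fun y => (G L y : ℂ)) (-x) a' l' - c L x)
        (cu (fun y => (G L y : ℂ)) (-x) a0 l0 - c L x)
      rw [sub_sub_sub_cancel_right] at h5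
      linarith
  · push Not at hex
    have sm : ∀ L a' l', a0 ≤ a' → a' + l' ≤ a0 + l0 → l ≤ l' →
        ‖cu (fun y => (G L y : ℂ)) ξ a' l'‖ ≤ e L + μ L * κ := by
      intro L a' l' b1 b2 b3
      have hl' : 0 < l' := by linarith
      have h3 := cu_near (hGc' L) T (c L) ξ a' hl'
        (fun y y1 y2 => he L y (by linarith) (by linarith))
      have h4 := farsum L T ξ a' l' subset_rfl b3 hex
      calc _ = ‖(cu (fun y => (G L y : ℂ)) ξ a' l' - ∑ x' ∈ T, c L x' * cu (ex x') ξ a' l') +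
              ∑ x' ∈ T, c L x' * cu (ex x') ξ a' l'‖ := by congr 1; ring
        _ ≤ _ := norm_add_le _ _
        _ ≤ _ := by linarith
    refine ⟨ξ, 0, by simp, by simp, (Finset.sum_le_sum fun L _ => ?_).trans fin,
      fun a' l' b1 b2 b3 => (Finset.sum_le_sum fun L _ => ?_).trans fin⟩
    swap
    · have h3 := sm L a' l' b1 b2 b3
      have h4 := sm L a0 l0 le_rfl le_rfl hll
      have h5 := norm_sub_le (cu (fun y => (G L y : ℂ)) ξ a' l')
        (cu (fun y => (G L y : ℂ)) ξ a0 l0)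
      linarith
    have h3 := cu_near (hGc' L) T (c L) ξ a hl (heI L)
    have h4 := farsum L T ξ a l subset_rfl le_rfl hex
    have h5 := he0 L
    have h6 := mul_nonneg (hμ0 L) hκ0
    rw [zero_mul, sub_zero]
    calc _ = ‖(cu (fun y => (G L y : ℂ)) ξ a l - ∑ x' ∈ T, c L x' * cu (ex x') ξ a l) +
            ∑ x' ∈ T, c L x' * cu (ex x') ξ a l‖ := by congr 1; ring
      _ ≤ _ := norm_add_le _ _
      _ ≤ _ := by linarith

/-- the static step -/
theorem statF [Nonempty Λ] {ε : ℝ} (h0 : 0 < ε) (h1 : ε ≤ 1) {s : St Λ} (hs : OK s) {m : ℕ}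
    (hm : s.length ≤ m) {a0 l0 a l : ℝ} (hl : 0 < l) (ha : a0 ≤ a) (hb : a + l ≤ a0 + l0)
    (hgap : ∀ δ ∈ comb 2 (fr s), |δ| * l0 ≤ ε / (4 * 2 ^ m) ∨ 384 * (1 + 2 * m) / ε < |δ| * l)
    (hz : ∑ L, ‖cu (fun y => (Gm (ε / 2) s L y : ℂ)) 0 a0 l0‖ ≤ 2) (ξ : ℝ) :
    ∃ (ξ' : ℝ) (φ : ℂ), ‖φ‖ ≤ 1 ∧ ‖φ‖ * (|ξ - ξ'| * l) ≤ 2 ∧
      ∑ L, ‖cu (fun y => (Gm (ε / 2) s L y : ℂ)) ξ a l -
        φ * cu (fun y => (Gm (ε / 2) s L y : ℂ)) ξ' a0 l0‖ ≤ ε ∧
      ∀ a' l', a0 ≤ a' → a' + l' ≤ a0 + l0 → l ≤ l' →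
        ∑ L, ‖cu (fun y => (Gm (ε / 2) s L y : ℂ)) ξ' a' l' -
          cu (fun y => (Gm (ε / 2) s L y : ℂ)) ξ' a0 l0‖ ≤ ε := by
  obtain ⟨K, _, θ, γ, hK, hθ, hγ, hG⟩ := expand (η := ε / 2) (by linarith) (by linarith) hs
  have hm0 : (0 : ℝ) ≤ m := Nat.cast_nonneg m
  have h2m : (1 : ℝ) ≤ 2 ^ m := one_le_pow₀ (by norm_num)
  have hd0 : 0 ≤ ε / (4 * 2 ^ m) := by positivity
  have hA1 : (384 : ℝ) ≤ 384 * (1 + 2 * m) / ε := by
    rw [le_div_iff₀ h0]; nlinarith
  have hd1 : ε / (4 * 2 ^ m) ≤ 1 := by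
    rw [div_le_one (by positivity)]; linarith
  obtain ⟨T, c, hT, hsep, he⟩ := clus_red θ γ (a0 := a0) (l0 := l0) (l := l)
    (d := ε / (4 * 2 ^ m)) (A := 384 * (1 + 2 * m) / ε) hl (by linarith) hd0 (by linarith)
    (fun k k' => hgap _ (by
      have := comb_add (hθ k) (comb_neg (hθ k'))
      rwa [← sub_eq_add_neg] at this))
  have hE : ∑ L, ε / (4 * 2 ^ m) * ∑ k, ‖γ L k‖ ≤ ε / 4 := by
    rw [← Finset.mul_sum]
    have h3 : (2 : ℝ) ^ s.length ≤ 2 ^ m := pow_le_pow_right₀ (by norm_num) hm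
    calc ε / (4 * 2 ^ m) * ∑ L, ∑ k, ‖γ L k‖ ≤ ε / (4 * 2 ^ m) * 2 ^ m :=
          mul_le_mul_of_nonneg_left (hγ.trans h3) hd0
      _ = ε / 4 := by field_simp
  have hlog : Real.log ((3 ^ m : ℕ) : ℝ) ≤ 2 * m := by
    rw [Nat.cast_pow, Real.log_pow]
    have := Real.log_le_sub_one_of_pos (show (0 : ℝ) < ((3 : ℕ) : ℝ) by norm_num)
    have h3 : Real.log ((3 : ℕ) : ℝ) ≤ 2 := by push_cast at this ⊢; linarith
    nlinarith
  obtain ⟨ξ', φ, p1, p2, p3, p4⟩ := clus_sepF (fun L y => Gm (ε / 2) s L y)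
    (fun L y => (Gm_pos (by linarith) (by linarith) hs L y).le) (fun L => Gm_cont _ s L) T c
    (fun L => ε / (4 * 2 ^ m) * ∑ k, ‖γ L k‖) (A := 384 * (1 + 2 * m) / ε) (κ := ε / 24)
    (M := 3 ^ m) hl ha hb (by linarith)
    (hT.trans (hK.trans (Nat.pow_le_pow_right (by norm_num) hm))) (Nat.one_le_pow _ _ (by norm_num))
    hsep (fun L y y1 y2 => by rw [hG]; exact he L y y1 y2) (by linarith)
    (by
      have : ε / 24 * (384 * (1 + 2 * m) / ε) = 16 * (1 + 2 * m) := by field_simp; ring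
      rw [this]; linarith)
    (by linarith) hz ξ
  exact ⟨ξ', φ, p1, p2, by linarith, fun a' l' b1 b2 b3 => by linarith [p4 a' l' b1 b2 b3]⟩

/-- **CAND**, with frozen centres -/
theorem cand_fr : ∃ C : ℝ, 0 < C ∧ ∀ (Λ : Type) [Fintype Λ] [Nonempty Λ] (g : Λ → ℝ → ℝ)
    (R ε α ℓ : ℝ) (A : List Bool → Prop) (n : ℕ), 1 ≤ R → 0 < ε → ε ≤ 1 → 0 < ℓ →
    (∀ L, Measurable (g L)) → (∀ L y, 0 ≤ g L y ∧ g L y ≤ Real.exp R) →
    (∀ v k, A v → A (v.take k)) →
    (∀ v, A v → ∑ L, ‖U (fun y => (g L y : ℂ)) α ℓ 0 v‖ ≤ 1) →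
    ∃ Cd : List Bool → Prop, Cd [] ∧
      avg n (cnt Cd n) ≤ C * ((R + Real.log (Fintype.card Λ) + 1) / ε ^ 2) ^ 4 ∧
      ∀ v, A v → ∀ ξ : ℝ, ∃ k, k ≤ v.length ∧ Cd (v.take k) ∧
        (∀ j, k < j → j ≤ v.length → ¬Cd (v.take j)) ∧
        ∃ (ξ' : ℝ) (φ : ℂ), ‖φ‖ ≤ 1 ∧ ‖φ‖ * (|ξ - ξ'| * ln ℓ v) ≤ 2 ∧
          ∑ L, ‖U (fun y => (g L y : ℂ)) α ℓ ξ v -
            φ * U (fun y => (g L y : ℂ)) α ℓ ξ' (v.take k)‖ ≤ 3 * ε ∧
          ∀ j, k ≤ j → j ≤ v.length →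
            ∑ L, ‖U (fun y => (g L y : ℂ)) α ℓ ξ' (v.take j) -
              U (fun y => (g L y : ℂ)) α ℓ ξ' (v.take k)‖ ≤ 3 * ε := by
  classical
  refine ⟨11000000, by norm_num, ?_⟩
  intro Λ _ _ g R ε α ℓ A n hR h0 h1 hℓ hg hM hA hp
  have hlog : 0 ≤ Real.log (Fintype.card Λ) := Real.log_natCast_nonneg _
  set X : ℝ := (R + Real.log (Fintype.card Λ) + 1) / ε ^ 2 with hX
  have hε2 : ε ^ 2 ≤ 1 := pow_le_one₀ h0.le h1
  have hε2' : 0 < ε ^ 2 := by positivity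
  have hX2 : 2 ≤ X := by rw [hX, le_div_iff₀ hε2']; linarith
  have hXε : 1 ≤ X * ε ^ 2 := by rw [hX, div_mul_cancel₀ _ hε2'.ne']; linarith
  set m : ℕ := ⌈8 * X + 1⌉₊ with hmd
  have hm1 : 8 * X + 1 ≤ m := Nat.le_ceil _
  have hm2 : (m : ℝ) ≤ 9 * X := by
    have := Nat.ceil_lt_add_one (show 0 ≤ 8 * X + 1 by linarith)
    linarith
  have e8 : 8 * (R + Real.log (Fintype.card Λ) + 1) / ε ^ 2 = 8 * X := by
    rw [hX, mul_div_assoc]
  obtain ⟨sta, Up, s1, s2, s3, s4, s5⟩ := machine g R ε α ℓ A n m hR h0 h1 hℓ hg hM hA hp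
    (by rw [e8]; exact hm1)
  rw [e8] at s5
  set d : ℝ := ε / (4 * 2 ^ m) with hd
  set AA : ℝ := 384 * (1 + 2 * m) / ε with hAA
  have hd0 : 0 < d := by positivity
  have hm0 : (0 : ℝ) ≤ m := Nat.cast_nonneg m
  have h2m : (m : ℝ) + 1 ≤ 2 ^ m := by exact_mod_cast Nat.lt_two_pow_self
  have hq : AA ≤ d * 2 ^ (3 * m + 12) := by
    rw [hAA, div_le_iff₀ h0]
    have e : d * 2 ^ (3 * m + 12) * ε = 1024 * (2 ^ m * (2 ^ m * ε ^ 2)) := by
      rw [hd, pow_add, show 3 * m = m + m + m by ring, pow_add, pow_add]; field_simp; norm_num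
    have h3 : 1 ≤ 2 ^ m * ε ^ 2 := hXε.trans (mul_le_mul_of_nonneg_right (by linarith) hε2'.le)
    rw [e]
    nlinarith
  have hdA : 2 * d ≤ AA := by
    have h3 : d ≤ 1 := by rw [hd, div_le_one (by positivity)]; linarith
    have h4 : (384 : ℝ) ≤ AA := by rw [hAA, le_div_iff₀ h0]; nlinarith
    linarith
  set B : List Bool → Prop := fun v => Up v ∨ Res d AA (fr (sta v)) (ln ℓ v) with hB
  refine ⟨fun v => v.length = 0 ∨ B v ∨ B (v.take (v.length - 1)), Or.inl rfl, ?_, ?_⟩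
  · set Q : ℝ := (((3 * m + 12 + 1) * (50 * m ^ 2) : ℕ) : ℝ) with hQ
    have hQ0 : 0 ≤ Q := Nat.cast_nonneg _
    have hQ1 : Q ≤ 583200 * X ^ 3 := by
      have : Q ≤ 800 * (m : ℝ) ^ 3 := by
        rw [hQ]; push_cast
        have : (1 : ℝ) ≤ m := by linarith
        nlinarith [sq_nonneg (m : ℝ), mul_nonneg (sq_nonneg (m : ℝ)) (sub_nonneg.2 this)]
      have h3 : (m : ℝ) ^ 3 ≤ (9 * X) ^ 3 := pow_le_pow_left₀ hm0 hm2 3
      nlinarith
    have h3 : avg n (cnt (fun v => v.length = 0 ∨ B v ∨ B (v.take (v.length - 1))) n) ≤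
        avg n (fun l => (2 + 2 * Q) * cnt Up n l + (1 + 2 * Q)) := by
      refine avg_mono_len n fun l hl => ?_
      have a1 := cnt_cd B n l hl
      have a2 := cnt_or Up (fun v => Res d AA (fr (sta v)) (ln ℓ v)) n l
      have a3 := cnt_res sta Up hd0 hℓ hq s2 s3 n l hl
      rw [← hQ] at a3
      have a4 : cnt B n l = cnt (fun v => Up v ∨ Res d AA (fr (sta v)) (ln ℓ v)) n l := rfl
      nlinarith
    rw [avg_add', avg_mul_left, avg_const] at h3
    have h4 : (2 + 2 * Q) * avg n (cnt Up n) ≤ (2 + 2 * Q) * (8 * X) :=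
      mul_le_mul_of_nonneg_left s5 (by linarith)
    have h5 : X ≤ X ^ 3 := by nlinarith [mul_nonneg (sub_nonneg.2 hX2) (sub_nonneg.2 hX2)]
    have h6 : 2 * X ^ 3 ≤ X ^ 4 := by nlinarith
    have h7 : Q * X ≤ 583200 * X ^ 4 := by nlinarith
    nlinarith
  · intro v hv ξ
    set Cd : ℕ → Prop := fun j => (v.take j).length = 0 ∨ B (v.take j) ∨
      B ((v.take j).take ((v.take j).length - 1)) with hCd
    set k := Nat.findGreatest Cd v.length with hk
    have hk1 : k ≤ v.length := Nat.findGreatest_le _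
    have hk2 : Cd k := Nat.findGreatest_spec (Nat.zero_le _) (Or.inl (by simp))
    have hk3 : ∀ j, k < j → j ≤ v.length → ¬Cd j := fun j a b => Nat.findGreatest_is_greatest a b
    refine ⟨k, hk1, hk2, hk3, ?_⟩
    rcases hk1.eq_or_lt with he | hlt
    · refine ⟨ξ, 1, by simp, by simp, ?_, fun j a b => ?_⟩
      · rw [he, List.take_length]
        simp only [one_mul, sub_self, norm_zero, Finset.sum_const_zero]
        linarith
      · rw [show j = k by omega]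
        simp only [sub_self, norm_zero, Finset.sum_const_zero]
        linarith
    have nb : ∀ j, k ≤ j → j ≤ v.length → ¬B (v.take j) := by
      intro j a b hb
      rcases a.eq_or_lt with a | a
      · refine hk3 (k + 1) (Nat.lt_succ_self k) hlt (Or.inr (Or.inr ?_))
        have e1 : (v.take (k + 1)).length = k + 1 := by
          simp [List.length_take, min_eq_left (show k + 1 ≤ v.length from hlt)]
        rw [e1, List.take_take, Nat.add_sub_cancel, min_eq_left (Nat.le_succ k), a]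
        exact hb
      · exact hk3 j a b (Or.inr (Or.inl hb))
    have hst : ∀ j, k ≤ j → j ≤ v.length → sta (v.take j) = sta (v.take k) := by
      intro j a
      induction j, a using Nat.le_induction with
      | base => intro _; rfl
      | succ j a ih =>
        intro b
        rw [take_step v (show j < v.length from b), s3 _ _ (fun h => nb j a (by omega) (Or.inl h)),
          ih (by omega)]
    have hgap : ∀ δ ∈ comb 2 (fr (sta (v.take k))), ∀ j, k ≤ j → j ≤ v.length →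
        |δ| * (ℓ / 2 ^ k) ≤ d ∨ AA < |δ| * (ℓ / 2 ^ j) := by
      intro δ hδ j a
      have nr : ∀ j, k ≤ j → j ≤ v.length → d < |δ| * (ℓ / 2 ^ j) → AA < |δ| * (ℓ / 2 ^ j) := by
        intro j a b h
        by_contra h'
        refine nb j a b (Or.inr ⟨δ, by rw [hst j a b]; exact hδ, ?_, ?_⟩)
        · rwa [ln_take ℓ v b]
        · rw [ln_take ℓ v b]; exact not_lt.1 h'
      induction j, a using Nat.le_induction with
      | base =>
        intro b
        rcases le_or_gt (|δ| * (ℓ / 2 ^ k)) d with h | h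
        · exact Or.inl h
        · exact Or.inr (nr k le_rfl b h)
      | succ j a ih =>
        intro b
        rcases ih (by omega) with h | h
        · exact Or.inl h
        · refine Or.inr (nr (j + 1) (by omega) b ?_)
          have : |δ| * (ℓ / 2 ^ (j + 1)) = |δ| * (ℓ / 2 ^ j) / 2 := by rw [pow_succ]; field_simp
          linarith
    have hvv : sta v = sta (v.take k) := by
      have := hst v.length hk1 le_rfl
      rwa [List.take_length] at this
    have m0 := s4 (v.take k) (hA v k hv) (fun h => nb k le_rfl hk1 (Or.inl h))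
    have m1 := s4 v hv (fun h => nb v.length hk1 le_rfl (Or.inl (by rwa [List.take_length]))) ξ
    rw [hvv] at m1
    obtain ⟨ξ', φ, p1, p2, p3, p4⟩ := statF h0 h1 (s1 (v.take k)) (s2 (v.take k))
      (lowFamA_ln_pos hℓ v) (nd_take α hℓ v k).1 (nd_take α hℓ v k).2
      (fun δ hδ => by
        have := hgap δ hδ v.length hk1 le_rfl
        rw [ln_take ℓ v hk1]
        exact this)
      (by
        have a1 := m0 0
        have a2 := hp (v.take k) (hA v k hv)
        unfold mis at a1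
        unfold U at a2
        refine le_trans (Finset.sum_le_sum fun L _ => norm_le_insert
          (cu (fun y => (g L y : ℂ)) 0 (nd α ℓ (v.take k)) (ln ℓ (v.take k))) _) ?_
        rw [Finset.sum_add_distrib]
        linarith) ξ
    refine ⟨ξ', φ, p1, p2, ?_, fun j a b => ?_⟩
    swap
    · have a1 := m0 ξ'
      have a2 := s4 (v.take j) (hA v j hv) (fun h => nb j a b (Or.inl h)) ξ'
      rw [hst j a b] at a2
      have a3 := nd_take α hℓ (v.take j) k
      rw [List.take_take, min_eq_left a] at a3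
      have a4 := p4 _ _ a3.1 a3.2 (by
        rw [ln_take ℓ v b]
        unfold ln
        exact div_le_div_of_nonneg_left hℓ.le (by positivity) (pow_le_pow_right₀ (by norm_num) b))
      unfold mis at a1 a2
      unfold U
      have key : ∀ x x' y y' : ℂ, ‖x - y‖ ≤ ‖x - x'‖ + ‖x' - y'‖ + ‖y - y'‖ := by
        intro x x' y y'
        have e : x - y = (x - x') + (x' - y') - (y - y') := by ring
        rw [e]
        exact (norm_sub_le _ _).trans (add_le_add (norm_add_le _ _) le_rfl)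
      refine le_trans (Finset.sum_le_sum fun L _ => key _
        (cu (fun y => (Gm (ε / 2) (sta (v.take k)) L y : ℂ)) ξ' (nd α ℓ (v.take j))
          (ln ℓ (v.take j))) _
        (cu (fun y => (Gm (ε / 2) (sta (v.take k)) L y : ℂ)) ξ' (nd α ℓ (v.take k))
          (ln ℓ (v.take k)))) ?_
      rw [Finset.sum_add_distrib, Finset.sum_add_distrib]
      linarith
    have a1 := m0 ξ'
    unfold mis at a1 m1
    unfold U
    have key : ∀ x x' y y' : ℂ, ‖x - φ * y‖ ≤ ‖x - x'‖ + ‖x' - φ * y'‖ + ‖y - y'‖ := by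
      intro x x' y y'
      have e : x - φ * y = (x - x') + (x' - φ * y') - φ * (y - y') := by ring
      rw [e]
      refine (norm_sub_le _ _).trans (add_le_add (norm_add_le _ _) ?_)
      rw [norm_mul]
      exact mul_le_of_le_one_left (norm_nonneg _) p1
    refine le_trans (Finset.sum_le_sum fun L _ => key _
      (cu (fun y => (Gm (ε / 2) (sta (v.take k)) L y : ℂ)) ξ (nd α ℓ v) (ln ℓ v)) _
      (cu (fun y => (Gm (ε / 2) (sta (v.take k)) L y : ℂ)) ξ' (nd α ℓ (v.take k))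
        (ln ℓ (v.take k)))) ?_
    rw [Finset.sum_add_distrib, Finset.sum_add_distrib]
    linarith

end Crest.Agent.R100.Cand
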