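import Mathlib

set_option autoImplicit false

open Finset

namespace Crest.Agent.R100.H72

theorem sep_pos (δ : ℝ) (hδ : 0 < δ) (T : Finset ℝ) :
    (∀ x ∈ T, ∀ y ∈ T, x ≠ y → δ ≤ |x - y|) → (∀ x ∈ T, δ / 2 ≤ x) →
      (∑ x ∈ T, 1 / x ≤ 2 / δ * (harmonic T.card : ℝ)) ∧
        ∀ b : ℝ, (∀ x ∈ T, x + δ ≤ b) → δ / 2 ≤ b → δ / 2 + T.card * δ ≤ b := by
  induction T using Finset.induction_on_max with
  | empty => intro _ _; simp
  | insert a s ha ih =>
    intro hs hp
    have has : a ∉ s := fun h => lt_irrefl _ (ha a h)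
    obtain ⟨h1, h2⟩ := ih (fun x hx y hy => hs x (mem_insert_of_mem hx) y (mem_insert_of_mem hy))
      (fun x hx => hp x (mem_insert_of_mem hx))
    have ha2 : δ / 2 + s.card * δ ≤ a := by
      refine h2 a (fun x hx => ?_) (hp a (mem_insert_self _ _))
      have := hs a (mem_insert_self _ _) x (mem_insert_of_mem hx) (ha x hx).ne'
      rw [abs_of_pos (sub_pos.2 (ha x hx))] at this
      linarith
    refine ⟨?_, fun b hb _ => ?_⟩
    · rw [sum_insert has, card_insert_of_notMem has, harmonic_succ]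
      push_cast
      have hc : (0 : ℝ) ≤ s.card := Nat.cast_nonneg _
      have : 1 / a ≤ 2 / δ * ((s.card : ℝ) + 1)⁻¹ := by
        have hpos : 0 < δ / 2 * ((s.card : ℝ) + 1) := by positivity
        have : δ / 2 * ((s.card : ℝ) + 1) ≤ a := by nlinarith
        calc 1 / a ≤ 1 / (δ / 2 * ((s.card : ℝ) + 1)) := one_div_le_one_div_of_le hpos this
          _ = 2 / δ * ((s.card : ℝ) + 1)⁻¹ := by field_simp
      linarith
    · have := hb a (mem_insert_self _ _)
      rw [card_insert_of_notMem has]; push_cast; linarith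

theorem harm_pos {δ : ℝ} (hδ : 0 < δ) (T : Finset ℝ)
    (hs : ∀ x ∈ T, ∀ y ∈ T, x ≠ y → δ ≤ |x - y|) (hp : ∀ x ∈ T, δ / 2 ≤ x) :
    ∑ x ∈ T, 1 / x ≤ 2 / δ * (1 + Real.log T.card) :=
  (sep_pos δ hδ T hs hp).1.trans
    (mul_le_mul_of_nonneg_left (harmonic_le_one_add_log _) (by positivity))

/-- harmonic sum over a separated set -/
theorem harm {δ : ℝ} (hδ : 0 < δ) (S : Finset ℝ) (z : ℝ)
    (hs : ∀ x ∈ S, ∀ y ∈ S, x ≠ y → δ ≤ |x - y|) (hp : ∀ x ∈ S, δ / 2 ≤ |x - z|) :
    ∑ x ∈ S, 1 / |x - z| ≤ 4 / δ * (1 + Real.log S.card) := by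
  classical
  have key : ∀ (σ : ℝ), (σ = 1 ∨ σ = -1) → ∑ x ∈ S.filter (fun x => 0 ≤ σ * (x - z)), 1 / |x - z| ≤
      2 / δ * (1 + Real.log S.card) := by
    intro σ hσ
    set F := S.filter (fun x => 0 ≤ σ * (x - z)) with hF
    have hσ1 : |σ| = 1 := by rcases hσ with h | h <;> simp [h]
    have hinj : Set.InjOn (fun x => σ * (x - z)) F := by
      intro x _ y _ h
      have h0 : σ ≠ 0 := by rcases hσ with h | h <;> simp [h]
      have := mul_left_cancel₀ h0 h
      linarith
    have habs : ∀ x ∈ F, σ * (x - z) = |x - z| := by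
      intro x hx
      have h1 := (mem_filter.1 hx).2
      rw [← abs_of_nonneg h1, abs_mul, hσ1, one_mul]
    have h := harm_pos hδ (F.image fun x => σ * (x - z)) (by
      intro u hu v hv huv
      obtain ⟨x, hx, rfl⟩ := mem_image.1 hu
      obtain ⟨y, hy, rfl⟩ := mem_image.1 hv
      have hxy : x ≠ y := fun h => huv (by rw [h])
      have := hs x (mem_filter.1 hx).1 y (mem_filter.1 hy).1 hxy
      rw [← mul_sub, abs_mul, hσ1, one_mul]
      simpa using this) (by
      intro u hu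
      obtain ⟨x, hx, rfl⟩ := mem_image.1 hu
      rw [habs x hx]; exact hp x (mem_filter.1 hx).1)
    rw [sum_image hinj, card_image_of_injOn hinj] at h
    have h2 : Real.log F.card ≤ Real.log S.card := by
      rcases Nat.eq_zero_or_pos F.card with h0 | h0
      · rw [h0]; simp only [Nat.cast_zero, Real.log_zero]
        exact Real.log_natCast_nonneg _
      · exact Real.log_le_log (by exact_mod_cast h0)
          (by exact_mod_cast card_le_card (filter_subset _ _))
    calc ∑ x ∈ F, 1 / |x - z| = ∑ x ∈ F, 1 / (σ * (x - z)) :=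
          sum_congr rfl fun x hx => by rw [habs x hx]
      _ ≤ _ := h
      _ ≤ _ := by gcongr
  have h1 := key 1 (Or.inl rfl)
  have h2 := key (-1) (Or.inr rfl)
  have h3 : ∑ x ∈ S, 1 / |x - z| ≤ ∑ x ∈ S.filter (fun x => 0 ≤ 1 * (x - z)), 1 / |x - z| +
      ∑ x ∈ S.filter (fun x => 0 ≤ (-1) * (x - z)), 1 / |x - z| := by
    rw [sum_filter, sum_filter, ← sum_add_distrib]
    refine sum_le_sum fun x _ => ?_
    have : 0 ≤ 1 / |x - z| := by positivity
    split_ifs with a b b
    · linarith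
    · linarith
    · linarith
    · exfalso; push Not at a b; linarith
  calc _ ≤ _ := h3
    _ ≤ 2 / δ * (1 + Real.log S.card) + 2 / δ * (1 + Real.log S.card) := add_le_add h1 h2
    _ = _ := by ring

end Crest.Agent.R100.H72
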