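import Crest.Agent.R100.CandDefs
import Crest.Agent.R100.CandH72

/-! # Row 100, CAND (helper86): separated frequencies -/

set_option autoImplicit false

open MeasureTheory Set

noncomputable section

namespace Crest.Agent.R100.Cand

open Crest.Agent.R100 Crest.Agent.R100.Low

variable {Λ : Type} [Fintype Λ]

theorem harm (T : Finset ℝ) {σ : ℝ} (hσ : 0 < σ) (N : ℝ) {M : ℕ} (hM : T.card ≤ M) (hM1 : 1 ≤ M)
    (hsep : ∀ x ∈ T, ∀ x' ∈ T, x ≠ x' → σ ≤ |x - x'|) (hfar : ∀ x ∈ T, σ / 2 ≤ |x - N|) :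
    ∑ x ∈ T, 1 / |x - N| ≤ 8 / σ * (1 + Real.log M) := by
  have h := H72.harm hσ T N hsep hfar
  have h2 : Real.log T.card ≤ Real.log M := by
    rcases Nat.eq_zero_or_pos T.card with h0 | h0
    · rw [h0]; simp only [Nat.cast_zero, Real.log_zero]
      exact Real.log_natCast_nonneg _
    · exact Real.log_le_log (by exact_mod_cast h0) (by exact_mod_cast hM)
  have h3 : 0 ≤ Real.log M := Real.log_natCast_nonneg _
  have h4 : 0 ≤ Real.log T.card := Real.log_natCast_nonneg _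
  have h5 : 0 < 4 / σ := by positivity
  have h6 : 8 / σ = 2 * (4 / σ) := by ring
  rw [h6]
  nlinarith

private theorem h17_add (θ ξ y : ℝ) : ex θ y * ex ξ y = ex (θ + ξ) y := by
  have := LowPsi_ex_mul θ (-ξ) y
  simpa using this

private theorem h17_zero (y : ℝ) : ex 0 y = 1 := by simp [ex]

private theorem h17_norm (f : ℝ → ℂ) (ξ a : ℝ) {lam : ℝ} (hl : 0 < lam) :
    ‖cu f ξ a lam‖ = ‖∫ y in a..a + lam, f y * ex ξ y‖ / lam := by
  unfold cu
  rw [norm_div, Complex.norm_real, Real.norm_eq_abs, abs_of_pos hl]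

theorem cu_ex_le (θ ξ a : ℝ) {lam : ℝ} (hl : 0 < lam) : ‖cu (ex θ) ξ a lam‖ ≤ 1 := by
  rw [h17_norm _ _ _ hl, div_le_one hl]
  have := intervalIntegral.norm_integral_le_of_norm_le_const (a := a) (b := a + lam) (C := 1)
    (f := fun y => ex θ y * ex ξ y) (fun y _ => by rw [h17_add, LowPsi_ex_norm])
  simpa [abs_of_pos hl] using this

theorem cu_ex_mul (θ ξ a : ℝ) {lam : ℝ} (hl : 0 < lam) :
    ‖cu (ex θ) ξ a lam‖ * (|θ + ξ| * lam) ≤ 2 := by
  by_cases h : θ + ξ = 0
  · simp [h]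
  rw [h17_norm _ _ _ hl]
  simp only [h17_add]
  have h1 := LowPsi_int_ex h a (a + lam)
  have h2 : 0 < |θ + ξ| := abs_pos.2 h
  rw [le_div_iff₀ h2] at h1
  calc _ = ‖∫ y in a..a + lam, ex (θ + ξ) y‖ * |θ + ξ| := by field_simp
    _ ≤ 2 := h1

theorem cu_ex_self (θ a : ℝ) {lam : ℝ} (hl : 0 < lam) : cu (ex θ) (-θ) a lam = 1 := by
  unfold cu
  simp only [h17_add, add_neg_cancel, h17_zero]
  have : (lam : ℂ) ≠ 0 := by exact_mod_cast hl.ne'
  simp [this]

/-- a function close to a trigonometric polynomial -/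
theorem cu_near {f : ℝ → ℂ} (hf : Continuous f) (T : Finset ℝ) (c : ℝ → ℂ) (ξ a : ℝ) {lam e : ℝ}
    (hl : 0 < lam) (h : ∀ y, a ≤ y → y ≤ a + lam → ‖f y - ∑ x ∈ T, c x * ex x y‖ ≤ e) :
    ‖cu f ξ a lam - ∑ x ∈ T, c x * cu (ex x) ξ a lam‖ ≤ e := by
  have hx : ∀ x, Continuous fun y => c x * (ex x y * ex ξ y) := fun x =>
    continuous_const.mul ((LowPsi_ex_cont x).mul (LowPsi_ex_cont ξ))
  have hf' : Continuous fun y => f y * ex ξ y := hf.mul (LowPsi_ex_cont ξ)
  have e1 : cu f ξ a lam - ∑ x ∈ T, c x * cu (ex x) ξ a lam =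
      cu (fun y => f y - ∑ x ∈ T, c x * ex x y) ξ a lam := by
    unfold cu
    have e2 : (fun y => (f y - ∑ x ∈ T, c x * ex x y) * ex ξ y) =
        fun y => f y * ex ξ y - ∑ x ∈ T, c x * (ex x y * ex ξ y) := by
      funext y
      rw [sub_mul, Finset.sum_mul]
      simp only [mul_assoc]
    rw [e2, intervalIntegral.integral_sub (hf'.intervalIntegrable _ _)
      ((continuous_finsetSum _ fun x _ => hx x).intervalIntegrable _ _),
      intervalIntegral.integral_finsetSum (fun x _ => (hx x).intervalIntegrable _ _), sub_div,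
      Finset.sum_div]
    congr 1
    refine Finset.sum_congr rfl fun x _ => ?_
    rw [intervalIntegral.integral_const_mul, mul_div_assoc]
  rw [e1, h17_norm _ _ _ hl, div_le_iff₀ hl]
  have := intervalIntegral.norm_integral_le_of_norm_le_const (a := a) (b := a + lam) (C := e)
    (f := fun y => (f y - ∑ x ∈ T, c x * ex x y) * ex ξ y) (fun y hy => by
      rw [Set.uIoc_of_le (by linarith)] at hy
      rw [norm_mul, LowPsi_ex_norm, mul_one]
      exact h y hy.1.le hy.2)
  simpa [abs_of_pos hl] using this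

/-- the coefficients of a nonnegative function -/
theorem cu_le_zero {G : ℝ → ℝ} (h0 : ∀ y, 0 ≤ G y) (ξ a : ℝ) {lam : ℝ} (hl : 0 < lam) :
    ‖cu (fun y => (G y : ℂ)) ξ a lam‖ ≤ ‖cu (fun y => (G y : ℂ)) 0 a lam‖ := by
  rw [h17_norm _ _ _ hl, h17_norm _ _ _ hl]
  refine div_le_div_of_nonneg_right ?_ hl.le
  have h1 := intervalIntegral.norm_integral_le_integral_norm (μ := volume) (a := a) (b := a + lam)
    (f := fun y => (G y : ℂ) * ex ξ y) (by linarith)
  have h2 : (fun y => ‖(G y : ℂ) * ex ξ y‖) = G := by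
    funext y
    rw [norm_mul, LowPsi_ex_norm, mul_one, Complex.norm_real, Real.norm_eq_abs, abs_of_nonneg (h0 y)]
  rw [h2] at h1
  simp only [h17_zero, mul_one]
  rw [intervalIntegral.integral_ofReal, Complex.norm_real, Real.norm_eq_abs]
  exact h1.trans (le_abs_self _)

end Crest.Agent.R100.Cand
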