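import Crest.Agent.R100.CandPot

/-! # Row 100, CAND (helper86): the update machine -/

set_option autoImplicit false

open MeasureTheory Set

noncomputable section

namespace Crest.Agent.R100.Cand

open Crest.Agent.R100 Crest.Agent.R100.Low

variable {Λ : Type} [Fintype Λ]

open Classical in
theorem cnt_pot (Ψ : List Bool → ℝ) (P : List Bool → Prop) (c : ℝ) (h0 : ∀ v, 0 ≤ Ψ v)
    (h : ∀ v, (Ψ (v ++ [false]) + Ψ (v ++ [true])) / 2 + (if P v then c else 0) ≤ Ψ v) (n : ℕ) :
    c * avg n (cnt P n) ≤ Ψ [] := by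
  have key : ∀ n : ℕ, avg n (fun l => c * cnt P n l + (Ψ (l ++ [false]) + Ψ (l ++ [true])) / 2) ≤
      Ψ [] := by
    intro n
    induction n with
    | zero =>
      have := h []
      simp only [avg, cnt, zero_add, Finset.range_one, Finset.sum_singleton, List.take_nil]
      split_ifs at this ⊢ <;> linarith
    | succ n ih =>
      refine le_trans ?_ ih
      have h1 : avg (n + 1) (fun l => c * cnt P (n + 1) l +
          (Ψ (l ++ [false]) + Ψ (l ++ [true])) / 2) ≤
          avg (n + 1) (fun l => c * cnt P n l + Ψ l) := by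
        refine avg_mono_len _ fun l hl => ?_
        have := h l
        have e : cnt P (n + 1) l = cnt P n l + if P l then 1 else 0 := by
          unfold cnt
          rw [Finset.sum_range_succ, List.take_of_length_le hl.le]
        rw [e]
        split_ifs at this ⊢ <;> linarith
      refine h1.trans (le_of_eq ?_)
      rw [avg_snoc]
      refine avg_congr_len _ fun l hl => ?_
      have e : ∀ b : Bool, cnt P n (l ++ [b]) = cnt P n l := by
        intro b
        unfold cnt
        refine Finset.sum_congr rfl fun k hk => ?_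
        rw [List.take_append_of_le_length (by rw [hl]; exact Nat.lt_succ_iff.1 (Finset.mem_range.1 hk))]
      rw [e, e]; ring
  refine le_trans ?_ (key n)
  rw [← avg_mul_left]
  refine avg_mono_len _ fun l _ => ?_
  have := h0 (l ++ [false])
  have := h0 (l ++ [true])
  linarith

/-- the state along a reversed path -/
def h1_stR {S : Type} (s0 : S) (step : S → List Bool → S) : List Bool → S
  | [] => s0
  | _ :: r => step (h1_stR s0 step r) r.reverse

theorem machine [Nonempty Λ] (g : Λ → ℝ → ℝ) (R ε α ℓ : ℝ) (A : List Bool → Prop) (n m : ℕ)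
    (hR : 1 ≤ R) (h0 : 0 < ε) (h1 : ε ≤ 1) (hℓ : 0 < ℓ) (hg : ∀ L, Measurable (g L))
    (hM : ∀ L y, 0 ≤ g L y ∧ g L y ≤ Real.exp R) (hA : ∀ v k, A v → A (v.take k))
    (hp : ∀ v, A v → ∑ L, ‖U (fun y => (g L y : ℂ)) α ℓ 0 v‖ ≤ 1)
    (hm : 8 * (R + Real.log (Fintype.card Λ) + 1) / ε ^ 2 + 1 ≤ m) :
    ∃ (sta : List Bool → St Λ) (Up : List Bool → Prop), (∀ v, OK (sta v)) ∧
      (∀ v, (sta v).length ≤ m) ∧ (∀ v c, ¬Up v → sta (v ++ [c]) = sta v) ∧
        (∀ v, A v → ¬Up v → ∀ ξ, mis g (ε / 2) (sta v) ξ (nd α ℓ v) (ln ℓ v) ≤ ε) ∧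
          avg n (cnt Up n) ≤ 8 * (R + Real.log (Fintype.card Λ) + 1) / ε ^ 2 := by
  classical
  have hη0 : 0 ≤ ε / 2 := by linarith
  have hη1 : ε / 2 ≤ 1 / 2 := by linarith
  have hex : ∀ (s : St Λ) (v : List Bool), ∃ p : ℝ × (Λ → ℂ), OK s → A v →
      (∃ ξ, ε < mis g (ε / 2) s ξ (nd α ℓ v) (ln ℓ v)) → (∀ L, ‖p.2 L‖ ≤ 1) ∧
        Phi g R (ε / 2) (p :: s) (nd α ℓ v) (ln ℓ v) ≤
          Phi g R (ε / 2) s (nd α ℓ v) (ln ℓ v) - ε ^ 2 / 4 := by
    intro s v
    by_cases h : OK s ∧ A v ∧ ∃ ξ, ε < mis g (ε / 2) s ξ (nd α ℓ v) (ln ℓ v)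
    · obtain ⟨hs, hv, ξ, hξ⟩ := h
      obtain ⟨z, hz1, hz2⟩ := Phi_upd (R := R) hg hM h0 h1 hs (nd α ℓ v) (lowFamA_ln_pos hℓ v)
        (hp v hv) hξ
      exact ⟨(ξ, z), fun _ _ _ => ⟨hz1, hz2⟩⟩
    · exact ⟨(0, fun _ => 0), fun h1 h2 h3 => absurd ⟨h1, h2, h3⟩ h⟩
  choose nw hnw using hex
  set U' : St Λ → List Bool → Prop := fun s v =>
    A v ∧ ∃ ξ, ε < mis g (ε / 2) s ξ (nd α ℓ v) (ln ℓ v) with hU'
  set step : St Λ → List Bool → St Λ := fun s v =>
    if U' s v then (if s.length < m then nw s v :: s else []) else s with hstep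
  set sta : List Bool → St Λ := fun v => h1_stR [] step v.reverse with hsta
  have s0 : sta [] = [] := rfl
  have s1 : ∀ v c, sta (v ++ [c]) = step (sta v) v := by
    intro v c
    simp only [hsta, List.reverse_append, List.reverse_cons, List.reverse_nil, List.nil_append,
      List.singleton_append, h1_stR, List.reverse_reverse]
  have hOK0 : OK ([] : St Λ) := fun p hp => absurd hp (by simp)
  have hOK : ∀ v, OK (sta v) ∧ (sta v).length ≤ m := by
    intro v
    induction v using List.reverseRecOn with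
    | nil => rw [s0]; exact ⟨hOK0, Nat.zero_le _⟩
    | append_singleton v c ih =>
      rw [s1]
      simp only [hstep]
      split_ifs with h2 h3
      · refine ⟨fun p hp => ?_, by rw [List.length_cons]; omega⟩
        rcases List.mem_cons.1 hp with rfl | hp
        · exact (hnw _ _ ih.1 h2.1 h2.2).1
        · exact ih.1 p hp
      · exact ⟨hOK0, Nat.zero_le _⟩
      · exact ih
  have hε2 : 0 < ε ^ 2 := by positivity
  have hlog : 0 ≤ Real.log (Fintype.card Λ) :=
    Real.log_nonneg (by exact_mod_cast Fintype.card_pos)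
  refine ⟨sta, fun v => U' (sta v) v, fun v => (hOK v).1, fun v => (hOK v).2, ?_, ?_, ?_⟩
  · intro v c hv
    rw [s1]; simp only [hstep]; rw [if_neg hv]
  · intro v hv hU ξ
    by_contra hc
    exact hU ⟨hv, ξ, not_le.1 hc⟩
  · by_cases hA0 : A []
    · have hmart : ∀ (s : St Λ), OK s → ∀ v,
          (Phi g R (ε / 2) s (nd α ℓ (v ++ [false])) (ln ℓ (v ++ [false])) +
            Phi g R (ε / 2) s (nd α ℓ (v ++ [true])) (ln ℓ (v ++ [true]))) / 2 =
          Phi g R (ε / 2) s (nd α ℓ v) (ln ℓ v) := by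
        intro s hs v
        rw [Phi_mart hg hM hη0 hη1 hs (nd α ℓ v) (lowFamA_ln_pos hℓ v), nd_snoc, nd_snoc, ln_snoc,
          ln_snoc, lowFamA_ch_false, lowFamA_ch_true]
      have key := cnt_pot (fun v => Phi g R (ε / 2) (sta v) (nd α ℓ v) (ln ℓ v) +
          ε ^ 2 / 8 * (sta v).length) (fun v => U' (sta v) v) (ε ^ 2 / 8)
        (fun v => add_nonneg (Phi_nonneg hM hη0 hη1 (hOK v).1 _ (lowFamA_ln_pos hℓ v))
          (by positivity)) ?_ n
      · have h2 := Phi_nil (g := g) (ε / 2) (by linarith : 0 ≤ R) hg hM (nd α ℓ [])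
          (lowFamA_ln_pos hℓ []) (hp [] hA0)
        rw [s0] at key
        simp only [List.length_nil, Nat.cast_zero, mul_zero, add_zero] at key
        rw [le_div_iff₀ hε2]
        linarith
      · intro v
        have hm1 := hmart (step (sta v) v) (by rw [← s1 v false]; exact (hOK _).1) v
        simp only [s1]
        by_cases hU : U' (sta v) v
        · rw [if_pos hU]
          by_cases hl : (sta v).length < m
          · have e : step (sta v) v = nw (sta v) v :: sta v := by
              simp only [hstep]; rw [if_pos hU, if_pos hl]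
            rw [e] at hm1 ⊢
            have := (hnw _ _ (hOK v).1 hU.1 hU.2).2
            simp only [List.length_cons, Nat.cast_add, Nat.cast_one]
            linarith
          · have e : step (sta v) v = [] := by
              simp only [hstep]; rw [if_pos hU, if_neg hl]
            rw [e] at hm1 ⊢
            have h2 := Phi_nil (g := g) (ε / 2) (by linarith : 0 ≤ R) hg hM (nd α ℓ v)
              (lowFamA_ln_pos hℓ v) (hp v hU.1)
            have h3 := Phi_nonneg (R := R) hM hη0 hη1 (hOK v).1 (nd α ℓ v) (lowFamA_ln_pos hℓ v)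
            have h4 : (m : ℝ) ≤ (sta v).length := by exact_mod_cast not_lt.1 hl
            have h5 : 8 * (R + Real.log (Fintype.card Λ) + 1) ≤ ((m : ℝ) - 1) * ε ^ 2 := by
              rw [← div_le_iff₀ hε2]; linarith
            simp only [List.length_nil, Nat.cast_zero, mul_zero, add_zero]
            nlinarith
        · rw [if_neg hU]
          have e : step (sta v) v = sta v := by
            simp only [hstep]; rw [if_neg hU]
          rw [e] at hm1 ⊢
          linarith
    · have e : avg n (cnt (fun v => U' (sta v) v) n) = 0 := by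
        rw [← avg_const n 0]
        refine avg_congr_len _ fun l _ => ?_
        unfold cnt
        refine Finset.sum_eq_zero fun k _ => if_neg fun h => hA0 ?_
        simpa using hA _ 0 h.1
      rw [e]
      have : 0 ≤ R := by linarith
      positivity

end Crest.Agent.R100.Cand
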