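import Crest.Agent.R100.LowFamA

/-! Row 100, CAND (helper50): the unnormalised Bregman potential. -/

set_option autoImplicit false

open MeasureTheory Set

noncomputable section

namespace Crest.Agent.R100.P50

open Crest.Agent.R100 Crest.Agent.R100.Low

/-- the Bregman divergence of `x log x` -/
def br (g H : ℝ) : ℝ := g * Real.log (g / H) - g + H

theorem br_eq {g H : ℝ} (hH : 0 < H) : br g H = g * Real.log g - g * Real.log H - g + H := by
  unfold br
  rcases eq_or_ne g 0 with h | h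
  · simp [h]
  · rw [Real.log_div h hH.ne']; ring

theorem br_nonneg {g H : ℝ} (hg : 0 ≤ g) (hH : 0 < H) : 0 ≤ br g H := by
  unfold br
  rcases hg.eq_or_lt with h | h
  · rw [← h]; simpa using hH.le
  · have h1 := Real.one_sub_inv_le_log_of_pos (div_pos h hH)
    rw [inv_div] at h1
    have h2 := mul_le_mul_of_nonneg_left h1 hg
    have e : g * (1 - H / g) = g - H := by field_simp
    linarith

theorem br_init {g R N : ℝ} (hg : 0 ≤ g) (hR : g ≤ Real.exp R) (hN : 0 < N) :
    br g (1 / N) ≤ (R + Real.log N) * g + 1 / N := by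
  rw [br_eq (by positivity), one_div, Real.log_inv]
  rcases hg.eq_or_lt with h | h
  · rw [← h]; simp
  · have h1 : Real.log g ≤ R := by
      rw [Real.log_le_iff_le_exp h]; exact hR
    nlinarith

theorem br_update {g H e u : ℝ} (hg : 0 ≤ g) (hH : 0 < H) (he : 0 ≤ e) (he2 : e ≤ 1 / 2)
    (hu : |u| ≤ 1) : br g (H * (1 + e * u)) ≤ br g H - e * (u * g - u * H) + 2 * e ^ 2 * g := by
  obtain ⟨hu1, hu2⟩ := abs_le.1 hu
  have hx1 : -(1 / 2) ≤ e * u := by nlinarith
  have hx2 : (e * u) ^ 2 ≤ e ^ 2 := by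
    have : u ^ 2 ≤ 1 := by nlinarith
    nlinarith [sq_nonneg e]
  have hp : 0 < 1 + e * u := by linarith
  rw [br_eq hH, br_eq (mul_pos hH hp), Real.log_mul hH.ne' hp.ne']
  have h1 := Real.one_sub_inv_le_log_of_pos hp
  have h2 : e * u - 2 * (e * u) ^ 2 ≤ 1 - (1 + e * u)⁻¹ := by
    have : (1 + e * u)⁻¹ ≤ 1 - e * u + 2 * (e * u) ^ 2 := by
      rw [inv_le_iff_one_le_mul₀ hp]
      nlinarith [sq_nonneg (e * u), mul_nonneg (sq_nonneg (e * u)) (show 0 ≤ 1 + 2 * (e * u) by linarith)]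
    linarith
  have h3 : e * u - 2 * e ^ 2 ≤ Real.log (1 + e * u) := by linarith
  have h4 := mul_le_mul_of_nonneg_left h3 hg
  nlinarith

theorem ii_bdd {g : ℝ → ℝ} (hg : Measurable g) {M : ℝ} (h0 : ∀ y, 0 ≤ g y ∧ g y ≤ M) (a b : ℝ) :
    IntervalIntegrable g volume a b :=
  lowFamA_bdd hg.aestronglyMeasurable (M := M)
    (fun y => by rw [Real.norm_eq_abs, abs_of_nonneg (h0 y).1]; exact (h0 y).2) a b

theorem ii_br {g H : ℝ → ℝ} (hg : Measurable g) {M : ℝ} (h0 : ∀ y, 0 ≤ g y ∧ g y ≤ M)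
    (hH : Continuous H) (hp : ∀ y, 0 < H y) (a b : ℝ) :
    IntervalIntegrable (fun y => br (g y) (H y)) volume a b := by
  have h1 := ii_bdd hg h0 a b
  have h2 : IntervalIntegrable (fun y => g y * Real.log (g y)) volume a b := by
    obtain ⟨K, hK⟩ := (isCompact_Icc (a := (0 : ℝ)) (b := M)).exists_bound_of_continuousOn
      Real.continuous_mul_log.continuousOn
    exact lowFamA_bdd (Real.continuous_mul_log.measurable.comp hg).aestronglyMeasurable (M := K)
      (fun y => hK _ (h0 y)) a b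
  have h3 : IntervalIntegrable (fun y => g y * Real.log (H y)) volume a b :=
    h1.mul_continuousOn (hH.log (fun y => (hp y).ne')).continuousOn
  have h4 := ((h2.sub h3).sub h1).add (hH.intervalIntegrable a b)
  simpa only [br_eq (hp _)] using h4

variable {Λ : Type} [Fintype Λ]

/-- the potential on `[a, a + lam)` -/
def pot (g H : Λ → ℝ → ℝ) (a lam : ℝ) : ℝ :=
  (∑ L, ∫ y in a..a + lam, br (g L y) (H L y)) / lam

theorem pot_nonneg {g H : Λ → ℝ → ℝ} (h0 : ∀ L y, 0 ≤ g L y) (hp : ∀ L y, 0 < H L y) (a : ℝ)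
    {lam : ℝ} (hl : 0 < lam) : 0 ≤ pot g H a lam :=
  div_nonneg (Finset.sum_nonneg fun L _ => intervalIntegral.integral_nonneg (by linarith)
    fun y _ => br_nonneg (h0 L y) (hp L y)) hl.le

theorem pot_mart {g H : Λ → ℝ → ℝ} (hg : ∀ L, Measurable (g L)) {M : ℝ}
    (h0 : ∀ L y, 0 ≤ g L y ∧ g L y ≤ M) (hH : ∀ L, Continuous (H L)) (hp : ∀ L y, 0 < H L y)
    (a : ℝ) {lam : ℝ} (hl : 0 < lam) :
    pot g H a lam = (pot g H a (lam / 2) + pot g H (a + lam / 2) (lam / 2)) / 2 := by
  unfold pot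
  have e : a + lam / 2 + lam / 2 = a + lam := by ring
  rw [e]
  have : ∀ L, ∫ y in a..a + lam, br (g L y) (H L y) =
      (∫ y in a..a + lam / 2, br (g L y) (H L y)) + ∫ y in a + lam / 2..a + lam, br (g L y) (H L y) :=
    fun L => (intervalIntegral.integral_add_adjacent_intervals
      (ii_br (hg L) (h0 L) (hH L) (hp L) _ _) (ii_br (hg L) (h0 L) (hH L) (hp L) _ _)).symm
  simp only [this, Finset.sum_add_distrib]
  field_simp

/-- the martingale property on the tree -/
theorem pot_node {g H : Λ → ℝ → ℝ} (hg : ∀ L, Measurable (g L)) {M : ℝ}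
    (h0 : ∀ L y, 0 ≤ g L y ∧ g L y ≤ M) (hH : ∀ L, Continuous (H L)) (hp : ∀ L y, 0 < H L y)
    (α : ℝ) {ℓ : ℝ} (hl : 0 < ℓ) :
    MartR (fun v => pot g H (nd α ℓ v) (ln ℓ v)) := by
  intro v
  simp only [nd_snoc, ln_snoc, lowFamA_ch_false, lowFamA_ch_true]
  exact pot_mart hg h0 hH hp _ (lowFamA_ln_pos hl v)

theorem pot_init [Nonempty Λ] {g : Λ → ℝ → ℝ} (hg : ∀ L, Measurable (g L)) {R : ℝ}
    (h0 : ∀ L y, 0 ≤ g L y ∧ g L y ≤ Real.exp R) (a : ℝ) {lam : ℝ} (hl : 0 < lam) :
    pot g (fun _ _ => 1 / (Fintype.card Λ : ℝ)) a lam ≤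
      (R + Real.log (Fintype.card Λ)) * ∑ L, av (g L) a lam + 1 := by
  have hN : (0 : ℝ) < Fintype.card Λ := by exact_mod_cast Fintype.card_pos
  have h1 : ∀ L, ∫ y in a..a + lam, br (g L y) (1 / (Fintype.card Λ : ℝ)) ≤
      (R + Real.log (Fintype.card Λ)) * (∫ y in a..a + lam, g L y) + lam / Fintype.card Λ := by
    intro L
    have i1 := ii_bdd (hg L) (h0 L) a (a + lam)
    have := intervalIntegral.integral_mono_on (μ := volume) (show a ≤ a + lam by linarith)
      (ii_br (hg L) (h0 L) (H := fun _ => 1 / (Fintype.card Λ : ℝ)) continuous_const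
        (fun _ => by positivity) _ _)
      ((i1.const_mul (R + Real.log (Fintype.card Λ))).add
        (intervalIntegrable_const (c := 1 / (Fintype.card Λ : ℝ))))
      (fun y _ => br_init (h0 L y).1 (h0 L y).2 hN)
    rw [intervalIntegral.integral_add (i1.const_mul _) intervalIntegrable_const,
      intervalIntegral.integral_const_mul, intervalIntegral.integral_const] at this
    refine this.trans (le_of_eq ?_)
    simp only [add_sub_cancel_left, smul_eq_mul]; ring
  unfold pot av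
  rw [div_le_iff₀ hl]
  refine (Finset.sum_le_sum fun L _ => h1 L).trans (le_of_eq ?_)
  rw [Finset.sum_add_distrib, ← Finset.mul_sum, ← Finset.sum_div, ← Finset.sum_div]
  simp only [Finset.sum_const, Finset.card_univ, nsmul_eq_mul]
  field_simp

theorem cont_ex (ξ : ℝ) : Continuous (ex ξ) := by unfold ex; fun_prop

theorem abs_re_le {w : ℂ} (hw : ‖w‖ ≤ 1) (ξ y : ℝ) : |(w * ex ξ y).re| ≤ 1 := by
  refine (Complex.abs_re_le_norm _).trans ?_
  rw [norm_mul, lowFamA_norm_ex, mul_one]; exact hw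

theorem int_re {f : ℝ → ℝ} {a lam : ℝ} (hf : IntervalIntegrable f volume a (a + lam)) (w : ℂ)
    (ξ : ℝ) (hl : 0 < lam) : ∫ y in a..a + lam, (w * ex ξ y).re * f y =
      lam * (w * cu (fun y => (f y : ℂ)) ξ a lam).re := by
  have h1 : IntervalIntegrable (fun y => w * ((f y : ℂ) * ex ξ y)) volume a (a + lam) :=
    ((show IntervalIntegrable (fun y => (f y : ℂ)) volume a (a + lam) from
      ⟨hf.1.ofReal, hf.2.ofReal⟩).mul_continuousOn (cont_ex ξ).continuousOn).const_mul w
  have h2 := Complex.reCLM.intervalIntegral_comp_comm h1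
  simp only [Complex.reCLM_apply] at h2
  have e : ∀ y, (w * ((f y : ℂ) * ex ξ y)).re = (w * ex ξ y).re * f y := fun y => by
    rw [show w * ((f y : ℂ) * ex ξ y) = (f y : ℂ) * (w * ex ξ y) by ring, Complex.re_ofReal_mul]
    ring
  simp only [e] at h2
  rw [h2, intervalIntegral.integral_const_mul]
  unfold cu
  rw [← mul_div_assoc, Complex.div_ofReal_re]
  field_simp

theorem pot_update {g H : Λ → ℝ → ℝ} (hg : ∀ L, Measurable (g L)) {M : ℝ}
    (h0 : ∀ L y, 0 ≤ g L y ∧ g L y ≤ M) (hH : ∀ L, Continuous (H L)) (hp : ∀ L y, 0 < H L y)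
    (w : Λ → ℂ) (hw : ∀ L, ‖w L‖ ≤ 1) (ξ : ℝ) {e : ℝ} (he : 0 ≤ e) (he2 : e ≤ 1 / 2) (a : ℝ)
    {lam : ℝ} (hl : 0 < lam) :
    pot g (fun L y => H L y * (1 + e * (w L * ex ξ y).re)) a lam ≤
      pot g H a lam - e * ∑ L, (w L * (cu (fun y => (g L y : ℂ)) ξ a lam -
        cu (fun y => (H L y : ℂ)) ξ a lam)).re + 2 * e ^ 2 * ∑ L, av (g L) a lam := by
  have hc : ∀ L, Continuous fun y => (w L * ex ξ y).re := fun L =>
    Complex.continuous_re.comp (continuous_const.mul (cont_ex ξ))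
  have h1 : ∀ L, ∫ y in a..a + lam, br (g L y) (H L y * (1 + e * (w L * ex ξ y).re)) ≤
      (∫ y in a..a + lam, br (g L y) (H L y)) - e * (lam * (w L * (cu (fun y => (g L y : ℂ)) ξ a lam -
        cu (fun y => (H L y : ℂ)) ξ a lam)).re) + 2 * e ^ 2 * ∫ y in a..a + lam, g L y := by
    intro L
    have i1 := ii_bdd (hg L) (h0 L) a (a + lam)
    have i2 := ii_br (hg L) (h0 L) (hH L) (hp L) a (a + lam)
    have i3 : IntervalIntegrable (fun y => (w L * ex ξ y).re * g L y) volume a (a + lam) :=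
      i1.continuousOn_mul (hc L).continuousOn
    have i4 : IntervalIntegrable (fun y => (w L * ex ξ y).re * H L y) volume a (a + lam) :=
      ((hc L).mul (hH L)).intervalIntegrable _ _
    have hp' : ∀ y, 0 < H L y * (1 + e * (w L * ex ξ y).re) := fun y => by
      have := (abs_le.1 (abs_re_le (hw L) ξ y)).1
      exact mul_pos (hp L y) (by nlinarith)
    have := intervalIntegral.integral_mono_on (μ := volume) (show a ≤ a + lam by linarith)
      (ii_br (hg L) (h0 L) (H := fun y => H L y * (1 + e * (w L * ex ξ y).re))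
        ((hH L).mul (continuous_const.add (continuous_const.mul (hc L)))) hp' _ _)
      ((i2.sub ((i3.sub i4).const_mul e)).add (i1.const_mul (2 * e ^ 2)))
      (fun y _ => br_update (h0 L y).1 (hp L y) he he2 (abs_re_le (hw L) ξ y))
    rw [intervalIntegral.integral_add (i2.sub ((i3.sub i4).const_mul e)) (i1.const_mul _),
      intervalIntegral.integral_sub i2 ((i3.sub i4).const_mul e),
      intervalIntegral.integral_const_mul, intervalIntegral.integral_const_mul,
      intervalIntegral.integral_sub i3 i4, int_re i1 _ _ hl,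
      int_re ((hH L).intervalIntegrable _ _) _ _ hl] at this
    refine this.trans (le_of_eq ?_)
    rw [mul_sub (w L), Complex.sub_re]; ring
  unfold pot av
  rw [div_le_iff₀ hl]
  refine (Finset.sum_le_sum fun L _ => h1 L).trans (le_of_eq ?_)
  rw [Finset.sum_add_distrib, Finset.sum_sub_distrib, ← Finset.mul_sum, ← Finset.mul_sum,
    ← Finset.mul_sum, ← Finset.sum_div]
  field_simp

end Crest.Agent.R100.P50
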