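import Crest.Agent.R100.CandDefs

/-! # Row 100, CAND (helper86): the potential -/

set_option autoImplicit false

open MeasureTheory Set

noncomputable section

namespace Crest.Agent.R100.Cand

open Crest.Agent.R100 Crest.Agent.R100.Low

variable {Λ : Type} [Fintype Λ]

/-! ### part A -/

theorem Gm_pos [Nonempty Λ] {η : ℝ} (h0 : 0 ≤ η) (h1 : η ≤ 1 / 2) {s : St Λ} (hs : OK s) (L : Λ)
    (y : ℝ) : 0 < Gm η s L y := by
  induction s with
  | nil =>
    simp only [Gm]
    have : (0 : ℝ) < Fintype.card Λ := by exact_mod_cast Fintype.card_pos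
    positivity
  | cons p s ih =>
    simp only [Gm]
    refine mul_pos (ih fun q hq => hs q (List.mem_cons_of_mem _ hq)) ?_
    have h2 : ‖p.2 L * ex p.1 y‖ ≤ 1 := by
      rw [norm_mul, LowPsi_ex_norm, mul_one]
      exact hs p List.mem_cons_self L
    have h3 := (abs_le.1 ((Complex.abs_re_le_norm _).trans h2)).1
    nlinarith

theorem Gm_cont (η : ℝ) (s : St Λ) (L : Λ) : Continuous (Gm η s L) := by
  induction s with
  | nil => exact continuous_const
  | cons p s ih =>
    have h1 := LowPsi_ex_cont p.1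
    exact ih.mul (continuous_const.add (continuous_const.mul
      (Complex.continuous_re.comp (continuous_const.mul h1))))

/-- integrability of `g` times a continuous function -/
theorem pot_ii {g : ℝ → ℝ} (hg : Measurable g) {M : ℝ} (hM : ∀ y, 0 ≤ g y ∧ g y ≤ M) {h : ℝ → ℝ}
    (hh : Continuous h) (a b : ℝ) : IntervalIntegrable (fun y => g y * h y) volume a b := by
  refine IntervalIntegrable.mul_continuousOn ?_ hh.continuousOn
  exact lowFamA_bdd hg.aestronglyMeasurable (M := M)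
    (fun y => by rw [Real.norm_of_nonneg (hM y).1]; exact (hM y).2) a b

theorem Phi_nonneg [Nonempty Λ] {g : Λ → ℝ → ℝ} {R η : ℝ}
    (hM : ∀ L y, 0 ≤ g L y ∧ g L y ≤ Real.exp R) (h0 : 0 ≤ η) (h1 : η ≤ 1 / 2) {s : St Λ}
    (hs : OK s) (a : ℝ) {lam : ℝ} (hl : 0 < lam) : 0 ≤ Phi g R η s a lam := by
  refine Finset.sum_nonneg fun L _ => div_nonneg ?_ hl.le
  refine intervalIntegral.integral_nonneg (by linarith) fun y _ => ?_
  have hG := Gm_pos h0 h1 hs L y
  have hE := Real.exp_pos R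
  have h2 := Real.log_le_sub_one_of_pos (div_pos hG hE)
  rw [Real.log_div hG.ne' hE.ne', Real.log_exp] at h2
  have h3 := mul_le_mul_of_nonneg_left h2 (hM L y).1
  have h4 : g L y * (Gm η s L y / Real.exp R) ≤ Gm η s L y := by
    rw [mul_div_assoc', div_le_iff₀ hE]
    nlinarith [(hM L y).2]
  nlinarith

theorem Phi_mart [Nonempty Λ] {g : Λ → ℝ → ℝ} {R η : ℝ} (hg : ∀ L, Measurable (g L))
    (hM : ∀ L y, 0 ≤ g L y ∧ g L y ≤ Real.exp R) (h0 : 0 ≤ η) (h1 : η ≤ 1 / 2) {s : St Λ}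
    (hs : OK s) (a : ℝ) {lam : ℝ} (hl : 0 < lam) :
    Phi g R η s a lam =
      (Phi g R η s a (lam / 2) + Phi g R η s (a + lam / 2) (lam / 2)) / 2 := by
  unfold Phi
  rw [← Finset.sum_add_distrib, Finset.sum_div]
  refine Finset.sum_congr rfl fun L _ => ?_
  have hc : Continuous fun y => R - Real.log (Gm η s L y) - 1 :=
    (continuous_const.sub ((Gm_cont η s L).log fun y => (Gm_pos h0 h1 hs L y).ne')).sub
      continuous_const
  have hi : ∀ a b : ℝ, IntervalIntegrable
      (fun y => g L y * R - g L y * Real.log (Gm η s L y) - g L y + Gm η s L y) volume a b := by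
    intro a b
    have h2 := (pot_ii (hg L) (hM L) hc a b).add ((Gm_cont η s L).intervalIntegrable a b)
    refine h2.congr ?_
    intro y _
    simp only
    ring
  have h3 := intervalIntegral.integral_add_adjacent_intervals (hi a (a + lam / 2))
    (hi (a + lam / 2) (a + lam / 2 + lam / 2))
  rw [show a + lam / 2 + lam / 2 = a + lam by ring] at h3 ⊢
  rw [← h3]
  field_simp

theorem Phi_nil [Nonempty Λ] {g : Λ → ℝ → ℝ} {R : ℝ} (η : ℝ) (hR : 0 ≤ R)
    (hg : ∀ L, Measurable (g L)) (hM : ∀ L y, 0 ≤ g L y ∧ g L y ≤ Real.exp R) (a : ℝ) {lam : ℝ}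
    (hl : 0 < lam) (hp : ∑ L, ‖cu (fun y => (g L y : ℂ)) 0 a lam‖ ≤ 1) :
    Phi g R η [] a lam ≤ R + Real.log (Fintype.card Λ) + 1 := by
  have hN : (1 : ℝ) ≤ Fintype.card Λ := by exact_mod_cast Fintype.card_pos
  have hlog : 0 ≤ Real.log (Fintype.card Λ) := Real.log_nonneg hN
  set p : Λ → ℝ := fun L => (∫ y in a..a + lam, g L y) / lam with hpdef
  have hp0 : ∀ L, 0 ≤ p L := fun L =>
    div_nonneg (intervalIntegral.integral_nonneg (by linarith) fun y _ => (hM L y).1) hl.le
  have hcu : ∀ L, ‖cu (fun y => (g L y : ℂ)) 0 a lam‖ = p L := by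
    intro L
    have h2 : cu (fun y => (g L y : ℂ)) 0 a lam = ((p L : ℝ) : ℂ) := by
      simp only [cu, ex, hpdef, zero_mul, Complex.ofReal_zero, neg_zero, Complex.exp_zero, mul_one,
        intervalIntegral.integral_ofReal, Complex.ofReal_div]
    rw [h2, Complex.norm_real, Real.norm_of_nonneg (hp0 L)]
  simp only [hcu] at hp
  have hL : ∀ L, (∫ y in a..a + lam, (g L y * R - g L y * Real.log (Gm η ([] : St Λ) L y) -
      g L y + Gm η ([] : St Λ) L y)) / lam =
      (R + Real.log (Fintype.card Λ) - 1) * p L + (Fintype.card Λ : ℝ)⁻¹ := by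
    intro L
    have hi : IntervalIntegrable (g L) volume a (a + lam) := by
      simpa using pot_ii (hg L) (hM L) (continuous_const (y := (1 : ℝ))) a (a + lam)
    have he : (fun y => g L y * R - g L y * Real.log (Gm η ([] : St Λ) L y) - g L y +
        Gm η ([] : St Λ) L y) = fun y => (R + Real.log (Fintype.card Λ) - 1) * g L y +
          (Fintype.card Λ : ℝ)⁻¹ := by
      funext y
      simp only [Gm, Real.log_inv]
      ring
    rw [he, intervalIntegral.integral_add (hi.const_mul _) intervalIntegrable_const,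
      intervalIntegral.integral_const_mul, intervalIntegral.integral_const]
    simp only [hpdef, smul_eq_mul, add_sub_cancel_left]
    field_simp
  unfold Phi
  simp only [hL]
  rw [Finset.sum_add_distrib, ← Finset.mul_sum, Finset.sum_const, Finset.card_univ, nsmul_eq_mul,
    mul_inv_cancel₀ (by linarith)]
  have hs0 : 0 ≤ ∑ L, p L := Finset.sum_nonneg fun L _ => hp0 L
  nlinarith

/-! ### part B -/

theorem h93_log {x : ℝ} (h : -(1 / 2) ≤ x) : x - x ^ 2 ≤ Real.log (1 + x) := by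
  rcases le_total 0 x with h0 | h0
  · refine le_trans ?_ (Real.one_sub_inv_le_log_of_pos (show 0 < 1 + x by linarith))
    rw [le_sub_comm, inv_eq_one_div, div_le_iff₀ (by linarith)]
    nlinarith [pow_nonneg h0 3]
  · rw [Real.le_log_iff_exp_le (by linarith)]
    have hu : 0 ≤ x ^ 2 - x := by nlinarith
    have h1 := Real.quadratic_le_exp_of_nonneg hu
    have h3 : 1 ≤ (1 + x) * Real.exp (x ^ 2 - x) := by
      refine le_trans ?_ (mul_le_mul_of_nonneg_left h1 (by linarith))
      have h4 : 0 ≤ 1 + x - x ^ 2 + x ^ 3 := by nlinarith [mul_nonneg (sq_nonneg x) (by linarith : 0 ≤ x + 1 / 2)]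
      nlinarith [mul_nonneg (sq_nonneg x) h4]
    rw [← neg_sub, Real.exp_neg, inv_eq_one_div, div_le_iff₀ (Real.exp_pos _)]
    exact h3

theorem h93_re {u : ℝ → ℝ} {ξ a b : ℝ} (z : ℂ)
    (hi : IntervalIntegrable (fun y => (u y : ℂ) * ex ξ y) volume a b) :
    ∫ y in a..b, u y * (z * ex ξ y).re = (z * ∫ y in a..b, (u y : ℂ) * ex ξ y).re := by
  have h := Complex.reCLM.intervalIntegral_comp_comm (hi.const_mul z)
  simp only [Complex.reCLM_apply] at h
  rw [← intervalIntegral.integral_const_mul, ← h]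
  refine intervalIntegral.integral_congr fun y _ => ?_
  simp only [Complex.mul_re, Complex.mul_im, Complex.ofReal_re, Complex.ofReal_im]
  ring

theorem h93_cell {g G : ℝ → ℝ} {M η : ℝ} (R : ℝ) (hg : Measurable g)
    (hM : ∀ y, 0 ≤ g y ∧ g y ≤ M) (hG : Continuous G) (hG0 : ∀ y, 0 < G y) (h0 : 0 ≤ η)
    (h1 : η ≤ 1 / 2) (a : ℝ) {lam : ℝ} (hl : 0 < lam) (ξ : ℝ) : ∃ z : ℂ, ‖z‖ ≤ 1 ∧
      (∫ y in a..a + lam, (g y * R - g y * Real.log (G y * (1 + η * (z * ex ξ y).re)) - g y +
        G y * (1 + η * (z * ex ξ y).re))) / lam ≤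
      (∫ y in a..a + lam, (g y * R - g y * Real.log (G y) - g y + G y)) / lam -
        η * ‖cu (fun y => (g y : ℂ)) ξ a lam - cu (fun y => (G y : ℂ)) ξ a lam‖ +
        η ^ 2 * ‖cu (fun y => (g y : ℂ)) 0 a lam‖ := by
  obtain ⟨z, hz, hΔ⟩ := Complex.exists_norm_eq_mul_self
    (cu (fun y => (g y : ℂ)) ξ a lam - cu (fun y => (G y : ℂ)) ξ a lam)
  refine ⟨z, hz.le, ?_⟩
  have hφc : Continuous fun y => (z * ex ξ y).re :=
    Complex.continuous_re.comp (continuous_const.mul (LowPsi_ex_cont ξ))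
  have hφ : ∀ y, |(z * ex ξ y).re| ≤ 1 := fun y =>
    (Complex.abs_re_le_norm _).trans (by rw [norm_mul, hz, LowPsi_ex_norm, mul_one])
  have hx : ∀ y, -(1 / 2) ≤ η * (z * ex ξ y).re := fun y => by
    nlinarith [(abs_le.1 (hφ y)).1]
  have hgi : ∀ β, IntervalIntegrable (fun y => (g y : ℂ) * ex β y) volume a (a + lam) := fun β =>
    lowFamA_int (Complex.measurable_ofReal.comp hg) (M := M)
      (fun y => by simpa [abs_of_nonneg (hM y).1] using (hM y).2) β _ _
  have hGi : IntervalIntegrable (fun y => (G y : ℂ) * ex ξ y) volume a (a + lam) :=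
    ((Complex.continuous_ofReal.comp hG).mul (LowPsi_ex_cont ξ)).intervalIntegrable _ _
  have i0 : IntervalIntegrable g volume a (a + lam) := by
    simpa using pot_ii hg hM (continuous_const (y := (1 : ℝ))) a (a + lam)
  have i1 : ∀ {H : ℝ → ℝ}, Continuous H → (∀ y, 0 < H y) → IntervalIntegrable
      (fun y => g y * R - g y * Real.log (H y) - g y + H y) volume a (a + lam) := fun hH hH0 =>
    (((i0.mul_const R).sub (pot_ii hg hM (hH.log fun y => (hH0 y).ne') _ _)).sub i0).add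
      (hH.intervalIntegrable _ _)
  have i2 := pot_ii hg hM hφc a (a + lam)
  have i3 : IntervalIntegrable (fun y => G y * (z * ex ξ y).re) volume a (a + lam) :=
    (hG.mul hφc).intervalIntegrable _ _
  have e1 : (∫ y in a..a + lam, g y * (z * ex ξ y).re) - ∫ y in a..a + lam, G y * (z * ex ξ y).re =
      lam * ‖cu (fun y => (g y : ℂ)) ξ a lam - cu (fun y => (G y : ℂ)) ξ a lam‖ := by
    have h := congrArg Complex.re hΔ
    rw [Complex.ofReal_re] at h
    rw [h93_re z (hgi ξ), h93_re z hGi, h, cu, cu, ← sub_div, ← mul_div_assoc,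
      Complex.div_ofReal_re, mul_div_cancel₀ _ hl.ne', mul_sub, Complex.sub_re]
  have e2 : ∫ y in a..a + lam, g y ≤ lam * ‖cu (fun y => (g y : ℂ)) 0 a lam‖ := by
    have h := h93_re 1 (hgi 0)
    have e0 : ∀ y, ((1 : ℂ) * ex 0 y).re = 1 := fun y => by simp [ex]
    simp only [e0, mul_one] at h
    rw [h, one_mul, cu, norm_div, Complex.norm_real, Real.norm_of_nonneg hl.le,
      mul_div_cancel₀ _ hl.ne']
    exact Complex.re_le_norm _
  have e3 := intervalIntegral.integral_mono_on (μ := volume) (by linarith : a ≤ a + lam)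
    (i1 (hG.mul (continuous_const.add (continuous_const.mul hφc)))
      fun y => mul_pos (hG0 y) (by linarith [hx y] : 0 < 1 + η * (z * ex ξ y).re))
    (((i1 hG hG0).sub ((i2.sub i3).const_mul η)).add (i0.const_mul (η ^ 2))) fun y _ => by
      have h2 := h93_log (hx y)
      have h3 : (η * (z * ex ξ y).re) ^ 2 ≤ η ^ 2 := by
        rw [mul_pow]
        exact mul_le_of_le_one_right (sq_nonneg _) ((sq_le_one_iff_abs_le_one _).2 (hφ y))
      simp only [Pi.mul_apply, Pi.add_apply]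
      rw [Real.log_mul (hG0 y).ne' (by linarith [hx y])]
      nlinarith [mul_le_mul_of_nonneg_left h2 (hM y).1, mul_le_mul_of_nonneg_left h3 (hM y).1]
  rw [intervalIntegral.integral_add ((i1 hG hG0).sub ((i2.sub i3).const_mul η))
      (i0.const_mul (η ^ 2)), intervalIntegral.integral_sub (i1 hG hG0) ((i2.sub i3).const_mul η),
    intervalIntegral.integral_const_mul, intervalIntegral.integral_const_mul,
    intervalIntegral.integral_sub i2 i3, e1] at e3
  rw [div_le_iff₀ hl, add_mul, sub_mul, div_mul_cancel₀ _ hl.ne']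
  refine e3.trans ?_
  nlinarith [mul_le_mul_of_nonneg_left e2 (sq_nonneg η)]

theorem Phi_upd [Nonempty Λ] {g : Λ → ℝ → ℝ} {R ε : ℝ} (hg : ∀ L, Measurable (g L))
    (hM : ∀ L y, 0 ≤ g L y ∧ g L y ≤ Real.exp R) (h0 : 0 < ε) (h1 : ε ≤ 1) {s : St Λ}
    (hs : OK s) (a : ℝ) {lam : ℝ} (hl : 0 < lam)
    (hp : ∑ L, ‖cu (fun y => (g L y : ℂ)) 0 a lam‖ ≤ 1) {ξ : ℝ}
    (hξ : ε < mis g (ε / 2) s ξ a lam) :
    ∃ z : Λ → ℂ, (∀ L, ‖z L‖ ≤ 1) ∧
      Phi g R (ε / 2) ((ξ, z) :: s) a lam ≤ Phi g R (ε / 2) s a lam - ε ^ 2 / 4 := by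
  have h2 : 0 ≤ ε / 2 := by linarith
  have h3 : ε / 2 ≤ 1 / 2 := by linarith
  choose z hz hle using fun L => h93_cell R (hg L) (hM L) (Gm_cont (ε / 2) s L)
    (Gm_pos h2 h3 hs L) h2 h3 a hl ξ
  refine ⟨z, hz, (Finset.sum_le_sum fun L _ => hle L).trans ?_⟩
  rw [Finset.sum_add_distrib, Finset.sum_sub_distrib, ← Finset.mul_sum, ← Finset.mul_sum, Phi]
  rw [mis] at hξ
  nlinarith [mul_le_mul_of_nonneg_left hξ.le h2, mul_le_mul_of_nonneg_left hp (sq_nonneg (ε / 2))]

end Crest.Agent.R100.Cand
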