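import Crest.Agent.R100.AdEnt

/-! # Row 100, (CAP): the capacity of the channel `n ↦ a n + X` -/

set_option autoImplicit false

noncomputable section

namespace Crest.Agent.R100.Ent

open Finset Filter Topology

variable {G : Type*} [AddCommGroup G] {ι Ω Ω' S : Type*} [Fintype ι] [Fintype Ω] [Fintype Ω']
  {P : Ω → ℝ} {D : ι → ℝ}

/-- product weights -/
def pr (D : ι → ℝ) (P : Ω → ℝ) (q : ι × Ω) : ℝ := D q.1 * P q.2

/-- the law of `a N + X` -/
def outL (D : ι → ℝ) (a : ι → G) (P : Ω → ℝ) (X : Ω → G) (z : G) : ℝ :=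
  law (pr D P) (fun q => a q.1 + X q.2) z

/-- `I(D) = H(a N + X) - H(X)` -/
def Icap (D : ι → ℝ) (a : ι → G) (P : Ω → ℝ) (X : Ω → G) : ℝ :=
  ent (pr D P) (fun q => a q.1 + X q.2) - ent P X

/-- `KL(law(c + X) || π)` -/
def klS (P : Ω → ℝ) (X : Ω → G) (π : G → ℝ) (c : G) : ℝ :=
  ∑ ω, P ω * Real.log (law P X (X ω) / π (c + X ω))

theorem IsProb.pr (hD : IsProb D) (hP : IsProb P) : IsProb (pr D P) :=
  ⟨fun q => mul_nonneg (hD.nn _) (hP.nn _), by
    simp only [Ent.pr, Fintype.sum_prod_type, ← Finset.mul_sum, hP.one, mul_one, hD.one]⟩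

theorem sum_law_le (hP : IsProb P) (X : Ω → S) (F : Finset S) : ∑ s ∈ F, law P X s ≤ 1 := by
  classical
  have h := sum_law P X (fun _ => 1) (F ∪ univ.image X) fun ω => by simp
  simp only [mul_one, hP.one] at h
  rw [h]
  exact Finset.sum_le_sum_of_subset_of_nonneg subset_union_left fun s _ _ => law_nonneg hP.nn X s

theorem outL_eq (D : ι → ℝ) (a : ι → G) (P : Ω → ℝ) (X : Ω → G) (z : G) :
    outL D a P X z = ∑ n, D n * law P X (z - a n) := by
  simp only [outL, law, pr, Fintype.sum_prod_type, Finset.mul_sum]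
  refine Finset.sum_congr rfl fun n _ => Finset.sum_congr rfl fun ω _ => ?_
  by_cases h : X ω = z - a n
  · simp [h]
  · rw [if_neg h, if_neg fun h' => h (by rw [← h']; abel), mul_zero]

theorem outL_nonneg (hD : IsProb D) (hP : IsProb P) (a : ι → G) (X : Ω → G) (z : G) :
    0 ≤ outL D a P X z := law_nonneg (hD.pr hP).nn _ _

theorem law_pos (hP : IsProb P) (X : Ω → S) {ω : Ω} (h : P ω ≠ 0) : 0 < law P X (X ω) :=
  (lt_of_le_of_ne (hP.nn ω) h.symm).trans_le (le_law hP.nn X ω)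

theorem outL_pos (hD : IsProb D) (hP : IsProb P) (a : ι → G) (X : Ω → G) {n : ι} {ω : Ω}
    (hn : D n ≠ 0) (h : P ω ≠ 0) : 0 < outL D a P X (a n + X ω) :=
  law_pos (hD.pr hP) (fun q => a q.1 + X q.2) (ω := (n, ω)) (mul_ne_zero hn h)

/-- the mean divergence to any positive reference -/
theorem sum_klS (hD : IsProb D) (hP : IsProb P) (a : ι → G) (X : Ω → G) (π : G → ℝ)
    (hπ : ∀ n ω, D n ≠ 0 → P ω ≠ 0 → 0 < π (a n + X ω)) :
    ∑ n, D n * klS P X π (a n) = Icap D a P X - ∑ q, pr D P q *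
      Real.log (π (a q.1 + X q.2) / outL D a P X (a q.1 + X q.2)) := by
  have e : ent P X = -∑ n, D n * ∑ ω, P ω * Real.log (law P X (X ω)) := by
    rw [← Finset.sum_mul, hD.one, one_mul, ent]
  rw [Icap, e, ent]
  simp only [klS, Fintype.sum_prod_type, Finset.mul_sum, sub_neg_eq_add, neg_add_eq_sub,
    ← Finset.sum_sub_distrib]
  refine Finset.sum_congr rfl fun n _ => Finset.sum_congr rfl fun ω _ => ?_
  by_cases hn : D n = 0
  · simp [pr, hn]
  by_cases hω : P ω = 0
  · simp [pr, hω]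
  have h1 := outL_pos hD hP a X hn hω
  rw [Real.log_div (law_pos hP X hω).ne' (hπ n ω hn hω).ne', Real.log_div (hπ n ω hn hω).ne' h1.ne']
  simp only [pr, outL]
  ring

theorem Icap_eq (hD : IsProb D) (hP : IsProb P) (a : ι → G) (X : Ω → G) :
    ∑ n, D n * klS P X (outL D a P X) (a n) = Icap D a P X := by
  rw [sum_klS hD hP a X _ fun n ω hn hω => outL_pos hD hP a X hn hω, sub_eq_self]
  refine Finset.sum_eq_zero fun q _ => ?_
  by_cases h : outL D a P X (a q.1 + X q.2) = 0 <;> simp [h]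

theorem Icap_le (hD : IsProb D) (hP : IsProb P) (a : ι → G) (X : Ω → G) (π : G → ℝ)
    (h0 : ∀ z, 0 ≤ π z) (h1 : ∀ F : Finset G, ∑ z ∈ F, π z ≤ 1)
    (hπ : ∀ n ω, D n ≠ 0 → P ω ≠ 0 → 0 < π (a n + X ω)) :
    Icap D a P X ≤ ∑ n, D n * klS P X π (a n) := by
  rw [sum_klS hD hP a X π hπ, le_sub_self_iff]
  refine (gibbs (hD.pr hP) _ fun q hq => div_pos
    (hπ _ _ (left_ne_zero_of_mul hq) (right_ne_zero_of_mul hq))
    (outL_pos hD hP a X (left_ne_zero_of_mul hq) (right_ne_zero_of_mul hq))).trans ?_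
  exact Real.log_nonpos (Finset.sum_nonneg fun q _ => mul_nonneg ((hD.pr hP).nn q)
    (div_nonneg (h0 _) (outL_nonneg hD hP a X _)))
    (chg_fun (hD.pr hP).nn (fun q => a q.1 + X q.2) π h0 h1)

theorem klS_nonneg (hP : IsProb P) (X : Ω → G) (π : G → ℝ) (h0 : ∀ z, 0 ≤ π z)
    (h1 : ∀ F : Finset G, ∑ z ∈ F, π z ≤ 1) (c : G) (hπ : ∀ ω, P ω ≠ 0 → 0 < π (c + X ω)) :
    0 ≤ klS P X π c := by
  classical
  have h := gibbs hP (fun ω => π (c + X ω) / law P X (X ω)) fun ω hω =>
    div_pos (hπ ω hω) (law_pos hP X hω)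
  have h2 := chg_fun hP.nn X (fun z => π (c + z)) (fun z => h0 _) (M := 1) fun F => by
    rw [← Finset.sum_image (s := F) (g := fun z => c + z) (f := π)
      fun _ _ _ _ h => add_left_cancel h]
    exact h1 _
  have h3 := h.trans (Real.log_nonpos (Finset.sum_nonneg fun ω _ => mul_nonneg (hP.nn ω)
    (div_nonneg (h0 _) (law_nonneg hP.nn X _))) h2)
  rw [klS, ← neg_nonpos, ← Finset.sum_neg_distrib]
  refine le_trans (le_of_eq (Finset.sum_congr rfl fun ω _ => ?_)) h3
  rw [← inv_div, Real.log_inv]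
  ring

/-- adding an independent variable does not decrease the entropy -/
theorem Icap_nonneg (hD : IsProb D) (hP : IsProb P) (a : ι → G) (X : Ω → G) :
    0 ≤ Icap D a P X := by
  rw [← Icap_eq hD hP]
  refine Finset.sum_nonneg fun n _ => ?_
  by_cases hn : D n = 0
  · simp [hn]
  exact mul_nonneg (hD.nn n) (klS_nonneg hP X _ (outL_nonneg hD hP a X)
    (sum_law_le (hD.pr hP) _) _ fun ω hω => outL_pos hD hP a X hn hω)

theorem exists_cap_max [Nonempty ι] (a : ι → G) (P : Ω → ℝ) (X : Ω → G) :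
    ∃ D : ι → ℝ, IsProb D ∧ ∀ D' : ι → ℝ, IsProb D' → Icap D' a P X ≤ Icap D a P X := by
  classical
  have hc : Continuous fun D : ι → ℝ => Icap D a P X := by
    have e : ∀ D : ι → ℝ, Icap D a P X =
        ∑ z ∈ univ.image fun q : ι × Ω => a q.1 + X q.2,
          Real.negMulLog (∑ n, D n * law P X (z - a n)) - ent P X := fun D => by
      rw [Icap, ent, sum_law (pr D P) (fun q => a q.1 + X q.2)
        (fun z => Real.log (law (pr D P) (fun q => a q.1 + X q.2) z)) _
        fun q => mem_image_of_mem _ (mem_univ q), ← Finset.sum_neg_distrib]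
      congr 1
      refine Finset.sum_congr rfl fun z _ => ?_
      rw [← outL_eq, Real.negMulLog, outL, neg_mul]
    simp only [e]
    have := Real.continuous_negMulLog
    fun_prop
  obtain ⟨D, hD, hm⟩ := (isCompact_stdSimplex ℝ ι).exists_isMaxOn
    ⟨_, ite_eq_mem_stdSimplex ℝ (Classical.arbitrary ι)⟩ hc.continuousOn
  exact ⟨D, ⟨hD.1, hD.2⟩, fun D' h => hm (show D' ∈ stdSimplex ℝ ι from ⟨h.nn, h.one⟩)⟩

theorem cap_mix (hD : IsProb D) (hP : IsProb P) (a : ι → G) (X : Ω → G)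
    (hm : ∀ D' : ι → ℝ, IsProb D' → Icap D' a P X ≤ Icap D a P X) (n : ι) {e : ℝ} (e0 : 0 < e)
    (e1 : e < 1) : ∑ ω, P ω * Real.log (law P X (X ω) /
      ((1 - e) * outL D a P X (a n + X ω) + e * law P X (X ω))) ≤ Icap D a P X := by
  classical
  set D' : ι → ℝ := fun m => (1 - e) * D m + if m = n then e else 0 with hD'
  have e1' : 0 < 1 - e := by linarith
  have hp : IsProb D' := ⟨fun m => add_nonneg (mul_nonneg e1'.le (hD.nn m))
    (by split_ifs; exacts [e0.le, le_rfl]), by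
      simp [hD', Finset.sum_add_distrib, ← Finset.mul_sum, hD.one]⟩
  have hs : ∀ φ : ι → ℝ, ∑ m, D' m * φ m = (1 - e) * ∑ m, D m * φ m + e * φ n := fun φ => by
    simp [hD', add_mul, Finset.sum_add_distrib, Finset.mul_sum, mul_assoc]
  have h1 := hm D' hp
  rw [← Icap_eq hp hP, hs] at h1
  have h2 := Icap_le hD hP a X (outL D' a P X) (outL_nonneg hp hP a X) (sum_law_le (hp.pr hP) _)
    fun m ω hm hω => outL_pos hp hP a X (ne_of_gt (add_pos_of_pos_of_nonneg
      (mul_pos e1' (lt_of_le_of_ne (hD.nn m) hm.symm)) (by split_ifs; exacts [e0.le, le_rfl]))) hω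
  have h3 : klS P X (outL D' a P X) (a n) ≤ Icap D a P X := by
    refine le_of_mul_le_mul_left ?_ e0
    nlinarith [mul_le_mul_of_nonneg_left h2 e1'.le]
  refine le_trans (le_of_eq (Finset.sum_congr rfl fun ω _ => ?_)) h3
  rw [outL_eq D', hs fun m => law P X (a n + X ω - a m), ← outL_eq, add_sub_cancel_left]

theorem cap_pos (hD : IsProb D) (hP : IsProb P) (a : ι → G) (X : Ω → G)
    (hm : ∀ D' : ι → ℝ, IsProb D' → Icap D' a P X ≤ Icap D a P X) (n : ι) {ω : Ω}
    (hω : P ω ≠ 0) : 0 < outL D a P X (a n + X ω) := by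
  classical
  refine lt_of_le_of_ne (outL_nonneg hD hP a X _) fun h0 => ?_
  have hω' : 0 < P ω := lt_of_le_of_ne (hP.nn ω) hω.symm
  set C := ∑ ω', P ω' * Real.log (law P X (X ω') / 2) with hC
  have hI := Icap_nonneg hD hP a X
  have hC0 : ∀ ω', P ω' * Real.log (law P X (X ω') / 2) ≤ 0 := fun ω' =>
    mul_nonpos_of_nonneg_of_nonpos (hP.nn _) (Real.log_nonpos
      (div_nonneg (law_nonneg hP.nn X _) two_pos.le) (by
        have := sum_law_le hP X {X ω'}
        rw [Finset.sum_singleton] at this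
        linarith))
  have hC1 : C ≤ 0 := Finset.sum_nonpos fun ω' _ => hC0 ω'
  set t := (Icap D a P X - C + 1) / P ω with ht
  have t0 : 0 < t := div_pos (by linarith) hω'
  have e0 := Real.exp_pos (-t)
  have e1 : Real.exp (-t) < 1 := Real.exp_lt_one_iff.2 (by linarith)
  have h := cap_mix hD hP a X hm n e0 e1
  have hl : ∀ ω', P ω' * Real.log (law P X (X ω') / 2) ≤ P ω' * Real.log (law P X (X ω') /
      ((1 - Real.exp (-t)) * outL D a P X (a n + X ω') + Real.exp (-t) * law P X (X ω'))) :=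
    fun ω' => by
      by_cases h' : P ω' = 0
      · simp [h']
      have p1 := law_pos hP X h'
      have p2 := outL_nonneg hD hP a X (a n + X ω')
      have p3 := sum_law_le hP X {X ω'}
      have p4 := sum_law_le (hD.pr hP) (fun q => a q.1 + X q.2) {a n + X ω'}
      rw [Finset.sum_singleton] at p3 p4
      change outL D a P X _ ≤ 1 at p4
      refine mul_le_mul_of_nonneg_left (Real.log_le_log (by positivity) ?_) (hP.nn _)
      refine div_le_div_of_nonneg_left p1.le (add_pos_of_nonneg_of_pos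
        (mul_nonneg (by linarith) p2) (mul_pos e0 p1)) (by nlinarith)
  rw [← Finset.add_sum_erase _ _ (mem_univ ω), ← h0, mul_zero, zero_add,
    div_mul_cancel_right₀ (law_pos hP X hω).ne', Real.log_inv, Real.log_exp, neg_neg] at h
  have h4 := Finset.sum_le_sum fun ω' (_ : ω' ∈ univ.erase ω) => hl ω'
  have h5 := Finset.add_sum_erase univ (fun ω' => P ω' * Real.log (law P X (X ω') / 2))
    (mem_univ ω)
  have h6 : P ω * t = Icap D a P X - C + 1 := by rw [ht]; field_simp
  have := hC0 ω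
  linarith

theorem cap_kl (hD : IsProb D) (hP : IsProb P) (a : ι → G) (X : Ω → G)
    (hm : ∀ D' : ι → ℝ, IsProb D' → Icap D' a P X ≤ Icap D a P X) (n : ι) :
    klS P X (outL D a P X) (a n) ≤ Icap D a P X := by
  have hc : ContinuousAt (fun e : ℝ => ∑ ω, P ω * Real.log (law P X (X ω) /
      ((1 - e) * outL D a P X (a n + X ω) + e * law P X (X ω)))) 0 := by
    refine tendsto_finsetSum _ fun ω _ => ?_
    by_cases hω : P ω = 0
    · simp [hω]
    have p1 := law_pos hP X hω
    have p2 := cap_pos hD hP a X hm n hω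
    refine ContinuousAt.mul continuousAt_const (ContinuousAt.log (ContinuousAt.div
      continuousAt_const (by fun_prop) (by simpa using p2.ne')) (by simp [p1.ne', p2.ne']))
  have h := le_of_tendsto (hc.tendsto.mono_left (nhdsWithin_le_nhds (s := Set.Ioi 0)))
    (Filter.mem_of_superset (Ioo_mem_nhdsGT one_pos) fun e he => cap_mix hD hP a X hm n he.1 he.2)
  simpa [klS] using h

/-- **CAP.**  `π = outL D a P X` serves every `n`; sublaws keep the information. -/
theorem cap [Nonempty ι] (hP : IsProb P) (a : ι → G) (X : Ω → G) : ∃ D : ι → ℝ, IsProb D ∧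
    (∀ n ω, P ω ≠ 0 → 0 < outL D a P X (a n + X ω)) ∧
    (∀ n, klS P X (outL D a P X) (a n) ≤ Icap D a P X) ∧
    ∀ (D' : ι → ℝ) (K : ℝ), IsProb D' → (∀ n, D' n ≤ Real.exp K * D n) →
      Icap D a P X - K ≤ Icap D' a P X := by
  obtain ⟨D, hD, hm⟩ := exists_cap_max a P X
  refine ⟨D, hD, fun n ω => cap_pos hD hP a X hm n, cap_kl hD hP a X hm, fun D' K hD' hK => ?_⟩
  have h0 : ∑ n, D n * (Icap D a P X - klS P X (outL D a P X) (a n)) = 0 := by
    simp only [mul_sub, Finset.sum_sub_distrib, ← Finset.sum_mul, hD.one, Icap_eq hD hP]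
    ring
  rw [Finset.sum_eq_zero_iff_of_nonneg fun n _ =>
    mul_nonneg (hD.nn n) (sub_nonneg.2 (cap_kl hD hP a X hm n))] at h0
  have h1 : ∑ n, D' n * klS P X (outL D a P X) (a n) = Icap D a P X := by
    rw [← one_mul (Icap D a P X), ← hD'.one, Finset.sum_mul]
    refine Finset.sum_congr rfl fun n _ => ?_
    rcases mul_eq_zero.1 (h0 n (mem_univ n)) with h | h
    · have := hK n
      rw [h, mul_zero] at this
      rw [le_antisymm this (hD'.nn n), zero_mul, zero_mul]
    · rw [sub_eq_zero.1 h]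
  rw [sum_klS hD' hP a X _ fun n ω _ hω => cap_pos hD hP a X hm n hω] at h1
  have h2 : ∑ q, pr D' P q * -K ≤ ∑ q, pr D' P q *
      Real.log (outL D a P X (a q.1 + X q.2) / outL D' a P X (a q.1 + X q.2)) := by
    refine Finset.sum_le_sum fun q _ => ?_
    by_cases hq : pr D' P q = 0
    · simp [hq]
    have p1 := outL_pos hD' hP a X (left_ne_zero_of_mul hq) (right_ne_zero_of_mul hq)
    have p2 := cap_pos hD hP a X hm q.1 (right_ne_zero_of_mul hq)
    refine mul_le_mul_of_nonneg_left ((Real.le_log_iff_exp_le (div_pos p2 p1)).2 ?_)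
      ((hD'.pr hP).nn q)
    rw [le_div_iff₀ p1, Real.exp_neg, inv_mul_le_iff₀ (Real.exp_pos K), outL_eq, outL_eq,
      Finset.mul_sum]
    exact Finset.sum_le_sum fun n _ => by
      rw [← mul_assoc]
      exact mul_le_mul_of_nonneg_right (hK n) (law_nonneg hP.nn X _)
  rw [← Finset.sum_mul, (hD'.pr hP).one] at h2
  linarith

end Crest.Agent.R100.Ent
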