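import Crest.Agent.R100.RunDefs

/-!
# Row 100, LIFE (helper45): one life of one family; definitions and the interface `LIFE`
`h y v` is the function of the cell `y` AFTER the removals made at the node `v`.
-/

set_option autoImplicit false

open MeasureTheory Set

noncomputable section

namespace Crest.Agent.R100.Life

open Crest.Agent.R100 Crest.Agent.R100.Low Crest.Agent.R100.Run

/-- `m = log (2 + log R)` -/
def mm (R : ℝ) : ℝ := Real.log (2 + Real.log R)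

/-- the mesh of the lattices -/
def kap (R : ℝ) : ℝ := (mm R ^ 70)⁻¹

variable {Y Ω : Type} [Fintype Y] [Fintype Ω]

/-- the coefficient at the node `v` of the function that the cell `y` has at the node `w` -/
def cf (h : Y → List Bool → ℝ → ℝ) (α ℓ ξ : ℝ) (y : Y) (w v : List Bool) : ℂ :=
  U (fun t => (h y w t : ℂ)) α ℓ ξ v

/-- the average over the node `v` of the function that the cell `y` has at the node `w` -/
def ms (h : Y → List Bool → ℝ → ℝ) (α ℓ : ℝ) (y : Y) (w v : List Bool) : ℝ :=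
  av (h y w) (nd α ℓ v) (ln ℓ v)

/-- the size of the frequency `ξ` at the node `v` -/
def SS (h : Y → List Bool → ℝ → ℝ) (α ℓ ξ : ℝ) (v : List Bool) : ℝ := ∑ y, ‖cf h α ℓ ξ y v v‖

/-- the martingale increment of the cell `y` at the node `v` -/
def dd (h : Y → List Bool → ℝ → ℝ) (α ℓ ξ : ℝ) (y : Y) (v : List Bool) : ℂ :=
  cf h α ℓ ξ y v (v ++ [false]) - cf h α ℓ ξ y v v

/-- the lattice of the node `v` -/
def lat (κ ℓ : ℝ) (v : List Bool) (N : ℤ) : ℝ := N * κ / ln ℓ v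

open Classical in
/-- one life: cells `h`, alive nodes `A`, level `P`, mask `(lam, Z)`, bin bound `μ` -/
structure Data (R P μ : ℝ) (h : Y → List Bool → ℝ → ℝ) (α ℓ : ℝ) (A : List Bool → Prop)
    (lam Z : Ω → ℝ) : Prop where
  hl : 0 < ℓ
  hP : 0 < P
  hμ : 0 < μ
  meas : ∀ y v, Measurable (h y v)
  nn : ∀ y v t, 0 ≤ h y v t
  dec : ∀ y v c t, h y (v ++ [c]) t ≤ h y v t
  sup : ∀ y t, h y [] t ≤ Real.exp (3 * R) * P
  card : Real.log (Fintype.card Y) ≤ R / mm R ^ 40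
  her : ∀ v k, A v → A (v.take k)
  mass : ∀ v, A v → ∑ y, ms h α ℓ y v v ≤ P
  gap : ∀ v c, A (v ++ [c]) → (∀ y, h y (v ++ [c]) = h y v) ∨
    P / mm R ^ 30 ≤ ∑ y, (ms h α ℓ y v (v ++ [c]) - ms h α ℓ y (v ++ [c]) (v ++ [c]))
  lnn : ∀ ω, 0 ≤ lam ω
  lone : ∑ ω, lam ω = 1
  bin : ∀ v, A v → ∀ a : ℝ, ∑ ω, (if a ≤ Z ω ∧ Z ω ≤ a + 1 / ln ℓ v then lam ω else 0) ≤ μ
  cnt : ∀ v, A v → ∀ j : ℕ, (2 : ℝ) ^ j ≤ mm R ^ 3 → ∀ F : Finset ℤ,
    (∀ N ∈ F, P / 2 ^ j ≤ SS h α ℓ (lat (kap R) ℓ v N) v) →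
      (F.card : ℝ) ≤ Real.exp (4 * (2 : ℝ) ^ ((j : ℝ) / 4) * (R / mm R)) / μ

open Classical in
/-- the cost of the member `(l, ω)` on the window `[s, t)` at the frequency `ζ` -/
def Wn (h : Y → List Bool → ℝ → ℝ) (α ℓ : ℝ) (A : List Bool → Prop) (φ : Y → ℂ) (ζ : ℝ)
    (l : List Bool) (s t : ℕ) : ℂ :=
  wD (fun v => if A v then ∑ y, φ y * dd h α ℓ ζ y v else 0) l s t

/-- **LIFE**: one life costs `C P R / m`. -/
def LIFE : Prop :=
  ∃ C R₀ : ℝ, ∀ (R P μ : ℝ) (Y Ω : Type) [Fintype Y] [Fintype Ω] (h : Y → List Bool → ℝ → ℝ)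
    (α ℓ : ℝ) (A : List Bool → Prop) (lam Z : Ω → ℝ) (φ : Ω → Y → ℂ) (n : ℕ)
    (ξ : List Bool → ℝ), R₀ ≤ R → Data R P μ h α ℓ A lam Z → (∀ ω y, ‖φ ω y‖ ≤ 1) →
      ∑ ω, lam ω * avg n (fun l => ‖Wn h α ℓ A (φ ω) (ξ l + Z ω) l 0 (n - 1)‖) ≤
        C * P * (R / mm R)

end Crest.Agent.R100.Life
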