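import Crest.Agent.R100.AdPlusC
import Crest.Agent.R100.Birth
import Crest.Agent.R100.LifeDefs

/-! # Row 100, STRUCT (helper54): the state-free capture lemma -/

set_option autoImplicit false

open MeasureTheory Set Filter

noncomputable section

namespace Crest.Agent.R100.C54

open Crest.Agent.R100 Crest.Agent.R100.Low Crest.Agent.R100.Life Crest.Agent.R100.Birth
  Crest.Agent.R100.Ent

theorem num_w : ∃ R₀ : ℝ, ∀ R, R₀ ≤ R → 2 ≤ R ∧ 1 ≤ mm R ∧ ∃ w : ℝ, 10 ^ 9 ≤ w ∧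
    5 * R = Real.exp (w ^ 100) ∧ 400 * mm R ^ 24 ≤ w ∧ w ^ 100 ≤ 2 * R := by
  have h1 := (Real.isLittleO_pow_log_id_atTop (n := 24)).bound
    (c := 1 / (400 * 102 ^ 24)) (by positivity)
  obtain ⟨W, hW⟩ := eventually_atTop.1 h1
  set W' : ℝ := max W (10 ^ 9) with hW'
  refine ⟨max 3 (Real.exp (W' ^ 100)), fun R hR => ?_⟩
  have hR3 : 3 ≤ R := (le_max_left _ _).trans hR
  have hR4 : Real.exp (W' ^ 100) ≤ R := (le_max_right _ _).trans hR
  have hW0 : (10 : ℝ) ^ 9 ≤ W' := le_max_right _ _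
  have hlog1 : 1 ≤ Real.log R := by
    rw [Real.le_log_iff_exp_le (by linarith)]
    linarith [Real.exp_one_lt_d9]
  have hm1 : 1 ≤ mm R := by
    unfold mm
    rw [Real.le_log_iff_exp_le (by linarith)]
    linarith [Real.exp_one_lt_d9]
  set x : ℝ := Real.log (5 * R) with hx
  have hxR : Real.log R ≤ x := Real.log_le_log (by linarith) (by linarith)
  have hx0 : 0 ≤ x := by linarith
  set w : ℝ := x ^ (((100 : ℕ) : ℝ)⁻¹) with hw
  have hw100 : w ^ 100 = x := Real.rpow_inv_natCast_pow hx0 (by norm_num)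
  have hw0 : 0 ≤ w := Real.rpow_nonneg hx0 _
  have hWw : W' ≤ w := by
    refine le_of_pow_le_pow_left₀ (n := 100) (by norm_num) hw0 ?_
    rw [hw100]
    refine le_trans ?_ hxR
    rw [Real.le_log_iff_exp_le (by linarith)]
    exact hR4
  have hw9 : (10 : ℝ) ^ 9 ≤ w := hW0.trans hWw
  have hlw : 1 ≤ Real.log w := by
    rw [Real.le_log_iff_exp_le (by linarith)]
    linarith [Real.exp_one_lt_d9]
  have hmw : mm R ≤ 102 * Real.log w := by
    unfold mm
    have e1 : Real.log (2 + Real.log R) ≤ Real.log (3 * w ^ 100) :=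
      Real.log_le_log (by linarith) (by rw [hw100]; linarith)
    rw [Real.log_mul (by norm_num) (by positivity), Real.log_pow] at e1
    have e2 : Real.log 3 ≤ 2 := by
      have := Real.log_le_sub_one_of_pos (x := 3) (by norm_num)
      linarith
    push_cast at e1
    linarith
  refine ⟨by linarith, hm1, w, hw9, ?_, ?_, ?_⟩
  · rw [hw100, hx, Real.exp_log (by linarith)]
  · have e1 := hW w ((le_max_left _ _).trans hWw)
    simp only [id, Real.norm_eq_abs] at e1
    rw [abs_of_nonneg (by positivity), abs_of_nonneg hw0] at e1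
    have e2 : mm R ^ 24 ≤ (102 * Real.log w) ^ 24 := pow_le_pow_left₀ (by linarith) hmw 24
    rw [mul_pow] at e2
    have e3 : 400 * 102 ^ 24 * Real.log w ^ 24 ≤ w := by
      rw [one_div, inv_mul_eq_div, le_div_iff₀ (by positivity)] at e1
      linarith
    linarith
  · rw [hw100, hx, Real.log_mul (by norm_num) (by linarith)]
    have e1 := Real.log_le_sub_one_of_pos (x := R) (by linarith)
    have e2 : Real.log 5 ≤ 4 := by
      have := Real.log_le_sub_one_of_pos (x := 5) (by norm_num)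
      linarith
    linarith

/-- the measure of a cell -/
def nu (f : ℝ → ℝ) (α ℓ : ℝ) : Measure ℝ :=
  (volume.restrict (Ioc α (α + ℓ))).withDensity fun t => ENNReal.ofReal (f t)

theorem nu_le {f : ℝ → ℝ} {c : ℝ} (h : ∀ t, f t ≤ c) (α ℓ : ℝ) :
    nu f α ℓ ≤ ENNReal.ofReal c • volume.restrict (Ioc α (α + ℓ)) := by
  rw [← withDensity_const]
  exact withDensity_mono (Eventually.of_forall fun t => ENNReal.ofReal_le_ofReal (h t))

theorem nu_fin {f : ℝ → ℝ} {c : ℝ} (h : ∀ t, f t ≤ c) (α ℓ : ℝ) : IsFiniteMeasure (nu f α ℓ) := by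
  refine ⟨lt_of_le_of_lt (nu_le h α ℓ univ) ?_⟩
  simp [ENNReal.mul_lt_top]

theorem nu_int {E : Type*} [NormedAddCommGroup E] [NormedSpace ℝ E] {f : ℝ → ℝ}
    (hf : Measurable f) (h0 : ∀ t, 0 ≤ f t) (α : ℝ) {ℓ : ℝ} (hℓ : 0 < ℓ) (φ : ℝ → E) :
    ∫ t, φ t ∂nu f α ℓ = ∫ t in α..α + ℓ, f t • φ t := by
  unfold nu
  rw [integral_withDensity_eq_integral_toReal_smul hf.ennreal_ofReal
    (Eventually.of_forall fun t => ENNReal.ofReal_lt_top),
    intervalIntegral.integral_of_le (by linarith)]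
  simp only [ENNReal.toReal_ofReal (h0 _)]

theorem nu_real {f : ℝ → ℝ} (hf : Measurable f) (h0 : ∀ t, 0 ≤ f t) (α : ℝ) {ℓ : ℝ} (hℓ : 0 < ℓ)
    {S : Set ℝ} (hS : MeasurableSet S) : (nu f α ℓ).real S = ℓ * av (S.indicator f) α ℓ := by
  rw [← integral_indicator_one hS, nu_int hf h0 α hℓ, av, mul_div_cancel₀ _ hℓ.ne']
  congr 1
  funext t
  by_cases ht : t ∈ S <;> simp [ht]

theorem nu_ex {f : ℝ → ℝ} (hf : Measurable f) (h0 : ∀ t, 0 ≤ f t) (α : ℝ) {ℓ : ℝ} (hℓ : 0 < ℓ)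
    (ξ : ℝ) : ‖∫ t, ex ξ t ∂nu f α ℓ‖ = ℓ * ‖cu (fun t => (f t : ℂ)) ξ α ℓ‖ := by
  rw [nu_int hf h0 α hℓ, cu, norm_div, Complex.norm_real, Real.norm_of_nonneg hℓ.le,
    mul_div_cancel₀ _ hℓ.ne']
  simp only [Complex.real_smul]

theorem cu_le_av {f : ℝ → ℝ} (h0 : ∀ t, 0 ≤ f t) (α : ℝ) {ℓ : ℝ} (hℓ : 0 < ℓ)
    (ξ : ℝ) : ‖cu (fun t => (f t : ℂ)) ξ α ℓ‖ ≤ av f α ℓ := by
  rw [cu, norm_div, Complex.norm_real, Real.norm_of_nonneg hℓ.le, av]
  refine div_le_div_of_nonneg_right ?_ hℓ.le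
  refine (intervalIntegral.norm_integral_le_integral_norm (by linarith)).trans (le_of_eq ?_)
  congr 1
  funext t
  rw [norm_mul, P46.norm_ex, mul_one, Complex.norm_real, Real.norm_of_nonneg (h0 t)]

open Classical in
/-- **CAPTURE.** -/
theorem capture : ∃ R₀ : ℝ, ∀ (R : ℝ) (Y : Type) [Fintype Y] (h : Y → ℝ → ℝ) (α ℓ P : ℝ) (j : ℕ)
    (F : Finset ℤ) (T δ : ℝ), R₀ ≤ R → (∀ y, Measurable (h y)) →
    (∀ y t, 0 ≤ h y t ∧ h y t ≤ 2 * Real.exp R) → Real.log (Fintype.card Y) ≤ R → 0 < ℓ →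
    Real.exp (-R) ≤ P → ∑ y, av (h y) α ℓ ≤ P → (2 : ℝ) ^ j ≤ mm R ^ 3 →
    (∀ N ∈ F, P / 2 ^ j ≤ ∑ y, ‖cu (fun t => (h y t : ℂ)) (N * kap R / ℓ) α ℓ‖) →
    1 ≤ T → T ≤ Real.exp (3 * R) → T < F.card →
    ∃ (m k : ℕ) (B : Y → Fin m → Set ℝ) (c : Y → Fin m → ℝ) (lam Z : Fin k → ℝ) (Liv : ℕ → Prop),
      (∀ y i, MeasurableSet (B y i)) ∧ (∀ y i i', i ≠ i' → Disjoint (B y i) (B y i')) ∧
      (m : ℝ) ≤ Real.exp (R / mm R ^ 50) ∧ (∀ ω, 0 ≤ lam ω) ∧ ∑ ω, lam ω = 1 ∧ Sym lam Z ∧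
      (∀ y i, ∀ t ∈ B y i, 1 / 2 ≤ Fc lam Z (t - c y i)) ∧
      P / (4 * ((2 : ℝ) ^ j) ^ 3) ≤ ∑ y, ∑ i, av ((B y i).indicator (h y)) α ℓ ∧
      (∀ d d', d ≤ d' → Liv d' → Liv d) ∧
      (∀ d, Liv d → ∀ x : ℝ, ∑ ω, (if x ≤ Z ω ∧ Z ω ≤ x + 2 ^ d / ℓ then lam ω else 0) ≤
        120 * Real.exp (R / mm R ^ 50 + δ) / T) ∧
      (∀ d, ¬ Liv d → ∀ y i, avg d (fun v =>
        if ∃ s ∈ B y i, s ∈ Icc (nd α ℓ v) (nd α ℓ v + ln ℓ v) then 1 else 0) ≤
          32 / kap R * Real.exp (-δ)) ∧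
      (∀ y i (g : ℝ → ℝ), Measurable g → (∀ t, 0 ≤ g t ∧ g t ≤ Real.exp R) →
        av ((B y i).indicator g) α ℓ ≤ 16 / kap R * Real.exp (R + R / mm R ^ 50) / T) := by
  obtain ⟨R₀, hR₀⟩ := num_w
  refine ⟨R₀, fun R Y _ h α ℓ P j F T δ hR hm hb hY hℓ hP hmass hj hF hT1 hT3 hTF => ?_⟩
  obtain ⟨hR2, hm1, w, hw9, hwR, hwm, hw100⟩ := hR₀ R hR
  have hP0 : 0 < P := (Real.exp_pos _).trans_le hP
  have hκ0 : 0 < kap R := by unfold kap; positivity
  have hκ1 : kap R ≤ 1 := by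
    unfold kap
    exact inv_le_one_of_one_le₀ (one_le_pow₀ hm1)
  have hw0 : 0 < w := by linarith [show (0 : ℝ) < 10 ^ 9 by norm_num]
  have hw1 : 1 ≤ w := by linarith [show (1 : ℝ) ≤ 10 ^ 9 by norm_num]
  have h2j : (1 : ℝ) ≤ 2 ^ j := one_le_pow₀ (by norm_num)
  -- the sub-family of frequencies
  obtain ⟨F', hF'F, hF'c⟩ := Finset.exists_subset_card_eq (s := F) (n := ⌊T⌋₊ + 1)
    (Nat.succ_le_of_lt ((Nat.floor_lt (by linarith)).2 hTF))
  have hcard : (Fintype.card F' : ℝ) = (⌊T⌋₊ : ℝ) + 1 := by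
    rw [Fintype.card_coe, hF'c]; push_cast; rfl
  have hcT : T < (Fintype.card F' : ℝ) := by rw [hcard]; exact Nat.lt_floor_add_one T
  have hcT2 : (Fintype.card F' : ℝ) ≤ 2 * T := by
    rw [hcard]; linarith [Nat.floor_le (show 0 ≤ T by linarith)]
  have hc0 : (0 : ℝ) < Fintype.card F' := by linarith
  set D : F' → ℝ := fun _ => (Fintype.card F' : ℝ)⁻¹ with hD
  have hDp : IsProb D := ⟨fun _ => by positivity, by
    simp only [hD, Finset.sum_const, Finset.card_univ, nsmul_eq_mul]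
    exact mul_inv_cancel₀ hc0.ne'⟩
  haveI : ∀ y, IsFiniteMeasure (nu (h y) α ℓ) := fun y => nu_fin (fun t => (hb y t).2) α ℓ
  set p : ℝ := ∑ y, av (h y) α ℓ with hp
  have htot : ∑ y, (nu (h y) α ℓ).real univ = ℓ * p := by
    rw [hp, Finset.mul_sum]
    refine Finset.sum_congr rfl fun y _ => ?_
    rw [nu_real (hm y) (fun t => (hb y t).1) α hℓ MeasurableSet.univ, indicator_univ]
  have hFne : F.Nonempty := by
    rw [← Finset.card_pos]
    exact_mod_cast (show (0 : ℝ) < F.card by linarith)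
  have hpP : P / 2 ^ j ≤ p := by
    obtain ⟨N, hN⟩ := hFne
    exact (hF N hN).trans (Finset.sum_le_sum fun y _ => cu_le_av (fun t => (hb y t).1) α hℓ _)
  have hp0 : 0 < p := lt_of_lt_of_le (by positivity) hpP
  set s : ℝ := ((2 : ℝ) ^ j)⁻¹ with hs
  have hs0 : 0 < s := by positivity
  have hs1 : s ≤ 1 := inv_le_one_of_one_le₀ h2j
  have hsm : (mm R ^ 3)⁻¹ ≤ s := inv_anti₀ (by positivity) hj
  have hsP : P / 2 ^ j = s * P := by rw [hs]; ring
  have hmm0 : 0 < mm R := by linarith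
  have hs8 : s ^ 8 ≤ 1 := pow_le_one₀ hs0.le hs1
  obtain ⟨E, m, c, B, hE, hED, hmle, hBm, hBd, hpure, hcapt⟩ :=
    AdP.ad_line (θ := kap R / ℓ) (α := α) (ℓ := ℓ) (c := 2 * Real.exp R) (s := s) (w := w)
      (R := 5 * R) (ε := s ^ 8 / 400) (by positivity)
      (by rw [div_mul_cancel₀ _ hℓ.ne']; linarith [Real.pi_gt_three]) (by positivity)
      (fun y => nu (h y) α ℓ) (fun y => nu_le (fun t => (hb y t).2) α ℓ)
      (by rw [htot]; positivity) (fun N : F' => (N : ℤ)) hs0 hs1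
      (fun N => by
        rw [htot]
        have e1 := hF N (hF'F N.2)
        have e2 : ∑ y, ‖∫ t, ex (kap R / ℓ * ((N : ℤ) : ℝ)) t ∂nu (h y) α ℓ‖ =
            ℓ * ∑ y, ‖cu (fun t => (h y t : ℂ)) ((N : ℤ) * kap R / ℓ) α ℓ‖ := by
          rw [Finset.mul_sum]
          refine Finset.sum_congr rfl fun y _ => ?_
          rw [nu_ex (hm y) (fun t => (hb y t).1) α hℓ]
          congr 3
          ring
        rw [e2]
        rw [hsP] at e1
        have e3 : s * p ≤ s * P := mul_le_mul_of_nonneg_left hmass hs0.le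
        nlinarith)
      hw9 hwR
      (by
        have e1 : ((mm R ^ 3)⁻¹) ^ 8 ≤ s ^ 8 := pow_le_pow_left₀ (by positivity) hsm 8
        have e2 : ((mm R ^ 3)⁻¹) ^ 8 = (mm R ^ 24)⁻¹ := by rw [inv_pow, ← pow_mul]
        have e3 : 1 / w ≤ (mm R ^ 24)⁻¹ / 400 := by
          rw [← one_div, div_div, mul_comm]
          exact one_div_le_one_div_of_le (by positivity) hwm
        linarith)
      (by have : 0 ≤ s ^ 8 := by positivity
          linarith)
      (by
        rw [Real.log_le_iff_le_exp hc0]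
        have e1 : Real.exp (5 * R) = Real.exp (3 * R) * Real.exp (2 * R) := by
          rw [← Real.exp_add]; ring_nf
        have e2 := Real.add_one_le_exp (2 * R)
        have e3 := Real.exp_pos (3 * R)
        nlinarith)
      (by
        rw [htot]
        have e1 : (Fintype.card Y : ℝ) ≤ Real.exp R := by
          rcases Nat.eq_zero_or_pos (Fintype.card Y) with h0 | h0
          · rw [h0]; simp [Real.exp_nonneg]
          · exact (Real.log_le_iff_le_exp (by exact_mod_cast h0)).1 hY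
        have e2 : 128 * mm R ^ 79 ≤ Real.exp (2 * R) := by
          have a1 : mm R ^ 24 ≤ w := by nlinarith [pow_pos hmm0 24]
          have a2 : mm R ^ 79 ≤ mm R ^ 96 := pow_le_pow_right₀ hm1 (by norm_num)
          have a3 : mm R ^ 96 ≤ w ^ 4 := by
            rw [show 96 = 24 * 4 by norm_num, pow_mul]
            exact pow_le_pow_left₀ (by positivity) a1 4
          have a4 : w ^ 5 ≤ w ^ 100 := pow_le_pow_right₀ hw1 (by norm_num)
          have a5 : 128 * w ^ 4 ≤ w ^ 5 := by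
            rw [pow_succ w 4, mul_comm]
            exact mul_le_mul_of_nonneg_left (by linarith [show (128 : ℝ) ≤ 10 ^ 9 by norm_num])
              (by positivity)
          have a6 := Real.add_one_le_exp (2 * R)
          linarith
        have e3 : (mm R ^ 79)⁻¹ * Real.exp (-R) ≤ s ^ 2 * p * kap R := by
          have a1 : (mm R ^ 79)⁻¹ = ((mm R ^ 3)⁻¹) ^ 3 * kap R := by
            unfold kap; field_simp
          have a2 : ((mm R ^ 3)⁻¹) ^ 3 ≤ s ^ 3 := pow_le_pow_left₀ (by positivity) hsm 3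
          have a3 : s * Real.exp (-R) ≤ p := by
            rw [hsP] at hpP
            exact (mul_le_mul_of_nonneg_left hP hs0.le).trans hpP
          rw [a1]
          calc ((mm R ^ 3)⁻¹) ^ 3 * kap R * Real.exp (-R) ≤ s ^ 3 * kap R * Real.exp (-R) := by
                gcongr
            _ = s ^ 2 * (s * Real.exp (-R)) * kap R := by ring
            _ ≤ _ := by gcongr
        have e4 : s ^ 2 * (ℓ * p) * (kap R / ℓ) = s ^ 2 * p * kap R := by field_simp
        rw [e4]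
        have e5 : Real.exp (5 * R) =
            Real.exp R * Real.exp R * Real.exp R * Real.exp (2 * R) := by
          rw [← Real.exp_add, ← Real.exp_add, ← Real.exp_add]; ring_nf
        have e6 : Real.exp (-R) * Real.exp R = 1 := by rw [← Real.exp_add]; simp
        have e7 := Real.exp_pos R
        calc 16 * Real.pi * Fintype.card Y * (2 * Real.exp R)
            ≤ 16 * 4 * Real.exp R * (2 * Real.exp R) := by
              gcongr
              exact Real.pi_le_four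
          _ = (mm R ^ 79)⁻¹ * Real.exp (-R) *
              (Real.exp R * Real.exp R * Real.exp R * (128 * mm R ^ 79)) := by
              have : (mm R ^ 79)⁻¹ * mm R ^ 79 = 1 := inv_mul_cancel₀ (by positivity)
              linear_combination (-128 * Real.exp R * Real.exp R) * e6 -
                (128 * Real.exp R * Real.exp R * Real.exp (-R) * Real.exp R) * this
          _ ≤ _ := by rw [e5]; gcongr)
      hDp
  have hK : Real.exp (3 * (5 * R) / w ^ 12) ≤ Real.exp (R / mm R ^ 50) := by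
    refine Real.exp_le_exp.2 ?_
    have a1 : mm R ^ 24 ≤ w := by nlinarith [pow_pos hmm0 24]
    have a2 : mm R ^ 50 ≤ mm R ^ 72 := pow_le_pow_right₀ hm1 (by norm_num)
    have a3 : mm R ^ 72 ≤ w ^ 3 := by
      rw [show 72 = 24 * 3 by norm_num, pow_mul]
      exact pow_le_pow_left₀ (by positivity) a1 3
    have a4 : w ^ 4 ≤ w ^ 12 := pow_le_pow_right₀ hw1 (by norm_num)
    have a5 : 15 * w ^ 3 ≤ w ^ 4 := by
      rw [pow_succ w 3, mul_comm]
      exact mul_le_mul_of_nonneg_left (by linarith [show (15 : ℝ) ≤ 10 ^ 9 by norm_num])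
        (by positivity)
    rw [div_le_div_iff₀ (by positivity) (by positivity)]
    nlinarith
  set m0 : ℝ := Real.exp (R / mm R ^ 50) / T with hm0
  have hm00 : 0 < m0 := by positivity
  have hEm : ∀ N, E N ≤ m0 := fun N => by
    refine (hED N).trans ?_
    rw [hm0, div_eq_mul_inv]
    exact mul_le_mul hK (inv_anti₀ (by linarith) hcT.le) (by positivity) (by positivity)
  have hinj : Function.Injective (fun N : F' => (N : ℤ)) := Subtype.val_injective
  have hθ : 0 < kap R / ℓ := by positivity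
  obtain ⟨Q, Z, Liv, q0, q1, qS, qL, qF, qB, qD⟩ := birth hE.nn hE.one hinj hEm hθ α hℓ
    (θ := m0 * Real.exp δ) (by positivity)
  have hpure' : ∀ y i, ∀ t ∈ B y i,
      1 - ‖Eh E (fun N : F' => (N : ℤ)) (kap R / ℓ) (t - c y i)‖ ^ 2 ≤ 1 / 100 := by
    intro y i t ht
    have := hpure y i t ht
    unfold Eh
    linarith
  have hper : 1 + 2 * Real.pi / (kap R / ℓ * ℓ) ≤ 8 / kap R := by
    rw [div_mul_cancel₀ _ hℓ.ne', le_div_iff₀ hκ0, add_mul, div_mul_cancel₀ _ hκ0.ne']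
    linarith [Real.pi_lt_d2]
  set e := (Fintype.equivFin ((F' × F') × Bool)).symm with he
  have hFc : ∀ τ, Fc (fun ω => Q (e ω)) (fun ω => Z (e ω)) τ = Fc Q Z τ := fun τ =>
    e.sum_comp fun ω => Q ω * Real.cos (Z ω * τ)
  refine ⟨m, _, B, c, fun ω => Q (e ω), fun ω => Z (e ω), Liv, hBm, hBd, hmle.trans hK,
    fun ω => q0 _, (e.sum_comp Q).trans q1, fun τ => ?_, fun y i t ht => ?_, ?_, qL,
    fun d hd x => ?_, fun d hd y i => ?_, fun y i g hg hg0 => ?_⟩
  · rw [hFc, ← qS τ]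
    exact e.sum_comp fun ω => (Q ω : ℂ) * ex (Z ω) τ
  · rw [hFc]
    have := qF (t - c y i)
    have := hpure' y i t ht
    linarith
  · rw [htot] at hcapt
    have e1 : ∑ y, ∑ i, (nu (h y) α ℓ).real (B y i) =
        ℓ * ∑ y, ∑ i, av ((B y i).indicator (h y)) α ℓ := by
      rw [Finset.mul_sum]
      refine Finset.sum_congr rfl fun y _ => ?_
      rw [Finset.mul_sum]
      exact Finset.sum_congr rfl fun i _ =>
        nu_real (hm y) (fun t => (hb y t).1) α hℓ (hBm y i)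
    rw [e1] at hcapt
    have e2 : P / (4 * ((2 : ℝ) ^ j) ^ 3) = s ^ 2 / 4 * (s * P) := by
      rw [hs]; field_simp
    rw [e2, ← hsP]
    refine le_of_mul_le_mul_left (le_trans ?_ hcapt) hℓ
    have : 0 ≤ ℓ * (s ^ 2 / 4) := by positivity
    nlinarith
  · refine le_trans (le_of_eq (e.sum_comp fun ω =>
      if x ≤ Z ω ∧ Z ω ≤ x + 2 ^ d / ℓ then Q ω else 0)) ((qB d hd x).trans (le_of_eq ?_))
    rw [hm0, Real.exp_add]; ring
  · refine le_trans ?_ ((qD d hd (c y i)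
      (fun v => ∃ s ∈ B y i, s ∈ Icc (nd α ℓ v) (nd α ℓ v + ln ℓ v))
      fun v _ ⟨s, hs1, hs2⟩ => ⟨s, hs2, hpure' y i s hs1⟩).trans ?_)
    · exact le_of_eq (by congr)
    · have : 4 * (1 + 2 * Real.pi / (kap R / ℓ * ℓ)) * m0 / (m0 * Real.exp δ) =
          4 * (1 + 2 * Real.pi / (kap R / ℓ * ℓ)) * Real.exp (-δ) := by
        rw [Real.exp_neg]; field_simp
      rw [this]
      refine mul_le_mul_of_nonneg_right ?_ (Real.exp_nonneg _)
      have : 32 / kap R = 4 * (8 / kap R) := by ring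
      linarith
  · refine (birth_mass hE.nn hE.one hinj hEm hθ α hℓ (c y i) (hg.indicator (hBm y i))
      (Real.exp_nonneg R) (fun t => ?_) (fun t _ ht => ?_)).trans ?_
    · by_cases ht : t ∈ B y i
      · simpa [ht] using hg0 t
      · simp [ht, Real.exp_nonneg]
    · have := hpure' y i t (mem_of_indicator_ne_zero ht)
      linarith
    · have : 16 / kap R * Real.exp (R + R / mm R ^ 50) / T =
          2 * Real.exp R * (8 / kap R) * m0 := by
        rw [hm0, Real.exp_add]; ring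
      rw [this]
      gcongr

end Crest.Agent.R100.C54
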