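import Crest.Agent.R100.AdPlusC
import Crest.Agent.R100.Birth
import Crest.Agent.R100.LifeDefs

/-! # Row 100, CAPTURE in function form (helper79) -/

set_option autoImplicit false

noncomputable section

namespace Crest.Agent.R100.AdP

open MeasureTheory Set Crest.Agent.R100 Crest.Agent.R100.Low Crest.Agent.R100.Life
  Crest.Agent.R100.Birth

/-- the measure of a cell -/
def nu (g : ℝ → ℝ) (α ℓ : ℝ) : Measure ℝ :=
  (volume.restrict (Ioc α (α + ℓ))).withDensity fun t => ((g t / ℓ).toNNReal : ENNReal)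

theorem nu_le {g : ℝ → ℝ} {α ℓ M : ℝ} (hℓ : 0 < ℓ) (hM : ∀ t, g t ≤ M) :
    nu g α ℓ ≤ ENNReal.ofReal (M / ℓ) • volume.restrict (Ioc α (α + ℓ)) := by
  rw [← withDensity_const]
  exact withDensity_mono (Filter.Eventually.of_forall fun t =>
    ENNReal.ofReal_le_ofReal (div_le_div_of_nonneg_right (hM t) hℓ.le))

theorem nu_fin {g : ℝ → ℝ} {α ℓ M : ℝ} (hℓ : 0 < ℓ) (hM : ∀ t, g t ≤ M) :
    IsFiniteMeasure (nu g α ℓ) := by
  refine ⟨lt_of_le_of_lt (nu_le hℓ hM univ) ?_⟩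
  simp only [Measure.smul_apply, smul_eq_mul]
  exact ENNReal.mul_lt_top ENNReal.ofReal_lt_top (measure_lt_top _ _)

theorem nu_int {E : Type} [NormedAddCommGroup E] [NormedSpace ℝ E] {g : ℝ → ℝ} {α ℓ : ℝ}
    (hℓ : 0 < ℓ) (hg : Measurable g) (h0 : ∀ t, 0 ≤ g t) (f : ℝ → E) :
    ∫ t, f t ∂nu g α ℓ = ∫ t in α..α + ℓ, (g t / ℓ) • f t := by
  rw [nu, integral_withDensity_eq_integral_smul (hg.div_const ℓ).real_toNNReal,
    intervalIntegral.integral_of_le (by linarith)]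
  refine integral_congr_ae (Filter.Eventually.of_forall fun t => ?_)
  simp only [NNReal.smul_def, Real.coe_toNNReal _ (div_nonneg (h0 t) hℓ.le)]

theorem nu_cu {g : ℝ → ℝ} {α ℓ : ℝ} (hℓ : 0 < ℓ) (hg : Measurable g) (h0 : ∀ t, 0 ≤ g t) (ξ : ℝ) :
    ∫ t, ex ξ t ∂nu g α ℓ = cu (fun t => (g t : ℂ)) ξ α ℓ := by
  rw [nu_int hℓ hg h0, cu, ← intervalIntegral.integral_div]
  congr 1; funext t
  rw [Complex.real_smul]; push_cast; ring

theorem nu_real {g : ℝ → ℝ} {α ℓ : ℝ} (hℓ : 0 < ℓ) (hg : Measurable g) (h0 : ∀ t, 0 ≤ g t)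
    {B : Set ℝ} (hB : MeasurableSet B) : (nu g α ℓ).real B = av (B.indicator g) α ℓ := by
  rw [← integral_indicator_one hB, nu_int hℓ hg h0, av, ← intervalIntegral.integral_div]
  congr 1; funext t
  by_cases ht : t ∈ B <;> simp [ht]

theorem cap_num : ∃ R₀ : ℝ, ∀ R, R₀ ≤ R → ∃ w : ℝ, 10 ^ 9 ≤ w ∧ 10 * R = Real.exp (w ^ 100) ∧
    1 ≤ mm R ∧ 32 * mm R ^ 24 ≤ w ∧ 3 * (10 * R) / w ^ 12 ≤ R / mm R ^ 50 ∧
    16 * Real.pi * mm R ^ 79 ≤ Real.exp (6 * R) ∧ 0 < R := by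
  have h := (Real.isLittleO_pow_log_id_atTop (n := 24)).bound
    (c := 1 / (32 * 101 ^ 24)) (by positivity)
  obtain ⟨w₀, hw₀⟩ := Filter.eventually_atTop.1 h
  set w₁ := max w₀ (10 ^ 9) with hw₁
  have w1 : (10 : ℝ) ^ 9 ≤ w₁ := le_max_right _ _
  refine ⟨max (Real.exp (w₁ ^ 100)) 36, fun R hR => ?_⟩
  have R1 : Real.exp (w₁ ^ 100) ≤ R := (le_max_left _ _).trans hR
  have R2 : 36 ≤ R := (le_max_right _ _).trans hR
  have L1 : w₁ ^ 100 ≤ Real.log R := by rw [Real.le_log_iff_exp_le (by linarith)]; exact R1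
  have L2 : Real.log R ≤ Real.log (10 * R) := Real.log_le_log (by linarith) (by linarith)
  have p1 : (1 : ℝ) ≤ w₁ ^ 100 := one_le_pow₀ (by linarith [show (1 : ℝ) ≤ 10 ^ 9 by norm_num])
  set w := Real.log (10 * R) ^ ((100 : ℕ) : ℝ)⁻¹ with hw
  have hp : w ^ 100 = Real.log (10 * R) := Real.rpow_inv_natCast_pow (by linarith) (by norm_num)
  have w0 : 0 ≤ w := Real.rpow_nonneg (by linarith) _
  have ww : w₁ ≤ w := by
    refine le_of_pow_le_pow_left₀ (n := 100) (by norm_num) w0 ?_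
    rw [hp]; linarith
  have w9 : (10 : ℝ) ^ 9 ≤ w := w1.trans ww
  have w30 : (30 : ℝ) ≤ w := le_trans (by norm_num) w9
  have m1 : 1 ≤ mm R := by
    rw [mm, Real.le_log_iff_exp_le (by linarith)]
    linarith [Real.exp_one_lt_d9]
  have m2 : mm R ≤ 101 * Real.log w := by
    have : (2 : ℝ) + Real.log R ≤ w ^ 101 := by
      have : (1 : ℝ) ≤ w ^ 100 := by linarith
      rw [pow_succ w 100]; nlinarith
    have h2 := Real.log_le_log (by linarith) this
    rw [Real.log_pow] at h2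
    exact_mod_cast h2
  have m3 : 32 * mm R ^ 24 ≤ w := by
    have h1 := hw₀ w ((le_max_left _ _).trans ww)
    rw [Real.norm_eq_abs, Real.norm_eq_abs, id, abs_of_nonneg w0] at h1
    have h2 := pow_le_pow_left₀ (by linarith) m2 24
    rw [mul_pow] at h2
    have h3 := le_abs_self (Real.log w ^ 24)
    have h4 : Real.log w ^ 24 ≤ 1 / (32 * 101 ^ 24) * w := h3.trans h1
    rw [div_mul_eq_mul_div, one_mul, le_div_iff₀ (by positivity)] at h4
    linarith
  have m4 : mm R ^ 24 ≤ w := by nlinarith [pow_nonneg (by linarith : 0 ≤ mm R) 24]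
  have m5 : ∀ k, mm R ^ (24 * k) ≤ w ^ k := fun k => by
    rw [pow_mul]; exact pow_le_pow_left₀ (by positivity) m4 k
  refine ⟨w, w9, by rw [hp, Real.exp_log (by linarith)], m1, m3, ?_, ?_, by linarith⟩
  · rw [div_le_div_iff₀ (by positivity) (by positivity)]
    have h1 : mm R ^ 50 ≤ w ^ 3 := (pow_le_pow_right₀ m1 (by norm_num)).trans (m5 3)
    have h2 : w ^ 4 ≤ w ^ 12 := pow_le_pow_right₀ (by linarith) (by norm_num)
    have h3 : 30 * w ^ 3 ≤ w ^ 4 := by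
      rw [pow_succ w 3, mul_comm]; exact mul_le_mul_of_nonneg_left w30 (by positivity)
    nlinarith
  · have h1 : mm R ^ 79 ≤ w ^ 4 := (pow_le_pow_right₀ m1 (by norm_num)).trans (m5 4)
    have h2 : w ^ 4 ≤ w ^ 100 := pow_le_pow_right₀ (by linarith) (by norm_num)
    have h3 : Real.log (10 * R) ≤ 10 * R := (Real.log_le_sub_one_of_pos (by linarith)).trans
      (by linarith)
    have h4 := Real.quadratic_le_exp_of_nonneg (by linarith : 0 ≤ 6 * R)
    have h5 : 16 * Real.pi * mm R ^ 79 ≤ 16 * 4 * (10 * R) :=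
      mul_le_mul (by linarith [Real.pi_le_four]) (by linarith) (by positivity) (by norm_num)
    nlinarith

theorem capture : ∃ R₀ : ℝ, ∀ (R P : ℝ) (Y : Type) [Fintype Y] (h : Y → ℝ → ℝ) (α ℓ : ℝ) (j : ℕ)
    (F : Finset ℤ), R₀ ≤ R → 0 < ℓ → 0 < P → (∀ y, Measurable (h y)) →
    (∀ y t, 0 ≤ h y t ∧ h y t ≤ Real.exp (3 * R) * P) →
    Real.log (Fintype.card Y) ≤ R / mm R ^ 40 → ∑ y, av (h y) α ℓ ≤ P →
    (2 : ℝ) ^ j ≤ mm R ^ 3 → F.Nonempty → Real.log F.card ≤ 10 * R →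
    (∀ N ∈ F, P / 2 ^ j ≤ ∑ y, ‖cu (fun t => (h y t : ℂ)) (N * kap R / ℓ) α ℓ‖) →
    ∃ (E : F → ℝ) (m : ℕ) (c : Y → Fin m → ℝ) (B : Y → Fin m → Set ℝ), (∀ i, 0 ≤ E i) ∧
      ∑ i, E i = 1 ∧ (∀ i, E i ≤ Real.exp (R / mm R ^ 50) / F.card) ∧
      (m : ℝ) ≤ Real.exp (R / mm R ^ 50) ∧ (∀ y k, MeasurableSet (B y k)) ∧
      (∀ y k k', k ≠ k' → Disjoint (B y k) (B y k')) ∧
      (∀ y k, ∀ t ∈ B y k,
        1 - ‖Eh E (fun i => i.1) (kap R / ℓ) (t - c y k)‖ ^ 2 ≤ 1 / 100) ∧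
      P / (4 * 8 ^ j) ≤ ∑ y, ∑ k, av ((B y k).indicator (h y)) α ℓ := by
  obtain ⟨R₀, hR₀⟩ := cap_num
  refine ⟨R₀, fun R P Y _ h α ℓ j F hR hℓ hP hm hb hY hav hj hF hFc hS => ?_⟩
  obtain ⟨w, w9, hw, m1, m3, m4, m5, R0⟩ := hR₀ R hR
  have w0 : 0 < w := lt_of_lt_of_le (by norm_num) w9
  have m0 : 0 < mm R := by linarith
  haveI : ∀ y, IsFiniteMeasure (nu (h y) α ℓ) := fun y => nu_fin hℓ fun t => (hb y t).2
  have hk0 : 0 < kap R := by unfold kap; positivity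
  have hk1 : kap R ≤ 1 := inv_le_one_of_one_le₀ (one_le_pow₀ m1)
  have eu : ∀ y, (nu (h y) α ℓ).real univ = av (h y) α ℓ := fun y => by
    rw [nu_real hℓ (hm y) (fun t => (hb y t).1) MeasurableSet.univ, indicator_univ]
  have ec : ∀ (N : ℤ) y, ∫ t, ex (kap R / ℓ * N) t ∂nu (h y) α ℓ =
      cu (fun t => (h y t : ℂ)) (N * kap R / ℓ) α ℓ := fun N y => by
    rw [nu_cu hℓ (hm y) (fun t => (hb y t).1)]; congr 1; ring
  set P' := ∑ y, (nu (h y) α ℓ).real univ with hP'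
  have j0 : (0 : ℝ) < 2 ^ j := by positivity
  have j1 : (1 : ℝ) ≤ 2 ^ j := one_le_pow₀ (by norm_num)
  have P1 : P' ≤ P := by simp only [hP', eu]; exact hav
  have P2 : P / 2 ^ j ≤ P' := by
    obtain ⟨N, hN⟩ := hF
    refine (hS N hN).trans (Finset.sum_le_sum fun y _ => ?_)
    rw [← ec]
    have := norm_integral_le_of_norm_le_const (μ := nu (h y) α ℓ) (C := 1)
      (f := fun t => ex (kap R / ℓ * N) t) (Filter.Eventually.of_forall fun t => by
        simp only [ex]; rw [← Complex.ofReal_neg, Complex.norm_exp_ofReal_mul_I])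
    simpa using this
  have P0 : 0 < P' := lt_of_lt_of_le (by positivity) P2
  have cF : (0 : ℝ) < F.card := by exact_mod_cast hF.card_pos
  have hD : Ent.IsProb (fun _ : F => (1 : ℝ) / F.card) :=
    ⟨fun _ => by positivity, by simp [cF.ne']⟩
  obtain ⟨E, m, c, B, hE, hED, hmm, hBm, hBd, hpur, hcap⟩ := ad_line (θ := kap R / ℓ) (α := α)
    (ℓ := ℓ) (c := Real.exp (3 * R) * P / ℓ) (s := 1 / 2 ^ j) (w := w) (R := 10 * R) (ε := 1 / w)
    (by positivity) (by rw [div_mul_cancel₀ _ hℓ.ne']; linarith [Real.pi_gt_three])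
    (by positivity) (fun y => nu (h y) α ℓ) (fun y => nu_le hℓ fun t => (hb y t).2) P0
    (fun i : F => i.1) (by positivity) (by rw [div_le_one j0]; exact j1)
    (fun n => by
      simp only [ec]
      refine le_trans ?_ (hS n.1 n.2)
      rw [div_mul_eq_mul_div, one_mul]
      exact div_le_div_of_nonneg_right P1 j0.le)
    w9 hw le_rfl
    (by
      rw [div_pow, one_pow, mul_one_div, div_le_div_iff₀ w0 (by positivity)]
      have := pow_le_pow_left₀ j0.le hj 8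
      rw [← pow_mul (mm R), show 3 * 8 = 24 by norm_num] at this
      linarith)
    (by simpa using hFc)
    (by
      have c1 : (Fintype.card Y : ℝ) ≤ Real.exp R := by
        rcases Nat.eq_zero_or_pos (Fintype.card Y) with h0 | h0
        · rw [h0]; simpa using (Real.exp_pos R).le
        · rw [← Real.log_le_iff_le_exp (by exact_mod_cast h0)]
          exact hY.trans (div_le_self R0.le (one_le_pow₀ m1))
      have j3 : ((2 : ℝ) ^ j) ^ 3 ≤ mm R ^ 9 := by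
        have := pow_le_pow_left₀ j0.le hj 3
        rwa [← pow_mul (mm R)] at this
      have e10 : Real.exp (10 * R) = Real.exp (6 * R) * (Real.exp R * Real.exp (3 * R)) := by
        rw [← Real.exp_add, ← Real.exp_add]; congr 1; ring
      calc 16 * Real.pi * Fintype.card Y * (Real.exp (3 * R) * P / ℓ)
          ≤ 16 * Real.pi * Real.exp R * (Real.exp (3 * R) * P / ℓ) := by gcongr
        _ = 1 / mm R ^ 9 * P * (kap R / ℓ) *
            (16 * Real.pi * mm R ^ 79 * (Real.exp R * Real.exp (3 * R))) := by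
          unfold kap; field_simp
        _ ≤ 1 / (2 ^ j) ^ 3 * P * (kap R / ℓ) *
            (Real.exp (6 * R) * (Real.exp R * Real.exp (3 * R))) := by gcongr
        _ = (1 / 2 ^ j) ^ 2 * (P / 2 ^ j) * (kap R / ℓ) * Real.exp (10 * R) := by
          rw [e10]; field_simp
        _ ≤ _ := by gcongr)
    hD
  have e1 := Real.exp_le_exp.2 m4
  refine ⟨E, m, c, B, hE.nn, hE.one, fun i => (hED i).trans ?_, hmm.trans e1, hBm, hBd,
    fun y k t ht => (hpur y k t ht).trans ?_, ?_⟩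
  · rw [mul_one_div]; gcongr
  · rw [mul_one_div, div_le_div_iff₀ w0 (by norm_num)]
    linarith [show (400 : ℝ) ≤ 10 ^ 9 by norm_num]
  · simp only [← fun y k => nu_real (α := α) hℓ (hm y) (fun t => (hb y t).1) (hBm y k)]
    refine le_trans ?_ hcap
    calc P / (4 * 8 ^ j) = (1 / 2 ^ j) ^ 2 / 4 * (P / 2 ^ j) := by
          rw [show (8 : ℝ) ^ j = (2 ^ j) ^ 3 by rw [← pow_mul, mul_comm, pow_mul]; norm_num]
          field_simp
      _ ≤ _ := by gcongr

end Crest.Agent.R100.AdP
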