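import Crest.Agent.R100.InstDefs
import Crest.Agent.R100.Capt79

/-! # Row 100, STRUCT instance: a trigger gives pieces (helper56) -/

set_option autoImplicit false

open MeasureTheory Set

noncomputable section

namespace Crest.Agent.R100.Inst

open Crest.Agent.R100 Crest.Agent.R100.Low Crest.Agent.R100.Str Crest.Agent.R100.Life
open Crest.Agent.R100.AdP

theorem c56_num {R : ℝ} (hb : Big R) :
    32 * Real.pi * mm R ^ 79 * Real.exp (40 * mm R) ≤ Real.exp (3 * R) := by
  have m4 := hb.m4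
  have m0 : 0 < mm R := by linarith [show (0 : ℝ) < 10 ^ 4 by norm_num]
  have m1 : 1 ≤ mm R := by linarith [show (1 : ℝ) ≤ 10 ^ 4 by norm_num]
  have h1 : mm R ≤ Real.exp (mm R) := by linarith [Real.add_one_le_exp (mm R)]
  have h2 : mm R ^ 79 ≤ Real.exp (79 * mm R) := by
    have := pow_le_pow_left₀ m0.le h1 79
    rwa [← Real.exp_nat_mul] at this
  have h3 : 32 * Real.pi ≤ Real.exp (mm R) := by
    linarith [Real.pi_le_four, show (128 : ℝ) ≤ 10 ^ 4 by norm_num]
  have h4 : Real.exp (1000 * mm R) ≤ Real.exp (3 * R) := by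
    have a1 : Real.exp (1000 * mm R) ≤ R * Real.exp (1000 * mm R) :=
      le_mul_of_one_le_left (Real.exp_pos _).le hb.one
    have a2 : R / mm R ^ 50 ≤ R := div_le_self (by linarith [hb.one]) (one_le_pow₀ m1)
    exact a1.trans (hb.master.trans (Real.exp_le_exp.2 (by linarith [hb.one])))
  calc 32 * Real.pi * mm R ^ 79 * Real.exp (40 * mm R)
      ≤ Real.exp (mm R) * Real.exp (79 * mm R) * Real.exp (40 * mm R) := by gcongr
    _ = Real.exp (120 * mm R) := by rw [← Real.exp_add, ← Real.exp_add]; congr 1; ring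
    _ ≤ Real.exp (1000 * mm R) := Real.exp_le_exp.2 (by linarith)
    _ ≤ _ := h4

theorem c56_fun {R P : ℝ} (hB : Big R) {Y : Type} [Fintype Y] (h : Y → ℝ → ℝ) (α : ℝ) {ℓ : ℝ}
    (j : ℕ) (F : Finset ℤ) (hℓ : 0 < ℓ) (hP : Real.exp (-(40 * mm R)) ≤ P)
    (hm : ∀ y, Measurable (h y)) (hb : ∀ y t, 0 ≤ h y t ∧ h y t ≤ 2 * Real.exp R)
    (hY : Real.log (Fintype.card Y) ≤ R) (hav : ∑ y, av (h y) α ℓ ≤ P)
    (hj : (2 : ℝ) ^ j ≤ mm R ^ 3) (hF : F.Nonempty) (hFc : Real.log F.card ≤ 5 * R)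
    (hS : ∀ N ∈ F, P / 2 ^ j ≤ ∑ y, ‖cu (fun t => (h y t : ℂ)) (N * kap R / ℓ) α ℓ‖) :
    ∃ (E : F → ℝ) (m : ℕ) (c : Y → Fin m → ℝ) (B : Y → Fin m → Set ℝ), (∀ i, 0 ≤ E i) ∧
      ∑ i, E i = 1 ∧ (∀ i, E i ≤ Real.exp (R / mm R ^ 50) / F.card) ∧
      (m : ℝ) ≤ Real.exp (R / mm R ^ 50) ∧ (∀ y k, MeasurableSet (B y k)) ∧
      (∀ y k k', k ≠ k' → Disjoint (B y k) (B y k')) ∧
      (∀ y k, ∀ t ∈ B y k,
        99 / 100 ≤ ‖∑ i, (E i : ℂ) * ex (kap R / ℓ * (i.1 : ℤ)) (t - c y k)‖) ∧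
      P / (4 * 8 ^ j) ≤ ∑ y, ∑ k, av ((B y k).indicator (h y)) α ℓ := by
  obtain ⟨w, w9, hw, m3, m12⟩ := hB.ad
  have m5 := c56_num hB
  have R0 : 0 < R := by linarith [hB.one]
  have m1 : 1 ≤ mm R := by linarith [hB.m4, show (1 : ℝ) ≤ 10 ^ 4 by norm_num]
  have hP0 : 0 < P := (Real.exp_pos _).trans_le hP
  have w0 : 0 < w := lt_of_lt_of_le (by norm_num) w9
  have m0 : 0 < mm R := by linarith
  have m4 : 3 * (5 * R) / w ^ 12 ≤ R / mm R ^ 50 := by
    rw [div_le_div_iff₀ (by positivity) (by positivity)]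
    nlinarith
  haveI : ∀ y, IsFiniteMeasure (nu (h y) α ℓ) := fun y => nu_fin hℓ fun t => (hb y t).2
  have hk0 : 0 < kap R := by unfold kap; positivity
  have hk1 : kap R ≤ 1 := inv_le_one_of_one_le₀ (one_le_pow₀ m1)
  have eu : ∀ y, (nu (h y) α ℓ).real univ = av (h y) α ℓ := fun y => by
    rw [nu_real hℓ (hm y) (fun t => (hb y t).1) MeasurableSet.univ, indicator_univ]
  have ec : ∀ (N : ℤ) y, ∫ t, ex (kap R / ℓ * N) t ∂nu (h y) α ℓ =
      cu (fun t => (h y t : ℂ)) (N * kap R / ℓ) α ℓ := fun N y => by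
    rw [nu_cu hℓ (hm y) (fun t => (hb y t).1)]; congr 1; ring
  set P' := ∑ y, (nu (h y) α ℓ).real univ with hP'
  have j0 : (0 : ℝ) < 2 ^ j := by positivity
  have j1 : (1 : ℝ) ≤ 2 ^ j := one_le_pow₀ (by norm_num)
  have P1 : P' ≤ P := by simp only [hP', eu]; exact hav
  have P2 : P / 2 ^ j ≤ P' := by
    obtain ⟨N, hN⟩ := hF
    refine (hS N hN).trans (Finset.sum_le_sum fun y _ => ?_)
    rw [← ec]
    have := norm_integral_le_of_norm_le_const (μ := nu (h y) α ℓ) (C := 1)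
      (f := fun t => ex (kap R / ℓ * N) t) (Filter.Eventually.of_forall fun t => by
        simp only [ex]; rw [← Complex.ofReal_neg, Complex.norm_exp_ofReal_mul_I])
    simpa using this
  have P0 : 0 < P' := lt_of_lt_of_le (by positivity) P2
  have cF : (0 : ℝ) < F.card := by exact_mod_cast hF.card_pos
  have hD : Ent.IsProb (fun _ : F => (1 : ℝ) / F.card) :=
    ⟨fun _ => by positivity, by simp [cF.ne']⟩
  have hP1 : 1 ≤ P * Real.exp (40 * mm R) := by
    have := mul_le_mul_of_nonneg_right hP (Real.exp_pos (40 * mm R)).le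
    rwa [← Real.exp_add, neg_add_cancel, Real.exp_zero] at this
  obtain ⟨E, m, c, B, hE, hED, hmm, hBm, hBd, hpur, hcap⟩ := ad_line (θ := kap R / ℓ) (α := α)
    (ℓ := ℓ) (c := 2 * Real.exp R / ℓ) (s := 1 / 2 ^ j) (w := w) (R := 5 * R) (ε := 1 / w)
    (by positivity) (by rw [div_mul_cancel₀ _ hℓ.ne']; linarith [Real.pi_gt_three])
    (by positivity) (fun y => nu (h y) α ℓ) (fun y => nu_le hℓ fun t => (hb y t).2) P0
    (fun i : F => i.1) (by positivity) (by rw [div_le_one j0]; exact j1)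
    (fun n => by
      simp only [ec]
      refine le_trans ?_ (hS n.1 n.2)
      rw [div_mul_eq_mul_div, one_mul]
      exact div_le_div_of_nonneg_right P1 j0.le)
    w9 hw le_rfl
    (by
      rw [div_pow, one_pow, mul_one_div, div_le_div_iff₀ w0 (by positivity)]
      have := pow_le_pow_left₀ j0.le hj 8
      rw [← pow_mul (mm R), show 3 * 8 = 24 by norm_num] at this
      have : 0 ≤ mm R ^ 24 := by positivity
      linarith)
    (by simpa using hFc)
    (by
      have c1 : (Fintype.card Y : ℝ) ≤ Real.exp R := by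
        rcases Nat.eq_zero_or_pos (Fintype.card Y) with h0 | h0
        · rw [h0]; simpa using (Real.exp_pos R).le
        · rw [← Real.log_le_iff_le_exp (by exact_mod_cast h0)]
          exact hY
      have j3 : ((2 : ℝ) ^ j) ^ 3 ≤ mm R ^ 9 := by
        have := pow_le_pow_left₀ j0.le hj 3
        rwa [← pow_mul (mm R)] at this
      have e10 : Real.exp (5 * R) = Real.exp (3 * R) * (Real.exp R * Real.exp R) := by
        rw [← Real.exp_add, ← Real.exp_add]; congr 1; ring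
      have pi0 := Real.pi_pos
      calc 16 * Real.pi * Fintype.card Y * (2 * Real.exp R / ℓ)
          ≤ 16 * Real.pi * Real.exp R * (2 * Real.exp R / ℓ) := by gcongr
        _ = 16 * Real.pi * Real.exp R * (2 * Real.exp R / ℓ) * 1 := (mul_one _).symm
        _ ≤ 16 * Real.pi * Real.exp R * (2 * Real.exp R / ℓ) * (P * Real.exp (40 * mm R)) := by
          gcongr
        _ = 1 / mm R ^ 9 * P * (kap R / ℓ) *
            (32 * Real.pi * mm R ^ 79 * Real.exp (40 * mm R) * (Real.exp R * Real.exp R)) := by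
          unfold kap; field_simp; ring
        _ ≤ 1 / (2 ^ j) ^ 3 * P * (kap R / ℓ) *
            (Real.exp (3 * R) * (Real.exp R * Real.exp R)) := by gcongr
        _ = (1 / 2 ^ j) ^ 2 * (P / 2 ^ j) * (kap R / ℓ) * Real.exp (5 * R) := by
          rw [e10]; field_simp
        _ ≤ _ := by gcongr)
    hD
  have e1 := Real.exp_le_exp.2 m4
  refine ⟨E, m, c, B, hE.nn, hE.one, fun i => (hED i).trans ?_, hmm.trans e1, hBm, hBd,
    fun y k t ht => ?_, ?_⟩
  · rw [mul_one_div]; gcongr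
  · have h1 := hpur y k t ht
    have h2 : 4 * (1 / w) ≤ 1 / 100 := by
      rw [mul_one_div, div_le_div_iff₀ w0 (by norm_num)]
      linarith [show (400 : ℝ) ≤ 10 ^ 9 by norm_num]
    refine le_of_pow_le_pow_left₀ (n := 2) (by norm_num) (norm_nonneg _) ?_
    linarith [show ((99 : ℝ) / 100) ^ 2 ≤ 1 - 1 / 100 by norm_num]
  · simp only [← fun y k => nu_real (α := α) hℓ (hm y) (fun t => (hb y t).1) (hBm y k)]
    refine le_trans ?_ hcap
    calc P / (4 * 8 ^ j) = (1 / 2 ^ j) ^ 2 / 4 * (P / 2 ^ j) := by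
          rw [show (8 : ℝ) ^ j = (2 ^ j) ^ 3 by rw [← pow_mul, mul_comm, pow_mul]; norm_num]
          field_simp
      _ ≤ _ := by gcongr

theorem c56_h {R : ℝ} {g : ℝ → ℝ} (hg : GG R g) {K : Cls} {S : Set ℝ} {ℓ : ℝ} {d : ℕ}
    (hok : Ok0 K S ℓ d) (y : K.Y) (t : ℝ) :
    0 ≤ K.h g S y t ∧ K.h g S y t ≤ 2 * ({t | t ∈ S ∧ K.lab t = y}.indicator g t) := by
  unfold Cls.h
  by_cases ht : t ∈ S ∧ K.lab t = y
  · have h1 := hok.pure t ht.1
    rw [ht.2] at h1
    have h2 := (hg.bd t).1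
    rw [if_pos ht, indicator_of_mem (show t ∈ {t | t ∈ S ∧ K.lab t = y} from ht)]
    refine ⟨div_nonneg h2 (by linarith), ?_⟩
    rw [div_le_iff₀ (by linarith)]
    nlinarith
  · rw [if_neg ht, indicator_of_notMem (show t ∉ {t | t ∈ S ∧ K.lab t = y} from ht)]
    simp

theorem c56_meas {R : ℝ} {g : ℝ → ℝ} (hg : GG R g) {K : Cls} {S : Set ℝ} (hS : MeasurableSet S)
    {ℓ : ℝ} {d : ℕ} (hok : Ok0 K S ℓ d) (y : K.Y) : Measurable (K.h g S y) := by
  classical
  have hF : Measurable K.F := by unfold Cls.F ex; fun_prop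
  have h1 : MeasurableSet {t | t ∈ S ∧ K.lab t = y} := hS.inter (hok.mlab y)
  unfold Cls.h
  exact Measurable.ite h1 (hg.meas.div (hF.comp (measurable_id.sub_const _))) measurable_const

theorem c56_int {f : ℝ → ℝ} (hf : Measurable f) {M : ℝ} (h : ∀ t, 0 ≤ f t ∧ f t ≤ M) (a b : ℝ) :
    IntervalIntegrable f volume a b := by
  refine (intervalIntegrable_const (c := M)).mono_fun' hf.aestronglyMeasurable
    (Filter.Eventually.of_forall fun t => ?_)
  simp only [Real.norm_of_nonneg (h t).1]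
  exact (h t).2

/-- sums of averages against a pointwise bound on the node -/
theorem c56_av {I : Type} [Fintype I] {f : I → ℝ → ℝ} {φ : ℝ → ℝ} {M : ℝ} (hf : ∀ i, Measurable (f i))
    (h : ∀ i t, 0 ≤ f i t ∧ f i t ≤ M) (hφ : Measurable φ) (h' : ∀ t, 0 ≤ φ t ∧ φ t ≤ M) (α : ℝ)
    {ℓ : ℝ} (hℓ : 0 < ℓ) (hle : ∀ t ∈ Ioc α (α + ℓ), ∑ i, f i t ≤ 2 * φ t) :
    ∑ i, av (f i) α ℓ ≤ 2 * av φ α ℓ := by
  unfold av
  rw [← Finset.sum_div, ← mul_div_assoc, ← intervalIntegral.integral_const_mul,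
    ← intervalIntegral.integral_finset_sum fun i _ => c56_int (hf i) (h i) _ _]
  refine div_le_div_of_nonneg_right ?_ hℓ.le
  rw [intervalIntegral.integral_of_le (by linarith), intervalIntegral.integral_of_le (by linarith)]
  refine setIntegral_mono_on ?_ ?_ measurableSet_Ioc hle
  · exact integrable_finset_sum _ fun i _ => (c56_int (hf i) (h i) α (α + ℓ)).1
  · exact ((c56_int hφ h' α (α + ℓ)).1).const_mul 2

theorem c56_ca {R : ℝ} {g : ℝ → ℝ} (hg : GG R g) (S : Set ℝ) (α ℓ : ℝ) :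
    ca (fnS g S) α ℓ = av (S.indicator g) α ℓ := by
  unfold ca av
  simp only [norm_fnS hg]

theorem c56_ind {R : ℝ} {g : ℝ → ℝ} (hg : GG R g) (S : Set ℝ) (t : ℝ) :
    0 ≤ S.indicator g t ∧ S.indicator g t ≤ Real.exp R := by
  by_cases ht : t ∈ S
  · rw [indicator_of_mem ht]; exact hg.bd t
  · rw [indicator_of_notMem ht]; exact ⟨le_rfl, (Real.exp_pos R).le⟩

theorem capt56 {R : ℝ} {g : ℝ → ℝ} (hb : Big R) (hg : GG R g) {K : Cls} {S : Set ℝ}
    (hS : MeasurableSet S) (α : ℝ) {ℓ P : ℝ} {d : ℕ} (hℓ : 0 < ℓ) (hok : Ok R K S ℓ d)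
    (hP : Real.exp (-(40 * mm R)) ≤ P) (hc : ca (fnS g S) α ℓ ≤ P) (hq : ¬ Quiet R g K S α ℓ P) :
    ∃ (j : ℕ) (ι : Type) (_ : Fintype ι) (E : ι → ℝ) (z : ι → ℤ) (m : ℕ) (y : K.Y → Fin m → ℝ)
      (Bs : K.Y → Fin m → Set ℝ), (2 : ℝ) ^ j ≤ mm R ^ 3 ∧ (m : ℝ) ≤ Real.exp (R / mm R ^ 50) ∧
      Pieces R K ℓ (Mn R K.μ j) E z y Bs ∧ P / (4 * 8 ^ j) ≤ ca (fnS g (capS K S α ℓ Bs)) α ℓ := by
  classical
  unfold Quiet at hq
  push Not at hq
  obtain ⟨j, hj, F, hF, hT⟩ := hq
  have R1 := hb.one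
  have m4 := hb.m4
  have m1 : 1 ≤ mm R := by linarith [show (1 : ℝ) ≤ 10 ^ 4 by norm_num]
  have m0 : 0 < mm R := by linarith
  have hP0 : 0 < P := (Real.exp_pos _).trans_le hP
  have mu0 := hok.mu0
  set δ := 4 * (2 : ℝ) ^ ((j : ℝ) / 4) * (R / mm R) with hδ
  set T := Real.exp δ / K.μ with hTe
  have T0 : 0 < T := by positivity
  have hδR : δ ≤ R := by
    have a0 : (0 : ℝ) ≤ (2 : ℝ) ^ ((j : ℝ) / 4) := by positivity
    have a1 : ((2 : ℝ) ^ ((j : ℝ) / 4)) ^ 4 = 2 ^ j := by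
      rw [← Real.rpow_natCast, ← Real.rpow_mul (by norm_num), ← Real.rpow_natCast]
      congr 1; push_cast; ring
    have a2 : (2 : ℝ) ^ ((j : ℝ) / 4) ≤ mm R / 4 := by
      refine le_of_pow_le_pow_left₀ (n := 4) (by norm_num) (by positivity) ?_
      rw [a1]
      refine hj.trans ?_
      have : 0 < mm R ^ 3 := by positivity
      have e : (mm R / 4) ^ 4 = mm R ^ 3 * (mm R / 256) := by ring
      rw [e]
      exact le_mul_of_one_le_right this.le (by linarith [show (256 : ℝ) ≤ 10 ^ 4 by norm_num])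
    calc δ ≤ 4 * (mm R / 4) * (R / mm R) := by
          rw [hδ]; gcongr
      _ = R := by field_simp
  have hT4 : T ≤ Real.exp (4 * R) := by
    have : T = Real.exp (δ - Real.log K.μ) := by rw [Real.exp_sub, Real.exp_log mu0]
    rw [this]
    exact Real.exp_le_exp.2 (by linarith [hok.mu1])
  obtain ⟨F', hF', hcard⟩ := Finset.exists_subset_card_eq (s := F) (n := ⌊T⌋₊ + 1)
    (Nat.succ_le_of_lt ((Nat.floor_lt T0.le).2 hT))
  have c1 : T < F'.card := by rw [hcard]; push_cast; exact Nat.lt_floor_add_one T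
  have c2 : (F'.card : ℝ) ≤ Real.exp (5 * R) := by
    rw [hcard]; push_cast
    have b1 := Nat.floor_le T0.le
    have b2 : 1 ≤ Real.exp (4 * R) := Real.one_le_exp (by linarith)
    have b3 : 2 ≤ Real.exp R := by linarith [Real.add_one_le_exp R]
    rw [show 5 * R = R + 4 * R by ring, Real.exp_add]
    nlinarith
  have hne : F'.Nonempty := Finset.card_pos.1 (by rw [hcard]; omega)
  have hbd : ∀ y t, 0 ≤ K.h g S y t ∧ K.h g S y t ≤ 2 * Real.exp R := fun y t =>
    ⟨(c56_h hg hok.toOk0 y t).1, (c56_h hg hok.toOk0 y t).2.trans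
      (by linarith [(c56_ind hg {t | t ∈ S ∧ K.lab t = y} t).2])⟩
  have hme := c56_meas hg hS hok.toOk0
  have hI : ∀ (S' : Set ℝ) t, 0 ≤ S'.indicator g t ∧ S'.indicator g t ≤ 2 * Real.exp R :=
    fun S' t => ⟨(c56_ind hg S' t).1, by linarith [(c56_ind hg S' t).2, Real.exp_pos R]⟩
  have hav : ∑ y, av (K.h g S y) α ℓ ≤ 2 * P := by
    refine (c56_av hme hbd (hg.meas.indicator hS) (hI S) α hℓ fun t _ => ?_).trans
      (by rw [← c56_ca hg]; linarith)
    rw [Finset.sum_eq_single (K.lab t) (fun y _ hy => by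
      unfold Cls.h; rw [if_neg fun h => hy h.2.symm]) (by simp)]
    refine (c56_h hg hok.toOk0 _ t).2.trans (le_of_eq ?_)
    by_cases ht : t ∈ S <;> simp [indicator, ht]
  have hY : Real.log (Fintype.card K.Y) ≤ R := by
    have a0 : 0 ≤ aa R K.μ := by
      unfold aa
      have := hok.mu1
      exact div_nonneg (by linarith) (by positivity)
    refine hok.card.trans ?_
    have a1 : 120 * mm R ≤ mm R ^ 50 := by
      have : mm R ^ 2 ≤ mm R ^ 50 := pow_le_pow_right₀ m1 (by norm_num)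
      nlinarith
    calc R / mm R ^ 50 * (120 * mm R - aa R K.μ) ≤ R / mm R ^ 50 * mm R ^ 50 := by
          gcongr; linarith
      _ = R := by field_simp
  obtain ⟨E, m, c, B, e0, e1, e2, hm, hBm, hBd, hpur, hcap⟩ := c56_fun (P := 2 * P) hb (K.h g S) α j
    F' hℓ (by linarith) hme hbd hY hav hj hne
    ((Real.log_le_iff_le_exp (T0.trans c1)).2 c2) (fun N hN => hF N (hF' hN))
  refine ⟨j, F', inferInstance, E, fun i => i.1, m, c, B, hj, hm,
    ⟨e0, e1, fun N => ?_, hBm, hBd, hpur⟩, ?_⟩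
  · have hM : ∀ i, E i ≤ Mn R K.μ j := fun i => by
      refine (e2 i).trans ((div_le_div_of_nonneg_left (Real.exp_pos _).le T0 c1.le).trans
        (le_of_eq ?_))
      unfold Mn
      rw [hTe, Real.exp_sub, ← hδ, div_div_eq_mul_div, div_mul_eq_mul_div]
    have hM0 : 0 ≤ Mn R K.μ j := by unfold Mn; positivity
    rcases Finset.eq_empty_or_nonempty (Finset.univ.filter fun i : F' => i.1 = N) with h0 | ⟨i, hi⟩
    · convert hM0
      convert Finset.sum_empty
    · rw [Finset.sum_eq_single_of_mem i (by convert hi) fun i' hi' hne => by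
        exfalso
        exact hne (Subtype.ext (((Finset.mem_filter.1 hi').2).trans
          (Finset.mem_filter.1 hi).2.symm))]
      exact hM i
  · rw [c56_ca hg]
    have hC := capS_meas hS hok.mlab α ℓ hBm
    have := c56_av (I := K.Y × Fin m) (f := fun p => (B p.1 p.2).indicator (K.h g S p.1))
      (fun p => (hme p.1).indicator (hBm p.1 p.2)) (M := 2 * Real.exp R)
      (fun p t => by
        by_cases ht : t ∈ B p.1 p.2
        · rw [indicator_of_mem ht]; exact hbd _ _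
        · rw [indicator_of_notMem ht]; exact ⟨le_rfl, by positivity⟩)
      (hg.meas.indicator hC) (hI _) α hℓ fun t ht => by
        by_cases hk : t ∈ capS K S α ℓ B
        · obtain ⟨h1, -, k, h3⟩ := id hk
          rw [Finset.sum_eq_single (K.lab t, k) (fun p _ hp => by
            by_cases h4 : p.1 = K.lab t
            · refine indicator_of_notMem (fun h5 => ?_) _
              have h6 : p.2 ≠ k := fun h7 => hp (Prod.ext h4 h7)
              rw [h4] at h5
              exact Set.disjoint_left.1 (hBd _ _ _ h6) h5 h3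
            · refine indicator_apply_eq_zero.2 fun _ => ?_
              unfold Cls.h; rw [if_neg fun h => h4 h.2.symm]) (by simp),
            indicator_of_mem h3, indicator_of_mem hk]
          refine (c56_h hg hok.toOk0 _ t).2.trans (le_of_eq ?_)
          simp [indicator, h1]
        · rw [indicator_of_notMem hk, mul_zero]
          refine le_of_eq (Finset.sum_eq_zero fun p _ => indicator_apply_eq_zero.2 fun h5 => ?_)
          unfold Cls.h
          rw [if_neg fun h => hk ⟨h.1, ht, p.2, by rw [h.2]; exact h5⟩]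
    rw [Fintype.sum_prod_type] at this
    have e : 2 * P / (4 * 8 ^ j) = 2 * (P / (4 * 8 ^ j)) := by ring
    linarith

end Crest.Agent.R100.Inst
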