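import Crest.Agent.R100.Birth
import Crest.Agent.R100.AdPlusC
import Crest.Agent.R100.LifeDefs

/-!
# Row 100, STRUCT (helper43): the capture lemma
-/

set_option autoImplicit false

open MeasureTheory Set Real

noncomputable section

namespace Crest.Agent.R100.Birth

open Crest.Agent.R100 Crest.Agent.R100.Low Crest.Agent.R100.Life

theorem cap_num : ∃ R₀ : ℝ, ∀ R : ℝ, R₀ ≤ R → 1000 ≤ R ∧ 1 ≤ mm R ∧ mm R ≤ R ∧ ∃ w : ℝ,
    10 ^ 9 ≤ w ∧ 10 * R = Real.exp (w ^ 100) ∧ 32 * mm R ^ 24 ≤ w := by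
  set Y0 : ℝ := 32 * 4800 ^ 24 with hY0
  have hY1 : (10 : ℝ) ^ 9 ≤ Y0 := by rw [hY0]; norm_num
  refine ⟨Real.exp (Y0 ^ 200), fun R hR => ?_⟩
  have hY2 : Y0 ≤ Y0 ^ 200 := le_self_pow₀ (by linarith) (by norm_num)
  have hR1 : Y0 ^ 200 + 1 ≤ R := (Real.add_one_le_exp _).trans hR
  have hR0 : 0 < R := by linarith
  have hu : Y0 ^ 200 ≤ Real.log R := (Real.le_log_iff_exp_le hR0).2 hR
  set x : ℝ := 2 + Real.log R with hx
  have hx0 : 0 < x := by linarith
  have hm1 : 1 ≤ mm R := by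
    rw [mm, ← hx, Real.le_log_iff_exp_le hx0]
    have := Real.exp_one_lt_d9
    linarith
  have hmR : mm R ≤ R := by
    have h1 := Real.log_le_sub_one_of_pos hx0
    have h2 := Real.log_le_sub_one_of_pos hR0
    rw [mm, ← hx]; linarith
  refine ⟨by linarith, hm1, hmR, ?_⟩
  have hL : x ≤ Real.log (10 * R) := by
    rw [Real.log_mul (by norm_num) hR0.ne']
    have : (2 : ℝ) ≤ Real.log 10 := by
      rw [Real.le_log_iff_exp_le (by norm_num)]
      have h := Real.exp_one_lt_d9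
      have e : Real.exp 2 = Real.exp 1 * Real.exp 1 := by rw [← Real.exp_add]; norm_num
      have := Real.exp_pos 1
      nlinarith
    linarith
  have hL0 : 0 < Real.log (10 * R) := by linarith
  set y : ℝ := x ^ ((200 : ℝ)⁻¹) with hy
  have hy0 : 0 ≤ y := by positivity
  have hyY : Y0 ≤ y := by
    have : y ^ 200 = x := by
      rw [hy]; exact_mod_cast Real.rpow_inv_natCast_pow hx0.le (by norm_num : (200 : ℕ) ≠ 0)
    exact le_of_pow_le_pow_left₀ (by norm_num : (200 : ℕ) ≠ 0) hy0 (by rw [this]; linarith)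
  have hw : y ^ 2 ≤ Real.log (10 * R) ^ ((100 : ℝ)⁻¹) := by
    have : y ^ 2 = x ^ ((100 : ℝ)⁻¹) := by
      rw [hy, ← Real.rpow_natCast, ← Real.rpow_mul hx0.le]; norm_num
    rw [this]
    exact Real.rpow_le_rpow hx0.le hL (by norm_num)
  have hmm : mm R ^ 24 ≤ 4800 ^ 24 * y := by
    have h1 : mm R ≤ x ^ ((4800 : ℝ)⁻¹) / (4800 : ℝ)⁻¹ := by
      rw [mm, ← hx]; exact Real.log_le_rpow_div hx0.le (by norm_num)
    have h2 : (x ^ ((4800 : ℝ)⁻¹)) ^ 24 = y := by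
      rw [hy, ← Real.rpow_natCast, ← Real.rpow_mul hx0.le]; norm_num
    calc mm R ^ 24 ≤ (x ^ ((4800 : ℝ)⁻¹) / (4800 : ℝ)⁻¹) ^ 24 :=
          pow_le_pow_left₀ (by linarith) h1 24
      _ = 4800 ^ 24 * y := by rw [div_pow, h2]; field_simp
  refine ⟨Real.log (10 * R) ^ ((100 : ℝ)⁻¹), by nlinarith, ?_, ?_⟩
  · have : (Real.log (10 * R) ^ ((100 : ℝ)⁻¹)) ^ 100 = Real.log (10 * R) := by
      exact_mod_cast Real.rpow_inv_natCast_pow hL0.le (by norm_num : (100 : ℕ) ≠ 0)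
    rw [this, Real.exp_log (by positivity)]
  · have : 32 * mm R ^ 24 ≤ Y0 * y := by rw [hY0]; nlinarith
    nlinarith

/-- the measure with density `f` on the node -/
def nuf (f : ℝ → ℝ) (α ℓ : ℝ) : Measure ℝ :=
  (volume.restrict (Ioc α (α + ℓ))).withDensity fun t => ENNReal.ofReal (f t)

theorem nuf_le {f : ℝ → ℝ} {M : ℝ} (hM : ∀ t, f t ≤ M) (α ℓ : ℝ) :
    nuf f α ℓ ≤ ENNReal.ofReal M • volume.restrict (Ioc α (α + ℓ)) := by
  rw [nuf, ← withDensity_const]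
  exact withDensity_mono (Filter.Eventually.of_forall fun t => ENNReal.ofReal_le_ofReal (hM t))

theorem nuf_fin {f : ℝ → ℝ} {M : ℝ} (hM : ∀ t, f t ≤ M) (α ℓ : ℝ) :
    IsFiniteMeasure (nuf f α ℓ) := by
  refine ⟨lt_of_le_of_lt (nuf_le hM α ℓ Set.univ) ?_⟩
  rw [Measure.smul_apply, smul_eq_mul, Measure.restrict_apply_univ, Real.volume_Ioc]
  exact ENNReal.mul_lt_top ENNReal.ofReal_lt_top ENNReal.ofReal_lt_top

theorem nuf_int {f : ℝ → ℝ} (hf : Measurable f) (h0 : ∀ t, 0 ≤ f t) (α : ℝ) {ℓ : ℝ} (hℓ : 0 < ℓ)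
    {E : Type} [NormedAddCommGroup E] [NormedSpace ℝ E] (φ : ℝ → E) :
    ∫ t, φ t ∂nuf f α ℓ = ∫ t in α..α + ℓ, f t • φ t := by
  rw [nuf, integral_withDensity_eq_integral_toReal_smul hf.ennreal_ofReal
    (Filter.Eventually.of_forall fun t => ENNReal.ofReal_lt_top),
    intervalIntegral.integral_of_le (by linarith)]
  simp only [ENNReal.toReal_ofReal (h0 _)]

theorem nuf_real {f : ℝ → ℝ} (hf : Measurable f) (h0 : ∀ t, 0 ≤ f t) (α : ℝ) {ℓ : ℝ} (hℓ : 0 < ℓ)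
    {B : Set ℝ} (hB : MeasurableSet B) :
    (nuf f α ℓ).real B = ℓ * av (B.indicator f) α ℓ := by
  rw [← integral_indicator_one hB, nuf_int hf h0 α hℓ, av, mul_div_cancel₀ _ hℓ.ne']
  congr 1
  funext t
  by_cases ht : t ∈ B <;> simp [ht]

/-- **CAPTURE** -/
theorem capture : ∃ R₀ : ℝ, ∀ (R P : ℝ) (Y : Type) [Fintype Y] (h : Y → ℝ → ℝ) (α ℓ : ℝ) (j : ℕ)
    (F : Finset ℤ), R₀ ≤ R → 0 < ℓ → 0 < P → (∀ y, Measurable (h y)) →
    (∀ y t, 0 ≤ h y t ∧ h y t ≤ Real.exp (3 * R) * P) →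
    Real.log (Fintype.card Y) ≤ R / mm R ^ 40 → ∑ y, av (h y) α ℓ ≤ P →
    (2 : ℝ) ^ j ≤ mm R ^ 3 → F.Nonempty → Real.log F.card ≤ 10 * R →
    (∀ N ∈ F, P / 2 ^ j ≤ ∑ y, ‖cu (fun t => (h y t : ℂ)) (N * kap R / ℓ) α ℓ‖) →
    ∃ (E : F → ℝ) (m : ℕ) (c : Y → Fin m → ℝ) (B : Y → Fin m → Set ℝ),
      (∀ i, 0 ≤ E i) ∧ ∑ i, E i = 1 ∧ (∀ i, E i ≤ Real.exp (R / mm R ^ 50) / F.card) ∧
      (m : ℝ) ≤ Real.exp (R / mm R ^ 50) ∧ (∀ y k, MeasurableSet (B y k)) ∧
      (∀ y k k', k ≠ k' → Disjoint (B y k) (B y k')) ∧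
      (∀ y k, ∀ t ∈ B y k,
        1 - ‖Eh E (fun i : F => i.1) (kap R / ℓ) (t - c y k)‖ ^ 2 ≤ 1 / 100) ∧
      P / (4 * 8 ^ j) ≤ ∑ y, ∑ k, av ((B y k).indicator (h y)) α ℓ := by
  obtain ⟨R₀, hR₀⟩ := cap_num
  refine ⟨R₀, fun R P Y _ h α ℓ j F hR hℓ hP hm hb hY hmass hj hF hFc hS => ?_⟩
  obtain ⟨hR1, hm1, hmR, w, hw, hwR, hwm⟩ := hR₀ R hR
  have hκ : 0 < kap R := by unfold kap; positivity
  have hκ1 : kap R ≤ 1 := by
    unfold kap; exact inv_le_one_of_one_le₀ (one_le_pow₀ hm1)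
  have h2j : (1 : ℝ) ≤ 2 ^ j := one_le_pow₀ (by norm_num)
  have h2j0 : (0 : ℝ) < 2 ^ j := by positivity
  haveI : ∀ y, IsFiniteMeasure (nuf (h y) α ℓ) := fun y => nuf_fin (fun t => (hb y t).2) α ℓ
  have htot : ∑ y, (nuf (h y) α ℓ).real Set.univ = ℓ * ∑ y, av (h y) α ℓ := by
    rw [Finset.mul_sum]
    refine Finset.sum_congr rfl fun y _ => ?_
    rw [nuf_real (hm y) (fun t => (hb y t).1) α hℓ MeasurableSet.univ, indicator_univ]
  have hcu : ∀ (y : Y) (ξ : ℝ), ‖∫ t, ex ξ t ∂nuf (h y) α ℓ‖ =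
      ℓ * ‖cu (fun t => (h y t : ℂ)) ξ α ℓ‖ := fun y ξ => by
    rw [nuf_int (hm y) (fun t => (hb y t).1) α hℓ, cu, norm_div, Complex.norm_real,
      Real.norm_eq_abs, abs_of_pos hℓ, mul_div_cancel₀ _ hℓ.ne']
    simp only [Complex.real_smul]
  have hlow : P / 2 ^ j ≤ ∑ y, av (h y) α ℓ := by
    obtain ⟨N, hN⟩ := hF
    refine (hS N hN).trans (Finset.sum_le_sum fun y _ => ?_)
    refine (lowFamA_cu_le _ _ _ hℓ).trans (le_of_eq ?_)
    simp only [ca, av, Complex.norm_real, Real.norm_eq_abs, abs_of_nonneg (hb y _).1]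
  have hpos : 0 < P / 2 ^ j := by positivity
  have hcard : (0 : ℝ) < F.card := by exact_mod_cast hF.card_pos
  have hw0 : 0 < w := by linarith
  have hD : Ent.IsProb (fun _ : F => (F.card : ℝ)⁻¹) := by
    refine ⟨fun _ => by positivity, ?_⟩
    rw [Finset.sum_const, Finset.card_univ, Fintype.card_coe, nsmul_eq_mul, mul_inv_cancel₀ hcard.ne']
  have h8 : (8 : ℝ) ^ j ≤ mm R ^ 9 := by
    have : (8 : ℝ) ^ j = (2 ^ j) ^ 3 := by rw [← pow_mul, mul_comm, pow_mul]; norm_num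
    rw [this, show mm R ^ 9 = (mm R ^ 3) ^ 3 by ring]
    exact pow_le_pow_left₀ h2j0.le hj 3
  have h8' : (8 : ℝ) ^ j = 2 ^ j * 2 ^ j * 2 ^ j := by
    rw [← mul_pow, ← mul_pow]; norm_num
  obtain ⟨E, m, c, B, hE, hE2, hm2, hB1, hB2, hB3, hB4⟩ := AdP.ad_line (ι := F) (𝒜 := Y)
    (θ := kap R / ℓ) (α := α) (ℓ := ℓ) (c := Real.exp (3 * R) * P) (s := (2 ^ j)⁻¹) (w := w)
    (R := 10 * R) (ε := 1 / w) (by positivity)
    (by rw [div_mul_cancel₀ _ hℓ.ne']; linarith [Real.pi_gt_three]) (by positivity)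
    (fun y => nuf (h y) α ℓ) (fun y => nuf_le (fun t => (hb y t).2) α ℓ)
    (by rw [htot]; exact mul_pos hℓ (hpos.trans_le hlow)) (fun i => i.1) (by positivity)
    (inv_le_one_of_one_le₀ h2j)
    (fun i => by
      simp only [hcu]
      rw [htot, ← Finset.mul_sum]
      have h1 := hS i.1 i.2
      have e : (i.1 : ℝ) * kap R / ℓ = kap R / ℓ * (i.1 : ℝ) := by ring
      rw [e] at h1
      have h2 : (2 ^ j : ℝ)⁻¹ * ∑ y, av (h y) α ℓ ≤ P / 2 ^ j := by
        rw [div_eq_inv_mul]; exact mul_le_mul_of_nonneg_left hmass (by positivity)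
      calc (2 ^ j : ℝ)⁻¹ * (ℓ * ∑ y, av (h y) α ℓ) = ℓ * ((2 ^ j : ℝ)⁻¹ * ∑ y, av (h y) α ℓ) := by
            ring
        _ ≤ _ := mul_le_mul_of_nonneg_left (h2.trans h1) hℓ.le)
    hw hwR le_rfl
    (by
      rw [inv_pow, mul_one_div, div_le_iff₀ hw0, inv_mul_eq_div, le_div_iff₀ (by positivity)]
      have : ((2 : ℝ) ^ j) ^ 8 ≤ mm R ^ 24 := by
        rw [show mm R ^ 24 = (mm R ^ 3) ^ 8 by ring]; exact pow_le_pow_left₀ h2j0.le hj 8
      linarith)
    (by rw [Fintype.card_coe]; exact hFc)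
    (by
      rw [htot]
      have hY1 : (Fintype.card Y : ℝ) ≤ Real.exp R := by
        rcases Nat.eq_zero_or_pos (Fintype.card Y) with h0 | h0
        · rw [h0]; simpa using (Real.exp_pos R).le
        · rw [← Real.log_le_iff_le_exp (by exact_mod_cast h0)]
          exact hY.trans (div_le_self (by linarith) (one_le_pow₀ hm1))
      have hpoly : 64 * mm R ^ 79 ≤ Real.exp (6 * R) := by
        have h1 : mm R ≤ Real.exp (R / 20) := by
          have h2 : mm R ≤ 2 + Real.log R := by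
            rw [mm]
            have := Real.log_nonneg (by linarith : (1 : ℝ) ≤ R)
            linarith [Real.log_le_sub_one_of_pos (by linarith : (0 : ℝ) < 2 + Real.log R)]
          have h3 : Real.log R ≤ R ^ ((2 : ℝ)⁻¹) / (2 : ℝ)⁻¹ :=
            Real.log_le_rpow_div (by linarith) (by norm_num)
          have h4 : (R ^ ((2 : ℝ)⁻¹)) ^ 2 = R := by
            exact_mod_cast Real.rpow_inv_natCast_pow (by linarith) (by norm_num : (2 : ℕ) ≠ 0)
          have h5 := Real.quadratic_le_exp_of_nonneg (by linarith : 0 ≤ R / 20)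
          have h6 : 0 ≤ R ^ ((2 : ℝ)⁻¹) := by positivity
          nlinarith [sq_nonneg (R ^ ((2 : ℝ)⁻¹) - 1)]
        have h7 : mm R ^ 79 ≤ Real.exp (4 * R) := by
          calc mm R ^ 79 ≤ Real.exp (R / 20) ^ 79 := pow_le_pow_left₀ (by linarith) h1 79
            _ = Real.exp (79 * (R / 20)) := by rw [← Real.exp_nat_mul]; norm_num
            _ ≤ _ := Real.exp_le_exp.2 (by linarith)
        have h9 : (64 : ℝ) ≤ Real.exp (2 * R) := by linarith [Real.add_one_le_exp (2 * R)]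
        calc 64 * mm R ^ 79 ≤ Real.exp (2 * R) * Real.exp (4 * R) :=
              mul_le_mul h9 h7 (by positivity) (by positivity)
          _ = _ := by rw [← Real.exp_add]; ring_nf
      have e10 : Real.exp (10 * R) = Real.exp R * Real.exp (3 * R) * Real.exp (6 * R) := by
        rw [← Real.exp_add, ← Real.exp_add]; ring_nf
      have hm0 : 0 < mm R := by linarith
      calc 16 * π * (Fintype.card Y : ℝ) * (Real.exp (3 * R) * P)
          ≤ 64 * Real.exp R * (Real.exp (3 * R) * P) := by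
            refine mul_le_mul_of_nonneg_right (mul_le_mul (by linarith [Real.pi_le_four]) hY1
              (by positivity) (by norm_num)) (by positivity)
        _ = (8 ^ j)⁻¹ * P * kap R * (Real.exp R * Real.exp (3 * R) * (64 * (8 ^ j * mm R ^ 70))) := by
            unfold kap; field_simp
        _ ≤ (8 ^ j)⁻¹ * P * kap R * Real.exp (10 * R) := by
            rw [e10]
            refine mul_le_mul_of_nonneg_left (mul_le_mul_of_nonneg_left (le_trans ?_ hpoly)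
              (by positivity)) (by positivity)
            have : (8 : ℝ) ^ j * mm R ^ 70 ≤ mm R ^ 9 * mm R ^ 70 :=
              mul_le_mul_of_nonneg_right h8 (by positivity)
            nlinarith
        _ = ((2 : ℝ) ^ j)⁻¹ ^ 2 * (ℓ * (P / 2 ^ j)) * (kap R / ℓ) * Real.exp (10 * R) := by
            rw [h8']; field_simp
        _ ≤ _ := by gcongr)
    hD
  have hK : 3 * (10 * R) / w ^ 12 ≤ R / mm R ^ 50 := by
    rw [div_le_div_iff₀ (by positivity) (by positivity)]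
    have h1 : (32 * mm R ^ 24) ^ 3 ≤ w ^ 3 := pow_le_pow_left₀ (by positivity) hwm 3
    have h2 : w ^ 3 ≤ w ^ 12 := pow_le_pow_right₀ (by linarith) (by norm_num)
    have h3 : mm R ^ 50 ≤ mm R ^ 72 := pow_le_pow_right₀ hm1 (by norm_num)
    have h4 : (32 * mm R ^ 24) ^ 3 = 32768 * mm R ^ 72 := by ring
    have h5 : 0 ≤ mm R ^ 50 := by positivity
    nlinarith
  have hK' := Real.exp_le_exp.2 hK
  refine ⟨E, m, c, B, hE.1, hE.2, fun i => (hE2 i).trans ?_, hm2.trans hK', hB1, hB2,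
    fun y k t ht => (hB3 y k t ht).trans ?_, ?_⟩
  · rw [div_eq_mul_inv]; exact mul_le_mul_of_nonneg_right hK' (by positivity)
  · rw [mul_one_div, div_le_div_iff₀ hw0 (by norm_num)]; linarith
  · rw [htot] at hB4
    have e : ∑ y, ∑ k, (nuf (h y) α ℓ).real (B y k) =
        ℓ * ∑ y, ∑ k, av ((B y k).indicator (h y)) α ℓ := by
      rw [Finset.mul_sum]
      refine Finset.sum_congr rfl fun y _ => ?_
      rw [Finset.mul_sum]
      exact Finset.sum_congr rfl fun k _ =>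
        nuf_real (hm y) (fun t => (hb y t).1) α hℓ (hB1 y k)
    rw [e] at hB4
    refine le_of_mul_le_mul_left (le_trans ?_ hB4) hℓ
    calc ℓ * (P / (4 * 8 ^ j)) = ((2 : ℝ) ^ j)⁻¹ ^ 2 / 4 * (ℓ * (P / 2 ^ j)) := by
          rw [h8']; field_simp
      _ ≤ _ := by gcongr

end Crest.Agent.R100.Birth
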