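import Crest.Agent.R100.CarCirc

/-! Row 100: the Banach principle and Carleson's theorem for `L³` (so for bounded functions). -/

set_option autoImplicit false

namespace Crest.Agent.R100

open MeasureTheory Set AddCircle Filter Topology
open scoped ENNReal NNReal Real

variable {T : ℝ} [hT : Fact (0 < T)]

/-- The Fourier series of `f` converges to `f` almost everywhere. -/
def AEConv (f : AddCircle T → ℂ) : Prop :=
  ∀ᵐ x ∂haarAddCircle, Tendsto (fun N : ℕ => SN f N x) atTop (𝓝 (f x))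

theorem AEConv.congr {f g : AddCircle T → ℂ} (h : AEConv f) (e : f =ᵐ[haarAddCircle] g) :
    AEConv g := by
  unfold AEConv at h ⊢
  rw [← SN_congr e]
  filter_upwards [h, e] with x h1 h2
  rwa [← h2]

theorem AEConv.add {f g : AddCircle T → ℂ} (hf : Integrable f haarAddCircle)
    (hg : Integrable g haarAddCircle) (h1 : AEConv f) (h2 : AEConv g) : AEConv (f + g) := by
  unfold AEConv at h1 h2 ⊢
  filter_upwards [h1, h2] with x a b
  simpa only [SN_add hf hg, Pi.add_apply] using a.add b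

theorem AEConv.smul {f : AddCircle T → ℂ} (c : ℂ) (h : AEConv f) : AEConv (c • f) := by
  unfold AEConv at h ⊢
  filter_upwards [h] with x a
  simpa only [SN_smul, Pi.smul_apply, smul_eq_mul] using a.const_mul c

theorem aeConv_fourier (m : ℤ) : AEConv (fourier m : AddCircle T → ℂ) :=
  Eventually.of_forall fun x => tendsto_const_nhds.congr'
    ((eventually_ge_atTop m.natAbs).mono fun _ h => (SN_fourier m h x).symm)

theorem aeConv_zero : AEConv (0 : AddCircle T → ℂ) := by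
  simpa using (aeConv_fourier (T := T) 0).smul 0

/-- **Banach principle.** -/
theorem ae_of_approx {f : AddCircle T → ℂ} (hf : Integrable f haarAddCircle)
    (h : ∀ lam δ : ℝ≥0∞, 0 < lam → 0 < δ → ∃ g : AddCircle T → ℂ, Integrable g haarAddCircle ∧
      AEConv g ∧ haarAddCircle {x | lam < SMax (f - g) x} ≤ δ ∧
      haarAddCircle {x | lam < ‖f x - g x‖ₑ} ≤ δ) : AEConv f := by
  have key : ∀ n : ℕ, ∀ᵐ x ∂haarAddCircle, ∀ᶠ N in atTop,
      ‖SN f N x - f x‖ < 3 * (1 / ((n : ℝ) + 1)) := by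
    intro n
    have hc : (0 : ℝ) < 1 / ((n : ℝ) + 1) := by positivity
    generalize 1 / ((n : ℝ) + 1) = c at hc
    rw [ae_iff]
    refine le_antisymm (ENNReal.le_of_forall_pos_le_add fun ε hε _ => ?_) zero_le
    obtain ⟨g, ig, cg, h1, h2⟩ := h (ENNReal.ofReal c) (ε / 2) (ENNReal.ofReal_pos.2 hc)
      (ENNReal.half_pos (by exact_mod_cast hε.ne'))
    rw [zero_add, ← ENNReal.add_halves (ε : ℝ≥0∞)]
    refine le_trans (measure_mono_ae ?_) ((measure_union_le _ _).trans (add_le_add h1 h2))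
    filter_upwards [cg] with x hx hb
    by_contra hn
    have a1 : SMax (f - g) x ≤ ENNReal.ofReal c := not_lt.1 fun a => hn (Or.inl a)
    have a2 : ‖f x - g x‖ₑ ≤ ENNReal.ofReal c := not_lt.1 fun a => hn (Or.inr a)
    rw [← ofReal_norm, ENNReal.ofReal_le_ofReal_iff hc.le] at a2
    refine hb ?_
    filter_upwards [Metric.tendsto_nhds.1 hx c hc] with N hN
    have a3 : ‖SN (f - g) N x‖ₑ ≤ ENNReal.ofReal c :=
      (le_iSup (fun N => ‖SN (f - g) N x‖ₑ) N).trans a1
    rw [← ofReal_norm, ENNReal.ofReal_le_ofReal_iff hc.le, SN_sub hf ig] at a3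
    rw [dist_eq_norm] at hN
    calc ‖SN f N x - f x‖ = ‖(SN f N x - SN g N x) + (SN g N x - g x) - (f x - g x)‖ := by
          congr 1; ring
      _ ≤ ‖SN f N x - SN g N x‖ + ‖SN g N x - g x‖ + ‖f x - g x‖ :=
          (norm_sub_le _ _).trans (by gcongr; exact norm_add_le _ _)
      _ < 3 * c := by linarith
  filter_upwards [ae_all_iff.2 key] with x hx
  refine Metric.tendsto_nhds.2 fun ε hε => ?_
  obtain ⟨n, hn⟩ := exists_nat_one_div_lt (show 0 < ε / 3 by positivity)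
  filter_upwards [hx n] with N hN
  rw [dist_eq_norm]
  linarith

omit hT in
theorem ae_cheb {α : Type} [MeasurableSpace α] {μ : Measure α} {F : α → ℝ≥0∞}
    (hF : AEMeasurable F μ) (lam : ℝ≥0∞) :
    lam ^ 3 * μ {x | lam < F x} ≤ ∫⁻ x, F x ^ 3 ∂μ := by
  refine le_trans ?_ (mul_meas_ge_le_lintegral₀ (hF.pow_const 3) (lam ^ 3))
  gcongr with x
  intro hx
  gcongr

/-- Trigonometric polynomials are dense in `L³`. -/
theorem exists_trig_approx {f : AddCircle T → ℂ} (hf : MemLp f 3 haarAddCircle) {η : ℝ≥0∞}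
    (hη : 0 < η) : ∃ g : AddCircle T → ℂ, MemLp g 3 haarAddCircle ∧ AEConv g ∧
      ∫⁻ x, ‖f x - g x‖ₑ ^ 3 ∂haarAddCircle ≤ η := by
  have : Fact ((1 : ℝ≥0∞) ≤ 3) := ⟨by norm_num⟩
  have hspan : ∀ P ∈ Submodule.span ℂ (range (@fourierLp T _ 3 _)), AEConv (P : AddCircle T → ℂ) := by
    intro P hP
    induction hP using Submodule.span_induction with
    | mem x hx =>
      obtain ⟨m, rfl⟩ := hx
      exact (aeConv_fourier m).congr (coeFn_fourierLp 3 m).symm
    | zero => exact aeConv_zero.congr (Lp.coeFn_zero _ _ _).symm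
    | add x y _ _ hx hy =>
      exact (hx.add ((Lp.memLp x).integrable (by norm_num)) ((Lp.memLp y).integrable (by norm_num))
        hy).congr (Lp.coeFn_add x y).symm
    | smul c x _ hx => exact (hx.smul c).congr (Lp.coeFn_smul c x).symm
  obtain ⟨r, hr0, hr⟩ : ∃ r : ℝ, 0 < r ∧ ENNReal.ofReal r ^ 3 ≤ η := by
    obtain ⟨r, hr0, hr⟩ := ENNReal.lt_iff_exists_nnreal_btwn.1 (lt_min hη zero_lt_one)
    refine ⟨r, by exact_mod_cast hr0, ?_⟩
    rw [ENNReal.ofReal_coe_nnreal]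
    exact (pow_le_of_le_one zero_le (hr.le.trans (min_le_right _ _)) (by norm_num)).trans
      (hr.le.trans (min_le_left _ _))
  have hd : hf.toLp f ∈ closure (Submodule.span ℂ (range (@fourierLp T _ 3 _)) :
      Set (Lp ℂ 3 (@haarAddCircle T _))) := by
    rw [← Submodule.topologicalClosure_coe, span_fourierLp_closure_eq_top (by norm_num)]
    trivial
  obtain ⟨P, hP, hdist⟩ := Metric.mem_closure_iff.1 hd r hr0
  refine ⟨P, Lp.memLp P, hspan P hP, le_trans ?_ hr⟩
  have h1 : eLpNorm (fun x => f x - P x) 3 haarAddCircle ≤ ENNReal.ofReal r := by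
    rw [Lp.dist_def] at hdist
    have e : eLpNorm (fun x => f x - P x) 3 haarAddCircle =
        eLpNorm (⇑(hf.toLp f) - ⇑P) 3 haarAddCircle :=
      eLpNorm_congr_ae (hf.coeFn_toLp.mono fun x hx => by simp [hx])
    rw [e]
    exact (ENNReal.le_ofReal_iff_toReal_le ((Lp.memLp _).sub (Lp.memLp P)).2.ne hr0.le).2 hdist.le
  rw [eLpNorm_eq_lintegral_rpow_enorm_toReal (by norm_num) (by norm_num)] at h1
  have e3 : (3 : ℝ≥0∞).toReal = ((3 : ℕ) : ℝ) := by norm_num
  simp only [e3, ENNReal.rpow_natCast] at h1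
  refine le_trans (le_of_eq ?_) (pow_le_pow_left' h1 3)
  rw [← ENNReal.rpow_natCast (_ ^ _), ← ENNReal.rpow_mul]
  norm_num

/-- The weak `L³` bound for the maximal partial sum. -/
theorem circ_weak : ∃ C : ℝ≥0, ∀ f : AddCircle T → ℂ, Integrable f haarAddCircle →
    ∀ lam : ℝ≥0∞, lam ^ 3 * haarAddCircle {x | lam < SMax f x} ≤
      C * ∫⁻ x, ‖f x‖ₑ ^ 3 ∂haarAddCircle := by
  obtain ⟨C, hC⟩ := circ_strong
  exact ⟨C, fun f hf lam => (ae_cheb (measurable_SMax f).aemeasurable lam).trans (hC T f hf)⟩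

/-- **Carleson's theorem** for `L³`. -/
theorem ae_L3 {f : AddCircle T → ℂ} (hf : MemLp f 3 haarAddCircle) : AEConv f := by
  obtain ⟨C, hC⟩ := circ_weak (T := T)
  have i1 := hf.integrable (by norm_num)
  refine ae_of_approx i1 fun lam δ hl hδ => ?_
  wlog hfin : lam ≠ ⊤ generalizing lam
  · obtain ⟨g, a, b, -, -⟩ := this 1 zero_lt_one ENNReal.one_ne_top
    rw [not_not.1 hfin]
    exact ⟨g, a, b, by simp, by simp⟩
  have l0 : lam ^ 3 ≠ 0 := pow_ne_zero _ hl.ne'
  have l1 : lam ^ 3 ≠ ⊤ := ENNReal.pow_ne_top hfin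
  have c0 : (C : ℝ≥0∞) + 1 ≠ 0 := by simp
  have c1 : (C : ℝ≥0∞) + 1 ≠ ⊤ := by simp
  obtain ⟨g, mg, cg, hg⟩ := exists_trig_approx hf (η := lam ^ 3 * δ / (C + 1))
    (ENNReal.div_pos (mul_ne_zero l0 hδ.ne') c1)
  have i2 := mg.integrable (by norm_num)
  have hb : ∀ c : ℝ≥0∞, c ≤ C + 1 →
      c * ∫⁻ x, ‖f x - g x‖ₑ ^ 3 ∂haarAddCircle ≤ lam ^ 3 * δ := by
    intro c hc
    calc _ ≤ (C + 1) * (lam ^ 3 * δ / (C + 1)) := by gcongr
      _ = _ := ENNReal.mul_div_cancel c0 c1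
  refine ⟨g, i2, cg, ?_, ?_⟩
  · rw [← ENNReal.mul_le_mul_iff_right l0 l1]
    exact (hC _ (i1.sub i2) lam).trans (hb C le_self_add)
  · rw [← ENNReal.mul_le_mul_iff_right l0 l1]
    refine (ae_cheb (i1.sub i2).1.enorm lam).trans ?_
    simpa using hb 1 le_add_self

/-- **Carleson's theorem** for bounded functions. -/
theorem ae_bdd {f : AddCircle T → ℂ} (hf : AEStronglyMeasurable f haarAddCircle) {M : ℝ}
    (hM : ∀ᵐ x ∂haarAddCircle, ‖f x‖ ≤ M) : AEConv f :=
  ae_L3 (MemLp.of_bound hf M hM)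

end Crest.Agent.R100
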