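import Mathlib

/-! Row 100: symmetric partial sums and the Dirichlet kernel on `AddCircle T`. -/

set_option autoImplicit false

namespace Crest.Agent.R100

open MeasureTheory Set AddCircle
open scoped ENNReal NNReal Real

variable {T : ℝ} [hT : Fact (0 < T)]

/-- The symmetric partial sum. -/
noncomputable def SN (f : AddCircle T → ℂ) (N : ℕ) (x : AddCircle T) : ℂ :=
  ∑ k ∈ Finset.Icc (-(N : ℤ)) N, fourierCoeff f k • fourier k x

/-- The Dirichlet kernel. -/
noncomputable def Dk (T : ℝ) (N : ℕ) (t : ℝ) : ℂ :=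
  ∑ k ∈ Finset.Icc (-(N : ℤ)) N, Complex.exp (-(2 * k * (π * t / T) : ℂ) * Complex.I)

/-- The frequency `(2N+1)π/T`. -/
noncomputable def lamN (T : ℝ) (N : ℕ) : ℝ := (2 * N + 1) * π / T

theorem continuous_SN (f : AddCircle T → ℂ) (N : ℕ) : Continuous (SN f N) := by
  unfold SN
  fun_prop

theorem SN_congr {f g : AddCircle T → ℂ} (h : f =ᵐ[haarAddCircle] g) : SN f = SN g := by
  funext N x
  simp only [SN, fourierCoeff_congr_ae h]

theorem SN_add {f g : AddCircle T → ℂ} (hf : Integrable f haarAddCircle)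
    (hg : Integrable g haarAddCircle) (N : ℕ) (x : AddCircle T) :
    SN (f + g) N x = SN f N x + SN g N x := by
  simp only [SN, fourierCoeff.add hf hg, Pi.add_apply, add_smul, Finset.sum_add_distrib]

theorem SN_smul (c : ℂ) (f : AddCircle T → ℂ) (N : ℕ) (x : AddCircle T) :
    SN (c • f) N x = c * SN f N x := by
  simp only [SN, fourierCoeff.const_smul, smul_eq_mul, Finset.mul_sum, mul_assoc]

theorem SN_sub {f g : AddCircle T → ℂ} (hf : Integrable f haarAddCircle)
    (hg : Integrable g haarAddCircle) (N : ℕ) (x : AddCircle T) :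
    SN (f - g) N x = SN f N x - SN g N x := by
  have := SN_add (hf.sub hg) hg N x
  rw [sub_add_cancel] at this
  rw [this, add_sub_cancel_right]

theorem SN_fourier (m : ℤ) {N : ℕ} (h : m.natAbs ≤ N) (x : AddCircle T) :
    SN (fourier m) N x = fourier m x := by
  unfold SN
  rw [fourierCoeff_fourier, Finset.sum_eq_single m]
  · simp
  · intro k _ hk
    simp [hk]
  · intro hm
    exact absurd (Finset.mem_Icc.2 ⟨by omega, by omega⟩) hm

theorem dk_aux (u : ℂ) (N : ℕ) :
    (∑ k ∈ Finset.Icc (-(N : ℤ)) N, Complex.exp (-(2 * k * u) * Complex.I)) * Complex.sin u =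
      Complex.sin ((2 * N + 1) * u) := by
  induction N with
  | zero => simp
  | succ n ih =>
    rw [Nat.cast_add, Nat.cast_one, Finset.Icc_succ_succ, Finset.sum_union (by simp),
      Finset.sum_pair (by omega), add_mul, ih]
    have h1 := Complex.two_cos (2 * (n + 1) * u)
    have h2 := Complex.sin_add (2 * (n + 1) * u) u
    have h3 := Complex.sin_sub (2 * (n + 1) * u) u
    have e1 : (2 * ((n + 1 : ℕ) : ℂ) + 1) * u = 2 * (n + 1) * u + u := by push_cast; ring
    have e2 : (2 * (n : ℂ) + 1) * u = 2 * (n + 1) * u - u := by ring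
    have e3 : -(2 * ((-((n : ℤ) + 1) : ℤ) : ℂ) * u) = 2 * (n + 1) * u := by push_cast; ring
    have e4 : (2 * (((n : ℤ) + 1 : ℤ) : ℂ) * u) = 2 * (n + 1) * u := by push_cast; ring
    rw [e1, e2, e3, e4, ← h1, h2, h3]
    ring

omit hT in
theorem Dk_mul_sin (N : ℕ) (t : ℝ) :
    Dk T N t * (Real.sin (π * t / T) : ℂ) = (Real.sin (lamN T N * t) : ℂ) := by
  have := dk_aux (π * t / T) N
  rw [Complex.ofReal_sin, Complex.ofReal_sin]
  push_cast
  rw [Dk, this, lamN]
  congr 1
  push_cast
  ring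

omit hT in
theorem norm_Dk_le (N : ℕ) (t : ℝ) : ‖Dk T N t‖ ≤ 2 * N + 1 := by
  refine (norm_sum_le _ _).trans ?_
  have : ∀ k : ℤ, ‖Complex.exp (-(2 * k * (π * t / T) : ℂ) * Complex.I)‖ = 1 := by
    intro k
    have := Complex.norm_exp_ofReal_mul_I (-(2 * k * (π * t / T)))
    push_cast at this
    exact this
  simp only [this, Finset.sum_const, Int.card_Icc, nsmul_eq_mul, mul_one]
  rw [show ((N : ℤ) + 1 - -(N : ℤ)).toNat = 2 * N + 1 by omega]
  push_cast
  exact le_rfl

omit hT in
theorem continuous_Dk (N : ℕ) : Continuous (Dk T N) := by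
  unfold Dk
  fun_prop

theorem dk_inv_sin {u : ℝ} (h0 : 0 < u) (h1 : u ≤ π / 2) : |1 / Real.sin u - 1 / u| ≤ 1 := by
  have hs : 2 / π * u ≤ Real.sin u := Real.mul_le_sin h0.le h1
  have hπ := Real.pi_pos
  have hπ4 := Real.pi_lt_d2
  have hpos : 0 < Real.sin u := lt_of_lt_of_le (by positivity) hs
  have h2 := Real.sin_gt_sub_cube h0
  have h3 := Real.sin_le h0.le
  rw [div_sub_div _ _ hpos.ne' h0.ne', abs_div, abs_of_pos (mul_pos hpos h0),
    abs_of_nonneg (by linarith), div_le_one (mul_pos hpos h0)]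
  have h4 : u / 2 ≤ Real.sin u := by
    refine le_trans ?_ hs
    rw [div_mul_eq_mul_div, div_le_div_iff₀ (by norm_num) hπ]
    nlinarith
  have h5 : u ≤ 2 := by linarith
  nlinarith [mul_le_mul_of_nonneg_right h4 h0.le, mul_pos h0 h0]

/-- The Dirichlet kernel is `(T/π) sin(λ t)/t` up to a bounded error. -/
theorem Dk_approx (N : ℕ) {t : ℝ} (h0 : t ≠ 0) (h1 : |t| ≤ T / 2) :
    ‖Dk T N t - (T / π * (Real.sin (lamN T N * t) / t) : ℝ)‖ ≤ 1 := by
  have hT0 := hT.out
  have hπ := Real.pi_pos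
  have key : |1 / Real.sin (π * t / T) - 1 / (π * t / T)| ≤ 1 ∧ Real.sin (π * t / T) ≠ 0 := by
    have hb : ∀ s : ℝ, 0 < s → s ≤ T / 2 → 0 < π * s / T ∧ π * s / T ≤ π / 2 := by
      intro s hs hs'
      refine ⟨by positivity, ?_⟩
      rw [div_le_iff₀ hT0]
      nlinarith
    rcases lt_or_gt_of_ne h0 with h | h
    · obtain ⟨a, b⟩ := hb (-t) (by linarith) (by rw [← abs_of_neg h]; exact h1)
      have e : π * t / T = -(π * -t / T) := by ring
      refine ⟨?_, ?_⟩
      · rw [e, Real.sin_neg, ← abs_neg]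
        convert dk_inv_sin a b using 2
        ring
      · rw [e, Real.sin_neg, neg_ne_zero]
        exact (Real.sin_pos_of_pos_of_lt_pi a (by linarith)).ne'
    · obtain ⟨a, b⟩ := hb t h (by rw [← abs_of_pos h]; exact h1)
      exact ⟨dk_inv_sin a b, (Real.sin_pos_of_pos_of_lt_pi a (by linarith)).ne'⟩
  have e : Dk T N t = ((Real.sin (lamN T N * t) / Real.sin (π * t / T) : ℝ) : ℂ) := by
    rw [Complex.ofReal_div, eq_div_iff (by exact_mod_cast key.2), Dk_mul_sin]
  rw [e, ← Complex.ofReal_sub, Complex.norm_real, Real.norm_eq_abs]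
  have e2 : Real.sin (lamN T N * t) / Real.sin (π * t / T) - T / π * (Real.sin (lamN T N * t) / t) =
      Real.sin (lamN T N * t) * (1 / Real.sin (π * t / T) - 1 / (π * t / T)) := by
    field_simp
  rw [e2, abs_mul]
  exact mul_le_one₀ (Real.abs_sin_le_one _) (abs_nonneg _) key.1

theorem intervalIntegrable_lift {f : AddCircle T → ℂ} (hf : Integrable f haarAddCircle) (a : ℝ) :
    IntervalIntegrable (fun t : ℝ => f t) volume a (a + T) := by
  have h1 : Integrable f volume := by
    rw [volume_eq_smul_haarAddCircle]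
    exact hf.smul_measure ENNReal.ofReal_ne_top
  rw [intervalIntegrable_iff_integrableOn_Ioc_of_le (by linarith [hT.out])]
  exact ((AddCircle.measurePreserving_mk T a).integrable_comp h1.1).2 h1

theorem intervalIntegrable_shift {f : AddCircle T → ℂ} (hf : Integrable f haarAddCircle) (x : ℝ) :
    IntervalIntegrable (fun t : ℝ => f (x + t : ℝ)) volume (-(T / 2)) (T / 2) := by
  have := (intervalIntegrable_lift hf (x - T / 2)).comp_add_left x
  convert this using 1 <;> ring

theorem integral_norm_shift (f : AddCircle T → ℂ) (x : ℝ) :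
    ∫ t in (-(T / 2))..(T / 2), ‖f (x + t : ℝ)‖ = T * ∫ z, ‖f z‖ ∂haarAddCircle := by
  rw [intervalIntegral.integral_comp_add_left (fun t : ℝ => ‖f t‖) x, integral_haarAddCircle,
    ← AddCircle.intervalIntegral_preimage T (x + -(T / 2)) fun z => ‖f z‖, smul_eq_mul,
    mul_inv_cancel_left₀ hT.out.ne']
  congr 1
  ring

/-- The partial sum as a convolution with the Dirichlet kernel. -/
theorem SN_eq {f : AddCircle T → ℂ} (hf : Integrable f haarAddCircle) (N : ℕ) (x : ℝ) :
    SN f N x = (1 / T : ℝ) * ∫ t in (-(T / 2))..(T / 2), f (x + t : ℝ) * Dk T N t := by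
  have hi := intervalIntegrable_shift hf x
  unfold SN Dk
  simp_rw [Finset.mul_sum]
  rw [intervalIntegral.integral_finsetSum fun k _ => hi.mul_continuousOn (by fun_prop),
    Finset.mul_sum]
  refine Finset.sum_congr rfl fun k _ => ?_
  rw [fourierCoeff_eq_intervalIntegral f k (x + -(T / 2)),
    show x + -(T / 2) + T = x + T / 2 by ring,
    ← intervalIntegral.integral_comp_add_left (fun t : ℝ => fourier (-k) (t : AddCircle T) • f t) x,
    Complex.real_smul, smul_eq_mul, mul_assoc, ← intervalIntegral.integral_mul_const]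
  congr 1
  refine intervalIntegral.integral_congr fun t _ => ?_
  simp only [fourier_coe_apply, smul_eq_mul]
  rw [mul_comm _ (f _), mul_assoc, ← Complex.exp_add]
  congr 2
  push_cast
  ring

/-- The partial sum is the modulated Hilbert transform up to `‖f‖₁`. -/
theorem SN_approx {f : AddCircle T → ℂ} (hf : Integrable f haarAddCircle) (N : ℕ) (x : ℝ) :
    ‖SN f N x - (1 / π : ℝ) * ∫ t in (-(T / 2))..(T / 2),
      f (x + t : ℝ) * (Real.sin (lamN T N * t) / t : ℝ)‖ ≤ ∫ z, ‖f z‖ ∂haarAddCircle := by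
  have hT0 := hT.out
  have hπ := Real.pi_pos
  have hi := intervalIntegrable_shift hf x
  have hle : -(T / 2) ≤ T / 2 := by linarith
  have i1 : IntervalIntegrable (fun t : ℝ => f (x + t : ℝ) * Dk T N t) volume (-(T / 2)) (T / 2) :=
    hi.mul_continuousOn (continuous_Dk N).continuousOn
  have hae : ∀ᵐ t : ℝ, t ∈ Ioc (-(T / 2)) (T / 2) →
      ‖f (x + t : ℝ) * Dk T N t - f (x + t : ℝ) * (T / π * (Real.sin (lamN T N * t) / t) : ℝ)‖ ≤
        ‖f (x + t : ℝ)‖ := by
    filter_upwards [compl_mem_ae_iff.2 (measure_singleton (0 : ℝ))] with t ht hm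
    rw [← mul_sub, norm_mul]
    exact mul_le_of_le_one_right (norm_nonneg _)
      (Dk_approx N ht (abs_le.2 ⟨hm.1.le, hm.2⟩))
  have i2 : IntervalIntegrable (fun t : ℝ =>
      f (x + t : ℝ) * (T / π * (Real.sin (lamN T N * t) / t) : ℝ)) volume (-(T / 2)) (T / 2) := by
    have i3 : IntervalIntegrable (fun t : ℝ => f (x + t : ℝ) * Dk T N t -
        f (x + t : ℝ) * (T / π * (Real.sin (lamN T N * t) / t) : ℝ)) volume (-(T / 2)) (T / 2) := by
      rw [intervalIntegrable_iff_integrableOn_Ioc_of_le hle] at hi i1 ⊢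
      refine hi.norm.mono' (i1.1.sub (hi.1.mul ?_)) ((ae_restrict_iff' measurableSet_Ioc).2 hae)
      exact Measurable.aestronglyMeasurable (by fun_prop)
    simpa using i1.sub i3
  have e : ((1 / π : ℝ) : ℂ) * ∫ t in (-(T / 2))..(T / 2),
      f (x + t : ℝ) * (Real.sin (lamN T N * t) / t : ℝ) = (1 / T : ℝ) * ∫ t in (-(T / 2))..(T / 2),
      f (x + t : ℝ) * (T / π * (Real.sin (lamN T N * t) / t) : ℝ) := by
    rw [← intervalIntegral.integral_const_mul, ← intervalIntegral.integral_const_mul]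
    refine intervalIntegral.integral_congr fun t _ => ?_
    have : (T : ℂ) ≠ 0 := by exact_mod_cast hT0.ne'
    push_cast
    field_simp
  rw [e, SN_eq hf, ← mul_sub, ← intervalIntegral.integral_sub i1 i2, norm_mul, Complex.norm_real,
    Real.norm_of_nonneg (by positivity)]
  have := intervalIntegral.norm_integral_le_of_norm_le hle hae hi.norm
  rw [integral_norm_shift] at this
  calc _ ≤ 1 / T * (T * ∫ z, ‖f z‖ ∂haarAddCircle) := by gcongr
    _ = _ := by field_simp

end Crest.Agent.R100
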