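import Crest.Agent.R100.CarLine
import Crest.Agent.R100.CarDk

/-! Row 100: Carleson's maximal theorem in `L³` on the circle. -/

set_option autoImplicit false

namespace Crest.Agent.R100

open MeasureTheory Set AddCircle Filter Topology
open scoped ENNReal NNReal Real

variable {T : ℝ} [hT : Fact (0 < T)]

/-- The maximal partial sum. -/
noncomputable def SMax (f : AddCircle T → ℂ) (x : AddCircle T) : ℝ≥0∞ := ⨆ N, ‖SN f N x‖ₑ

theorem measurable_SMax (f : AddCircle T → ℂ) : Measurable (SMax f) :=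
  Measurable.iSup fun N => (continuous_SN f N).measurable.enorm

theorem circ_ann_meas (ε R : ℝ) : MeasurableSet {t : ℝ | ε < |t| ∧ |t| < R} :=
  (measurableSet_lt measurable_const measurable_abs).inter
    (measurableSet_lt measurable_abs measurable_const)

theorem circ_abs_sinc (l t : ℝ) : |Real.sin (l * t) / t| ≤ |l| := by
  rcases eq_or_ne t 0 with rfl | h
  · simp
  · rw [abs_div, div_le_iff₀ (abs_pos.2 h), ← abs_mul]
    exact Real.abs_sin_le_abs

/-- The sine integral over a full period is controlled by the maximal truncations. -/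
theorem circ_main {h g : ℝ → ℂ} {x l : ℝ} {A : ℝ≥0∞}
    (hi : IntervalIntegrable h volume (-(T / 2)) (T / 2))
    (hg : ∀ t, |t| < T / 2 → g (x + t) = h t) (h1 : carA g (T / 2) l x ≤ A)
    (h2 : carA g (T / 2) (-l) x ≤ A) :
    ‖∫ t in (-(T / 2))..(T / 2), h t * (Real.sin (l * t) / t : ℝ)‖ₑ ≤
      A + ENNReal.ofReal (4 / T * ∫ t in (-(T / 2))..(T / 2), ‖h t‖) := by
  have hT0 := hT.out
  have hle : -(T / 2) ≤ T / 2 := by linarith
  rcases eq_or_ne A ⊤ with rfl | hA
  · simp
  obtain ⟨R, hR1, hR2⟩ := exists_rat_btwn (show T / 4 < T / 2 by linarith)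
  have hR0 : (0 : ℝ) < R := by linarith
  rw [intervalIntegrable_iff_integrableOn_Ioc_of_le hle] at hi
  rw [intervalIntegral.integral_of_le hle, intervalIntegral.integral_of_le hle]
  set J := Ioc (-(T / 2)) (T / 2) with hJ
  have hs : IntegrableOn (fun t => h t * (Real.sin (l * t) / t : ℝ)) J := by
    refine (hi.norm.mul_const |l|).mono' (hi.1.mul (Measurable.aestronglyMeasurable (by fun_prop)))
      (Eventually.of_forall fun t => ?_)
    rw [norm_mul, Complex.norm_real, Real.norm_eq_abs]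
    exact mul_le_mul_of_nonneg_left (circ_abs_sinc l t) (norm_nonneg _)
  have step : ∀ ε : ℚ, 0 < ε → ε < R → ‖∫ t in J, h t * (Real.sin (l * t) / t : ℝ)‖ ≤
      A.toReal + 4 / T * (∫ t in J, ‖h t‖) + |l| * ∫ t in Icc (-(ε : ℝ)) ε, ‖h t‖ ∂volume.restrict J := by
    intro ε h0 hε
    have h0' : (0 : ℝ) < ε := by exact_mod_cast h0
    set U := {t : ℝ | (ε : ℝ) < |t| ∧ |t| < R} with hU
    have hUJ : U ⊆ J := fun t ht => by
      have := abs_lt.1 (ht.2.trans hR2)
      exact ⟨this.1, this.2.le⟩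
    have mU : MeasurableSet U := circ_ann_meas _ _
    have iexp : ∀ m : ℝ, IntegrableOn
        (fun t => h t * Complex.exp (Complex.I * (m * t)) / (t : ℂ)) U := by
      intro m
      have hiU := hi.mono_set hUJ
      refine (hiU.norm.div_const (ε : ℝ)).mono' ?_ ((ae_restrict_iff' mU).2
        (Eventually.of_forall fun t ht => ?_))
      · simp_rw [mul_div_assoc]
        exact hiU.1.mul (Measurable.aestronglyMeasurable (by fun_prop))
      · rw [norm_div, norm_mul, ← Complex.ofReal_mul, mul_comm Complex.I,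
          Complex.norm_exp_ofReal_mul_I, mul_one, Complex.norm_real, Real.norm_eq_abs]
        exact div_le_div_of_nonneg_left (norm_nonneg _) h0' ht.1.le
    have ecar : ∀ m : ℝ, carT g m ε R x =
        ∫ t in U, h t * Complex.exp (Complex.I * (m * t)) / (t : ℂ) := by
      intro m
      refine setIntegral_congr_fun mU fun t ht => ?_
      simp only [hg t (ht.2.trans hR2)]
    have bcar : ∀ m : ℝ, carA g (T / 2) m x ≤ A → ‖carT g m ε R x‖ ≤ A.toReal := by
      intro m hm
      have := (le_carA g m x h0 hε hR2.le).trans hm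
      rw [← ofReal_norm] at this
      exact (ENNReal.ofReal_le_iff_le_toReal hA).1 this
    have mid : ‖∫ t in U, h t * (Real.sin (l * t) / t : ℝ)‖ ≤ A.toReal := by
      have e : ∫ t in U, h t * (Real.sin (l * t) / t : ℝ) =
          (carT g (-l) ε R x - carT g l ε R x) * (Complex.I / 2) := by
        rw [ecar, ecar, ← integral_sub (iexp _) (iexp _), ← integral_mul_const]
        refine setIntegral_congr_fun mU fun t _ => ?_
        simp only [Complex.ofReal_div, Complex.ofReal_sin, Complex.sin, Complex.ofReal_mul,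
          Complex.ofReal_neg]
        rw [show Complex.I * (-(l : ℂ) * t) = -((l : ℂ) * t) * Complex.I by ring,
          show Complex.I * ((l : ℂ) * t) = (l : ℂ) * t * Complex.I by ring]
        ring
      rw [e, norm_mul, norm_div, Complex.norm_I, Complex.norm_ofNat]
      linarith [norm_sub_le (carT g (-l) ε R x) (carT g l ε R x), bcar _ h1, bcar _ h2]
    have rest : ‖∫ t in J \ U, h t * (Real.sin (l * t) / t : ℝ)‖ ≤
        4 / T * (∫ t in J, ‖h t‖) + |l| * ∫ t in Icc (-(ε : ℝ)) ε, ‖h t‖ ∂volume.restrict J := by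
      have iB : IntegrableOn (fun t => 4 / T * ‖h t‖ +
          |l| * (Icc (-(ε : ℝ)) ε).indicator (fun t => ‖h t‖) t) J :=
        (hi.norm.const_mul _).add ((hi.norm.indicator measurableSet_Icc).const_mul _)
      have hnn : ∀ t, 0 ≤ 4 / T * ‖h t‖ + |l| * (Icc (-(ε : ℝ)) ε).indicator (fun t => ‖h t‖) t :=
        fun t => add_nonneg (by positivity) (mul_nonneg (abs_nonneg _)
          (indicator_nonneg (fun _ _ => norm_nonneg _) _))
      rw [← integral_indicator measurableSet_Icc, ← integral_const_mul, ← integral_const_mul,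
        ← integral_add (hi.norm.const_mul _) ((hi.norm.indicator measurableSet_Icc).const_mul _)]
      refine (norm_integral_le_of_norm_le (iB.mono_set sdiff_subset) ((ae_restrict_iff'
        (measurableSet_Ioc.diff mU)).2 (Eventually.of_forall fun t ht => ?_))).trans
        (setIntegral_mono_set iB (Eventually.of_forall hnn) sdiff_subset.eventuallyLE)
      rw [norm_mul, Complex.norm_real, Real.norm_eq_abs]
      by_cases hε' : |t| ≤ ε
      · rw [indicator_of_mem (show t ∈ Icc (-(ε : ℝ)) ε from abs_le.1 hε')]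
        have := mul_le_mul_of_nonneg_left (circ_abs_sinc l t) (norm_nonneg (h t))
        have : 0 ≤ 4 / T * ‖h t‖ := by positivity
        linarith
      · have hRt : (R : ℝ) ≤ |t| := by
          by_contra hc
          exact ht.2 ⟨not_le.1 hε', not_le.1 hc⟩
        have hb : |Real.sin (l * t) / t| ≤ 4 / T := by
          rw [abs_div, div_le_div_iff₀ (by linarith) hT0]
          nlinarith [Real.abs_sin_le_one (l * t)]
        have := mul_le_mul_of_nonneg_left hb (norm_nonneg (h t))
        have : 0 ≤ |l| * (Icc (-(ε : ℝ)) ε).indicator (fun t => ‖h t‖) t :=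
          mul_nonneg (abs_nonneg _) (indicator_nonneg (fun _ _ => norm_nonneg _) _)
        linarith
    have := setIntegral_sdiff mU hs hUJ
    have e : ∫ t in J, h t * (Real.sin (l * t) / t : ℝ) =
        (∫ t in U, h t * (Real.sin (l * t) / t : ℝ)) +
          ∫ t in J \ U, h t * (Real.sin (l * t) / t : ℝ) := by rw [this]; ring
    rw [e]
    linarith [norm_add_le (∫ t in U, h t * (Real.sin (l * t) / t : ℝ))
      (∫ t in J \ U, h t * (Real.sin (l * t) / t : ℝ))]
  have lim : Tendsto (fun n : ℕ => ∫ t in Icc (-((1 / (n + 1) : ℚ) : ℝ)) ((1 / (n + 1) : ℚ) : ℝ),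
      ‖h t‖ ∂volume.restrict J) atTop (𝓝 0) := by
    refine Integrable.tendsto_setIntegral_nhds_zero hi.norm ?_
    have t0 : Tendsto (fun n : ℕ => ENNReal.ofReal (2 * (1 / ((n : ℝ) + 1)))) atTop (𝓝 0) := by
      have := ENNReal.tendsto_ofReal (tendsto_one_div_add_atTop_nhds_zero_nat.const_mul (2 : ℝ))
      simpa using this
    refine tendsto_of_tendsto_of_tendsto_of_le_of_le tendsto_const_nhds t0 (fun _ => zero_le)
      fun n => ?_
    refine (Measure.restrict_apply_le _ _).trans ?_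
    rw [Real.volume_Icc]
    refine le_of_eq ?_
    congr 1
    push_cast
    ring
  have fin : ‖∫ t in J, h t * (Real.sin (l * t) / t : ℝ)‖ ≤ A.toReal + 4 / T * ∫ t in J, ‖h t‖ := by
    have := (lim.const_mul |l|).const_add (A.toReal + 4 / T * ∫ t in J, ‖h t‖)
    rw [mul_zero, add_zero] at this
    refine ge_of_tendsto this ?_
    have ev : ∀ᶠ n : ℕ in atTop, 1 / ((n : ℝ) + 1) < R :=
      tendsto_one_div_add_atTop_nhds_zero_nat.eventually (gt_mem_nhds hR0)
    filter_upwards [ev] with n hn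
    refine step _ (by positivity) ?_
    have : (((1 / (n + 1) : ℚ)) : ℝ) < R := by push_cast; exact hn
    exact_mod_cast this
  rw [← ofReal_norm]
  refine (ENNReal.ofReal_le_ofReal fin).trans (ENNReal.ofReal_add_le.trans ?_)
  rw [ENNReal.ofReal_toReal hA]

/-- Pointwise control of the partial sums by the Carleson operator of the line. -/
theorem SN_le_carA {f : AddCircle T → ℂ} (hf : Integrable f haarAddCircle) {g : ℝ → ℂ} {x : ℝ}
    (hg : ∀ t, |t| < T / 2 → g (x + t) = f (x + t : ℝ)) (N : ℕ) {A : ℝ≥0∞}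
    (h1 : carA g (T / 2) (lamN T N) x ≤ A) (h2 : carA g (T / 2) (-lamN T N) x ≤ A) :
    ‖SN f N x‖ₑ ≤ A + 5 * ∫⁻ z, ‖f z‖ₑ ∂haarAddCircle := by
  have hT0 := hT.out
  have a := circ_main (intervalIntegrable_shift hf x) hg h1 h2
  have b := SN_approx hf N x
  rw [integral_norm_shift, show 4 / T * (T * ∫ z, ‖f z‖ ∂haarAddCircle) =
    4 * ∫ z, ‖f z‖ ∂haarAddCircle by field_simp, ENNReal.ofReal_mul (by norm_num),
    ofReal_integral_norm_eq_lintegral_enorm hf, ENNReal.ofReal_ofNat] at a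
  set M := ∫ t in (-(T / 2))..(T / 2), f (x + t : ℝ) * (Real.sin (lamN T N * t) / t : ℝ)
  have b' : ‖SN f N x - (1 / π : ℝ) * M‖ₑ ≤ ∫⁻ z, ‖f z‖ₑ ∂haarAddCircle := by
    rw [← ofReal_norm, ← ofReal_integral_norm_eq_lintegral_enorm hf]
    exact ENNReal.ofReal_le_ofReal b
  have c : ‖((1 / π : ℝ) : ℂ) * M‖ₑ ≤ ‖M‖ₑ := by
    rw [← ofReal_norm, ← ofReal_norm, norm_mul, Complex.norm_real,
      Real.norm_of_nonneg (by positivity)]
    refine ENNReal.ofReal_le_ofReal (mul_le_of_le_one_left (norm_nonneg _) ?_)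
    rw [div_le_one Real.pi_pos]
    linarith [Real.pi_gt_three]
  calc ‖SN f N x‖ₑ = ‖((1 / π : ℝ) : ℂ) * M + (SN f N x - (1 / π : ℝ) * M)‖ₑ := by congr 1; ring
    _ ≤ _ := enorm_add_le _ _
    _ ≤ (A + 4 * ∫⁻ z, ‖f z‖ₑ ∂haarAddCircle) + ∫⁻ z, ‖f z‖ₑ ∂haarAddCircle := by
        gcongr
        exact c.trans a
    _ = _ := by ring

theorem lintegral_Ioc_lift (F : AddCircle T → ℝ≥0∞) (a : ℝ) :
    ∫⁻ x in Ioc a (a + T), F x = ENNReal.ofReal T * ∫⁻ z, F z ∂haarAddCircle := by
  rw [AddCircle.lintegral_preimage, volume_eq_smul_haarAddCircle, lintegral_smul_measure,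
    smul_eq_mul]

omit hT in
theorem circ_cube (a b : ℝ≥0∞) : (a + b) ^ 3 ≤ 4 * (a ^ 3 + b ^ 3) := by
  have := ENNReal.rpow_add_le_mul_rpow_add_rpow a b (p := 3) (by norm_num)
  norm_num at this
  exact_mod_cast this

omit hT in
/-- **Carleson–Hunt in `L³` on the circle.** -/
theorem circ_strong : ∃ C : ℝ≥0, ∀ (T : ℝ) [Fact (0 < T)] (f : AddCircle T → ℂ),
    Integrable f haarAddCircle →
    ∫⁻ x, SMax f x ^ 3 ∂haarAddCircle ≤ C * ∫⁻ x, ‖f x‖ₑ ^ 3 ∂haarAddCircle := by
  obtain ⟨C, hC⟩ := car_strong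
  refine ⟨4 * (2 * C + 125), fun T hT f hf => ?_⟩
  have hT0 := hT.out
  wlog hm : Measurable f generalizing f
  · have e : f =ᵐ[haarAddCircle] hf.1.mk f := hf.1.ae_eq_mk
    have := this (hf.1.mk f) (hf.congr e) hf.1.stronglyMeasurable_mk.measurable
    unfold SMax at this ⊢
    rw [SN_congr e]
    exact this.trans_eq (congrArg _ (lintegral_congr_ae (e.mono fun x hx => by simp only [← hx])))
  set g : ℝ → ℂ := (Ioc (-(T / 2)) (3 * T / 2)).indicator fun t : ℝ => f t with hg
  have mg : Measurable g := (hm.comp AddCircle.measurable_mk').indicator measurableSet_Ioc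
  set ξ : ℕ → ℝ := fun n => (-1) ^ n * lamN T (n / 2) with hξ
  have key := hC g ξ (T / 2) (by linarith) mg
  set I := ∫⁻ x, ‖f x‖ₑ ^ 3 ∂haarAddCircle with hI
  have ng : ∫⁻ x, ‖g x‖ₑ ^ 3 = 2 * (ENNReal.ofReal T * I) := by
    have : ∀ x, ‖g x‖ₑ ^ 3 = (Ioc (-(T / 2)) (3 * T / 2)).indicator
        (fun t : ℝ => ‖f t‖ₑ ^ 3) x := by
      intro x
      by_cases hx : x ∈ Ioc (-(T / 2)) (3 * T / 2) <;> simp [hg, hx]
    simp_rw [this]
    rw [lintegral_indicator measurableSet_Ioc, ← Ioc_union_Ioc_eq_Ioc (b := T / 2) (by linarith)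
      (by linarith), lintegral_union measurableSet_Ioc (Ioc_disjoint_Ioc_of_le le_rfl), two_mul]
    have a := lintegral_Ioc_lift (fun z => ‖f z‖ₑ ^ 3) (-(T / 2))
    have b := lintegral_Ioc_lift (fun z => ‖f z‖ₑ ^ 3) (T / 2)
    rw [show -(T / 2) + T = T / 2 by ring] at a
    rw [show T / 2 + T = 3 * T / 2 by ring] at b
    rw [a, b]
  set L := ∫⁻ z, ‖f z‖ₑ ∂haarAddCircle with hL
  have hL3 : L ^ 3 ≤ I := by
    have := eLpNorm_le_eLpNorm_of_exponent_le (μ := haarAddCircle) (p := 1) (q := 3) (f := f)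
      (by norm_num) hf.1
    rw [eLpNorm_one_eq_lintegral_enorm, eLpNorm_eq_lintegral_rpow_enorm_toReal (by norm_num)
      (by norm_num)] at this
    have e3 : (3 : ℝ≥0∞).toReal = ((3 : ℕ) : ℝ) := by norm_num
    simp only [e3, ENNReal.rpow_natCast] at this
    refine (pow_le_pow_left' this 3).trans_eq ?_
    rw [← ENNReal.rpow_natCast, ← ENNReal.rpow_mul]
    norm_num [hI]
  have hpt : ∀ x ∈ Ioc (0 : ℝ) (0 + T), SMax f x ^ 3 ≤
      4 * ((⨆ n, carA g (T / 2) (ξ n) x) ^ 3 + (5 * L) ^ 3) := by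
    intro x hx
    refine le_trans ?_ (circ_cube _ _)
    gcongr
    refine iSup_le fun N => SN_le_carA hf (g := g) (fun t ht => ?_) N ?_ ?_
    · have := abs_lt.1 ht
      exact indicator_of_mem (show x + t ∈ Ioc (-(T / 2)) (3 * T / 2) from
        ⟨by linarith [hx.1], by linarith [hx.2]⟩) _
    · refine le_iSup_of_le (2 * N) (le_of_eq ?_)
      simp [hξ]
    · refine le_iSup_of_le (2 * N + 1) (le_of_eq ?_)
      have : (2 * N + 1) / 2 = N := by omega
      simp [hξ, this, pow_succ]
  have t0 : ENNReal.ofReal T ≠ 0 := (ENNReal.ofReal_pos.2 hT0).ne'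
  rw [← ENNReal.mul_le_mul_iff_right t0 ENNReal.ofReal_ne_top,
    ← lintegral_Ioc_lift (fun z => SMax f z ^ 3) 0]
  calc _ ≤ ∫⁻ x in Ioc (0 : ℝ) (0 + T),
        4 * ((⨆ n, carA g (T / 2) (ξ n) x) ^ 3 + (5 * L) ^ 3) :=
        setLIntegral_mono' measurableSet_Ioc hpt
    _ = 4 * ((∫⁻ x in Ioc (0 : ℝ) (0 + T), (⨆ n, carA g (T / 2) (ξ n) x) ^ 3) +
        (5 * L) ^ 3 * ENNReal.ofReal T) := by
        rw [lintegral_const_mul' _ _ (by norm_num), lintegral_add_right _ measurable_const,
          setLIntegral_const, Real.volume_Ioc, zero_add, sub_zero]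
    _ ≤ 4 * (C * (2 * (ENNReal.ofReal T * I)) + 125 * I * ENNReal.ofReal T) := by
        gcongr
        · rw [← ng]
          exact (setLIntegral_le_lintegral _ _).trans key
        · rw [mul_pow, show (5 : ℝ≥0∞) ^ 3 = 125 by norm_num]
          gcongr
    _ = _ := by
        push_cast
        ring

end Crest.Agent.R100
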