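import Crest.Agent.R72.Var

/-! Row 100: Carleson's maximal operator on the line is bounded on `L³` (from row 72). -/

set_option autoImplicit false

namespace Crest.Agent.R100

open MeasureTheory Set
open scoped ENNReal NNReal

/-- The truncated modulated Hilbert transform. -/
noncomputable def carT (f : ℝ → ℂ) (ξ ε R x : ℝ) : ℂ :=
  ∫ t in {t : ℝ | ε < |t| ∧ |t| < R}, f (x + t) * Complex.exp (Complex.I * (ξ * t)) / (t : ℂ)

/-- The maximal truncation over rational radii `0 < ε < R ≤ R0`. -/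
noncomputable def carA (f : ℝ → ℂ) (R0 ξ x : ℝ) : ℝ≥0∞ :=
  ⨆ (ε : ℚ) (R : ℚ) (_ : 0 < ε ∧ ε < R ∧ (R : ℝ) ≤ R0), ‖carT f ξ ε R x‖ₑ

theorem le_carA (f : ℝ → ℂ) {R0 : ℝ} (ξ x : ℝ) {ε R : ℚ} (h0 : 0 < ε) (h1 : ε < R)
    (h2 : (R : ℝ) ≤ R0) : ‖carT f ξ ε R x‖ₑ ≤ carA f R0 ξ x :=
  le_iSup₂_of_le ε R (le_iSup (fun _ : 0 < ε ∧ ε < R ∧ (R : ℝ) ≤ R0 => ‖carT f ξ ε R x‖ₑ)
    ⟨h0, h1, h2⟩)

theorem measurable_carT {f : ℝ → ℂ} (hf : Measurable f) (ξ ε R : ℝ) :
    Measurable (carT f ξ ε R) := by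
  have : StronglyMeasurable (Function.uncurry fun (x t : ℝ) =>
      f (x + t) * Complex.exp (Complex.I * (ξ * t)) / (t : ℂ)) := by
    refine Measurable.stronglyMeasurable ?_
    unfold Function.uncurry
    fun_prop
  exact (this.integral_prod_right (ν := volume.restrict {t : ℝ | ε < |t| ∧ |t| < R})).measurable

theorem measurable_carA {f : ℝ → ℂ} (hf : Measurable f) (R0 ξ : ℝ) :
    Measurable (carA f R0 ξ) := by
  unfold carA
  refine Measurable.iSup fun ε => Measurable.iSup fun R => Measurable.iSup fun _ => ?_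
  exact (measurable_carT hf ξ ε R).enorm

theorem car_eLp_prod {f : ℝ → ℂ} (hf : AEStronglyMeasurable f volume) {H : ℝ × ℝ → ℂ} {a : ℝ}
    (hH : ∀ z, ‖H z‖ₑ = ‖f z.1‖ₑ * (Icc (-a) a).indicator 1 z.2) :
    eLpNorm H 3 volume = eLpNorm f 3 volume * ENNReal.ofReal (2 * a) ^ (1 / 3 : ℝ) := by
  rw [eLpNorm_eq_lintegral_rpow_enorm_toReal (by norm_num) (by norm_num),
    eLpNorm_eq_lintegral_rpow_enorm_toReal (by norm_num) (by norm_num)]
  have e3 : (3 : ℝ≥0∞).toReal = 3 := by norm_num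
  rw [e3, ← ENNReal.mul_rpow_of_nonneg _ _ (by norm_num)]
  congr 1
  have : ∀ z : ℝ × ℝ, ‖H z‖ₑ ^ (3 : ℝ) =
      ‖f z.1‖ₑ ^ (3 : ℝ) * (Icc (-a) a).indicator (1 : ℝ → ℝ≥0∞) z.2 := by
    intro z
    rw [hH]
    by_cases h : z.2 ∈ Icc (-a) a <;> simp [h]
  simp_rw [this]
  rw [Measure.volume_eq_prod, lintegral_prod_mul (hf.enorm.pow_const _)
    ((measurable_one.indicator measurableSet_Icc).aemeasurable),
    lintegral_indicator_one measurableSet_Icc, Real.volume_Icc]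
  congr 2
  ring

/-- The bilinear form of Carleson's bound. -/
theorem car_bilin : ∃ C : ℝ≥0, ∀ (f g : ℝ → ℂ) (N : ℝ → ℝ) (R0 : ℝ), 0 < R0 →
    MemLp f 3 volume → MemLp g 3 volume → Measurable N →
    (∫⁻ x, (‖g x‖ₑ * carA f R0 (N x) x) ^ (3 / 2 : ℝ)) ^ (2 / 3 : ℝ) ≤
      C * eLpNorm f 3 volume * eLpNorm g 3 volume := by
  obtain ⟨C, -, hC⟩ := R72.count_bound
  refine ⟨2 * Real.toNNReal (C * √(1 : ℕ) * Real.log (2 + (1 : ℕ))), fun f g N R0 hR hf hg hN => ?_⟩
  set J : Set ℝ := Icc (-(2 * R0)) (2 * R0) with hJ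
  set F : ℝ × ℝ → ℂ := fun z => f z.1 * J.indicator 1 z.2 with hF
  set G : ℝ × ℝ → ℂ := fun z =>
    g z.1 * Complex.exp (Complex.I * (N z.1 * z.2)) * J.indicator 1 z.2 with hG
  have hind : Measurable (J.indicator (1 : ℝ → ℂ)) := measurable_one.indicator measurableSet_Icc
  have hexp : ∀ a b : ℝ, ‖Complex.exp (Complex.I * (a * b))‖ₑ = 1 := by
    intro a b
    rw [← ofReal_norm, ← Complex.ofReal_mul, mul_comm, Complex.norm_exp_ofReal_mul_I]
    simp
  have nF : eLpNorm F 3 volume = eLpNorm f 3 volume * ENNReal.ofReal (2 * (2 * R0)) ^ (1 / 3 : ℝ) := by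
    refine car_eLp_prod hf.1 fun z => ?_
    by_cases h : z.2 ∈ J <;> simp [hF, h, ← hJ]
  have nG : eLpNorm G 3 volume = eLpNorm g 3 volume * ENNReal.ofReal (2 * (2 * R0)) ^ (1 / 3 : ℝ) := by
    refine car_eLp_prod hg.1 fun z => ?_
    by_cases h : z.2 ∈ J <;> simp [hG, h, ← hJ, hexp]
  have fin : ENNReal.ofReal (2 * (2 * R0)) ^ (1 / 3 : ℝ) < ⊤ :=
    ENNReal.rpow_lt_top_of_nonneg (by norm_num) ENNReal.ofReal_ne_top
  have mF : MemLp F 3 volume := by
    refine ⟨?_, by rw [nF]; exact ENNReal.mul_lt_top hf.2 fin⟩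
    exact (hf.1.comp_fst (ν := volume)).mul (hind.comp measurable_snd).aestronglyMeasurable
  have mG : MemLp G 3 volume := by
    refine ⟨?_, by rw [nG]; exact ENNReal.mul_lt_top hg.2 fin⟩
    refine ((hg.1.comp_fst (ν := volume)).mul ?_).mul
      (hind.comp measurable_snd).aestronglyMeasurable
    refine Measurable.aestronglyMeasurable ?_
    fun_prop
  have key := hC 1 le_rfl F G mF mG
  -- pointwise lower bound
  have hpt : ∀ x y : ℝ, y ∈ Icc (-R0) R0 →
      ‖g x‖ₑ * carA f R0 (N x) x ≤ Crest.AnalysisR.annulusCount 1 F G (x, y) := by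
    intro x y hy
    unfold carA
    simp only [ENNReal.mul_iSup]
    refine iSup_le fun ε => iSup_le fun R => iSup_le fun h => ?_
    have e : Crest.AnalysisR.annularTriangularHT F G ε R (x, y) =
        g x * Complex.exp (Complex.I * (N x * y)) * carT f (N x) ε R x := by
      unfold Crest.AnalysisR.annularTriangularHT carT
      rw [← integral_const_mul]
      refine setIntegral_congr_fun ?_ fun t ht => ?_
      · exact (measurableSet_lt measurable_const measurable_abs).inter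
          (measurableSet_lt measurable_abs measurable_const)
      · have h1 : y ∈ J := ⟨by linarith [hy.1], by linarith [hy.2]⟩
        have h3 := abs_lt.1 (ht.2.trans_le h.2.2)
        have h2 : y + t ∈ J := ⟨by linarith [hy.1], by linarith [hy.2]⟩
        simp only [hF, hG, indicator_of_mem h1, indicator_of_mem h2, Pi.one_apply, mul_one]
        rw [show Complex.I * (N x * ((y + t : ℝ) : ℂ)) =
          Complex.I * (N x * y) + Complex.I * (N x * t) by push_cast; ring, Complex.exp_add]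
        ring
    unfold Crest.AnalysisR.annulusCount
    refine le_iSup₂_of_le 1 le_rfl (le_iSup₂_of_le (fun _ => ε) (fun _ => R)
      (le_iSup₂_of_le (fun _ => ⟨h.1, h.2.1⟩) (fun i j hij => absurd (Subsingleton.elim i j) hij) ?_))
    simp [e, hexp]
  obtain ⟨h', hm, hle, heq⟩ := exists_measurable_le_lintegral_eq (μ := (volume : Measure ℝ))
    fun x => (‖g x‖ₑ * carA f R0 (N x) x) ^ (3 / 2 : ℝ)
  have low : (∫⁻ x, (‖g x‖ₑ * carA f R0 (N x) x) ^ (3 / 2 : ℝ)) * ENNReal.ofReal (2 * R0) ≤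
      ∫⁻ z, Crest.AnalysisR.annulusCount 1 F G z ^ (3 / 2 : ℝ) := by
    have e : ENNReal.ofReal (2 * R0) = ∫⁻ y, (Icc (-R0) R0).indicator (1 : ℝ → ℝ≥0∞) y := by
      rw [lintegral_indicator_one measurableSet_Icc, Real.volume_Icc]
      congr 1
      ring
    rw [heq, e, ← lintegral_prod_mul hm.aemeasurable
      ((measurable_one.indicator measurableSet_Icc).aemeasurable), Measure.volume_eq_prod]
    refine lintegral_mono fun z => ?_
    by_cases hz : z.2 ∈ Icc (-R0) R0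
    · simp only [indicator_of_mem hz, Pi.one_apply, mul_one]
      exact (hle z.1).trans (ENNReal.rpow_le_rpow (hpt z.1 z.2 hz) (by norm_num))
    · simp [hz]
  have a0 : ENNReal.ofReal (2 * R0) ^ (2 / 3 : ℝ) ≠ 0 :=
    (ENNReal.rpow_pos (ENNReal.ofReal_pos.2 (by linarith)) ENNReal.ofReal_ne_top).ne'
  have a1 : ENNReal.ofReal (2 * R0) ^ (2 / 3 : ℝ) ≠ ⊤ :=
    (ENNReal.rpow_lt_top_of_nonneg (by norm_num) ENNReal.ofReal_ne_top).ne
  have a2 : ENNReal.ofReal (2 * (2 * R0)) ^ (1 / 3 : ℝ) * ENNReal.ofReal (2 * (2 * R0)) ^ (1 / 3 : ℝ)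
      ≤ 2 * ENNReal.ofReal (2 * R0) ^ (2 / 3 : ℝ) := by
    rw [← ENNReal.rpow_add_of_nonneg _ _ (by norm_num) (by norm_num),
      ENNReal.ofReal_mul (by norm_num), ENNReal.mul_rpow_of_nonneg _ _ (by norm_num),
      show (1 / 3 + 1 / 3 : ℝ) = 2 / 3 by norm_num]
    gcongr
    rw [ENNReal.ofReal_ofNat]
    calc (2 : ℝ≥0∞) ^ (2 / 3 : ℝ) ≤ 2 ^ (1 : ℝ) :=
          ENNReal.rpow_le_rpow_of_exponent_le (by norm_num) (by norm_num)
      _ = 2 := ENNReal.rpow_one _
  rw [← ENNReal.mul_le_mul_iff_left a0 a1, ← ENNReal.mul_rpow_of_nonneg _ _ (by norm_num)]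
  refine (ENNReal.rpow_le_rpow low (by norm_num)).trans (key.trans ?_)
  rw [nF, nG]
  calc _ = ENNReal.ofReal (C * √(1 : ℕ) * Real.log (2 + (1 : ℕ))) * eLpNorm f 3 volume *
        eLpNorm g 3 volume * (ENNReal.ofReal (2 * (2 * R0)) ^ (1 / 3 : ℝ) *
          ENNReal.ofReal (2 * (2 * R0)) ^ (1 / 3 : ℝ)) := by ring
    _ ≤ ENNReal.ofReal (C * √(1 : ℕ) * Real.log (2 + (1 : ℕ))) * eLpNorm f 3 volume *
        eLpNorm g 3 volume * (2 * ENNReal.ofReal (2 * R0) ^ (2 / 3 : ℝ)) := by gcongr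
    _ = _ := by
      rw [ENNReal.coe_mul, ENNReal.coe_ofNat]
      unfold ENNReal.ofReal
      ring

theorem car_eLp3 (f : ℝ → ℂ) (μ : Measure ℝ) :
    eLpNorm f 3 μ = (∫⁻ x, ‖f x‖ₑ ^ 3 ∂μ) ^ (1 / 3 : ℝ) := by
  rw [eLpNorm_eq_lintegral_rpow_enorm_toReal (by norm_num) (by norm_num)]
  have e3 : (3 : ℝ≥0∞).toReal = ((3 : ℕ) : ℝ) := by norm_num
  simp only [e3, ENNReal.rpow_natCast]
  norm_num

/-- **Carleson's maximal theorem in `L³(ℝ)`**, for a sequence of frequencies and with maximal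
truncations. -/
theorem car_strong : ∃ C : ℝ≥0, ∀ (f : ℝ → ℂ) (ξ : ℕ → ℝ) (R0 : ℝ), 0 < R0 → Measurable f →
    ∫⁻ x, (⨆ n, carA f R0 (ξ n) x) ^ 3 ≤ C * ∫⁻ x, ‖f x‖ₑ ^ 3 := by
  classical
  obtain ⟨C, hC⟩ := car_bilin
  refine ⟨(2 * C + 1) ^ 3, fun f ξ R0 hR hf => ?_⟩
  by_cases hfin : ∫⁻ x, ‖f x‖ₑ ^ 3 = ⊤
  · rw [hfin, ENNReal.mul_top (by simp)]
    exact le_top
  have mf : MemLp f 3 volume := by
    refine ⟨hf.aestronglyMeasurable, ?_⟩
    rw [car_eLp3]
    exact ENNReal.rpow_lt_top_of_nonneg (by norm_num) hfin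
  set A : ℝ → ℝ≥0∞ := fun x => ⨆ n, carA f R0 (ξ n) x with hA
  have mA : Measurable A := Measurable.iSup fun n => measurable_carA hf R0 (ξ n)
  set u : ℕ → ℝ → ℝ≥0∞ := fun K => (Icc (-(K : ℝ)) K).indicator fun x => min (A x) K with hu
  have mu : ∀ K, Measurable (u K) := fun K =>
    (mA.min measurable_const).indicator measurableSet_Icc
  have ule : ∀ K x, u K x ≤ min (A x) K := fun K x => indicator_le_self' (fun _ _ => zero_le) x
  have ufin : ∀ K x, u K x ≠ ⊤ := fun K x =>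
    ne_top_of_le_ne_top (ENNReal.natCast_ne_top K) ((ule K x).trans (min_le_right _ _))
  have step : ∀ K, ∫⁻ x, u K x ^ 3 ≤ ((2 * C + 1) ^ 3 : ℝ≥0) * ∫⁻ x, ‖f x‖ₑ ^ 3 := by
    intro K
    have hex : ∀ x, ∃ n, u K x ≤ 2 * carA f R0 (ξ n) x := by
      intro x
      by_cases h0 : u K x = 0
      · exact ⟨0, by simp [h0]⟩
      · have h1 : u K x / 2 < A x :=
          (ENNReal.half_lt_self h0 (ufin K x)).trans_le ((ule K x).trans (min_le_left _ _))
        obtain ⟨n, hn⟩ := lt_iSup_iff.1 h1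
        refine ⟨n, ?_⟩
        rw [mul_comm]
        exact (ENNReal.div_le_iff (by norm_num) (by norm_num)).1 hn.le
    have mn : Measurable fun x => Nat.find (hex x) := measurable_find hex fun n =>
      measurableSet_le (mu K) ((measurable_carA hf R0 (ξ n)).const_mul 2)
    set g : ℝ → ℂ := fun x => ((u K x).toReal : ℂ) with hg
    have ng : ∀ x, ‖g x‖ₑ = u K x := by
      intro x
      rw [hg, ← ofReal_norm, Complex.norm_real, Real.norm_of_nonneg ENNReal.toReal_nonneg,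
        ENNReal.ofReal_toReal (ufin K x)]
    set I := ∫⁻ x, u K x ^ 3 with hI
    have Ifin : I ≠ ⊤ := by
      have : I ≤ ∫⁻ x, (Icc (-(K : ℝ)) K).indicator (fun _ => (K : ℝ≥0∞) ^ 3) x := by
        refine lintegral_mono fun x => ?_
        by_cases hx : x ∈ Icc (-(K : ℝ)) K
        · simp only [indicator_of_mem hx]
          gcongr
          exact (ule K x).trans (min_le_right _ _)
        · simp [hu, hx]
      refine ne_top_of_le_ne_top ?_ this
      rw [lintegral_indicator_const measurableSet_Icc]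
      exact ENNReal.mul_ne_top (by simp) (by simp)
    have eg : eLpNorm g 3 volume = I ^ (1 / 3 : ℝ) := by
      rw [car_eLp3]
      simp only [ng, hI]
    have mg : MemLp g 3 volume := by
      refine ⟨Measurable.aestronglyMeasurable ?_, ?_⟩
      · exact Complex.measurable_ofReal.comp (mu K).ennreal_toReal
      · rw [eg]
        exact ENNReal.rpow_lt_top_of_nonneg (by norm_num) Ifin
    have h1 := hC f g (fun x => ξ (Nat.find (hex x))) R0 hR mf mg
      ((measurable_of_countable ξ).comp mn)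
    have h2 : I ≤ 2 ^ (3 / 2 : ℝ) *
        ∫⁻ x, (‖g x‖ₑ * carA f R0 (ξ (Nat.find (hex x))) x) ^ (3 / 2 : ℝ) := by
      rw [← lintegral_const_mul' _ _ (ENNReal.rpow_ne_top_of_nonneg (by norm_num) (by norm_num))]
      refine lintegral_mono fun x => ?_
      simp only [ng]
      rw [← ENNReal.mul_rpow_of_nonneg _ _ (by norm_num)]
      calc u K x ^ 3 = (u K x * u K x) ^ (3 / 2 : ℝ) := by
            rw [← sq, ← ENNReal.rpow_natCast, ← ENNReal.rpow_natCast, ← ENNReal.rpow_mul]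
            norm_num
        _ ≤ _ := by
            refine ENNReal.rpow_le_rpow ?_ (by norm_num)
            rw [mul_left_comm]
            gcongr
            exact Nat.find_spec (hex x)
    have h3 : I ^ (1 / 3 : ℝ) * I ^ (1 / 3 : ℝ) ≤ (2 * C * eLpNorm f 3 volume) * I ^ (1 / 3 : ℝ) := by
      rw [← ENNReal.rpow_add_of_nonneg _ _ (by norm_num) (by norm_num),
        show (1 / 3 + 1 / 3 : ℝ) = 2 / 3 by norm_num]
      refine (ENNReal.rpow_le_rpow h2 (by norm_num)).trans ?_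
      rw [ENNReal.mul_rpow_of_nonneg _ _ (by norm_num), ← ENNReal.rpow_mul,
        show (3 / 2 * (2 / 3) : ℝ) = 1 by norm_num, ENNReal.rpow_one, ← eg, mul_assoc, mul_assoc,
        ← mul_assoc (C : ℝ≥0∞)]
      gcongr
    by_cases I0 : I = 0
    · simp [I0]
    have h4 : I ^ (1 / 3 : ℝ) ≤ 2 * C * eLpNorm f 3 volume :=
      (ENNReal.mul_le_mul_iff_left (ENNReal.rpow_pos (pos_iff_ne_zero.2 I0) Ifin).ne'
        (ENNReal.rpow_ne_top_of_nonneg (by norm_num) Ifin)).1 h3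
    calc I = (I ^ (1 / 3 : ℝ)) ^ 3 := by
          rw [← ENNReal.rpow_natCast, ← ENNReal.rpow_mul]
          norm_num
      _ ≤ (2 * C * eLpNorm f 3 volume) ^ 3 := by gcongr
      _ = (2 * C) ^ 3 * ∫⁻ x, ‖f x‖ₑ ^ 3 := by
          rw [mul_pow, car_eLp3, ← ENNReal.rpow_natCast (_ ^ _), ← ENNReal.rpow_mul]
          norm_num
      _ ≤ _ := by
          push_cast
          gcongr
          exact le_self_add
  have hsup : ∀ x, A x ^ 3 = ⨆ K, u K x ^ 3 := by
    intro x
    refine le_antisymm ?_ (iSup_le fun K => by gcongr; exact (ule K x).trans (min_le_left _ _))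
    obtain ⟨K0, hK0⟩ := exists_nat_ge |x|
    have hx : ∀ K, K0 ≤ K → u K x = min (A x) K := by
      intro K hK
      have : (K0 : ℝ) ≤ K := by exact_mod_cast hK
      have h := abs_le.1 (hK0.trans this)
      exact indicator_of_mem (show x ∈ Icc (-(K : ℝ)) K from h) _
    by_cases hA : A x = ⊤
    · refine le_of_eq_of_le (b := ⊤) (by simp [hA]) ?_
      rw [← ENNReal.iSup_natCast]
      refine iSup_le fun K => le_iSup_of_le (max K0 K + 1) ?_
      rw [hx _ (by omega), hA, min_eq_right le_top]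
      have h1 : (1 : ℝ≥0∞) ≤ ((max K0 K + 1 : ℕ) : ℝ≥0∞) := by exact_mod_cast Nat.le_add_left _ _
      calc (K : ℝ≥0∞) ≤ ((max K0 K + 1 : ℕ) : ℝ≥0∞) := by exact_mod_cast (by omega)
        _ ≤ _ := le_self_pow₀ h1 (by norm_num)
    · obtain ⟨K, hK⟩ := ENNReal.exists_nat_gt hA
      refine le_iSup_of_le (max K0 K) ?_
      rw [hx _ (le_max_left _ _), min_eq_left]
      exact hK.le.trans (by exact_mod_cast le_max_right _ _)
  have hmono : Monotone fun K x => u K x ^ 3 := by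
    intro K L hKL x
    have hKL' : (K : ℝ) ≤ L := by exact_mod_cast hKL
    dsimp only
    gcongr
    by_cases hx : x ∈ Icc (-(K : ℝ)) K
    · have hx' : x ∈ Icc (-(L : ℝ)) L := ⟨by linarith [hx.1], by linarith [hx.2]⟩
      simp only [hu, indicator_of_mem hx, indicator_of_mem hx']
      exact min_le_min le_rfl (by exact_mod_cast hKL)
    · simp [hu, hx]
  change ∫⁻ x, A x ^ 3 ≤ _
  simp_rw [hsup]
  rw [lintegral_iSup (fun K => (mu K).pow_const 3) hmono]
  exact iSup_le step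

end Crest.Agent.R100
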