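import Crest.Agent.R100.OutDefs

set_option autoImplicit false

open MeasureTheory Set Filter
open scoped ENNReal Topology

namespace Crest.Agent.R100

/-- Weak type (1,1) of the uncentred maximal function
(`Vitali.exists_disjoint_subfamily_covering_enlargement_closedBall`, `toMeasurable`). -/
theorem hl_weak {g : ℝ → ℝ} (hg : Integrable g) (h0 : ∀ y, 0 ≤ g y) {s : ℝ} (hs : 0 < s) :
    ∃ E : Set ℝ, MeasurableSet E ∧ volume E ≤ ENNReal.ofReal (5 * (∫ y, g y) / s) ∧
      ∀ x ∉ E, ∀ α ℓ : ℝ, 0 < ℓ → α ≤ x → x ≤ α + ℓ → av g α ℓ ≤ s := by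
  set t : Set (ℝ × ℝ) := {p | 0 < p.2 ∧ s < av g p.1 p.2} with ht
  have hball : ∀ p : ℝ × ℝ, Metric.closedBall (p.1 + p.2 / 2) (p.2 / 2) = Icc p.1 (p.1 + p.2) := by
    intro p
    rw [Real.closedBall_eq_Icc]
    congr 1 <;> ring
  have hkey : ∀ p ∈ t, s * p.2 ≤ ∫ y in Icc p.1 (p.1 + p.2), g y := by
    intro p hp
    have h1 : s < av g p.1 p.2 := hp.2
    have h2 : 0 < p.2 := hp.1
    rw [av, lt_div_iff₀ h2, intervalIntegral.integral_of_le (by linarith),
      ← integral_Icc_eq_integral_Ioc] at h1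
    exact h1.le
  have hr : ∀ p ∈ t, p.2 / 2 ≤ (∫ y, g y) / s := by
    intro p hp
    have h1 := (hkey p hp).trans (setIntegral_le_integral hg (Eventually.of_forall h0))
    have h2 : 0 < p.2 := hp.1
    rw [le_div_iff₀ hs]
    nlinarith
  obtain ⟨u, hut, hdisj, hcov⟩ := Vitali.exists_disjoint_subfamily_covering_enlargement_closedBall t
    (fun p => p.1 + p.2 / 2) (fun p => p.2 / 2) _ hr 5 (by norm_num)
  have hc : u.Countable := hdisj.countable_of_nonempty_interior fun p hp => by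
    have h2 : 0 < p.2 := (hut hp).1
    rw [hball, interior_Icc]
    exact nonempty_Ioo.2 (by linarith)
  refine ⟨⋃ p ∈ u, Metric.closedBall (p.1 + p.2 / 2) (5 * (p.2 / 2)),
    MeasurableSet.biUnion hc fun p _ => Metric.isClosed_closedBall.measurableSet, ?_, ?_⟩
  · have h5 : (0 : ℝ) ≤ 5 / s := by positivity
    calc volume (⋃ p ∈ u, Metric.closedBall (p.1 + p.2 / 2) (5 * (p.2 / 2)))
        ≤ ∑' p : u, volume (Metric.closedBall (p.1.1 + p.1.2 / 2) (5 * (p.1.2 / 2))) :=
          measure_biUnion_le _ hc _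
      _ ≤ ∑' p : u, ENNReal.ofReal (5 / s) *
            ∫⁻ y in Metric.closedBall (p.1.1 + p.1.2 / 2) (p.1.2 / 2), ENNReal.ofReal (g y) := by
          refine ENNReal.tsum_le_tsum fun p => ?_
          rw [hball, ← ofReal_integral_eq_lintegral_ofReal hg.integrableOn (Eventually.of_forall h0),
            ← ENNReal.ofReal_mul h5, Real.volume_closedBall]
          refine ENNReal.ofReal_le_ofReal ?_
          have h1 := hkey p.1 (hut p.2)
          calc 2 * (5 * (p.1.2 / 2)) = 5 / s * (s * p.1.2) := by field_simp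
            _ ≤ _ := mul_le_mul_of_nonneg_left h1 h5
      _ = ENNReal.ofReal (5 / s) *
            ∫⁻ y in ⋃ p ∈ u, Metric.closedBall (p.1 + p.2 / 2) (p.2 / 2), ENNReal.ofReal (g y) := by
          rw [ENNReal.tsum_mul_left, lintegral_biUnion hc
            (fun p _ => Metric.isClosed_closedBall.measurableSet) hdisj]
      _ ≤ ENNReal.ofReal (5 / s) * ∫⁻ y, ENNReal.ofReal (g y) :=
          mul_le_mul_right (setLIntegral_le_lintegral _ _) _
      _ = ENNReal.ofReal (5 * (∫ y, g y) / s) := by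
          rw [← ofReal_integral_eq_lintegral_ofReal hg (Eventually.of_forall h0),
            ← ENNReal.ofReal_mul h5]
          congr 1
          ring
  · intro x hx α ℓ hℓ h1 h2
    by_contra h
    obtain ⟨b, hb, hsub⟩ := hcov (α, ℓ) ⟨hℓ, not_le.1 h⟩
    refine hx (mem_biUnion hb (hsub ?_))
    rw [hball (α, ℓ)]
    exact ⟨h1, h2⟩

end Crest.Agent.R100
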