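import Crest.Agent.R100.OutDefs

set_option autoImplicit false

open MeasureTheory Set Filter
open scoped ENNReal Topology

namespace Crest.Agent.R100

theorem pth_true {n : ℕ} {α ℓ x : ℝ} (h : α + ℓ / 2 ≤ x) :
    path (n + 1) α ℓ x = true :: path n (α + ℓ / 2) (ℓ / 2) x := by
  simp [path, h, ch]

theorem pth_false {n : ℕ} {α ℓ x : ℝ} (h : ¬ α + ℓ / 2 ≤ x) :
    path (n + 1) α ℓ x = false :: path n α (ℓ / 2) x := by
  simp [path, h, ch]

theorem measurable_path_comp (Φ : List Bool → ℝ) (n : ℕ) (α ℓ : ℝ) :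
    Measurable fun x => Φ (path n α ℓ x) := by
  induction n generalizing Φ α ℓ with
  | zero => exact measurable_const (a := Φ [])
  | succ n ih =>
    have : (fun x => Φ (path (n + 1) α ℓ x)) = fun x => if α + ℓ / 2 ≤ x then
        Φ (true :: path n (α + ℓ / 2) (ℓ / 2) x) else Φ (false :: path n α (ℓ / 2) x) := by
      funext x
      split_ifs with h
      · rw [pth_true h]
      · rw [pth_false h]
    rw [this]
    exact Measurable.ite measurableSet_Ici (ih (fun l => Φ (true :: l)) _ _)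
      (ih (fun l => Φ (false :: l)) _ _)

theorem pth_avg_nonneg {Φ : List Bool → ℝ} (h0 : ∀ l, 0 ≤ Φ l) (n : ℕ) : 0 ≤ avg n Φ := by
  induction n generalizing Φ with
  | zero => exact h0 _
  | succ n ih =>
    exact div_nonneg (add_nonneg (ih fun l => h0 _) (ih fun l => h0 _)) zero_le_two

theorem lintegral_path {Φ : List Bool → ℝ} (h0 : ∀ l, 0 ≤ Φ l) (n : ℕ) (α : ℝ) {ℓ : ℝ}
    (hℓ : 0 < ℓ) :
    ∫⁻ x in Ico α (α + ℓ), ENNReal.ofReal (Φ (path n α ℓ x)) = ENNReal.ofReal (ℓ * avg n Φ) := by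
  induction n generalizing Φ α ℓ with
  | zero =>
    simp only [path, avg, lintegral_const, MeasurableSet.univ, Measure.restrict_apply, univ_inter,
      Real.volume_Ico, add_sub_cancel_left]
    rw [ENNReal.ofReal_mul hℓ.le, mul_comm]
  | succ n ih =>
    have h2 : 0 < ℓ / 2 := half_pos hℓ
    have hU : Ico α (α + ℓ) = Ico α (α + ℓ / 2) ∪ Ico (α + ℓ / 2) (α + ℓ / 2 + ℓ / 2) := by
      rw [Ico_union_Ico_eq_Ico (by linarith) (by linarith)]
      congr 1; ring
    rw [hU, lintegral_union measurableSet_Ico Ico_disjoint_Ico_same]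
    have e1 : ∫⁻ x in Ico α (α + ℓ / 2), ENNReal.ofReal (Φ (path (n + 1) α ℓ x)) =
        ∫⁻ x in Ico α (α + ℓ / 2), ENNReal.ofReal (Φ (false :: path n α (ℓ / 2) x)) :=
      setLIntegral_congr_fun measurableSet_Ico fun x hx => by
        simp only [pth_false (not_le.2 hx.2)]
    have e2 : ∫⁻ x in Ico (α + ℓ / 2) (α + ℓ / 2 + ℓ / 2),
          ENNReal.ofReal (Φ (path (n + 1) α ℓ x)) =
        ∫⁻ x in Ico (α + ℓ / 2) (α + ℓ / 2 + ℓ / 2),
          ENNReal.ofReal (Φ (true :: path n (α + ℓ / 2) (ℓ / 2) x)) :=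
      setLIntegral_congr_fun measurableSet_Ico fun x hx => by
        simp only [pth_true hx.1]
    rw [e1, e2, ih (Φ := fun l => Φ (false :: l)) (fun l => h0 _) α h2,
      ih (Φ := fun l => Φ (true :: l)) (fun l => h0 _) _ h2,
      ← ENNReal.ofReal_add (mul_nonneg h2.le (pth_avg_nonneg (fun l => h0 _) n))
        (mul_nonneg h2.le (pth_avg_nonneg (fun l => h0 _) n))]
    congr 1
    simp only [avg]; ring

theorem good_path {g : ℝ → ℝ} {s x : ℝ}
    (h : ∀ α ℓ : ℝ, 0 < ℓ → α ≤ x → x ≤ α + ℓ → av g α ℓ ≤ s) (n : ℕ) {α ℓ : ℝ} (hℓ : 0 < ℓ)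
    (hx : x ∈ Ico α (α + ℓ)) : good g s α ℓ (path n α ℓ x) := by
  induction n generalizing α ℓ with
  | zero => trivial
  | succ n ih =>
    by_cases hc : α + ℓ / 2 ≤ x
    · rw [pth_true hc]
      exact ⟨h α ℓ hℓ hx.1 hx.2.le, ih (α := α + ℓ / 2) (half_pos hℓ) ⟨hc, by have := hx.2; linarith⟩⟩
    · rw [pth_false hc]
      exact ⟨h α ℓ hℓ hx.1 hx.2.le, ih (half_pos hℓ) ⟨hx.1, not_le.1 hc⟩⟩

theorem pth_meas_aa : Measurable aa := by
  unfold aa
  exact Measurable.ite measurableSet_Iio measurable_const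
    (Measurable.ite measurableSet_Iio measurable_const measurable_const)

theorem pth_meas_hh : Measurable hh := by
  unfold hh
  exact Measurable.ite measurableSet_Ioc measurable_const
    (Measurable.ite measurableSet_Ioc measurable_const measurable_const)

theorem measurable_kn {X : Type} [MeasurableSpace X] (n : ℕ) {α ℓ x y : X → ℝ} (hα : Measurable α)
    (hℓ : Measurable ℓ) (hx : Measurable x) (hy : Measurable y) :
    Measurable fun p => kn n (α p) (ℓ p) (x p) (y p) := by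
  induction n generalizing α ℓ with
  | zero => exact measurable_const
  | succ n ih =>
    simp only [kn]
    refine Measurable.add (((pth_meas_aa.comp ((hx.sub hα).div hℓ)).mul
      (pth_meas_hh.comp ((hy.sub hα).div hℓ))).div hℓ) ?_
    exact ih (α := fun p => if α p + ℓ p / 2 ≤ x p then α p + ℓ p / 2 else α p)
      (ℓ := fun p => ℓ p / 2)
      (Measurable.ite (measurableSet_le (hα.add (hℓ.div_const 2)) hx) (hα.add (hℓ.div_const 2)) hα)
      (hℓ.div_const 2)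

theorem pth_abs_aa (v : ℝ) : |aa v| ≤ 1 := by
  unfold aa; split_ifs <;> simp

theorem pth_abs_hh (v : ℝ) : |hh v| ≤ 1 := by
  unfold hh; split_ifs <;> simp

theorem pth_abs_kn (n : ℕ) (α : ℝ) {ℓ : ℝ} (hℓ : 0 < ℓ) (x y : ℝ) :
    |kn n α ℓ x y| ≤ (2 ^ n - 1) / ℓ := by
  induction n generalizing α ℓ with
  | zero => simp [kn]
  | succ n ih =>
    simp only [kn]
    refine (abs_add_le _ _).trans ?_
    have h1 : |aa ((x - α) / ℓ) * hh ((y - α) / ℓ) / ℓ| ≤ 1 / ℓ := by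
      rw [abs_div, abs_mul, abs_of_pos hℓ]
      exact div_le_div_of_nonneg_right
        (mul_le_one₀ (pth_abs_aa _) (abs_nonneg _) (pth_abs_hh _)) hℓ.le
    have h2 := ih (if α + ℓ / 2 ≤ x then α + ℓ / 2 else α) (half_pos hℓ)
    refine (add_le_add h1 h2).trans (le_of_eq ?_)
    field_simp
    ring

theorem abs_kn_le (n : ℕ) (α : ℝ) {ℓ : ℝ} (hℓ : 0 < ℓ) (x y : ℝ) : |kn n α ℓ x y| ≤ 2 ^ n / ℓ := by
  refine (pth_abs_kn n α hℓ x y).trans (div_le_div_of_nonneg_right (by linarith) hℓ.le)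

theorem pth_norm_ex (ξ y : ℝ) : ‖ex ξ y‖ = 1 := by
  unfold ex
  rw [← Complex.ofReal_neg, Complex.norm_exp_ofReal_mul_I]

theorem pth_int_ex {g : ℝ → ℝ} (hg : Integrable g) (ξ : ℝ) :
    Integrable fun y => (g y : ℂ) * ex ξ y := by
  refine hg.ofReal.mul_bdd (c := 1) ?_ (Eventually.of_forall fun y => (pth_norm_ex ξ y).le)
  refine Continuous.aestronglyMeasurable ?_
  unfold ex
  fun_prop

theorem pth_int_mul {g : ℝ → ℝ} (hg : Integrable g) (ξ : ℝ) {k : ℝ → ℝ} (hk : Measurable k) {C : ℝ}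
    (hC : ∀ y, |k y| ≤ C) : Integrable fun y => (g y : ℂ) * ex ξ y * k y :=
  (pth_int_ex hg ξ).mul_bdd (c := C) (Complex.measurable_ofReal.comp hk).aestronglyMeasurable
    (Eventually.of_forall fun y => by simpa using hC y)

theorem pth_D {g : ℝ → ℝ} (hg : Integrable g) (ξ α : ℝ) {ℓ : ℝ} (hℓ : 0 < ℓ) :
    D g ξ α ℓ = (∫ y, (g y : ℂ) * ex ξ y * hh ((y - α) / ℓ)) / ℓ := by
  unfold D Fi
  congr 1
  rw [intervalIntegral.integral_of_le (by linarith), intervalIntegral.integral_of_le (by linarith),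
    ← integral_indicator measurableSet_Ioc, ← integral_indicator measurableSet_Ioc,
    ← integral_sub ((pth_int_ex hg ξ).indicator measurableSet_Ioc)
      ((pth_int_ex hg ξ).indicator measurableSet_Ioc)]
  refine integral_congr_ae (Eventually.of_forall fun y => ?_)
  have e1 : (0 < (y - α) / ℓ ∧ (y - α) / ℓ ≤ 1 / 2) ↔ y ∈ Ioc α (α + ℓ / 2) := by
    rw [lt_div_iff₀ hℓ, div_le_iff₀ hℓ, mem_Ioc]
    constructor <;> rintro ⟨h1, h2⟩ <;> constructor <;> linarith
  have e2 : (1 / 2 < (y - α) / ℓ ∧ (y - α) / ℓ ≤ 1) ↔ y ∈ Ioc (α + ℓ / 2) (α + ℓ) := by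
    rw [lt_div_iff₀ hℓ, div_le_iff₀ hℓ, mem_Ioc]
    constructor <;> rintro ⟨h1, h2⟩ <;> constructor <;> linarith
  simp only [hh, e1, e2]
  by_cases h1 : y ∈ Ioc α (α + ℓ / 2)
  · have h2 : y ∉ Ioc (α + ℓ / 2) (α + ℓ) := fun h => absurd h.1 (not_lt.2 h1.2)
    simp [indicator_of_mem h1, indicator_of_notMem h2, h1]
  · by_cases h2 : y ∈ Ioc (α + ℓ / 2) (α + ℓ)
    · simp [indicator_of_notMem h1, indicator_of_mem h2, h1, h2]
    · simp [indicator_of_notMem h1, indicator_of_notMem h2, h1, h2]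

theorem pth_Tx {g : ℝ → ℝ} (hg : Integrable g) (ξ : ℝ) (n : ℕ) (α : ℝ) {ℓ : ℝ} (hℓ : 0 < ℓ)
    (x : ℝ) : Tx g ξ (n + 1) α ℓ x = (aa ((x - α) / ℓ) : ℂ) * D g ξ α ℓ +
      Tx g ξ n (if α + ℓ / 2 ≤ x then α + ℓ / 2 else α) (ℓ / 2) x := by
  rw [pth_D hg ξ α hℓ, Tx, Tx, ← integral_div, ← integral_const_mul, ← integral_add]
  · refine integral_congr_ae (Eventually.of_forall fun y => ?_)
    simp only [kn]
    push_cast
    ring
  · exact ((pth_int_mul hg ξ (pth_meas_hh.comp ((measurable_id.sub_const α).div_const ℓ))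
      (fun y => pth_abs_hh _)).div_const _).const_mul _
  · exact pth_int_mul hg ξ (measurable_kn n measurable_const measurable_const measurable_const
      measurable_id) fun y => abs_kn_le n _ (half_pos hℓ) x y

theorem Tf_path {g : ℝ → ℝ} (hg : Integrable g) (ξ : ℝ) (n : ℕ) {α ℓ x : ℝ} (hℓ : 0 < ℓ)
    (hx : x ∈ Ico α (α + ℓ)) : Tf g ξ α ℓ (path (n + 1) α ℓ x) = Tx g ξ n α ℓ x := by
  induction n generalizing α ℓ with
  | zero => simp [path, Tf, Tx, kn]
  | succ n ih =>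
    rw [pth_Tx hg ξ n α hℓ x]
    by_cases hc : α + ℓ / 2 ≤ x
    · have hx' : x ∈ Ico (α + ℓ / 2) (α + ℓ / 2 + ℓ / 2) := ⟨hc, by have := hx.2; linarith⟩
      have ha : aa ((x - α) / ℓ) = 0 := by
        have h1 : ¬ (x - α) / ℓ < 1 / 2 := by rw [not_lt, le_div_iff₀ hℓ]; linarith
        have h2 : ¬ (x - α) / ℓ < 1 / 4 := by linarith [not_lt.1 h1]
        simp only [aa, if_neg h1, if_neg h2]
      rw [pth_true hc, if_pos hc, ← ih (half_pos hℓ) hx', ha]
      simp [path, Tf, sig, ch]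
    · have hx' : x ∈ Ico α (α + ℓ / 2) := ⟨hx.1, not_le.1 hc⟩
      have h1 : (x - α) / ℓ < 1 / 2 := by rw [div_lt_iff₀ hℓ]; linarith [hx'.2]
      rw [pth_false hc, if_neg hc, ← ih (half_pos hℓ) hx']
      by_cases hd : α + ℓ / 2 / 2 ≤ x
      · have h2 : ¬ (x - α) / ℓ < 1 / 4 := by rw [not_lt, le_div_iff₀ hℓ]; linarith
        have ha : aa ((x - α) / ℓ) = -1 := by simp only [aa, if_pos h1, if_neg h2]
        rw [ha, pth_true hd]
        simp [Tf, sig, ch]
      · have h2 : (x - α) / ℓ < 1 / 4 := by rw [div_lt_iff₀ hℓ]; linarith [not_le.1 hd]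
        have ha : aa ((x - α) / ℓ) = 1 := by simp only [aa, if_pos h2]
        rw [ha, pth_false hd]
        simp [Tf, sig, ch]

end Crest.Agent.R100
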