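import Crest.Agent.R100.LowDefs
import Crest.Agent.R100.OutMax
import Crest.Agent.R100.OutPath

/-!
# Row 100 (helper54): purified collision bound and the weak type bound for tripled nodes
-/

set_option autoImplicit false

open MeasureTheory Set

noncomputable section

namespace Crest.Agent.R100.Coll

open Crest.Agent.R100 Crest.Agent.R100.Low

/-! ## weak type for tripled nodes -/

theorem ln_cons (ℓ : ℝ) (c : Bool) (u : List Bool) : ln ℓ (c :: u) = ln (ℓ / 2) u := by
  simp only [ln, List.length_cons, pow_succ]; ring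

theorem ln_pos {ℓ : ℝ} (hℓ : 0 < ℓ) (u : List Bool) : 0 < ln ℓ u := by
  unfold ln; positivity

theorem ln_le {ℓ : ℝ} (hℓ : 0 < ℓ) (u : List Bool) : ln ℓ u ≤ ℓ := by
  unfold ln
  exact div_le_self hℓ.le (one_le_pow₀ (by norm_num))

theorem node_sub : ∀ (u : List Bool) (α ℓ : ℝ), 0 < ℓ →
    α ≤ nd α ℓ u ∧ nd α ℓ u + ln ℓ u ≤ α + ℓ
  | [], α, ℓ, _ => by simp [nd, ln]
  | c :: u, α, ℓ, hℓ => by
    have := node_sub u (ch c α ℓ) (ℓ / 2) (half_pos hℓ)
    rw [ln_cons]
    simp only [nd]
    cases c <;> simp only [ch] at this ⊢ <;> simp at this ⊢ <;> constructor <;> linarith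

theorem path_mem : ∀ (n k : ℕ) (α ℓ x : ℝ), 0 < ℓ → x ∈ Ico α (α + ℓ) →
    nd α ℓ ((path n α ℓ x).take k) ≤ x ∧
      x ≤ nd α ℓ ((path n α ℓ x).take k) + ln ℓ ((path n α ℓ x).take k)
  | 0, k, α, ℓ, x, _, hx => by simpa [path, nd, ln] using ⟨hx.1, hx.2.le⟩
  | n + 1, 0, α, ℓ, x, _, hx => by simpa [nd, ln] using ⟨hx.1, hx.2.le⟩
  | n + 1, k + 1, α, ℓ, x, hℓ, hx => by
    by_cases hc : α + ℓ / 2 ≤ x
    · rw [pth_true hc, List.take_succ_cons, ln_cons]
      have := path_mem n k (α + ℓ / 2) (ℓ / 2) x (half_pos hℓ)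
        ⟨hc, by have := hx.2; linarith⟩
      simpa [nd, ch] using this
    · rw [pth_false hc, List.take_succ_cons, ln_cons]
      have := path_mem n k α (ℓ / 2) x (half_pos hℓ) ⟨hx.1, not_le.1 hc⟩
      simpa [nd, ch] using this

/-- the average of `φ` over the tripled node -/
def av3 (φ : ℝ → ℝ) (α ℓ : ℝ) (v : List Bool) : ℝ := av φ (nd α ℓ v - ln ℓ v) (3 * ln ℓ v)

open Classical in
/-- **Weak type (1,1) for tripled nodes.** -/
theorem weak3 {φ : ℝ → ℝ} (hφ : Continuous φ) (h0 : ∀ y, 0 ≤ φ y) (α : ℝ) {ℓ s : ℝ} (hℓ : 0 < ℓ)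
    (hs : 0 < s) (n : ℕ) :
    avg n (fun l => if ∃ k, s < av3 φ α ℓ (l.take k) then 1 else 0) ≤ 15 * av3 φ α ℓ [] / s := by
  set g : ℝ → ℝ := (Ioc (α - ℓ) (α + 2 * ℓ)).indicator φ with hg
  have hgi : Integrable g :=
    (integrable_indicator_iff measurableSet_Ioc).2 (hφ.integrableOn_Icc.mono_set Ioc_subset_Icc_self)
  have hg0 : ∀ y, 0 ≤ g y := fun y => indicator_nonneg (fun y _ => h0 y) y
  obtain ⟨E, hEm, hE, hEs⟩ := hl_weak hgi hg0 hs
  have hint : ∫ y, g y = 3 * ℓ * av3 φ α ℓ [] := by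
    rw [hg, integral_indicator measurableSet_Ioc,
      ← intervalIntegral.integral_of_le (by linarith)]
    simp only [av3, av, nd, ln, List.length_nil, pow_zero, div_one]
    rw [show α - ℓ + 3 * ℓ = α + 2 * ℓ by ring]
    field_simp
  have hav : ∀ v, av3 φ α ℓ v = av g (nd α ℓ v - ln ℓ v) (3 * ln ℓ v) := by
    intro v
    have h1 := node_sub v α ℓ hℓ
    have h2 := ln_pos hℓ v
    have h3 := ln_le hℓ v
    unfold av3 av
    congr 1
    rw [intervalIntegral.integral_of_le (by linarith), intervalIntegral.integral_of_le (by linarith)]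
    refine setIntegral_congr_fun measurableSet_Ioc fun y hy => ?_
    rw [hg, indicator_of_mem]
    exact ⟨by linarith [hy.1], by linarith [hy.2]⟩
  have hP := lintegral_path
    (Φ := fun l => if ∃ k, s < av3 φ α ℓ (l.take k) then (1 : ℝ) else 0)
    (fun l => by split_ifs <;> norm_num) n α hℓ
  have hle : ∫⁻ x in Ico α (α + ℓ), ENNReal.ofReal
      (if ∃ k, s < av3 φ α ℓ ((path n α ℓ x).take k) then (1 : ℝ) else 0) ≤ volume E := by
    calc _ ≤ ∫⁻ x in Ico α (α + ℓ), E.indicator 1 x := by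
          refine setLIntegral_mono' measurableSet_Ico fun x hx => ?_
          by_cases hxE : x ∈ E
          · rw [indicator_of_mem hxE]
            split_ifs <;> simp
          · rw [if_neg]
            · simp
            · rintro ⟨k, hk⟩
              have h1 := path_mem n k α ℓ x hℓ hx
              have h2 := ln_pos hℓ ((path n α ℓ x).take k)
              rw [hav] at hk
              exact absurd (hEs x hxE _ _ (by linarith) (by linarith) (by linarith)) (not_le.2 hk)
      _ ≤ ∫⁻ x, E.indicator 1 x := setLIntegral_le_lintegral _ _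
      _ = volume E := lintegral_indicator_one hEm
  rw [hP] at hle
  have hnn : 0 ≤ 5 * (∫ y, g y) / s := by
    have := integral_nonneg (μ := volume) (f := g) hg0
    positivity
  have h2 := (ENNReal.ofReal_le_ofReal_iff hnn).1 (hle.trans hE)
  rw [hint] at h2
  have h3 : 5 * (3 * ℓ * av3 φ α ℓ []) / s = ℓ * (15 * av3 φ α ℓ [] / s) := by ring
  rw [h3] at h2
  exact le_of_mul_le_mul_left h2 hℓ

/-! ## the collision bound -/

/-- the double average (unnormalised) -/
def AA (h : ℝ) (f : ℝ → ℝ) : ℝ := ∫ s' in (0 : ℝ)..h, ∫ s in (0 : ℝ)..h, f (s - s')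

/-- the kernel -/
def KK (h ξ : ℝ) : ℝ :=
  (∫ s in (0 : ℝ)..h, Real.cos (ξ * s)) ^ 2 + (∫ s in (0 : ℝ)..h, Real.sin (ξ * s)) ^ 2

theorem cont_inner {f : ℝ → ℝ} (hf : Continuous f) (h : ℝ) :
    Continuous fun s' : ℝ => ∫ s in (0 : ℝ)..h, f (s - s') :=
  intervalIntegral.continuous_parametric_intervalIntegral_of_continuous' (by fun_prop) 0 h

theorem AA_mono {h : ℝ} (hh : 0 ≤ h) {f g : ℝ → ℝ} (hf : Continuous f) (hg : Continuous g)
    (hfg : ∀ s, f s ≤ g s) : AA h f ≤ AA h g := by
  refine intervalIntegral.integral_mono_on hh ((cont_inner hf h).intervalIntegrable _ _)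
    ((cont_inner hg h).intervalIntegrable _ _) fun s' _ => ?_
  exact intervalIntegral.integral_mono_on hh (Continuous.intervalIntegrable (by fun_prop) _ _)
    (Continuous.intervalIntegrable (by fun_prop) _ _) fun s _ => hfg _

theorem AA_add (h : ℝ) {f g : ℝ → ℝ} (hf : Continuous f) (hg : Continuous g) :
    AA h (fun s => f s + g s) = AA h f + AA h g := by
  unfold AA
  rw [← intervalIntegral.integral_add ((cont_inner hf h).intervalIntegrable _ _)
    ((cont_inner hg h).intervalIntegrable _ _)]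
  refine intervalIntegral.integral_congr fun s' _ => ?_
  exact intervalIntegral.integral_add (Continuous.intervalIntegrable (by fun_prop) _ _)
    (Continuous.intervalIntegrable (by fun_prop) _ _)

theorem AA_mul (h a : ℝ) (f : ℝ → ℝ) : AA h (fun s => a * f s) = a * AA h f := by
  unfold AA
  simp only [intervalIntegral.integral_const_mul]

theorem AA_sum {ι : Type*} (h : ℝ) (S : Finset ι) {f : ι → ℝ → ℝ} (hf : ∀ i, Continuous (f i)) :
    AA h (fun s => ∑ i ∈ S, f i s) = ∑ i ∈ S, AA h (f i) := by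
  classical
  induction S using Finset.induction_on with
  | empty => simp [AA]
  | insert i S hi ih =>
    simp only [Finset.sum_insert hi]
    rw [AA_add h (hf i) (continuous_finsetSum _ fun i _ => hf i), ih]

theorem AA_cos (h ξ : ℝ) : AA h (fun s => Real.cos (ξ * s)) = KK h ξ := by
  unfold AA KK
  have e : ∀ s' : ℝ, ∫ s in (0 : ℝ)..h, Real.cos (ξ * (s - s')) =
      (∫ s in (0 : ℝ)..h, Real.cos (ξ * s)) * Real.cos (ξ * s') +
      (∫ s in (0 : ℝ)..h, Real.sin (ξ * s)) * Real.sin (ξ * s') := by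
    intro s'
    rw [← intervalIntegral.integral_mul_const, ← intervalIntegral.integral_mul_const,
      ← intervalIntegral.integral_add (Continuous.intervalIntegrable (by fun_prop) _ _)
        (Continuous.intervalIntegrable (by fun_prop) _ _)]
    refine intervalIntegral.integral_congr fun s _ => ?_
    simp only [mul_sub, Real.cos_sub]
  simp only [e]
  rw [intervalIntegral.integral_add (Continuous.intervalIntegrable (by fun_prop) _ _)
        (Continuous.intervalIntegrable (by fun_prop) _ _), intervalIntegral.integral_const_mul,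
    intervalIntegral.integral_const_mul]
  ring

theorem AA_sin (h ξ : ℝ) : AA h (fun s => Real.sin (ξ * s)) = 0 := by
  unfold AA
  have e : ∀ s' : ℝ, ∫ s in (0 : ℝ)..h, Real.sin (ξ * (s - s')) =
      (∫ s in (0 : ℝ)..h, Real.sin (ξ * s)) * Real.cos (ξ * s') -
      (∫ s in (0 : ℝ)..h, Real.cos (ξ * s)) * Real.sin (ξ * s') := by
    intro s'
    rw [← intervalIntegral.integral_mul_const, ← intervalIntegral.integral_mul_const,
      ← intervalIntegral.integral_sub (Continuous.intervalIntegrable (by fun_prop) _ _)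
        (Continuous.intervalIntegrable (by fun_prop) _ _)]
    refine intervalIntegral.integral_congr fun s _ => ?_
    simp only [mul_sub, Real.sin_sub]
  simp only [e]
  rw [intervalIntegral.integral_sub (Continuous.intervalIntegrable (by fun_prop) _ _)
        (Continuous.intervalIntegrable (by fun_prop) _ _), intervalIntegral.integral_const_mul,
    intervalIntegral.integral_const_mul]
  ring

theorem re_mul_ex (c : ℂ) (ξ s : ℝ) :
    (c * ex ξ s).re = c.re * Real.cos (ξ * s) + c.im * Real.sin (ξ * s) := by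
  unfold ex
  rw [← Complex.ofReal_neg, Complex.mul_re, Complex.exp_ofReal_mul_I_re,
    Complex.exp_ofReal_mul_I_im, Real.cos_neg, Real.sin_neg]
  ring

theorem AA_ex (h ξ : ℝ) (c : ℂ) : AA h (fun s => (c * ex ξ s).re) = c.re * KK h ξ := by
  simp only [re_mul_ex]
  rw [AA_add h (by fun_prop) (by fun_prop), AA_mul, AA_mul, AA_cos, AA_sin]
  ring

theorem AA_le {h : ℝ} (hh : 0 ≤ h) {f : ℝ → ℝ} (hf : Continuous f) (h0 : ∀ s, 0 ≤ f s) :
    AA h f ≤ h * ∫ s in (-h)..h, f s := by
  unfold AA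
  calc _ ≤ ∫ _ in (0 : ℝ)..h, ∫ s in (-h)..h, f s := by
        refine intervalIntegral.integral_mono_on hh ((cont_inner hf h).intervalIntegrable _ _)
          intervalIntegrable_const fun s' hs' => ?_
        rw [intervalIntegral.integral_comp_sub_right]
        exact intervalIntegral.integral_mono_interval (by linarith [hs'.2]) (by linarith)
          (by linarith [hs'.1]) (Filter.Eventually.of_forall fun s => h0 s)
          (hf.intervalIntegrable _ _)
    _ = _ := by simp

theorem KK_nonneg (h ξ : ℝ) : 0 ≤ KK h ξ := by unfold KK; positivity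

theorem KK_ge {h ξ : ℝ} (hh : 0 ≤ h) (hξ : |ξ| * h ≤ 1) : h ^ 2 / 4 ≤ KK h ξ := by
  have h1 : h / 2 ≤ ∫ s in (0 : ℝ)..h, Real.cos (ξ * s) := by
    have : ∫ _ in (0 : ℝ)..h, (1 / 2 : ℝ) ≤ ∫ s in (0 : ℝ)..h, Real.cos (ξ * s) := by
      refine intervalIntegral.integral_mono_on hh intervalIntegrable_const
        (Continuous.intervalIntegrable (by fun_prop) _ _) fun s hs => ?_
      have h2 := Real.one_sub_sq_div_two_le_cos (x := ξ * s)
      have h3 : |ξ * s| ≤ 1 := by
        rw [abs_mul, abs_of_nonneg hs.1]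
        exact (mul_le_mul_of_nonneg_left hs.2 (abs_nonneg _)).trans hξ
      have h4 : (ξ * s) ^ 2 ≤ 1 := by rwa [sq_le_one_iff_abs_le_one]
      linarith
    simp at this
    linarith
  unfold KK
  nlinarith [sq_nonneg (∫ s in (0 : ℝ)..h, Real.sin (ξ * s))]

theorem KK_le {h : ℝ} (hh : 0 ≤ h) (ξ : ℝ) : KK h ξ * (1 + (ξ * h) ^ 2) ≤ 7 * h ^ 2 := by
  have a1 : |∫ s in (0 : ℝ)..h, Real.cos (ξ * s)| ≤ h := by
    have := intervalIntegral.norm_integral_le_of_norm_le_const (a := 0) (b := h) (C := 1)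
      (f := fun s => Real.cos (ξ * s)) fun s _ => Real.abs_cos_le_one _
    simpa [abs_of_nonneg hh] using this
  have a2 : |∫ s in (0 : ℝ)..h, Real.sin (ξ * s)| ≤ h := by
    have := intervalIntegral.norm_integral_le_of_norm_le_const (a := 0) (b := h) (C := 1)
      (f := fun s => Real.sin (ξ * s)) fun s _ => Real.abs_sin_le_one _
    simpa [abs_of_nonneg hh] using this
  have b1 : ξ * ∫ s in (0 : ℝ)..h, Real.cos (ξ * s) = Real.sin (ξ * h) := by
    have := intervalIntegral.mul_integral_comp_mul_left (f := Real.cos) (a := 0) (b := h) ξ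
    rw [this]; simp
  have b2 : ξ * ∫ s in (0 : ℝ)..h, Real.sin (ξ * s) = 1 - Real.cos (ξ * h) := by
    have := intervalIntegral.mul_integral_comp_mul_left (f := Real.sin) (a := 0) (b := h) ξ
    rw [this]; simp
  have c1 : KK h ξ ≤ 2 * h ^ 2 := by
    unfold KK
    have := sq_le_sq' (abs_le.1 a1).1 (abs_le.1 a1).2
    have := sq_le_sq' (abs_le.1 a2).1 (abs_le.1 a2).2
    linarith
  have c2 : KK h ξ * ξ ^ 2 ≤ 5 := by
    have : KK h ξ * ξ ^ 2 = Real.sin (ξ * h) ^ 2 + (1 - Real.cos (ξ * h)) ^ 2 := by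
      rw [← b1, ← b2]; unfold KK; ring
    rw [this]
    nlinarith [Real.sin_sq_le_one (ξ * h), Real.neg_one_le_cos (ξ * h), Real.cos_le_one (ξ * h)]
  have c3 : KK h ξ * (ξ * h) ^ 2 ≤ 5 * h ^ 2 := by
    have := mul_le_mul_of_nonneg_right c2 (sq_nonneg h)
    nlinarith
  nlinarith

theorem summable_inv : Summable fun m : ℤ => 1 / (1 + (m : ℝ) ^ 2) := by
  have h1 : Summable fun m : ℤ => 1 / (m : ℝ) ^ 2 := Real.summable_one_div_int_pow.2 one_lt_two
  have h2 : Summable fun m : ℤ => if m = 0 then (1 : ℝ) else 0 := (hasSum_ite_eq 0 1).summable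
  refine Summable.of_nonneg_of_le (fun m => by positivity) (fun m => ?_) (h1.add h2)
  by_cases hm : m = 0
  · simp [hm]
  · have : (0 : ℝ) < (m : ℝ) ^ 2 := by positivity
    rw [if_neg hm, add_zero]
    exact one_div_le_one_div_of_le this (by linarith)

/-- `∑_{m ∈ ℤ} 1/(1+m²)` -/
def C0 : ℝ := ∑' m : ℤ, 1 / (1 + (m : ℝ) ^ 2)

theorem C0_nonneg : 0 ≤ C0 := tsum_nonneg fun m => by positivity

theorem sum_le_C0 (S : Finset ℤ) (a : ℤ) : ∑ k ∈ S, 1 / (1 + ((a - k : ℤ) : ℝ) ^ 2) ≤ C0 := by
  have h := summable_inv.sum_le_tsum (S.map ⟨fun k => a - k, fun x y hxy => by simpa using hxy⟩)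
    (fun m _ => by positivity)
  rw [Finset.sum_map] at h
  exact h

theorem ex_sub (a b s : ℝ) : ex a s * (starRingEnd ℂ) (ex b s) = ex (a - b) s := by
  unfold ex
  rw [← Complex.exp_conj, ← Complex.exp_add]
  congr 1
  simp only [map_mul, map_neg, Complex.conj_ofReal, Complex.conj_I]
  push_cast; ring

theorem ex_add' (a u s : ℝ) : ex a (u + s) = ex a u * ex a s := by
  unfold ex
  rw [← Complex.exp_add]
  congr 1
  push_cast; ring

theorem cont_ex (a : ℝ) : Continuous (ex a) := by
  unfold ex; fun_prop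

theorem KK_grid {h : ℝ} (hh : 0 < h) (a b : ℝ) :
    KK h (a - b) ≤ 21 * h ^ 2 * (1 / (1 + ((⌊a * h⌋ - ⌊b * h⌋ : ℤ) : ℝ) ^ 2)) := by
  have h1 := KK_le hh.le (a - b)
  have h2 := KK_nonneg h (a - b)
  have a1 := Int.floor_le (a * h)
  have a2 := Int.lt_floor_add_one (a * h)
  have b1 := Int.floor_le (b * h)
  have b2 := Int.lt_floor_add_one (b * h)
  set m : ℝ := ((⌊a * h⌋ - ⌊b * h⌋ : ℤ) : ℝ) with hm
  have hm' : m = (⌊a * h⌋ : ℝ) - (⌊b * h⌋ : ℝ) := by rw [hm]; push_cast; ring
  set x : ℝ := (a - b) * h with hx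
  have e1 : m - x ≤ 1 := by rw [hm', hx]; nlinarith
  have e2 : -1 ≤ m - x := by rw [hm', hx]; nlinarith
  have e3 : (m - x) ^ 2 ≤ 1 := by nlinarith
  have e4 : 1 + m ^ 2 ≤ 3 * (1 + x ^ 2) := by nlinarith [sq_nonneg (m - 2 * x)]
  rw [mul_one_div, le_div_iff₀ (by positivity)]
  nlinarith [mul_le_mul_of_nonneg_left e4 h2]

theorem fiber_sum {ι : Type*} [Fintype ι] (lam : ι → ℝ) (h0 : ∀ i, 0 ≤ lam i) (k : ι → ℤ)
    (a : ℤ) : ∑ j, lam j / (∑ j' ∈ Finset.univ.filter (fun j' => k j' = k j), lam j') *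
      (1 / (1 + ((a - k j : ℤ) : ℝ) ^ 2)) ≤ C0 := by
  classical
  rw [← Finset.sum_fiberwise_of_maps_to (s := Finset.univ) (t := Finset.univ.image k) (g := k)
    (fun j _ => Finset.mem_image_of_mem k (Finset.mem_univ j))]
  refine le_trans (Finset.sum_le_sum fun m _ => ?_) (sum_le_C0 (Finset.univ.image k) a)
  have e : ∑ j ∈ Finset.univ.filter (fun j => k j = m),
      lam j / (∑ j' ∈ Finset.univ.filter (fun j' => k j' = k j), lam j') *
        (1 / (1 + ((a - k j : ℤ) : ℝ) ^ 2)) =
      (∑ j ∈ Finset.univ.filter (fun j => k j = m), lam j) /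
        (∑ j ∈ Finset.univ.filter (fun j => k j = m), lam j) *
        (1 / (1 + ((a - m : ℤ) : ℝ) ^ 2)) := by
    rw [Finset.sum_div, Finset.sum_mul]
    refine Finset.sum_congr rfl fun j hj => ?_
    rw [(Finset.mem_filter.1 hj).2]
  rw [e]
  refine mul_le_of_le_one_left (by positivity) ?_
  exact div_self_le_one _

/-- **Purified collision bound.** If `|λ^(u)| ≥ 1 - η`, then outside a set of mass `O(η)` the
collision probability of `λ` at resolution `1/h` is bounded by the mean of `|λ^|²` on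
`[u - h, u + h]`. -/
theorem coll {ι : Type*} [Fintype ι] [DecidableEq ι] (lam : ι → ℝ) (h0 : ∀ i, 0 ≤ lam i)
    (h1 : ∑ i, lam i = 1) (z : ι → ℝ) (u η : ℝ) {h : ℝ} (hh : 0 < h)
    (hu : 1 - η ≤ ‖∑ i, (lam i : ℂ) * ex (z i) u‖) :
    ∃ G : Finset ι, ∑ i ∈ Gᶜ, lam i ≤ 840 * C0 * η ∧
      ∑ i ∈ G, ∑ j ∈ G, (if |z i - z j| * h ≤ 1 then lam i * lam j else 0) ≤
        100 / h * ∫ s in (u - h)..(u + h), ‖∑ i, (lam i : ℂ) * ex (z i) s‖ ^ 2 := by
  classical
  obtain ⟨θ, hθ, hθe⟩ := Complex.exists_norm_eq_mul_self (∑ i, (lam i : ℂ) * ex (z i) u)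
  set v : ι → ℂ := fun i => θ * ex (z i) u with hv
  have hvn : ∀ i, ‖v i‖ = 1 := fun i => by rw [hv]; simp [hθ, pth_norm_ex]
  have hv1 : ∀ i, |(v i).re| ≤ 1 := fun i => (Complex.abs_re_le_norm _).trans (hvn i).le
  have hsum : 1 - η ≤ ∑ i, lam i * (v i).re := by
    have := congrArg Complex.re hθe
    rw [Complex.ofReal_re, Finset.mul_sum, Complex.re_sum] at this
    rw [this] at hu
    refine hu.trans (le_of_eq (Finset.sum_congr rfl fun i _ => ?_))
    rw [mul_left_comm, Complex.re_ofReal_mul]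
  set B : Finset ι := Finset.univ.filter fun i => (v i).re < 1 / 2 with hB
  have hBm : ∑ i ∈ B, lam i ≤ 2 * η := by
    have e1 : ∑ i, lam i * (1 - (v i).re) ≤ η := by
      simp only [mul_sub, mul_one, Finset.sum_sub_distrib, h1]; linarith
    have e2 : ∑ i ∈ B, lam i * (1 / 2) ≤ ∑ i, lam i * (1 - (v i).re) := by
      refine le_trans (Finset.sum_le_sum fun i hi => ?_)
        (Finset.sum_le_sum_of_subset_of_nonneg (Finset.subset_univ B) fun i _ _ =>
          mul_nonneg (h0 i) (by linarith [(abs_le.1 (hv1 i)).2]))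
      exact mul_le_mul_of_nonneg_left (by linarith [(Finset.mem_filter.1 hi).2]) (h0 i)
    rw [← Finset.sum_mul] at e2
    linarith
  set a : ι → ℝ := fun j => ∑ i ∈ Bᶜ, lam i * KK h (z i - z j) with ha
  set b : ι → ℝ := fun j => ∑ i ∈ B, lam i * KK h (z i - z j) with hb
  have hab : ∀ j, b j + a j = ∑ i, lam i * KK h (z i - z j) := fun j =>
    Finset.sum_add_sum_compl B _
  have hb0 : ∀ j, 0 ≤ b j := fun j =>
    Finset.sum_nonneg fun i _ => mul_nonneg (h0 i) (KK_nonneg _ _)
  set G : Finset ι := Finset.univ.filter fun j => 4 * b j ≤ a j with hG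
  refine ⟨G, ?_, ?_⟩
  · set k : ι → ℤ := fun i => ⌊z i * h⌋ with hk
    set Λ : ι → ℝ := fun j => ∑ j' ∈ Finset.univ.filter (fun j' => k j' = k j), lam j' with hΛ
    have hΛ0 : ∀ j, 0 ≤ Λ j := fun j => Finset.sum_nonneg fun i _ => h0 i
    have hlow : ∀ j, h ^ 2 / 4 * Λ j ≤ b j + a j := by
      intro j
      rw [hab, hΛ, Finset.mul_sum]
      refine le_trans (Finset.sum_le_sum fun i hi => ?_)
        (Finset.sum_le_sum_of_subset_of_nonneg (Finset.subset_univ _) fun i _ _ =>
          mul_nonneg (h0 i) (KK_nonneg _ _))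
      rw [mul_comm]
      refine mul_le_mul_of_nonneg_left (KK_ge hh.le ?_) (h0 i)
      have e := (Finset.mem_filter.1 hi).2
      have := Int.abs_sub_lt_one_of_floor_eq_floor e
      rw [← sub_mul, abs_mul, abs_of_pos hh] at this
      exact this.le
    have hbad : ∀ j ∈ Gᶜ, lam j ≤ lam j / Λ j * (20 / h ^ 2 * b j) := by
      intro j hj
      have hj' : a j < 4 * b j := by
        simpa [hG] using hj
      rcases (h0 j).eq_or_lt with e | e
      · rw [← e]; simp
      have hΛj : 0 < Λ j := lt_of_lt_of_le e (Finset.single_le_sum (f := lam)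
        (fun i _ => h0 i) (Finset.mem_filter.2 ⟨Finset.mem_univ j, rfl⟩))
      have e2 := hlow j
      have e3 : Λ j ≤ 20 / h ^ 2 * b j := by
        rw [div_mul_eq_mul_div, le_div_iff₀ (by positivity)]
        linarith
      calc lam j = lam j / Λ j * Λ j := by field_simp
        _ ≤ _ := mul_le_mul_of_nonneg_left e3 (by positivity)
    calc ∑ j ∈ Gᶜ, lam j ≤ ∑ j ∈ Gᶜ, lam j / Λ j * (20 / h ^ 2 * b j) := Finset.sum_le_sum hbad
      _ ≤ ∑ j, lam j / Λ j * (20 / h ^ 2 * b j) :=
          Finset.sum_le_sum_of_subset_of_nonneg (Finset.subset_univ _) fun j _ _ =>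
            mul_nonneg (div_nonneg (h0 j) (hΛ0 j)) (mul_nonneg (by positivity) (hb0 j))
      _ = ∑ i ∈ B, lam i * ∑ j, lam j / Λ j * (20 / h ^ 2 * KK h (z i - z j)) := by
          simp only [hb, Finset.mul_sum]
          rw [Finset.sum_comm]
          refine Finset.sum_congr rfl fun i _ => Finset.sum_congr rfl fun j _ => ?_
          ring
      _ ≤ ∑ i ∈ B, lam i * (420 * C0) := by
          refine Finset.sum_le_sum fun i _ => mul_le_mul_of_nonneg_left ?_ (h0 i)
          refine le_trans ?_ (mul_le_mul_of_nonneg_left (fiber_sum lam h0 k (k i)) (by norm_num))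
          rw [Finset.mul_sum]
          refine Finset.sum_le_sum fun j _ => ?_
          have e := KK_grid hh (z i) (z j)
          have e2 : 20 / h ^ 2 * KK h (z i - z j) ≤
              420 * (1 / (1 + ((k i - k j : ℤ) : ℝ) ^ 2)) := by
            refine (mul_le_mul_of_nonneg_left e (by positivity)).trans (le_of_eq ?_)
            simp only [hk]
            field_simp
            norm_num
          refine (mul_le_mul_of_nonneg_left e2 (div_nonneg (h0 j) (hΛ0 j))).trans (le_of_eq ?_)
          ring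
      _ ≤ 840 * C0 * η := by
          rw [← Finset.sum_mul]
          nlinarith [C0_nonneg]
  · set P : ℝ → ℂ := fun s => ∑ i, (lam i : ℂ) * v i * ex (z i) s with hP
    set T : ℝ → ℂ := fun s => ∑ j ∈ G, (lam j : ℂ) * ex (z j) s with hT
    have hPc : Continuous P :=
      continuous_finsetSum _ fun i _ => continuous_const.mul (cont_ex _)
    have hTc : Continuous T :=
      continuous_finsetSum _ fun i _ => continuous_const.mul (cont_ex _)
    have hPT : ∀ s, (P s * (starRingEnd ℂ) (T s)).re =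
        ∑ j ∈ G, ∑ i, (((lam j * lam i : ℝ) : ℂ) * v i * ex (z i - z j) s).re := by
      intro s
      simp only [hP, hT, map_sum, Finset.mul_sum, Finset.sum_mul, Complex.re_sum]
      refine Finset.sum_congr rfl fun j _ => Finset.sum_congr rfl fun i _ => ?_
      rw [← ex_sub, map_mul, Complex.conj_ofReal]
      congr 1
      push_cast; ring
    have hTT : ∀ s, ‖T s‖ ^ 2 =
        ∑ j ∈ G, ∑ i ∈ G, (((lam j * lam i : ℝ) : ℂ) * ex (z i - z j) s).re := by
      intro s
      have e : ‖T s‖ ^ 2 = (T s * (starRingEnd ℂ) (T s)).re := by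
        rw [Complex.mul_conj', ← Complex.ofReal_pow, Complex.ofReal_re]
      rw [e]
      simp only [hT, map_sum, Finset.mul_sum, Finset.sum_mul, Complex.re_sum]
      refine Finset.sum_congr rfl fun j _ => Finset.sum_congr rfl fun i _ => ?_
      rw [← ex_sub, map_mul, Complex.conj_ofReal]
      congr 1
      push_cast; ring
    have hc : ∀ (c : ℂ) (ξ : ℝ), Continuous fun s => (c * ex ξ s).re := fun c ξ =>
      Complex.continuous_re.comp (continuous_const.mul (cont_ex ξ))
    have A1 : AA h (fun s => (P s * (starRingEnd ℂ) (T s)).re) =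
        ∑ j ∈ G, lam j * ∑ i, lam i * (v i).re * KK h (z i - z j) := by
      simp only [hPT]
      rw [AA_sum h G fun j => continuous_finsetSum _ fun i _ => hc _ _]
      refine Finset.sum_congr rfl fun j _ => ?_
      rw [AA_sum h _ fun i => hc _ _, Finset.mul_sum]
      refine Finset.sum_congr rfl fun i _ => ?_
      rw [AA_ex, Complex.re_ofReal_mul]; ring
    have A2 : AA h (fun s => ‖T s‖ ^ 2) =
        ∑ j ∈ G, lam j * ∑ i ∈ G, lam i * KK h (z i - z j) := by
      simp only [hTT]
      rw [AA_sum h G fun j => continuous_finsetSum _ fun i _ => hc _ _]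
      refine Finset.sum_congr rfl fun j _ => ?_
      rw [AA_sum h _ fun i => hc _ _, Finset.mul_sum]
      refine Finset.sum_congr rfl fun i _ => ?_
      rw [AA_ex, Complex.ofReal_re]; ring
    have A3 : AA h (fun s => ‖T s‖ ^ 2) ≤ 5 * AA h (fun s => (P s * (starRingEnd ℂ) (T s)).re) := by
      rw [A1, A2, Finset.mul_sum]
      refine Finset.sum_le_sum fun j hj => ?_
      have g1 : 4 * b j ≤ a j := (Finset.mem_filter.1 hj).2
      have g2 : ∑ i ∈ G, lam i * KK h (z i - z j) ≤ b j + a j := by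
        rw [hab]
        exact Finset.sum_le_sum_of_subset_of_nonneg (Finset.subset_univ _) fun i _ _ =>
          mul_nonneg (h0 i) (KK_nonneg _ _)
      have g3 : a j / 2 - b j ≤ ∑ i, lam i * (v i).re * KK h (z i - z j) := by
        rw [← Finset.sum_add_sum_compl B]
        have k1 : -b j ≤ ∑ i ∈ B, lam i * (v i).re * KK h (z i - z j) := by
          rw [hb, ← Finset.sum_neg_distrib]
          refine Finset.sum_le_sum fun i _ => ?_
          have := mul_nonneg (h0 i) (KK_nonneg h (z i - z j))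
          nlinarith [(abs_le.1 (hv1 i)).1]
        have k2 : a j / 2 ≤ ∑ i ∈ Bᶜ, lam i * (v i).re * KK h (z i - z j) := by
          rw [ha, Finset.sum_div]
          refine Finset.sum_le_sum fun i hi => ?_
          have hi' : 1 / 2 ≤ (v i).re := by simpa [hB] using hi
          have := mul_nonneg (h0 i) (KK_nonneg h (z i - z j))
          nlinarith
        linarith
      have := h0 j
      nlinarith
    have A4 : AA h (fun s => (P s * (starRingEnd ℂ) (T s)).re) ≤
        5 / 2 * AA h (fun s => ‖P s‖ ^ 2) + 1 / 10 * AA h (fun s => ‖T s‖ ^ 2) := by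
      rw [← AA_mul, ← AA_mul, ← AA_add h (by fun_prop) (by fun_prop)]
      refine AA_mono hh.le (by fun_prop) (by fun_prop) fun s => ?_
      have := Complex.re_le_norm (P s * (starRingEnd ℂ) (T s))
      rw [norm_mul, Complex.norm_conj] at this
      nlinarith [sq_nonneg (5 * ‖P s‖ - ‖T s‖)]
    have A5 : AA h (fun s => ‖P s‖ ^ 2) ≤
        h * ∫ s in (u - h)..(u + h), ‖∑ i, (lam i : ℂ) * ex (z i) s‖ ^ 2 := by
      refine (AA_le hh.le (by fun_prop) fun s => by positivity).trans (le_of_eq ?_)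
      congr 1
      have e : ∀ s, ‖P s‖ ^ 2 = ‖∑ i, (lam i : ℂ) * ex (z i) (u + s)‖ ^ 2 := by
        intro s
        have : P s = θ * ∑ i, (lam i : ℂ) * ex (z i) (u + s) := by
          simp only [hP, hv, Finset.mul_sum, ex_add']
          exact Finset.sum_congr rfl fun i _ => by ring
        rw [this, norm_mul, hθ, one_mul]
      simp only [e]
      rw [intervalIntegral.integral_comp_add_left
        (fun s => ‖∑ i, (lam i : ℂ) * ex (z i) s‖ ^ 2) u, ← sub_eq_add_neg]
    have A6 : h ^ 2 / 4 * ∑ i ∈ G, ∑ j ∈ G, (if |z i - z j| * h ≤ 1 then lam i * lam j else 0) ≤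
        AA h (fun s => ‖T s‖ ^ 2) := by
      rw [A2, Finset.sum_comm, Finset.mul_sum]
      refine Finset.sum_le_sum fun j _ => ?_
      rw [Finset.mul_sum, Finset.mul_sum]
      refine Finset.sum_le_sum fun i _ => ?_
      split_ifs with hij
      · have := KK_ge hh.le hij
        have h2 := mul_nonneg (h0 i) (h0 j)
        nlinarith
      · rw [mul_zero]
        exact mul_nonneg (h0 j) (mul_nonneg (h0 i) (KK_nonneg _ _))
    rw [div_mul_eq_mul_div, le_div_iff₀ hh]
    refine le_of_mul_le_mul_left ?_ hh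
    nlinarith

end Crest.Agent.R100.Coll
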