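import Crest.Agent.R100.LowTs

/-!
# Row 100 (helper84): the crude (classical) bound for arbitrary multipliers and windows
-/

set_option autoImplicit false

open MeasureTheory Set

noncomputable section

namespace Crest.Agent.R100.Low

open Crest.Agent.R100

/-- all averages of `‖f‖` at `u` and above are at most `B` -/
def AliveB (f : ℝ → ℂ) (B α ℓ : ℝ) (u : List Bool) : Prop :=
  ∀ k, k ≤ u.length → ca f (nd α ℓ (u.take k)) (ln ℓ (u.take k)) ≤ B

theorem crude_ca_div (f : ℝ → ℂ) {b : ℝ} (hb : 0 < b) (a lam : ℝ) :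
    ca (fun y => f y / b) a lam = ca f a lam / b := by
  unfold ca
  have e : ∀ y, ‖f y / (b : ℂ)‖ = ‖f y‖ / b := fun y => by
    rw [norm_div, Complex.norm_real, Real.norm_of_nonneg hb.le]
  simp only [e]
  rw [intervalIntegral.integral_div]
  ring

theorem crude_alive_div (f : ℝ → ℂ) {b : ℝ} (hb : 0 < b) (α ℓ : ℝ) (u : List Bool) :
    Alive (fun y => f y / b) α ℓ u ↔ AliveB f b α ℓ u := by
  unfold Alive AliveB
  simp only [crude_ca_div f hb, div_le_one hb]

theorem crude_U_div (f : ℝ → ℂ) (b : ℝ) (α ℓ ξ : ℝ) (u : List Bool) :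
    U (fun y => f y / b) α ℓ ξ u = U f α ℓ ξ u / b := by
  unfold U cu
  have e : ∀ y, f y / (b : ℂ) * ex ξ y = f y * ex ξ y / b := fun y => by ring
  simp only [e]
  rw [intervalIntegral.integral_div]
  ring

theorem crude_win_div (e u : List Bool → ℂ) (b : ℂ) (l : List Bool) (s t : ℕ) :
    win e (fun v => u v / b) l s t = win e u l s t / b := by
  unfold win tm
  rw [Finset.sum_div]
  refine Finset.sum_congr rfl fun k _ => ?_
  ring

theorem crude_win_add (e e' u : List Bool → ℂ) (l : List Bool) (s t : ℕ) :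
    win (fun v => e v + e' v) u l s t = win e u l s t + win e' u l s t := by
  unfold win tm
  rw [← Finset.sum_add_distrib]
  refine Finset.sum_congr rfl fun k _ => ?_
  ring

theorem crude_win_cons (e u : List Bool → ℂ) (h : e [] = 0) (c : Bool) (l : List Bool) (s t : ℕ) :
    win e u (c :: l) s t =
      win (fun v => e (c :: v)) (fun v => u (c :: v)) l (s - 1) (t - 1) := by
  unfold win
  rcases t with _ | t
  · simp
  rcases s with _ | s
  · simp only [Nat.zero_sub, Nat.add_sub_cancel, ← Finset.range_eq_Ico]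
    rw [Finset.sum_range_succ']
    simp only [lowTs_tm]
    simp [tm, h]
  · simp only [Nat.add_sub_cancel]
    rw [← Finset.sum_Ico_add']
    simp only [lowTs_tm]

theorem crude_alive_cons {f : ℝ → ℂ} {B α ℓ : ℝ} {c : Bool} {u : List Bool}
    (H : AliveB f B α ℓ (c :: u)) : AliveB f B (ch c α ℓ) (ℓ / 2) u := by
  intro k hk
  have := H (k + 1) (by simpa using hk)
  rwa [List.take_succ_cons, lowTs_ln] at this

theorem crude_alive_cons' {f : ℝ → ℂ} {B α ℓ : ℝ} (h : ca f α ℓ ≤ B) {c : Bool} {u : List Bool}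
    (H : AliveB f B (ch c α ℓ) (ℓ / 2) u) : AliveB f B α ℓ (c :: u) := by
  intro k hk
  cases k with
  | zero => simpa [nd, ln] using h
  | succ k =>
    rw [List.take_succ_cons, lowTs_ln]
    exact H k (by simpa using hk)

/-- one level -/
theorem crude0 {f : ℝ → ℂ} (hf : Measurable f) {R b : ℝ} (hR : 1 ≤ R) (hb : 0 < b)
    (hM : ∀ y, ‖f y‖ ≤ Real.exp R * b) (α : ℝ) {ℓ : ℝ} (hℓ : 0 < ℓ) (e : List Bool → ℂ)
    (he : ∀ v, ‖e v‖ ≤ 1) (he' : ∀ v, e v ≠ 0 → AliveB f b α ℓ v) (n : ℕ) (ξ : List Bool → ℝ)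
    (s t : List Bool → ℕ) (ht : ∀ l, l.length = n → t l ≤ n - 1) :
    avg n (fun l => ‖win e (U f α ℓ (ξ l)) l (s l) (t l)‖) ≤ 60000 * R * b := by
  set f' : ℝ → ℂ := fun y => f y / b with hf'
  have hm : Measurable f' := hf.div_const _
  have hM' : ∀ y, ‖f' y‖ ≤ Real.exp R := fun y => by
    simp only [hf']
    rw [norm_div, Complex.norm_real, Real.norm_of_nonneg hb.le, div_le_iff₀ hb]
    exact hM y
  have hA : ∀ v, e v ≠ 0 → Alive f' α ℓ v := fun v hv => (crude_alive_div f hb α ℓ v).2 (he' v hv)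
  have h1 := small (fam_U hm hR hM' α hℓ) hR hℓ e he hA 2 two_pos le_rfl n ξ s t ht
    fun l hl k _ hk hne => by
      have hA' : Alive f' α ℓ (l.take k) := hA _ fun h => hne (by simp [tm, h])
      have h2 := U_bd hm hM' α hℓ (ξ l) _ hA'
      have hk' : k < l.length := by have := ht l hl; omega
      refine ⟨h2.1.trans one_le_two, ?_⟩
      rw [List.take_succ_eq_append_getElem hk']
      exact h2.2 _
  have h3 : √2 ≤ 1.5 := Real.sqrt_le_iff.2 ⟨by norm_num, by norm_num⟩
  have h4 : (0 : ℝ) ≤ √2 := Real.sqrt_nonneg _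
  rw [div_self two_ne_zero, Real.log_one] at h1
  have h5 : avg n (fun l => ‖win e (U f α ℓ (ξ l)) l (s l) (t l)‖) =
      b * avg n (fun l => ‖win e (U f' α ℓ (ξ l)) l (s l) (t l)‖) := by
    rw [← avg_mul_left]
    refine avg_congr_len n fun l _ => ?_
    have : U f' α ℓ (ξ l) = fun v => U f α ℓ (ξ l) v / b := funext fun v => crude_U_div f b α ℓ _ v
    rw [this, crude_win_div, norm_div, Complex.norm_real, Real.norm_of_nonneg hb.le]
    field_simp
  rw [h5, mul_comm]
  refine mul_le_mul_of_nonneg_right (h1.trans ?_) hb.le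
  nlinarith

theorem crudeL' {f : ℝ → ℂ} (hf : Measurable f) {R : ℝ} (hR : 1 ≤ R) (L : ℕ) :
    ∀ {b : ℝ}, 0 < b → (∀ y, ‖f y‖ ≤ Real.exp R * b) → ∀ (α : ℝ) {ℓ : ℝ}, 0 < ℓ →
    ∀ (e : List Bool → ℂ), (∀ v, ‖e v‖ ≤ 1) → (∀ v, e v ≠ 0 → AliveB f (2 ^ L * b) α ℓ v) →
    ∀ (n : ℕ) (ξ : List Bool → ℝ) (s t : List Bool → ℕ), (∀ l, l.length = n → t l ≤ n - 1) →
    ℓ * avg n (fun l => ‖win e (U f α ℓ (ξ l)) l (s l) (t l)‖) ≤
      (ℓ * b + 2 * L * ∫ y in α..α + ℓ, ‖f y‖) * (60000 * R) := by
  classical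
  have hG : (0 : ℝ) ≤ 60000 * R := by positivity
  induction L with
  | zero =>
    intro b hb hM α ℓ hℓ e he he' n ξ s t ht
    have h1 := crude0 hf hR hb hM α hℓ e he (by simpa using he') n ξ s t ht
    have h3 := mul_le_mul_of_nonneg_left h1 hℓ.le
    simp only [Nat.cast_zero, mul_zero, zero_mul, add_zero]
    linarith
  | succ L ih =>
    intro b hb hM α ℓ hℓ e he he' n ξ s t ht
    have hint : ∀ a c : ℝ, IntervalIntegrable (fun y => ‖f y‖) volume a c :=
      fun a c => (famA_int hf hM a c).norm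
    have hpos : ∀ a c : ℝ, a ≤ c → 0 ≤ ∫ y in a..c, ‖f y‖ := fun a c hac =>
      intervalIntegral.integral_nonneg hac fun y _ => norm_nonneg _
    have tree : ∀ (n : ℕ) (α ℓ : ℝ), 0 < ℓ → ∀ (e : List Bool → ℂ), (∀ v, ‖e v‖ ≤ 1) →
        (∀ v, e v ≠ 0 → AliveB f (2 ^ (L + 1) * b) α ℓ v ∧ ¬ AliveB f b α ℓ v) →
        ∀ (ξ : List Bool → ℝ) (s t : List Bool → ℕ), (∀ l, l.length = n → t l ≤ n - 1) →
        ℓ * avg n (fun l => ‖win e (U f α ℓ (ξ l)) l (s l) (t l)‖) ≤
          (2 + 2 * L) * (∫ y in α..α + ℓ, ‖f y‖) * (60000 * R) := by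
      intro n
      induction n with
      | zero =>
        intro α ℓ hℓ e he he' ξ s t ht
        have := hpos α (α + ℓ) (by linarith)
        have h0 : t [] = 0 := by simpa using ht [] rfl
        simp only [avg, win, h0, Finset.Ico_eq_empty_of_le (Nat.zero_le _), Finset.sum_empty,
          norm_zero, mul_zero]
        positivity
      | succ n ihn =>
        intro α ℓ hℓ e he he' ξ s t ht
        by_cases hav : ca f α ℓ ≤ b
        · have he0 : e [] = 0 := by
            by_contra h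
            refine (he' [] h).2 fun k hk => ?_
            simpa [nd, ln] using hav
          have hc : ∀ c : Bool, (ℓ / 2) * avg n (fun l =>
              ‖win e (U f α ℓ (ξ (c :: l))) (c :: l) (s (c :: l)) (t (c :: l))‖) ≤
              (2 + 2 * L) * (∫ y in ch c α ℓ..ch c α ℓ + ℓ / 2, ‖f y‖) * (60000 * R) := by
            intro c
            have h0 := ihn (ch c α ℓ) (ℓ / 2) (by linarith) (fun v => e (c :: v)) (fun v => he _)
              (fun v hv => ⟨crude_alive_cons (he' _ hv).1,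
                fun h => (he' _ hv).2 (crude_alive_cons' hav h)⟩)
              (fun l => ξ (c :: l)) (fun l => s (c :: l) - 1) (fun l => t (c :: l) - 1)
              (fun l hl => by have := ht (c :: l) (by simp [hl]); omega)
            refine le_trans (le_of_eq ?_) h0
            congr 2
            funext l
            rw [crude_win_cons e _ he0]
            congr 2
            funext v
            exact lowTs_U _ _ _ _ _ _
          have e0 : ch false α ℓ = α := by simp [ch]
          have e1 : ch true α ℓ = α + ℓ / 2 := by simp [ch]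
          have hsum : (∫ y in ch false α ℓ..ch false α ℓ + ℓ / 2, ‖f y‖) +
              ∫ y in ch true α ℓ..ch true α ℓ + ℓ / 2, ‖f y‖ = ∫ y in α..α + ℓ, ‖f y‖ := by
            rw [e0, e1, show α + ℓ / 2 + ℓ / 2 = α + ℓ by ring]
            exact intervalIntegral.integral_add_adjacent_intervals (hint _ _) (hint _ _)
          rw [← hsum]
          have h0 := hc false
          have h1 := hc true
          simp only [avg]
          nlinarith
        · rw [not_le] at hav
          have hI : ℓ * b ≤ ∫ y in α..α + ℓ, ‖f y‖ := by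
            unfold ca at hav
            rw [lt_div_iff₀ hℓ] at hav
            linarith
          have e2 : (2 : ℝ) ^ L * (2 * b) = 2 ^ (L + 1) * b := by ring
          have h2 := ih (b := 2 * b) (by linarith) (fun y => (hM y).trans
            (mul_le_mul_of_nonneg_left (by linarith) (Real.exp_pos R).le)) α hℓ e he
            (fun v hv => by rw [e2]; exact (he' v hv).1) (n + 1) ξ s t ht
          refine h2.trans (mul_le_mul_of_nonneg_right ?_ hG)
          linarith
    set e1 : List Bool → ℂ := fun v => if AliveB f b α ℓ v then e v else 0 with he1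
    set e2 : List Bool → ℂ := fun v => if AliveB f b α ℓ v then 0 else e v with he2
    have hsplit : e = fun v => e1 v + e2 v := by
      funext v
      simp only [he1, he2]
      split_ifs <;> simp
    have h1 := crude0 hf hR hb hM α hℓ e1
      (fun v => by simp only [he1]; split_ifs; exacts [he v, by simp])
      (fun v hv => by
        by_contra h
        exact hv (by simp only [he1]; rw [if_neg h])) n ξ s t ht
    have h2 := tree n α ℓ hℓ e2
      (fun v => by simp only [he2]; split_ifs; exacts [by simp, he v])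
      (fun v hv => by
        by_cases h : AliveB f b α ℓ v
        · exact absurd (by simp only [he2]; rw [if_pos h]) hv
        · refine ⟨he' v fun h0 => hv ?_, h⟩
          simp only [he2]; rw [if_neg h, h0]) ξ s t ht
    have h3 : avg n (fun l => ‖win e (U f α ℓ (ξ l)) l (s l) (t l)‖) ≤
        avg n (fun l => ‖win e1 (U f α ℓ (ξ l)) l (s l) (t l)‖ +
          ‖win e2 (U f α ℓ (ξ l)) l (s l) (t l)‖) := by
      refine avg_mono n fun l => ?_
      conv_lhs => rw [hsplit]
      rw [crude_win_add]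
      exact norm_add_le _ _
    rw [avg_add] at h3
    have h4 := mul_le_mul_of_nonneg_left h3 hℓ.le
    have h5 := mul_le_mul_of_nonneg_left h1 hℓ.le
    push_cast
    nlinarith

/-- **Crude bound, `L` levels**: any multiplier supported where the averages are at most
`2 ^ L * b`, any windows, any frequencies. -/
theorem crudeL {f : ℝ → ℂ} (hf : Measurable f) {R : ℝ} (hR : 1 ≤ R) (L : ℕ) {b : ℝ} (hb : 0 < b)
    (hM : ∀ y, ‖f y‖ ≤ Real.exp R * b) (α : ℝ) {ℓ : ℝ} (hℓ : 0 < ℓ) (e : List Bool → ℂ)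
    (he : ∀ v, ‖e v‖ ≤ 1) (he' : ∀ v, e v ≠ 0 → AliveB f (2 ^ L * b) α ℓ v) (n : ℕ)
    (ξ : List Bool → ℝ) (s t : List Bool → ℕ) (ht : ∀ l, l.length = n → t l ≤ n - 1) :
    avg n (fun l => ‖win e (U f α ℓ (ξ l)) l (s l) (t l)‖) ≤
      60000 * R * (b + 2 * L * ca f α ℓ) := by
  have h := crudeL' hf hR L hb hM α hℓ e he he' n ξ s t ht
  refine le_of_mul_le_mul_left (h.trans (le_of_eq ?_)) hℓ
  unfold ca
  field_simp

theorem crude_ca_le {f : ℝ → ℂ} {M : ℝ} (hM : ∀ y, ‖f y‖ ≤ M) (a : ℝ) {lam : ℝ} (hl : 0 < lam) :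
    ca f a lam ≤ M := by
  unfold ca
  rw [div_le_iff₀ hl]
  have := intervalIntegral.norm_integral_le_of_norm_le_const (a := a) (b := a + lam) (C := M)
    (f := fun y => ‖f y‖) (fun y _ => by rw [norm_norm]; exact hM y)
  rw [add_sub_cancel_left, abs_of_pos hl] at this
  exact (le_abs_self _).trans this

theorem crude_ca_nonneg (f : ℝ → ℂ) (a : ℝ) {lam : ℝ} (hl : 0 < lam) : 0 ≤ ca f a lam :=
  div_nonneg (intervalIntegral.integral_nonneg (by linarith) fun y _ => norm_nonneg _) hl.le

/-- **Crude bound**: any multiplier, any windows, any frequencies. -/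
theorem crude {f : ℝ → ℂ} (hf : Measurable f) {R : ℝ} (hR : 1 ≤ R)
    (hM : ∀ y, ‖f y‖ ≤ Real.exp R) (α : ℝ) {ℓ : ℝ} (hℓ : 0 < ℓ) (e : List Bool → ℂ)
    (he : ∀ v, ‖e v‖ ≤ 1) (n : ℕ)
    (ξ : List Bool → ℝ) (s t : List Bool → ℕ) (ht : ∀ l, l.length = n → t l ≤ n - 1) :
    avg n (fun l => ‖win e (U f α ℓ (ξ l)) l (s l) (t l)‖) ≤
      1200000 * R ^ 2 * (ca f α ℓ + Real.exp (-R)) := by
  have hb : 0 < Real.exp (-R) := Real.exp_pos _
  have e1 : Real.exp (2 * R) * Real.exp (-R) = Real.exp R := by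
    rw [← Real.exp_add]; congr 1; ring
  set L := ⌈4 * R⌉₊ with hL
  have hL1 : 4 * R ≤ L := Nat.le_ceil _
  have hL2 : (L : ℝ) ≤ 5 * R := by
    have := Nat.ceil_lt_add_one (show (0 : ℝ) ≤ 4 * R by positivity)
    linarith
  have h2 : Real.exp (2 * R) ≤ 2 ^ L := by
    have l2 := Real.log_two_gt_d9
    rw [← Real.exp_log (show (0 : ℝ) < 2 ^ L by positivity), Real.log_pow]
    refine Real.exp_le_exp.2 ?_
    nlinarith
  have h := crudeL hf (R := 2 * R) (by linarith) L hb (fun y => by rw [e1]; exact hM y) α hℓ e he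
    (fun v _ k _ => (crude_ca_le hM _ (lowFamA_ln_pos hℓ _)).trans (by
      rw [← e1]; exact mul_le_mul_of_nonneg_right h2 hb.le)) n ξ s t ht
  refine h.trans ?_
  have h0 := crude_ca_nonneg f α hℓ
  have h3 : 2 * (L : ℝ) * ca f α ℓ ≤ 10 * R * ca f α ℓ :=
    mul_le_mul_of_nonneg_right (by linarith) h0
  have h4 : Real.exp (-R) ≤ 10 * R * Real.exp (-R) := by nlinarith
  calc 60000 * (2 * R) * (Real.exp (-R) + 2 * L * ca f α ℓ)
      ≤ 60000 * (2 * R) * (10 * R * Real.exp (-R) + 10 * R * ca f α ℓ) := by gcongr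
    _ = _ := by ring

end Crest.Agent.R100.Low
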