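import Crest.Agent.R100.Str15
import Crest.Agent.R100.Crude

/-!
# Row 100 (helper66): the crude bound in the form `Str.CB`
-/

set_option autoImplicit false

open MeasureTheory Set

noncomputable section

namespace Crest.Agent.R100.Str

open Crest.Agent.R100 Crest.Agent.R100.Low

theorem c66_nd_sub : ∀ (u : List Bool) (α ℓ : ℝ), 0 < ℓ →
    α ≤ nd α ℓ u ∧ nd α ℓ u + ln ℓ u ≤ α + ℓ
  | [], α, ℓ, _ => by simp [nd, ln]
  | c :: u, α, ℓ, h => by
    have := c66_nd_sub u (ch c α ℓ) (ℓ / 2) (by linarith)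
    have e : ln ℓ (c :: u) = ln (ℓ / 2) u := by
      simp only [ln, List.length_cons, pow_succ]; field_simp
    rw [e]
    simp only [nd]
    cases c <;> simp only [ch] at this ⊢ <;> simp at this ⊢ <;> constructor <;> linarith [this.1, this.2]

theorem ca_mono66 {f g : ℝ → ℂ} (hf : BM f) (hg : BM g) (h : ∀ y, ‖f y‖ ≤ ‖g y‖) (a : ℝ) {lam : ℝ}
    (hl : 0 < lam) : ca f a lam ≤ ca g a lam := by
  have h1 := ca_add_le hg hf BM.zero (fun y => by simpa using h y) a hl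
  have h2 := ca_nonneg (0 : ℝ → ℂ) a hl
  linarith

/-- the crude bound for every function dominated by `g` -/
theorem CB_crude {g f : ℝ → ℂ} {R B : ℝ} (ε : ℝ) (hg : BM g) (hf : BM f) (hle : ∀ y, ‖f y‖ ≤ ‖g y‖)
    (hR : 1 ≤ R) (hB : 1 ≤ B) (hM : ∀ y, ‖g y‖ ≤ Real.exp R) (α : ℝ) {ℓ : ℝ} (hℓ : 0 < ℓ) :
    CB g B ε f α ℓ (60000 * R * B) := by
  intro n ξ e he he'
  refine crude0 hf.1 hR (by linarith) (fun y => ?_) α hℓ e he.norm (fun v hv k hk => ?_) n ξ
    (fun _ => 0) (fun _ => n - 1) (fun _ _ => le_rfl)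
  · have := (hle y).trans (hM y)
    nlinarith [Real.exp_pos R]
  · exact (ca_mono66 hf hg hle _ (lowFamA_ln_pos hℓ _)).trans (he' v hv k hk).1

/-- a function vanishing on the top interval costs nothing -/
theorem CB_vanish (g : ℝ → ℂ) (B ε : ℝ) {f : ℝ → ℂ} {α ℓ : ℝ} (hℓ : 0 < ℓ)
    (h : ∀ y, α ≤ y → y ≤ α + ℓ → f y = 0) : CB g B ε f α ℓ 0 := by
  refine (CB.zero g B ε α ℓ).congr fun ξ v => ?_
  have hs := c66_nd_sub v α ℓ hℓ
  have hl := lowFamA_ln_pos hℓ v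
  simp only [U, cu]
  congr 1
  refine intervalIntegral.integral_congr fun y hy => ?_
  rw [uIcc_of_le (by linarith)] at hy
  simp [h y (by linarith [hy.1]) (by linarith [hy.2])]

open Classical in
/-- **death cost**: crude bound times the indicator of "the node meets the support" -/
theorem CB_death {g f : ℝ → ℂ} {R B : ℝ} (ε : ℝ) (hg : BM g) (hf : BM f) (hle : ∀ y, ‖f y‖ ≤ ‖g y‖)
    (hR : 1 ≤ R) (hB : 1 ≤ B) (hM : ∀ y, ‖g y‖ ≤ Real.exp R) (α : ℝ) {ℓ : ℝ} (hℓ : 0 < ℓ)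
    (p : Prop) (hp : ∀ y, α ≤ y → y ≤ α + ℓ → f y ≠ 0 → p) :
    CB g B ε f α ℓ (60000 * R * B * (if p then 1 else 0)) := by
  by_cases h : p
  · simpa [h] using CB_crude ε hg hf hle hR hB hM α hℓ
  · simp only [h, if_false, mul_zero]
    exact CB_vanish g B ε hℓ fun y h1 h2 => by_contra fun h3 => h (hp y h1 h2 h3)

end Crest.Agent.R100.Str
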