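import Crest.Agent.R100.OutTail
import Crest.Agent.R100.CarDk

/-! Row 100, outer reduction: the Banach principle for the truncations `low f J`. -/

set_option autoImplicit false

open MeasureTheory Set Filter
open scoped ENNReal Topology

namespace Crest.Agent.R100.OutAe

variable {T : ℝ} [hT : Fact (0 < T)]

theorem integrable_of_log {f : AddCircle T → ℂ}
    (hf : AEStronglyMeasurable f AddCircle.haarAddCircle)
    (hlog : ∫⁻ x, ‖f x‖ₑ * ENNReal.ofReal (Real.log (2 + ‖f x‖)) ∂AddCircle.haarAddCircle < ⊤) :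
    Integrable f AddCircle.haarAddCircle := by
  refine ⟨hf, ?_⟩
  unfold HasFiniteIntegral
  have h2 : (2 : ℝ≥0∞) ≠ ⊤ := by simp
  calc ∫⁻ x, ‖f x‖ₑ ∂AddCircle.haarAddCircle
      ≤ ∫⁻ x, 2 * (‖f x‖ₑ * ENNReal.ofReal (Real.log (2 + ‖f x‖))) ∂AddCircle.haarAddCircle := by
        refine lintegral_mono fun x => ?_
        have h1 : (1 : ℝ) ≤ 2 * Real.log (2 + ‖f x‖) := by
          have := Real.log_two_gt_d9
          have h3 : Real.log 2 ≤ Real.log (2 + ‖f x‖) :=
            Real.log_le_log two_pos (by linarith [norm_nonneg (f x)])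
          linarith
        have h4 : (1 : ℝ≥0∞) ≤ 2 * ENNReal.ofReal (Real.log (2 + ‖f x‖)) := by
          have := ENNReal.ofReal_le_ofReal h1
          rwa [ENNReal.ofReal_one, ENNReal.ofReal_mul zero_le_two, ENNReal.ofReal_ofNat] at this
        calc ‖f x‖ₑ = ‖f x‖ₑ * 1 := (mul_one _).symm
          _ ≤ ‖f x‖ₑ * (2 * ENNReal.ofReal (Real.log (2 + ‖f x‖))) := by gcongr
          _ = _ := by ring
    _ = 2 * ∫⁻ x, ‖f x‖ₑ * ENNReal.ofReal (Real.log (2 + ‖f x‖)) ∂AddCircle.haarAddCircle :=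
        lintegral_const_mul' _ _ h2
    _ < ⊤ := ENNReal.mul_lt_top h2.lt_top hlog

omit hT in
theorem measurable_low {f : AddCircle T → ℂ} (hf : Measurable f) (J : ℕ) :
    Measurable (low f J) := by
  unfold low
  exact Measurable.ite (measurableSet_le hf.norm measurable_const) hf measurable_const

omit hT in
theorem norm_low_le (f : AddCircle T → ℂ) (J : ℕ) (x : AddCircle T) :
    ‖low f J x‖ ≤ 2 ^ 2 ^ J := by
  unfold low
  split_ifs with h
  · exact h
  · simp

theorem integrable_low {f : AddCircle T → ℂ} (hf : Measurable f) (J : ℕ) :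
    Integrable (low f J) AddCircle.haarAddCircle :=
  Integrable.of_bound (measurable_low hf J).aestronglyMeasurable _
    (Eventually.of_forall (norm_low_le f J))

theorem tendsto_big {f : AddCircle T → ℂ} (hf : Measurable f) :
    Tendsto (fun J : ℕ => AddCircle.haarAddCircle {x | (2 : ℝ) ^ 2 ^ J < ‖f x‖}) atTop (𝓝 0) := by
  have h := tendsto_measure_iInter_atTop (μ := AddCircle.haarAddCircle)
    (s := fun J : ℕ => {x | (2 : ℝ) ^ 2 ^ J < ‖f x‖})
    (fun J => (measurableSet_lt measurable_const hf.norm).nullMeasurableSet)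
    (fun i j hij x (hx : (2 : ℝ) ^ 2 ^ j < ‖f x‖) => show (2 : ℝ) ^ 2 ^ i < ‖f x‖ from
      lt_of_le_of_lt (pow_le_pow_right₀ one_le_two (Nat.pow_le_pow_right two_pos hij)) hx)
    ⟨0, measure_ne_top _ _⟩
  have he : (⋂ J : ℕ, {x | (2 : ℝ) ^ 2 ^ J < ‖f x‖}) = ∅ := by
    refine eq_empty_of_forall_notMem fun x hx => ?_
    obtain ⟨J, hJ⟩ := pow_unbounded_of_one_lt ‖f x‖ (one_lt_two (α := ℝ))
    have h1 : (2 : ℝ) ^ 2 ^ J < ‖f x‖ := mem_iInter.mp hx J
    have h2 : (2 : ℝ) ^ J ≤ 2 ^ 2 ^ J :=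
      pow_le_pow_right₀ one_le_two (Nat.lt_two_pow_self).le
    linarith
  rw [he, measure_empty] at h
  exact h

/-- The Banach principle. -/
theorem ae_of_low {f : AddCircle T → ℂ} (hf : Measurable f)
    (hi : Integrable f AddCircle.haarAddCircle)
    (hb : ∀ J, ∀ᵐ x ∂AddCircle.haarAddCircle,
      Tendsto (fun N => S (low f J) N x) atTop (𝓝 (low f J x)))
    (ht : ∀ ε : ℝ, 0 < ε → ∀ᶠ J in atTop, AddCircle.haarAddCircle
      {x | ENNReal.ofReal ε ≤ ⨆ N, ‖S (fun y => f y - low f J y) N x‖ₑ} ≤ ENNReal.ofReal ε) :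
    ∀ᵐ x ∂AddCircle.haarAddCircle, Tendsto (fun N => S f N x) atTop (𝓝 (f x)) := by
  have key : ∀ δ : ℝ, 0 < δ → ∀ᵐ x ∂AddCircle.haarAddCircle,
      ∀ᶠ N in atTop, dist (S f N x) (f x) < δ := by
    intro δ hδ
    rw [ae_iff]
    refine le_antisymm (ENNReal.le_of_forall_pos_le_add fun η hη _ => ?_) zero_le
    rw [zero_add]
    have hη' : (0 : ℝ) < η := hη
    set ε : ℝ := min (δ / 2) (η / 2) with hε
    have hε0 : 0 < ε := lt_min (by linarith) (by linarith)
    have h2 : ∀ᶠ J : ℕ in atTop,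
        AddCircle.haarAddCircle {x | (2 : ℝ) ^ 2 ^ J < ‖f x‖} ≤ ENNReal.ofReal ε :=
      (tendsto_big hf).eventually (Iic_mem_nhds (ENNReal.ofReal_pos.mpr hε0))
    obtain ⟨J, hJ1, hJ2⟩ := ((ht ε hε0).and h2).exists
    have hsub : {x | ¬ ∀ᶠ N in atTop, dist (S f N x) (f x) < δ} ≤ᵐ[AddCircle.haarAddCircle]
        (({x | ENNReal.ofReal ε ≤ ⨆ N, ‖S (fun y => f y - low f J y) N x‖ₑ} ∪
          {x | (2 : ℝ) ^ 2 ^ J < ‖f x‖} : Set (AddCircle T))) := by
      filter_upwards [hb J] with x hx hbad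
      by_contra hcon
      apply hbad
      have hc1 : ¬ ENNReal.ofReal ε ≤ ⨆ N, ‖S (fun y => f y - low f J y) N x‖ₑ :=
        fun h => hcon (Or.inl h)
      have hc2 : ¬ (2 : ℝ) ^ 2 ^ J < ‖f x‖ := fun h => hcon (Or.inr h)
      have hl : low f J x = f x := if_pos (not_lt.mp hc2)
      rw [hl] at hx
      filter_upwards [Metric.tendsto_nhds.mp hx (δ / 2) (by linarith)] with N hN
      have h3 : ‖S (fun y => f y - low f J y) N x‖ₑ < ENNReal.ofReal ε :=
        lt_of_le_of_lt (le_iSup (fun N => ‖S (fun y => f y - low f J y) N x‖ₑ) N) (not_le.mp hc1)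
      rw [← ofReal_norm, ENNReal.ofReal_lt_ofReal_iff hε0] at h3
      have h4 : S (fun y => f y - low f J y) N x = S f N x - S (low f J) N x :=
        SN_sub hi (integrable_low hf J) N x
      rw [h4, ← dist_eq_norm] at h3
      have h5 := dist_triangle (S f N x) (S (low f J) N x) (f x)
      have h6 : ε ≤ δ / 2 := min_le_left _ _
      linarith
    calc _ ≤ _ := measure_mono_ae hsub
      _ ≤ _ := measure_union_le _ _
      _ ≤ ENNReal.ofReal ε + ENNReal.ofReal ε := add_le_add hJ1 hJ2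
      _ = ENNReal.ofReal (ε + ε) := (ENNReal.ofReal_add hε0.le hε0.le).symm
      _ ≤ ENNReal.ofReal η := ENNReal.ofReal_le_ofReal (by linarith [min_le_right (δ / 2) (η / 2)])
      _ = η := ENNReal.ofReal_coe_nnreal
  have hall : ∀ᵐ x ∂AddCircle.haarAddCircle, ∀ m : ℕ,
      ∀ᶠ N in atTop, dist (S f N x) (f x) < 1 / ((m : ℝ) + 1) :=
    ae_all_iff.mpr fun m => key _ Nat.one_div_pos_of_nat
  filter_upwards [hall] with x hx
  refine Metric.tendsto_nhds.mpr fun δ hδ => ?_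
  obtain ⟨m, hm⟩ := exists_nat_one_div_lt hδ
  filter_upwards [hx m] with N hN
  exact hN.trans hm

/-- The reduction to bounded measurable functions. -/
theorem ae_of_bdd {G : ℝ → ℝ} (hG : ∀ R, 1 ≤ R → 0 ≤ G R) (hG' : GainOK G) (h : PieceC T G)
    (hb : ∀ (g : AddCircle T → ℂ) (C : ℝ), Measurable g → (∀ x, ‖g x‖ ≤ C) →
      ∀ᵐ x ∂AddCircle.haarAddCircle, Tendsto (fun N => S g N x) atTop (𝓝 (g x)))
    (f : AddCircle T → ℂ) (hf : AEStronglyMeasurable f AddCircle.haarAddCircle)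
    (hlog : ∫⁻ x, ‖f x‖ₑ * ENNReal.ofReal (Real.log (2 + ‖f x‖)) ∂AddCircle.haarAddCircle < ⊤) :
    ∀ᵐ x ∂AddCircle.haarAddCircle, Tendsto (fun N => S f N x) atTop (𝓝 (f x)) := by
  have hm : Measurable (hf.mk f) := hf.stronglyMeasurable_mk.measurable
  have he : f =ᵐ[AddCircle.haarAddCircle] hf.mk f := hf.ae_eq_mk
  have hlog' : ∫⁻ x, ‖hf.mk f x‖ₑ * ENNReal.ofReal (Real.log (2 + ‖hf.mk f x‖))
      ∂AddCircle.haarAddCircle < ⊤ := by
    refine lt_of_eq_of_lt (lintegral_congr_ae ?_) hlog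
    filter_upwards [he] with x hx
    rw [hx]
  have hS : S f = S (hf.mk f) := SN_congr he
  have := ae_of_low hm (integrable_of_log hm.aestronglyMeasurable hlog')
    (fun J => hb _ _ (measurable_low hm J) (norm_low_le _ J))
    (fun ε hε => tail_small hG hG' h hm hlog' hε)
  filter_upwards [this, he] with x hx hx'
  rw [hS, hx']
  exact hx

end Crest.Agent.R100.OutAe
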