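import Crest.Agent.R100.OutCirc

set_option autoImplicit false

open MeasureTheory Set Filter
open scoped ENNReal Topology

namespace Crest.Agent.R100

variable {T : ℝ} [hT : Fact (0 < T)]

/-- the part of `f` of size at most `2 ^ 2 ^ J` -/
noncomputable def low (f : AddCircle T → ℂ) (J : ℕ) (x : AddCircle T) : ℂ :=
  if ‖f x‖ ≤ 2 ^ 2 ^ J then f x else 0

/-- the part of `f` of size between `2 ^ 2 ^ j` and `2 ^ 2 ^ (j + 1)` -/
noncomputable def pc (f : AddCircle T → ℂ) (j : ℕ) (x : AddCircle T) : ℂ :=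
  if 2 ^ 2 ^ j < ‖f x‖ ∧ ‖f x‖ ≤ 2 ^ 2 ^ (j + 1) then f x else 0

theorem tower_mono {i j : ℕ} (h : i ≤ j) : (2 : ℝ) ^ 2 ^ i ≤ 2 ^ 2 ^ j :=
  pow_le_pow_right₀ one_le_two (Nat.pow_le_pow_right two_pos h)

omit hT in
theorem pc_of_ne {f : AddCircle T → ℂ} {x : AddCircle T} {i j : ℕ}
    (hi : 2 ^ 2 ^ i < ‖f x‖ ∧ ‖f x‖ ≤ 2 ^ 2 ^ (i + 1)) (h : j ≠ i) : pc f j x = 0 := by
  refine if_neg fun hj => ?_
  rcases h.lt_or_gt with h | h
  · linarith [tower_mono (show j + 1 ≤ i from h), hi.1, hj.2]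
  · linarith [tower_mono (show i + 1 ≤ j from h), hi.2, hj.1]

omit hT in
theorem sub_low_eq (f : AddCircle T → ℂ) (J : ℕ) (x : AddCircle T) :
    f x - low f J x = ∑' j, pc f (j + J) x := by
  unfold low
  split_ifs with h
  · rw [sub_self, eq_comm]
    refine (tsum_congr fun j => if_neg fun hj => ?_).trans tsum_zero
    linarith [tower_mono (Nat.le_add_left J j), hj.1]
  · have ex : ∃ j, ‖f x‖ ≤ 2 ^ 2 ^ (j + J + 1) := by
      obtain ⟨j, hj⟩ := pow_unbounded_of_one_lt ‖f x‖ (one_lt_two (α := ℝ))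
      refine ⟨j, hj.le.trans (pow_le_pow_right₀ one_le_two ?_)⟩
      exact (by omega : j ≤ j + J + 1).trans Nat.lt_two_pow_self.le
    have h0 : 2 ^ 2 ^ (Nat.find ex + J) < ‖f x‖ ∧ ‖f x‖ ≤ 2 ^ 2 ^ (Nat.find ex + J + 1) := by
      refine ⟨?_, Nat.find_spec ex⟩
      rcases hk : Nat.find ex with _ | k
      · simpa using h
      · have := Nat.find_min ex (show k < Nat.find ex by omega)
        rw [show k + 1 + J = k + J + 1 by ring]
        exact not_le.1 this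
    rw [sub_zero, tsum_eq_single (Nat.find ex) fun j hj => pc_of_ne h0 (by omega)]
    exact (if_pos h0).symm

omit hT in
theorem tsum_pc_le (f : AddCircle T → ℂ) (x : AddCircle T) :
    ∑' j, 2 ^ j * ‖pc f j x‖ₑ ≤ 2 * (‖f x‖ₑ * ENNReal.ofReal (Real.log (2 + ‖f x‖))) := by
  by_cases h : ∃ i, 2 ^ 2 ^ i < ‖f x‖ ∧ ‖f x‖ ≤ 2 ^ 2 ^ (i + 1)
  · obtain ⟨i, hi⟩ := h
    rw [tsum_eq_single i fun j hj => by simp [pc_of_ne hi hj], pc, if_pos hi, mul_left_comm,
      mul_comm]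
    refine mul_le_mul_right ?_ _
    have h1 : Real.log (2 ^ 2 ^ i) ≤ Real.log (2 + ‖f x‖) :=
      Real.log_le_log (by positivity) (by linarith [hi.1])
    rw [Real.log_pow] at h1
    push_cast at h1
    have h2 : (2 : ℝ) ^ i ≤ 2 * Real.log (2 + ‖f x‖) := by
      nlinarith [Real.log_two_gt_d9, (by positivity : (0 : ℝ) < 2 ^ i)]
    calc (2 : ℝ≥0∞) ^ i = ENNReal.ofReal (2 ^ i) := by
          rw [ENNReal.ofReal_pow zero_le_two, ENNReal.ofReal_ofNat]
      _ ≤ ENNReal.ofReal (2 * Real.log (2 + ‖f x‖)) := ENNReal.ofReal_le_ofReal h2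
      _ = _ := by rw [ENNReal.ofReal_mul zero_le_two, ENNReal.ofReal_ofNat]
  · have : ∀ j, pc f j x = 0 := fun j => if_neg fun hj => h ⟨j, hj⟩
    simp [this]

omit hT in
theorem norm_pc_le (f : AddCircle T → ℂ) (j : ℕ) (x : AddCircle T) :
    ‖pc f j x‖ ≤ 2 ^ 2 ^ (j + 1) := by
  unfold pc
  split_ifs with h
  · exact h.2
  · simp

omit hT in
theorem measurable_pc {f : AddCircle T → ℂ} (hf : Measurable f) (j : ℕ) : Measurable (pc f j) :=
  Measurable.ite ((measurableSet_lt measurable_const hf.norm).inter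
    (measurableSet_le hf.norm measurable_const)) hf measurable_const

theorem integrable_pc {f : AddCircle T → ℂ} (hf : Measurable f) (j : ℕ) :
    Integrable (pc f j) AddCircle.haarAddCircle :=
  Integrable.of_bound (measurable_pc hf j).aestronglyMeasurable _ (ae_of_all _ (norm_pc_le f j))

theorem enorm_S_tsum_le {g : ℕ → AddCircle T → ℂ}
    (hi : ∀ j, Integrable (g j) AddCircle.haarAddCircle)
    (hs : Summable fun j => ∫ y, ‖g j y‖ ∂AddCircle.haarAddCircle) (N : ℕ) (x : AddCircle T) :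
    ‖S (fun y => ∑' j, g j y) N x‖ₑ ≤ ∑' j, ‖S (g j) N x‖ₑ := by
  have h1 : ∀ k : ℤ, HasSum (fun j => fourierCoeff (g j) k)
      (fourierCoeff (fun y => ∑' j, g j y) k) := by
    intro k
    have hn : ∀ y : AddCircle T, ‖fourier (-k) y‖ = 1 := fun y => Circle.norm_coe _
    have := hasSum_integral_of_summable_integral_norm (μ := AddCircle.haarAddCircle)
      (F := fun j y => fourier (-k) y • g j y)
      (fun j => (hi j).bdd_mul (c := 1) (fourier (-k)).continuous.aestronglyMeasurable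
        (ae_of_all _ fun y => (hn y).le))
      (by simpa only [norm_smul, hn, one_mul] using hs)
    simpa only [fourierCoeff, smul_eq_mul, tsum_mul_left] using this
  have h2 : HasSum (fun j => S (g j) N x) (S (fun y => ∑' j, g j y) N x) :=
    hasSum_sum fun k _ => (h1 k).smul_const _
  rw [← h2.tsum_eq]
  exact enorm_tsum_le_tsum_enorm

theorem gain_le {G : ℝ → ℝ} (hG : ∀ R, 1 ≤ R → 0 ≤ G R) (hG' : GainOK G) : ∃ K : ℝ, 0 ≤ K ∧ ∀ j : ℕ,
    (((2 * (Nat.log 2 j + 1) : ℕ) : ℝ) + 1) * G (3 * 2 ^ j) + 1 ≤ K * 2 ^ j := by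
  obtain ⟨C, hC⟩ := hG'
  refine ⟨33 * |C| + 1, by positivity, fun j => ?_⟩
  have p1 : (1 : ℝ) ≤ 2 ^ j := one_le_pow₀ one_le_two
  have hR : (1 : ℝ) ≤ 3 * 2 ^ j := by linarith
  have h1 := hC _ hR
  have h2 := hG _ hR
  have l2 := Real.log_two_gt_d9
  have hj : (0 : ℝ) ≤ j := Nat.cast_nonneg j
  have h3 : j * Real.log 2 ≤ Real.log (3 * 2 ^ j) := by
    rw [← Real.log_pow]; exact Real.log_le_log (by positivity) (by linarith)
  have h3' : 0 ≤ j * Real.log 2 := by positivity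
  set lg := Real.log (2 + Real.log (3 * 2 ^ j)) with hlg
  have h4 : Real.log 2 ≤ lg := Real.log_le_log two_pos (by linarith)
  have h5 : (Nat.log 2 j : ℝ) * Real.log 2 ≤ 2 * lg := by
    have e : 2 * lg = Real.log ((2 + Real.log (3 * 2 ^ j)) ^ 2) := by
      rw [Real.log_pow]; norm_num [hlg]
    rw [← Real.log_pow, e]
    refine Real.log_le_log (by positivity) ?_
    have : (2 : ℝ) ^ Nat.log 2 j ≤ j + 1 := by
      rcases Nat.eq_zero_or_pos j with h | h
      · simp [h]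
      · exact_mod_cast (Nat.pow_log_le_self 2 h.ne').trans (Nat.le_succ j)
    nlinarith
  have h6 : (((2 * (Nat.log 2 j + 1) : ℕ) : ℝ) + 1) ≤ 11 * lg := by
    push_cast
    have : (0 : ℝ) ≤ Nat.log 2 j := Nat.cast_nonneg _
    nlinarith
  have h7 := mul_le_mul_of_nonneg_right h6 h2
  have h8 := mul_le_mul_of_nonneg_right (le_abs_self C) (show (0 : ℝ) ≤ 2 ^ j by positivity)
  nlinarith

theorem tower_le (j : ℕ) : (2 : ℝ) ^ 2 ^ (j + 1) ≤ Real.exp (3 * 2 ^ j) * (1 / 4) ^ j := by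
  have h1 : (16 : ℝ) ≤ Real.exp 3 := by
    have := Real.exp_one_gt_d9
    rw [show (3 : ℝ) = ((3 : ℕ) : ℝ) * 1 by norm_num, Real.exp_nat_mul]
    calc (16 : ℝ) ≤ 2.7 ^ 3 := by norm_num
      _ ≤ _ := pow_le_pow_left₀ (by norm_num) (by linarith) 3
  have h2 : Real.exp (3 * 2 ^ j) = Real.exp 3 ^ 2 ^ j := by
    rw [← Real.exp_nat_mul]; push_cast; rw [mul_comm]
  have h3 : (4 : ℝ) ^ j ≤ 4 ^ 2 ^ j := pow_le_pow_right₀ (by norm_num) Nat.lt_two_pow_self.le
  rw [one_div, inv_pow, ← div_eq_mul_inv, le_div_iff₀ (by positivity), h2, pow_succ', pow_mul]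
  calc ((2 : ℝ) ^ 2) ^ 2 ^ j * 4 ^ j ≤ (2 ^ 2) ^ 2 ^ j * 4 ^ 2 ^ j := by gcongr
    _ = 16 ^ 2 ^ j := by rw [← mul_pow]; norm_num
    _ ≤ _ := pow_le_pow_left₀ (by norm_num) h1 _

/-- Pieces `f_j = low f (j + 1) - low f j`, `b_j = ‖f_j‖₁ + 4⁻ʲ`, `R_j = 3 * 2 ^ j`,
`L_j = 2 (log₂ j + 1)`; `S (f - low f J) N x = ∑' j ≥ J, S f_j N x` (convergence in `L¹`). -/
theorem tail_small {G : ℝ → ℝ} (hG : ∀ R, 1 ≤ R → 0 ≤ G R) (hG' : GainOK G) (h : PieceC T G)
    {f : AddCircle T → ℂ} (hf : Measurable f)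
    (hlog : ∫⁻ x, ‖f x‖ₑ * ENNReal.ofReal (Real.log (2 + ‖f x‖)) ∂AddCircle.haarAddCircle < ⊤)
    {ε : ℝ} (hε : 0 < ε) : ∀ᶠ J in atTop, AddCircle.haarAddCircle
      {x | ENNReal.ofReal ε ≤ ⨆ N, ‖S (fun y => f y - low f J y) N x‖ₑ} ≤ ENNReal.ofReal ε := by
  obtain ⟨C, C0, hC⟩ := h
  obtain ⟨K, K0, hK⟩ := gain_le hG hG'
  set μ : Measure (AddCircle T) := AddCircle.haarAddCircle with hμ
  set a : ℕ → ℝ := fun j => ∫ y, ‖pc f j y‖ ∂μ with ha
  have a0 : ∀ j, 0 ≤ a j := fun j => integral_nonneg fun y => norm_nonneg _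
  have sa : Summable fun j => 2 ^ j * a j := by
    have h1 : ∑' j, 2 ^ j * ∫⁻ y, ‖pc f j y‖ₑ ∂μ ≠ ⊤ := by
      have e : ∀ j, 2 ^ j * ∫⁻ y, ‖pc f j y‖ₑ ∂μ = ∫⁻ y, 2 ^ j * ‖pc f j y‖ₑ ∂μ := fun j =>
        (lintegral_const_mul _ (measurable_pc hf j).enorm).symm
      simp only [e]
      rw [← lintegral_tsum fun j => ((measurable_pc hf j).enorm.const_mul _).aemeasurable]
      refine ne_top_of_le_ne_top ?_ (lintegral_mono (tsum_pc_le f))
      rw [lintegral_const_mul' _ _ (by simp)]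
      exact ENNReal.mul_ne_top (by simp) hlog.ne
    refine (ENNReal.summable_toReal h1).congr fun j => ?_
    rw [ENNReal.toReal_mul, ← integral_norm_eq_lintegral_enorm
      (measurable_pc hf j).aestronglyMeasurable]
    simp [ha]
  have sa' : Summable a := Summable.of_nonneg_of_le a0
    (fun j => le_mul_of_one_le_left (a0 j) (one_le_pow₀ one_le_two)) sa
  choose E mE hE1 hE2 using fun j : ℕ => hC (3 * 2 ^ j) (a j + (1 / 4) ^ j) (2 * (Nat.log 2 j + 1))
    (pc f j) (by linarith [(one_le_pow₀ one_le_two : (1 : ℝ) ≤ 2 ^ j)])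
    (add_pos_of_nonneg_of_pos (a0 j) (by positivity)) (measurable_pc hf j)
    (fun y => (norm_pc_le f j y).trans ((tower_le j).trans
      (mul_le_mul_of_nonneg_left (le_add_of_nonneg_left (a0 j)) (Real.exp_pos _).le)))
    (le_add_of_nonneg_right (by positivity))
  have s1 : Summable fun j : ℕ => C * (1 / ((j : ℝ) + 1) ^ 2) := by
    refine Summable.mul_left _ ?_
    exact_mod_cast (summable_nat_add_iff 1).2 (Real.summable_one_div_nat_pow.2 one_lt_two)
  have s2 : Summable fun j : ℕ => C * K * (2 ^ j * a j + (1 / 2) ^ j) :=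
    (sa.add summable_geometric_two).mul_left _
  have b1 : ∀ j, μ (E j) ≤ ENNReal.ofReal (C * (1 / ((j : ℝ) + 1) ^ 2)) := fun j => by
    refine (hE1 j).trans (ENNReal.ofReal_le_ofReal ?_)
    rw [mul_one_div, pow_mul']
    refine div_le_div_of_nonneg_left C0 (by positivity) (pow_le_pow_left₀ (by positivity) ?_ 2)
    exact_mod_cast Nat.lt_pow_succ_log_self one_lt_two j
  have b2 : ∀ j, ∫⁻ x in (E j)ᶜ, ⨆ N, ‖S (pc f j) N x‖ₑ ∂μ ≤
      ENNReal.ofReal (C * K * (2 ^ j * a j + (1 / 2) ^ j)) := fun j => by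
    refine (hE2 j).trans (ENNReal.ofReal_le_ofReal ?_)
    refine (mul_le_mul_of_nonneg_left (hK j)
      (mul_nonneg C0 (add_nonneg (a0 j) (by positivity)))).trans_eq ?_
    have e : (1 / 2 : ℝ) ^ j = (1 / 4) ^ j * 2 ^ j := by rw [← mul_pow]; norm_num
    rw [e]; ring
  have t1 := ENNReal.tendsto_sum_nat_add _ s1.tsum_ofReal_ne_top
  have t2 := ENNReal.tendsto_sum_nat_add _ s2.tsum_ofReal_ne_top
  have e0 : 0 < ENNReal.ofReal (ε / 2) := ENNReal.ofReal_pos.2 (by positivity)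
  have e1 : 0 < ENNReal.ofReal (ε / 2 * ε) := ENNReal.ofReal_pos.2 (by positivity)
  filter_upwards [t1.eventually (ge_mem_nhds e0), t2.eventually (ge_mem_nhds e1)] with J j1 j2
  have mM : ∀ j, Measurable fun x => ⨆ N, ‖S (pc f j) N x‖ₑ := fun j =>
    Measurable.iSup fun N => (continuous_S _ N).measurable.enorm
  have mH : ∀ j, Measurable ((E j)ᶜ.indicator fun x => ⨆ N, ‖S (pc f j) N x‖ₑ) := fun j =>
    (mM j).indicator (mE j).compl
  have sub : {x | ENNReal.ofReal ε ≤ ⨆ N, ‖S (fun y => f y - low f J y) N x‖ₑ} ⊆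
      (⋃ j, E (j + J)) ∪ {x | ENNReal.ofReal ε ≤
        ∑' j, (E (j + J))ᶜ.indicator (fun x => ⨆ N, ‖S (pc f (j + J)) N x‖ₑ) x} := by
    intro x hx
    by_cases hU : x ∈ ⋃ j, E (j + J)
    · exact Or.inl hU
    · right
      rw [mem_ofPred_eq] at hx ⊢
      refine le_trans hx (iSup_le fun N => ?_)
      simp only [sub_low_eq]
      refine (enorm_S_tsum_le (fun j => integrable_pc hf _)
        ((summable_nat_add_iff J).2 sa') N x).trans (ENNReal.tsum_le_tsum fun j => ?_)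
      rw [indicator_of_mem (show x ∈ (E (j + J))ᶜ from fun h => hU (mem_iUnion.2 ⟨j, h⟩))]
      exact le_iSup (fun N => ‖S (pc f (j + J)) N x‖ₑ) N
  have c1 : μ (⋃ j, E (j + J)) ≤ ENNReal.ofReal (ε / 2) :=
    (measure_iUnion_le _).trans ((ENNReal.tsum_le_tsum fun j => b1 _).trans j1)
  have c2 : μ {x | ENNReal.ofReal ε ≤
      ∑' j, (E (j + J))ᶜ.indicator (fun x => ⨆ N, ‖S (pc f (j + J)) N x‖ₑ) x} ≤
      ENNReal.ofReal (ε / 2) := by
    refine (meas_ge_le_lintegral_div (Measurable.tsum fun j => mH _).aemeasurable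
      (ENNReal.ofReal_pos.2 hε).ne' ENNReal.ofReal_ne_top).trans ?_
    refine ENNReal.div_le_of_le_mul ?_
    rw [lintegral_tsum fun j => (mH _).aemeasurable, ← ENNReal.ofReal_mul (by positivity)]
    refine le_trans (ENNReal.tsum_le_tsum fun j => ?_) j2
    rw [lintegral_indicator (mE _).compl]
    exact b2 _
  refine (measure_mono sub).trans ((measure_union_le _ _).trans ((add_le_add c1 c2).trans_eq ?_))
  rw [← ENNReal.ofReal_add (by positivity) (by positivity), add_halves]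

end Crest.Agent.R100
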