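import Crest.Agent.R100.OutLine
import Crest.Agent.R100.OutTail
import Crest.Agent.R100.OutAe
import Crest.Agent.R100.CarAE

set_option autoImplicit false

open MeasureTheory Set Filter
open scoped ENNReal Topology

namespace Crest.Agent.R100

variable {T : ℝ} [hT : Fact (0 < T)]

theorem ae_of_pieceC {G : ℝ → ℝ} (hG : ∀ R, 1 ≤ R → 0 ≤ G R) (hG' : GainOK G) (h : PieceC T G)
    (f : AddCircle T → ℂ) (hf : AEStronglyMeasurable f AddCircle.haarAddCircle)
    (hlog : ∫⁻ x, ‖f x‖ₑ * ENNReal.ofReal (Real.log (2 + ‖f x‖)) ∂AddCircle.haarAddCircle < ⊤) :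
    ∀ᵐ x ∂AddCircle.haarAddCircle, Tendsto (fun N => S f N x) atTop (𝓝 (f x)) :=
  OutAe.ae_of_bdd hG hG' h
    (fun _ _ hg hC => ae_bdd hg.aestronglyMeasurable (Eventually.of_forall hC)) f hf hlog

/-- **The outer reduction.** -/
theorem result_of_SL {G : ℝ → ℝ} (h : SL G) (hG : GainOK G) (f : AddCircle T → ℂ)
    (hf : AEStronglyMeasurable f AddCircle.haarAddCircle)
    (hlog : ∫⁻ x, ‖f x‖ₑ * ENNReal.ofReal (Real.log (2 + ‖f x‖)) ∂AddCircle.haarAddCircle < ⊤) :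
    ∀ᵐ x ∂AddCircle.haarAddCircle, Tendsto
      (fun N : ℕ => ∑ k ∈ Finset.Icc (-(N : ℤ)) N, fourierCoeff f k • fourier k x)
      atTop (nhds (f x)) :=
  ae_of_pieceC (fun _ => h.nonneg) hG
    (pieceC_of_pieceR (pieceR_of_line (fun _ => h.nonneg) (line_of_SL h))) f hf hlog

end Crest.Agent.R100
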