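import Crest.Agent.R100.MlDefs
import Crest.Agent.R100.Out

/-!
# Row 100, multi-level outer reduction (helper84): `ML` implies the statement S0132
-/

set_option autoImplicit false

open MeasureTheory Set Filter
open scoped ENNReal Topology

namespace Crest.Agent.R100

theorem ML.weak (h : ML) : MLw := by
  classical
  obtain ⟨C, R₀, h⟩ := h
  refine ⟨C, R₀, fun R b B g n α ℓ ξ h1 h2 h3 h4 h5 h6 h7 h8 h9 =>
    le_trans (avg_mono n fun l => ?_) (h R b B g n α ℓ ξ h1 h2 h3 h4 h5 h6 h7 h8 h9)⟩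
  split_ifs with hl
  · rw [Tf_eq_of_good g (ξ l) B l α ℓ hl]
  · positivity

namespace Ml

/-- the admissible numbers of levels -/
def LOK (R : ℝ) (L : ℕ) : Prop := (2 : ℝ) ^ L ≤ 16 * (1 + Real.log R) ^ 2

open Classical in
theorem all_R (h : MLw) : ∃ C : ℝ, 0 ≤ C ∧ ∀ (R b : ℝ) (L : ℕ) (g : ℝ → ℝ) (n : ℕ) (α ℓ : ℝ)
    (ξ : List Bool → ℝ), 1 ≤ R → LOK R L → 0 < b → Measurable g →
    (∀ y, 0 ≤ g y ∧ g y ≤ Real.exp R * b) → 0 < ℓ → av g α ℓ ≤ b →
      avg n (fun l => if good g (2 ^ L * b) α ℓ l then ‖Tf g (ξ l) α ℓ l‖ else 0) ≤ C * R * b := by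
  obtain ⟨C, R₀, h⟩ := h
  refine ⟨|C| * max 1 R₀, by positivity, fun R b L g n α ℓ ξ hR hL hb hm h0 hℓ hav => ?_⟩
  set R' := max R R₀ with hR'
  have hRR : R ≤ R' := le_max_left _ _
  have hlog : Real.log R ≤ Real.log R' := Real.log_le_log (by linarith) hRR
  have hl0 : 0 ≤ Real.log R := Real.log_nonneg hR
  have h2 : (1 : ℝ) ≤ 2 ^ L := one_le_pow₀ one_le_two
  have hB : 2 ^ L * b ≤ 16 * (1 + Real.log R') ^ 2 * b := by
    refine mul_le_mul_of_nonneg_right (le_trans hL ?_) hb.le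
    gcongr
  have := h R' b (2 ^ L * b) g n α ℓ ξ (hR.trans hRR) (le_max_right _ _) hb (by nlinarith) hB hm
    (fun y => ⟨(h0 y).1, (h0 y).2.trans (by gcongr)⟩) hℓ hav
  refine this.trans (mul_le_mul_of_nonneg_right ?_ hb.le)
  have h3 : R' ≤ max 1 R₀ * R := by
    refine max_le ?_ ?_
    · nlinarith [le_max_left 1 R₀]
    · nlinarith [le_max_left 1 R₀, le_max_right 1 R₀]
  calc C * R' ≤ |C| * R' := mul_le_mul_of_nonneg_right (le_abs_self C) (by linarith)
    _ ≤ |C| * (max 1 R₀ * R) := by gcongr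
    _ = _ := by ring

/-- the bound on the line -/
def LineBound : Prop :=
  ∃ C : ℝ, 0 ≤ C ∧ ∀ (R b W x₀ : ℝ) (L : ℕ) (g : ℝ → ℝ), 1 ≤ R → LOK R L → 0 < b → 0 < W →
    Measurable g →
    Integrable g → (∀ y, 0 ≤ g y ∧ g y ≤ Real.exp R * b) → ∫ y, g y ≤ W * b →
      ∃ E : Set ℝ, MeasurableSet E ∧ volume E ≤ ENNReal.ofReal (C * W / 2 ^ L) ∧
        ∀ (ξ : ℕ → ℝ) (N₀ : ℕ), ∫⁻ x in Ico x₀ (x₀ + W) \ E, ⨆ N ≤ N₀, ‖Dl g (ξ N) x‖ₑ ≤
          ENNReal.ofReal (C * W * b * R)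

variable {T : ℝ} [hT : Fact (0 < T)]

variable (T) in
/-- the bound for one piece, nonnegative functions -/
def PieceR : Prop :=
  ∃ C : ℝ, 0 ≤ C ∧ ∀ (R b : ℝ) (L : ℕ) (g : AddCircle T → ℝ), 1 ≤ R → LOK R L → 0 < b →
    Measurable g →
    (∀ y, 0 ≤ g y ∧ g y ≤ Real.exp R * b) → ∫ y, g y ∂AddCircle.haarAddCircle ≤ b →
      ∃ E : Set (AddCircle T), MeasurableSet E ∧
        AddCircle.haarAddCircle E ≤ ENNReal.ofReal (C / 2 ^ L) ∧
        ∫⁻ x in Eᶜ, ⨆ N, ‖S (fun y => (g y : ℂ)) N x‖ₑ ∂AddCircle.haarAddCircle ≤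
          ENNReal.ofReal (C * b * R)

variable (T) in
/-- the bound for one piece, complex functions -/
def PieceC : Prop :=
  ∃ C : ℝ, 0 ≤ C ∧ ∀ (R b : ℝ) (L : ℕ) (g : AddCircle T → ℂ), 1 ≤ R → LOK R L → 0 < b →
    Measurable g →
    (∀ y, ‖g y‖ ≤ Real.exp R * b) → ∫ y, ‖g y‖ ∂AddCircle.haarAddCircle ≤ b →
      ∃ E : Set (AddCircle T), MeasurableSet E ∧
        AddCircle.haarAddCircle E ≤ ENNReal.ofReal (C / 2 ^ L) ∧
        ∫⁻ x in Eᶜ, ⨆ N, ‖S g N x‖ₑ ∂AddCircle.haarAddCircle ≤ ENNReal.ofReal (C * b * R)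

open Classical in
/-- the bound on one grid -/
theorem grid_bound {b c : ℝ} {g : ℝ → ℝ} (hg : Integrable g) (L : ℕ)
    {E : Set ℝ} (hE : MeasurableSet E)
    (hE' : ∀ x ∉ E, ∀ α ℓ : ℝ, 0 < ℓ → α ≤ x → x ≤ α + ℓ → av g α ℓ ≤ 2 ^ L * b)
    (ξ : ℕ → ℝ) (N₀ n : ℕ) (α : ℝ) {ℓ : ℝ} (hℓ : 0 < ℓ)
    (h : ∀ ξ' : List Bool → ℝ, avg (n + 1)
      (fun l => if good g (2 ^ L * b) α ℓ l then ‖Tf g (ξ' l) α ℓ l‖ else 0) ≤ c) :
    ∫⁻ x in Ico α (α + ℓ) \ E, ⨆ N ≤ N₀, ‖Tx g (ξ N) n α ℓ x‖ₑ ≤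
      ENNReal.ofReal (ℓ * c) := by
  have hmax : ∀ l : List Bool, ∃ N, ∀ N' ≤ N₀, ‖Tf g (ξ N') α ℓ l‖ ≤ ‖Tf g (ξ N) α ℓ l‖ := by
    intro l
    obtain ⟨N, -, hN⟩ := Finset.exists_max_image (Finset.range (N₀ + 1))
      (fun N => ‖Tf g (ξ N) α ℓ l‖) ⟨0, by simp⟩
    exact ⟨N, fun N' hN' => hN N' (Finset.mem_range.2 (Nat.lt_succ_of_le hN'))⟩
  choose Ns hNs using hmax
  set Φ : List Bool → ℝ := fun l =>
    if good g (2 ^ L * b) α ℓ l then ‖Tf g (ξ (Ns l)) α ℓ l‖ else 0 with hΦ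
  have hΦ0 : ∀ l, 0 ≤ Φ l := fun l => by
    simp only [hΦ]; split_ifs <;> positivity
  have h1 := h (fun l => ξ (Ns l))
  calc ∫⁻ x in Ico α (α + ℓ) \ E, ⨆ N ≤ N₀, ‖Tx g (ξ N) n α ℓ x‖ₑ
      ≤ ∫⁻ x in Ico α (α + ℓ) \ E, ENNReal.ofReal (Φ (path (n + 1) α ℓ x)) := by
        refine setLIntegral_mono' (measurableSet_Ico.diff hE) fun x hx => ?_
        refine iSup₂_le fun N hN => ?_
        rw [← Tf_path hg (ξ N) n hℓ hx.1, ← ofReal_norm]
        refine ENNReal.ofReal_le_ofReal ?_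
        simp only [hΦ]
        rw [if_pos (good_path (hE' x hx.2) (n + 1) hℓ hx.1)]
        exact hNs _ N hN
    _ ≤ ∫⁻ x in Ico α (α + ℓ), ENNReal.ofReal (Φ (path (n + 1) α ℓ x)) :=
        lintegral_mono_set sdiff_subset
    _ = ENNReal.ofReal (ℓ * avg (n + 1) Φ) := lintegral_path hΦ0 _ _ hℓ
    _ ≤ _ := ENNReal.ofReal_le_ofReal (mul_le_mul_of_nonneg_left h1 hℓ.le)

theorem line_of_ML (h : MLw) : LineBound := by
  obtain ⟨C, hC, h⟩ := all_R h
  refine ⟨96 * (C + 1), by positivity, fun R b W x₀ L g hR hL hb hW hm hg h0 hint => ?_⟩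
  obtain ⟨E, hE, hvol, hE'⟩ := hl_weak hg (fun y => (h0 y).1) (s := 2 ^ L * b) (by positivity)
  refine ⟨E, hE, hvol.trans (ENNReal.ofReal_le_ofReal ?_), fun ξ N₀ => ?_⟩
  · rw [div_le_div_iff₀ (by positivity) (by positivity)]
    have : (0 : ℝ) < 2 ^ L := by positivity
    have : 0 < W * b := by positivity
    have : 0 ≤ C * (W * b) * 2 ^ L := by positivity
    nlinarith
  set H := Real.exp R * b with hH
  have hH0 : 0 < H := by positivity
  set M : ℝ := ∑ N ∈ Finset.range (N₀ + 1), |ξ N| with hM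
  have hM0 : 0 ≤ M := Finset.sum_nonneg fun _ _ => abs_nonneg _
  have hMN : ∀ N ≤ N₀, |ξ N| ≤ M := fun N hN =>
    Finset.single_le_sum (f := fun N => |ξ N|) (fun _ _ => abs_nonneg _)
      (Finset.mem_range.2 (Nat.lt_succ_of_le hN))
  have key : ∀ n : ℕ, ∫⁻ x in Ico x₀ (x₀ + W) \ E, ⨆ N ≤ N₀, ‖Dl g (ξ N) x‖ₑ ≤
      ENNReal.ofReal (W * (32 * b + 200 * M * H * W / 2 ^ n) + 96 * W * b * (C * R)) := by
    intro n
    set U : ℝ × ℝ × ℝ → ℝ≥0∞ := fun p => ⨆ N ≤ N₀, ‖Tx g (ξ N) (n + 1) p.1 p.2.1 p.2.2‖ₑ with hU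
    have hUm : Measurable U :=
      Measurable.iSup fun N => Measurable.iSup fun _ => (measurable_Tx hm (ξ N) (n + 1)).enorm
    have hc : ∀ α, ∀ ℓ ∈ Ioc W (2 * W), ∫⁻ x in Ico α (α + ℓ) \ E, U (α, ℓ, x) ≤
        ENNReal.ofReal (2 * W * b * (C * R)) := by
      intro α ℓ hℓ
      have hℓ0 : 0 < ℓ := hW.trans hℓ.1
      have hav : av g α ℓ ≤ b := by
        have h2 : ∫ y in α..α + ℓ, g y ≤ ∫ y, g y := by
          rw [intervalIntegral.integral_of_le (by linarith)]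
          exact setIntegral_le_integral hg (Eventually.of_forall fun y => (h0 y).1)
        unfold av
        rw [div_le_iff₀ hℓ0]
        nlinarith [hℓ.1]
      refine (grid_bound hg L hE hE' ξ N₀ (n + 1) α hℓ0
        (fun ξ' => h R b L g (n + 1 + 1) α ℓ ξ' hR hL hb hm h0 hℓ0 hav)).trans
        (ENNReal.ofReal_le_ofReal ?_)
      have h1 : 0 ≤ C * R * b := by positivity
      calc ℓ * (C * R * b) ≤ 2 * W * (C * R * b) := mul_le_mul_of_nonneg_right hℓ.2 h1
        _ = _ := by ring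
    have hT := tonelli_grid hUm hE x₀ hW hc
    calc ∫⁻ x in Ico x₀ (x₀ + W) \ E, ⨆ N ≤ N₀, ‖Dl g (ξ N) x‖ₑ
        ≤ ∫⁻ x in Ico x₀ (x₀ + W) \ E, (ENNReal.ofReal (32 * b + 200 * M * H * W / 2 ^ n) +
          ENNReal.ofReal (16 / W ^ 2) *
            ∫⁻ ℓ in Ioc W (2 * W), ∫⁻ α in Ioc (x - ℓ) x, U (α, ℓ, x)) := by
          refine lintegral_mono fun x => iSup₂_le fun N hN => ?_
          refine (rep_bound hm hg h0 hW n (ξ N) x).trans (add_le_add ?_ ?_)
          · refine ENNReal.ofReal_le_ofReal (add_le_add ?_ ?_)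
            · rw [div_mul_eq_mul_div, div_le_iff₀ hW]; linarith
            · have := hMN N hN
              gcongr
          · refine mul_le_mul_right (lintegral_mono fun ℓ => lintegral_mono fun α => ?_) _
            exact le_iSup₂_of_le (f := fun N (_ : N ≤ N₀) => ‖Tx g (ξ N) (n + 1) α ℓ x‖ₑ) N hN le_rfl
      _ = ENNReal.ofReal (32 * b + 200 * M * H * W / 2 ^ n) * volume (Ico x₀ (x₀ + W) \ E) +
          ENNReal.ofReal (16 / W ^ 2) * ∫⁻ x in Ico x₀ (x₀ + W) \ E,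
            ∫⁻ ℓ in Ioc W (2 * W), ∫⁻ α in Ioc (x - ℓ) x, U (α, ℓ, x) := by
          rw [lintegral_add_left measurable_const, setLIntegral_const,
            lintegral_const_mul' _ _ ENNReal.ofReal_ne_top]
      _ ≤ ENNReal.ofReal (32 * b + 200 * M * H * W / 2 ^ n) * ENNReal.ofReal W +
          ENNReal.ofReal (16 / W ^ 2) * (ENNReal.ofReal (2 * W * b * (C * R)) *
            ENNReal.ofReal (3 * W) * ENNReal.ofReal W) := by
          gcongr
          refine (measure_mono sdiff_subset).trans ?_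
          rw [Real.volume_Ico]; simp
      _ = _ := by
          rw [← ENNReal.ofReal_mul (by positivity), ← ENNReal.ofReal_mul (by positivity),
            ← ENNReal.ofReal_mul (by positivity), ← ENNReal.ofReal_mul (by positivity),
            ← ENNReal.ofReal_add (by positivity) (by positivity)]
          congr 1
          field_simp
          ring
  obtain ⟨n, hn⟩ := pow_unbounded_of_one_lt (200 * M * H * W / b) (by norm_num : (1 : ℝ) < 2)
  refine (key n).trans (ENNReal.ofReal_le_ofReal ?_)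
  have h1 : 200 * M * H * W / 2 ^ n ≤ b := by
    rw [div_lt_iff₀ hb] at hn
    rw [div_le_iff₀ (by positivity)]; linarith
  have h2 : W * (32 * b + 200 * M * H * W / 2 ^ n) ≤ W * (96 * b) := by
    gcongr; linarith
  have h3 : W * b * 1 ≤ W * b * R := by gcongr
  nlinarith

/-- one window -/
theorem circ_window {C : ℝ} (hC : 0 ≤ C)
    (h : ∀ (R b W x₀ : ℝ) (L : ℕ) (g : ℝ → ℝ), 1 ≤ R → LOK R L → 0 < b → 0 < W →
      Measurable g →
      Integrable g → (∀ y, 0 ≤ g y ∧ g y ≤ Real.exp R * b) → ∫ y, g y ≤ W * b →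
        ∃ E : Set ℝ, MeasurableSet E ∧ volume E ≤ ENNReal.ofReal (C * W / 2 ^ L) ∧
          ∀ (ξ : ℕ → ℝ) (N₀ : ℕ), ∫⁻ x in Ico x₀ (x₀ + W) \ E, ⨆ N ≤ N₀, ‖Dl g (ξ N) x‖ₑ ≤
            ENNReal.ofReal (C * W * b * R))
    (R b : ℝ) (L : ℕ) (g : AddCircle T → ℝ) (hR : 1 ≤ R) (hL : LOK R L) (hb : 0 < b)
    (hm : Measurable g)
    (h0 : ∀ y, 0 ≤ g y ∧ g y ≤ Real.exp R * b)
    (hint : ∫ y, g y ∂AddCircle.haarAddCircle ≤ b) (x₀ : ℝ) :
    ∃ E : Set ℝ, MeasurableSet E ∧ volume E ≤ ENNReal.ofReal (C * T / 2 ^ L) ∧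
      (1 ≤ R → ∀ N₀ : ℕ, ∫⁻ x in Ico x₀ (x₀ + T / 4) \ E,
        ⨆ N ≤ N₀, ‖S (fun y => (g y : ℂ)) N (x : AddCircle T)‖ₑ ≤
          ENNReal.ofReal (C * T * b * R + 10 * b * (T / 4))) := by
  have hT0 : 0 < T := hT.out
  have hgm : Measurable fun y : ℝ => g y := hm.comp AddCircle.measurable_mk'
  have hwm : Measurable (win g x₀) := hgm.indicator measurableSet_Ioc
  have hwb : ∀ y, 0 ≤ win g x₀ y ∧ win g x₀ y ≤ Real.exp R * b := fun y => by
    unfold win
    by_cases hy : y ∈ Ioc (x₀ - 3 / 8 * T) (x₀ - 3 / 8 * T + T)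
    · rw [indicator_of_mem hy]; exact h0 _
    · rw [indicator_of_notMem hy]; exact ⟨le_rfl, by positivity⟩
  have hwi : Integrable (win g x₀) := by
    unfold win
    rw [integrable_indicator_iff measurableSet_Ioc]
    refine Measure.integrableOn_of_bounded (M := Real.exp R * b) measure_Ioc_lt_top.ne
      hgm.aestronglyMeasurable (Eventually.of_forall fun y => ?_)
    rw [Real.norm_eq_abs, abs_of_nonneg (h0 _).1]
    exact (h0 _).2
  have hwI : ∫ y, win g x₀ y ≤ T * b := by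
    unfold win
    rw [integral_indicator measurableSet_Ioc, AddCircle.integral_preimage T _ g,
      AddCircle.volume_eq_smul_haarAddCircle, integral_smul_measure,
      ENNReal.toReal_ofReal hT0.le, smul_eq_mul]
    exact mul_le_mul_of_nonneg_left hint hT0.le
  obtain ⟨E, hE, hv, hi⟩ := h R b T x₀ L (win g x₀) hR hL hb hT0 hwm hwi hwb hwI
  refine ⟨E, hE, hv, fun hK N₀ => ?_⟩
  set ξ : ℕ → ℝ := fun N => (2 * N + 1) * Real.pi / T with hξ
  have hpt : ∀ x ∈ Ico x₀ (x₀ + T / 4) \ E,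
      ⨆ N ≤ N₀, ‖S (fun y => (g y : ℂ)) N (x : AddCircle T)‖ₑ ≤
        (⨆ N ≤ N₀, ‖Dl (win g x₀) (ξ N) x‖ₑ) + ENNReal.ofReal (10 * b) := fun x hx => by
    refine iSup₂_le fun N hN => ?_
    have hd := dirichlet hm h0 N hx.1
    have h1 : ‖S (fun y => (g y : ℂ)) N (x : AddCircle T)‖ₑ ≤
        ‖Dl (win g x₀) (ξ N) x‖ₑ + ENNReal.ofReal (10 * b) := by
      rw [← ofReal_norm, ← ofReal_norm, ← ENNReal.ofReal_add (norm_nonneg _) (by positivity)]
      refine ENNReal.ofReal_le_ofReal ?_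
      rw [Real.norm_eq_abs]
      linarith
    exact h1.trans (add_le_add (le_iSup₂_of_le (f := fun N (_ : N ≤ N₀) =>
      ‖Dl (win g x₀) (ξ N) x‖ₑ) N hN le_rfl) le_rfl)
  have hms : MeasurableSet (Ico x₀ (x₀ + T / 4) \ E) := measurableSet_Ico.diff hE
  refine (setLIntegral_mono' hms hpt).trans ?_
  rw [lintegral_add_right _ measurable_const, setLIntegral_const]
  have hsub : Ico x₀ (x₀ + T / 4) \ E ⊆ Ico x₀ (x₀ + T) \ E :=
    sdiff_subset_sdiff_left (Ico_subset_Ico_right (by linarith))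
  have hvol : volume (Ico x₀ (x₀ + T / 4) \ E) ≤ ENNReal.ofReal (T / 4) := by
    refine (measure_mono sdiff_subset).trans ?_
    rw [Real.volume_Ico, add_sub_cancel_left]
  rw [ENNReal.ofReal_add (by positivity) (by positivity), ENNReal.ofReal_mul (by positivity)
    (p := 10 * b)]
  exact add_le_add ((lintegral_mono_set hsub).trans (hi ξ N₀)) (mul_le_mul' le_rfl hvol)

/-- Four windows `x₀ = i T / 4`, `W = T`; `E` is the preimage of the union of the four sets under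
`AddCircle.equivIco T 0`; monotone convergence in `N₀`. -/
theorem pieceR_of_line (h : LineBound) : PieceR T := by
  obtain ⟨C, hC, h⟩ := h
  have hT0 : 0 < T := hT.out
  refine ⟨4 * C + 10, by positivity, fun R b L g hR hL hb hm h0 hint => ?_⟩
  have hK1 : 1 ≤ R := hR
  choose Ef hEm hEv hEi using fun x₀ : ℝ => circ_window (T := T) hC h R b L g hR hL hb hm h0 hint x₀
  set E' : Set ℝ := (Ef 0 ∪ Ef (T / 4)) ∪ (Ef (T / 2) ∪ Ef (3 * T / 4)) with hE'
  have hE'm : MeasurableSet E' := ((hEm _).union (hEm _)).union ((hEm _).union (hEm _))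
  set r : AddCircle T → ℝ := fun x => (AddCircle.measurableEquivIoc T 0 x : ℝ) with hr
  have hrm : Measurable r := measurable_subtype_coe.comp (AddCircle.measurableEquivIoc T 0).measurable
  have hrc : ∀ a ∈ Ioc (0 : ℝ) (0 + T), r (a : AddCircle T) = a := fun a ha =>
    AddCircle.equivIoc_coe_of_mem ha
  have hEm' : MeasurableSet (r ⁻¹' E') := hE'm.preimage hrm
  have hTne : ENNReal.ofReal T ≠ 0 := by simpa using hT0
  have cancel : ∀ {x : ℝ≥0∞} {y : ℝ}, ENNReal.ofReal T * x ≤ ENNReal.ofReal (T * y) →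
      x ≤ ENNReal.ofReal y := fun {x y} hxy => by
    rw [ENNReal.ofReal_mul hT0.le] at hxy
    exact (ENNReal.mul_le_mul_iff_right hTne ENNReal.ofReal_ne_top).1 hxy
  have four : ∀ {y z : ℝ}, 0 ≤ y → 4 * y ≤ z → ENNReal.ofReal y + ENNReal.ofReal y +
      (ENNReal.ofReal y + ENNReal.ofReal y) ≤ ENNReal.ofReal z := fun {y z} hy hz => by
    rw [← ENNReal.ofReal_add hy hy, ← ENNReal.ofReal_add (add_nonneg hy hy) (add_nonneg hy hy)]
    exact ENNReal.ofReal_le_ofReal (by linarith)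
  refine ⟨r ⁻¹' E', hEm', cancel ?_, ?_⟩
  · have e1 : ENNReal.ofReal T * AddCircle.haarAddCircle (r ⁻¹' E')
        = (volume : Measure (AddCircle T)) (r ⁻¹' E') := by
      rw [AddCircle.volume_eq_smul_haarAddCircle, Measure.smul_apply, smul_eq_mul]
    rw [e1, AddCircle.add_projection_respects_measure T 0 hEm']
    have hsub : (QuotientAddGroup.mk ⁻¹' (r ⁻¹' E') ∩ Ioc (0 : ℝ) (0 + T)) ⊆ E' := fun a ha => by
      have := ha.1
      rw [mem_preimage, mem_preimage, hrc a ha.2] at this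
      exact this
    refine (measure_mono hsub).trans ((measure_union_le _ _).trans ?_)
    refine (add_le_add ((measure_union_le _ _).trans (add_le_add (hEv _) (hEv _)))
      ((measure_union_le _ _).trans (add_le_add (hEv _) (hEv _)))).trans (four (by positivity) ?_)
    have : 0 ≤ T * (10 / 2 ^ L) := by positivity
    have e : T * ((4 * C + 10) / 2 ^ L) = 4 * (C * T / 2 ^ L) + T * (10 / 2 ^ L) := by ring
    linarith
  · set F : ℕ → AddCircle T → ℝ≥0∞ :=
      fun N₀ x => ⨆ N ≤ N₀, ‖S (fun y => (g y : ℂ)) N x‖ₑ with hF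
    have hFm : ∀ N₀, Measurable (F N₀) := fun N₀ =>
      Measurable.iSup fun N => Measurable.iSup fun _ => (continuous_S _ N).measurable.enorm
    have hFmono : Monotone F := fun N₁ N₂ h12 x =>
      iSup₂_le fun N hN => le_iSup₂_of_le (f := fun N (_ : N ≤ N₂) =>
        ‖S (fun y => (g y : ℂ)) N x‖ₑ) N (hN.trans h12) le_rfl
    have hsup : (fun x => ⨆ N, ‖S (fun y => (g y : ℂ)) N x‖ₑ) = fun x => ⨆ N₀, F N₀ x := by
      funext x
      refine le_antisymm (iSup_le fun N => le_iSup_of_le N ?_) (iSup_le fun N₀ => iSup₂_le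
        fun N _ => le_iSup (fun N => ‖S (fun y => (g y : ℂ)) N x‖ₑ) N)
      exact le_iSup₂_of_le (f := fun N' (_ : N' ≤ N) => ‖S (fun y => (g y : ℂ)) N' x‖ₑ) N le_rfl
        le_rfl
    rw [hsup, lintegral_iSup hFm hFmono]
    refine iSup_le fun N₀ => cancel ?_
    have e1 : ENNReal.ofReal T * ∫⁻ x in (r ⁻¹' E')ᶜ, F N₀ x ∂AddCircle.haarAddCircle
        = ∫⁻ a in Ioc (0 : ℝ) (0 + T), ((r ⁻¹' E')ᶜ).indicator (F N₀) (a : AddCircle T) := by
      rw [AddCircle.lintegral_preimage T 0 (((r ⁻¹' E')ᶜ).indicator (F N₀)),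
        AddCircle.volume_eq_smul_haarAddCircle, lintegral_smul_measure, smul_eq_mul,
        lintegral_indicator hEm'.compl]
    have e2 : ∫⁻ a in Ioc (0 : ℝ) (0 + T), ((r ⁻¹' E')ᶜ).indicator (F N₀) (a : AddCircle T)
        = ∫⁻ a in Ioc (0 : ℝ) (0 + T), (E'ᶜ).indicator (fun a : ℝ => F N₀ a) a := by
      refine setLIntegral_congr_fun measurableSet_Ioc fun a ha => ?_
      by_cases hmem : a ∈ E'
      · have h1 : (a : AddCircle T) ∉ (r ⁻¹' E')ᶜ := by
          rw [mem_compl_iff, not_not, mem_preimage, hrc a ha]; exact hmem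
        have h2 : a ∉ E'ᶜ := by simpa using hmem
        simp only [indicator_of_notMem h1, indicator_of_notMem h2]
      · have h1 : (a : AddCircle T) ∈ (r ⁻¹' E')ᶜ := by
          rw [mem_compl_iff, mem_preimage, hrc a ha]; exact hmem
        have h2 : a ∈ E'ᶜ := hmem
        simp only [indicator_of_mem h1, indicator_of_mem h2]
    rw [e1, e2, ← Measure.restrict_congr_set Ico_ae_eq_Ioc, lintegral_indicator hE'm.compl,
      Measure.restrict_restrict hE'm.compl]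
    have hsub : E'ᶜ ∩ Ico (0 : ℝ) (0 + T) ⊆
        ((Ico 0 (0 + T / 4) \ Ef 0) ∪ (Ico (T / 4) (T / 4 + T / 4) \ Ef (T / 4))) ∪
        ((Ico (T / 2) (T / 2 + T / 4) \ Ef (T / 2)) ∪
          (Ico (3 * T / 4) (3 * T / 4 + T / 4) \ Ef (3 * T / 4))) := by
      rintro a ⟨hn, ha0, ha1⟩
      simp only [hE', mem_compl_iff, mem_union, not_or] at hn
      obtain ⟨⟨n0, n1⟩, n2, n3⟩ := hn
      rcases lt_or_ge a (T / 4) with c1 | c1
      · exact Or.inl (Or.inl ⟨⟨ha0, by linarith⟩, n0⟩)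
      rcases lt_or_ge a (T / 2) with c2 | c2
      · exact Or.inl (Or.inr ⟨⟨c1, by linarith⟩, n1⟩)
      rcases lt_or_ge a (3 * T / 4) with c3 | c3
      · exact Or.inr (Or.inl ⟨⟨c2, by linarith⟩, n2⟩)
      · exact Or.inr (Or.inr ⟨⟨c3, by linarith⟩, n3⟩)
    refine (lintegral_mono_set hsub).trans ((lintegral_union_le _ _ _).trans ?_)
    refine (add_le_add ((lintegral_union_le _ _ _).trans (add_le_add (hEi _ hK1 N₀) (hEi _ hK1 N₀)))
      ((lintegral_union_le _ _ _).trans (add_le_add (hEi _ hK1 N₀) (hEi _ hK1 N₀)))).trans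
      (four (by positivity) ?_)
    have h1 : 0 ≤ T * b * (R - 1) := mul_nonneg (by positivity) (by linarith)
    nlinarith

/-- Positive and negative parts of the real and imaginary parts. -/
theorem pieceC_of_pieceR (h : PieceR T) : PieceC T := by
  obtain ⟨C, hC, h⟩ := h
  refine ⟨4 * C, by positivity, fun R b L g hR hL hb hg hbd hint => ?_⟩
  let c : Fin 4 → ℂ := ![1, -1, Complex.I, -Complex.I]
  let p : Fin 4 → AddCircle T → ℝ := fun j y => max ((starRingEnd ℂ) (c j) * g y).re 0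
  have hc : ∀ j, ‖c j‖ = 1 := fun j => by fin_cases j <;> simp [c]
  have hp0 : ∀ j y, 0 ≤ p j y := fun j y => le_max_right _ _
  have hp1 : ∀ j y, p j y ≤ ‖g y‖ := fun j y => max_le ((Complex.re_le_norm _).trans_eq (by
    rw [norm_mul, Complex.norm_conj, hc, one_mul])) (norm_nonneg _)
  have hpm : ∀ j, Measurable (p j) := fun j =>
    (Complex.measurable_re.comp (measurable_const.mul hg)).max measurable_const
  have hgi : Integrable (fun y => ‖g y‖) AddCircle.haarAddCircle :=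
    Integrable.of_bound hg.norm.aestronglyMeasurable _
      (Eventually.of_forall fun y => by simpa using hbd y)
  have hpi : ∀ j, Integrable (p j) AddCircle.haarAddCircle := fun j =>
    hgi.mono' (hpm j).aestronglyMeasurable
      (Eventually.of_forall fun y => by rw [Real.norm_of_nonneg (hp0 j y)]; exact hp1 j y)
  have hsum : g = ∑ j, c j • fun y => (p j y : ℂ) := by
    funext y
    simp only [Finset.sum_apply, Pi.smul_apply, smul_eq_mul, Fin.sum_univ_four, p, c]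
    apply Complex.ext <;> simp [max_def] <;> split_ifs <;> simp <;> linarith
  have hS : ∀ N x, S g N x = ∑ j, c j * S (fun y => (p j y : ℂ)) N x := fun N x => by
    unfold S
    simp only [Finset.mul_sum]
    rw [Finset.sum_comm]
    refine Finset.sum_congr rfl fun k _ => ?_
    conv_lhs => rw [hsum]
    rw [fourierCoeff.sum _ _ fun j _ => ((hpi j).ofReal).smul (c j)]
    simp only [Finset.sum_apply, fourierCoeff.const_smul, smul_eq_mul, Finset.sum_mul, mul_assoc]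
  choose E hEm hE1 hE2 using fun j => h R b L (p j) hR hL hb (hpm j)
    (fun y => ⟨hp0 j y, (hp1 j y).trans (hbd y)⟩)
    ((integral_mono (hpi j) hgi (hp1 j)).trans hint)
  have h4 : ∀ x : ℝ, ∑ _j : Fin 4, ENNReal.ofReal x = ENNReal.ofReal (4 * x) := fun x => by
    rw [ENNReal.ofReal_mul (by norm_num)]
    simp
  refine ⟨⋃ j, E j, MeasurableSet.iUnion hEm, ?_, ?_⟩
  · refine (measure_iUnion_fintype_le _ _).trans ((Finset.sum_le_sum fun j _ => hE1 j).trans_eq ?_)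
    rw [h4, mul_div_assoc]
  · calc ∫⁻ x in (⋃ j, E j)ᶜ, ⨆ N, ‖S g N x‖ₑ ∂AddCircle.haarAddCircle
        ≤ ∫⁻ x in (⋃ j, E j)ᶜ, ∑ j, ⨆ N, ‖S (fun y => (p j y : ℂ)) N x‖ₑ ∂AddCircle.haarAddCircle := by
          refine lintegral_mono fun x => iSup_le fun N => ?_
          rw [hS]
          refine (enorm_sum_le _ _).trans (Finset.sum_le_sum fun j _ => ?_)
          rw [enorm_mul, ← ofReal_norm (c j), hc, ENNReal.ofReal_one, one_mul]
          exact le_iSup (fun N => ‖S (fun y => (p j y : ℂ)) N x‖ₑ) N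
      _ = ∑ j, ∫⁻ x in (⋃ j, E j)ᶜ, ⨆ N, ‖S (fun y => (p j y : ℂ)) N x‖ₑ ∂AddCircle.haarAddCircle :=
          lintegral_finsetSum _ fun j _ =>
            Measurable.iSup fun N => (continuous_S _ N).measurable.enorm
      _ ≤ ∑ _j : Fin 4, ENNReal.ofReal (C * b * R) :=
          Finset.sum_le_sum fun j _ =>
            (lintegral_mono_set (compl_subset_compl.2 (subset_iUnion E j))).trans (hE2 j)
      _ = _ := by
          rw [h4]
          congr 1
          ring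

theorem lok (j : ℕ) : LOK (3 * 2 ^ j) (2 * (Nat.log 2 j + 1)) := by
  unfold LOK
  have l2 := Real.log_two_gt_d9
  have hj : (0 : ℝ) ≤ j := Nat.cast_nonneg j
  have p1 : (1 : ℝ) ≤ 2 ^ j := one_le_pow₀ one_le_two
  have h3 : j * Real.log 2 ≤ Real.log (3 * 2 ^ j) := by
    rw [← Real.log_pow]; exact Real.log_le_log (by positivity) (by linarith)
  have h4 : (2 : ℝ) ^ Nat.log 2 j ≤ j + 1 := by
    rcases Nat.eq_zero_or_pos j with h | h
    · simp [h]
    · exact_mod_cast (Nat.pow_log_le_self 2 h.ne').trans (Nat.le_succ j)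
  have h5 : (2 : ℝ) ^ Nat.log 2 j ≤ 2 * (1 + Real.log (3 * 2 ^ j)) := by nlinarith
  calc (2 : ℝ) ^ (2 * (Nat.log 2 j + 1)) = 4 * (2 ^ Nat.log 2 j) ^ 2 := by ring
    _ ≤ 4 * (2 * (1 + Real.log (3 * 2 ^ j))) ^ 2 := by gcongr
    _ = _ := by ring

/-- Pieces `f_j = low f (j + 1) - low f j`, `b_j = ‖f_j‖₁ + 4⁻ʲ`, `R_j = 3 * 2 ^ j`,
`L_j = 2 (log₂ j + 1)`; `S (f - low f J) N x = ∑' j ≥ J, S f_j N x` (convergence in `L¹`). -/
theorem tail_small (h : PieceC T)
    {f : AddCircle T → ℂ} (hf : Measurable f)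
    (hlog : ∫⁻ x, ‖f x‖ₑ * ENNReal.ofReal (Real.log (2 + ‖f x‖)) ∂AddCircle.haarAddCircle < ⊤)
    {ε : ℝ} (hε : 0 < ε) : ∀ᶠ J in atTop, AddCircle.haarAddCircle
      {x | ENNReal.ofReal ε ≤ ⨆ N, ‖S (fun y => f y - low f J y) N x‖ₑ} ≤ ENNReal.ofReal ε := by
  obtain ⟨C, C0, hC⟩ := h
  obtain ⟨K, K0, hK⟩ : ∃ K : ℝ, 0 ≤ K ∧ ∀ j : ℕ, (3 : ℝ) * 2 ^ j ≤ K * 2 ^ j :=
    ⟨3, by norm_num, fun _ => le_rfl⟩
  set μ : Measure (AddCircle T) := AddCircle.haarAddCircle with hμ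
  set a : ℕ → ℝ := fun j => ∫ y, ‖pc f j y‖ ∂μ with ha
  have a0 : ∀ j, 0 ≤ a j := fun j => integral_nonneg fun y => norm_nonneg _
  have sa : Summable fun j => 2 ^ j * a j := by
    have h1 : ∑' j, 2 ^ j * ∫⁻ y, ‖pc f j y‖ₑ ∂μ ≠ ⊤ := by
      have e : ∀ j, 2 ^ j * ∫⁻ y, ‖pc f j y‖ₑ ∂μ = ∫⁻ y, 2 ^ j * ‖pc f j y‖ₑ ∂μ := fun j =>
        (lintegral_const_mul _ (measurable_pc hf j).enorm).symm
      simp only [e]
      rw [← lintegral_tsum fun j => ((measurable_pc hf j).enorm.const_mul _).aemeasurable]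
      refine ne_top_of_le_ne_top ?_ (lintegral_mono (tsum_pc_le f))
      rw [lintegral_const_mul' _ _ (by simp)]
      exact ENNReal.mul_ne_top (by simp) hlog.ne
    refine (ENNReal.summable_toReal h1).congr fun j => ?_
    rw [ENNReal.toReal_mul, ← integral_norm_eq_lintegral_enorm
      (measurable_pc hf j).aestronglyMeasurable]
    simp [ha]
  have sa' : Summable a := Summable.of_nonneg_of_le a0
    (fun j => le_mul_of_one_le_left (a0 j) (one_le_pow₀ one_le_two)) sa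
  choose E mE hE1 hE2 using fun j : ℕ => hC (3 * 2 ^ j) (a j + (1 / 4) ^ j) (2 * (Nat.log 2 j + 1))
    (pc f j) (by linarith [(one_le_pow₀ one_le_two : (1 : ℝ) ≤ 2 ^ j)]) (lok j)
    (add_pos_of_nonneg_of_pos (a0 j) (by positivity)) (measurable_pc hf j)
    (fun y => (norm_pc_le f j y).trans ((tower_le j).trans
      (mul_le_mul_of_nonneg_left (le_add_of_nonneg_left (a0 j)) (Real.exp_pos _).le)))
    (le_add_of_nonneg_right (by positivity))
  have s1 : Summable fun j : ℕ => C * (1 / ((j : ℝ) + 1) ^ 2) := by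
    refine Summable.mul_left _ ?_
    exact_mod_cast (summable_nat_add_iff 1).2 (Real.summable_one_div_nat_pow.2 one_lt_two)
  have s2 : Summable fun j : ℕ => C * K * (2 ^ j * a j + (1 / 2) ^ j) :=
    (sa.add summable_geometric_two).mul_left _
  have b1 : ∀ j, μ (E j) ≤ ENNReal.ofReal (C * (1 / ((j : ℝ) + 1) ^ 2)) := fun j => by
    refine (hE1 j).trans (ENNReal.ofReal_le_ofReal ?_)
    rw [mul_one_div, pow_mul']
    refine div_le_div_of_nonneg_left C0 (by positivity) (pow_le_pow_left₀ (by positivity) ?_ 2)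
    exact_mod_cast Nat.lt_pow_succ_log_self one_lt_two j
  have b2 : ∀ j, ∫⁻ x in (E j)ᶜ, ⨆ N, ‖S (pc f j) N x‖ₑ ∂μ ≤
      ENNReal.ofReal (C * K * (2 ^ j * a j + (1 / 2) ^ j)) := fun j => by
    refine (hE2 j).trans (ENNReal.ofReal_le_ofReal ?_)
    refine (mul_le_mul_of_nonneg_left (hK j)
      (mul_nonneg C0 (add_nonneg (a0 j) (by positivity)))).trans_eq ?_
    have e : (1 / 2 : ℝ) ^ j = (1 / 4) ^ j * 2 ^ j := by rw [← mul_pow]; norm_num
    rw [e]; ring
  have t1 := ENNReal.tendsto_sum_nat_add _ s1.tsum_ofReal_ne_top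
  have t2 := ENNReal.tendsto_sum_nat_add _ s2.tsum_ofReal_ne_top
  have e0 : 0 < ENNReal.ofReal (ε / 2) := ENNReal.ofReal_pos.2 (by positivity)
  have e1 : 0 < ENNReal.ofReal (ε / 2 * ε) := ENNReal.ofReal_pos.2 (by positivity)
  filter_upwards [t1.eventually (ge_mem_nhds e0), t2.eventually (ge_mem_nhds e1)] with J j1 j2
  have mM : ∀ j, Measurable fun x => ⨆ N, ‖S (pc f j) N x‖ₑ := fun j =>
    Measurable.iSup fun N => (continuous_S _ N).measurable.enorm
  have mH : ∀ j, Measurable ((E j)ᶜ.indicator fun x => ⨆ N, ‖S (pc f j) N x‖ₑ) := fun j =>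
    (mM j).indicator (mE j).compl
  have sub : {x | ENNReal.ofReal ε ≤ ⨆ N, ‖S (fun y => f y - low f J y) N x‖ₑ} ⊆
      (⋃ j, E (j + J)) ∪ {x | ENNReal.ofReal ε ≤
        ∑' j, (E (j + J))ᶜ.indicator (fun x => ⨆ N, ‖S (pc f (j + J)) N x‖ₑ) x} := by
    intro x hx
    by_cases hU : x ∈ ⋃ j, E (j + J)
    · exact Or.inl hU
    · right
      rw [mem_ofPred_eq] at hx ⊢
      refine le_trans hx (iSup_le fun N => ?_)
      simp only [sub_low_eq]
      refine (enorm_S_tsum_le (fun j => integrable_pc hf _)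
        ((summable_nat_add_iff J).2 sa') N x).trans (ENNReal.tsum_le_tsum fun j => ?_)
      rw [indicator_of_mem (show x ∈ (E (j + J))ᶜ from fun h => hU (mem_iUnion.2 ⟨j, h⟩))]
      exact le_iSup (fun N => ‖S (pc f (j + J)) N x‖ₑ) N
  have c1 : μ (⋃ j, E (j + J)) ≤ ENNReal.ofReal (ε / 2) :=
    (measure_iUnion_le _).trans ((ENNReal.tsum_le_tsum fun j => b1 _).trans j1)
  have c2 : μ {x | ENNReal.ofReal ε ≤
      ∑' j, (E (j + J))ᶜ.indicator (fun x => ⨆ N, ‖S (pc f (j + J)) N x‖ₑ) x} ≤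
      ENNReal.ofReal (ε / 2) := by
    refine (meas_ge_le_lintegral_div (Measurable.tsum fun j => mH _).aemeasurable
      (ENNReal.ofReal_pos.2 hε).ne' ENNReal.ofReal_ne_top).trans ?_
    refine ENNReal.div_le_of_le_mul ?_
    rw [lintegral_tsum fun j => (mH _).aemeasurable, ← ENNReal.ofReal_mul (by positivity)]
    refine le_trans (ENNReal.tsum_le_tsum fun j => ?_) j2
    rw [lintegral_indicator (mE _).compl]
    exact b2 _
  refine (measure_mono sub).trans ((measure_union_le _ _).trans ((add_le_add c1 c2).trans_eq ?_))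
  rw [← ENNReal.ofReal_add (by positivity) (by positivity), add_halves]

/-- The reduction to bounded measurable functions. -/
theorem ae_of_bdd (h : PieceC T)
    (hb : ∀ (g : AddCircle T → ℂ) (C : ℝ), Measurable g → (∀ x, ‖g x‖ ≤ C) →
      ∀ᵐ x ∂AddCircle.haarAddCircle, Tendsto (fun N => S g N x) atTop (𝓝 (g x)))
    (f : AddCircle T → ℂ) (hf : AEStronglyMeasurable f AddCircle.haarAddCircle)
    (hlog : ∫⁻ x, ‖f x‖ₑ * ENNReal.ofReal (Real.log (2 + ‖f x‖)) ∂AddCircle.haarAddCircle < ⊤) :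
    ∀ᵐ x ∂AddCircle.haarAddCircle, Tendsto (fun N => S f N x) atTop (𝓝 (f x)) := by
  have hm : Measurable (hf.mk f) := hf.stronglyMeasurable_mk.measurable
  have he : f =ᵐ[AddCircle.haarAddCircle] hf.mk f := hf.ae_eq_mk
  have hlog' : ∫⁻ x, ‖hf.mk f x‖ₑ * ENNReal.ofReal (Real.log (2 + ‖hf.mk f x‖))
      ∂AddCircle.haarAddCircle < ⊤ := by
    refine lt_of_eq_of_lt (lintegral_congr_ae ?_) hlog
    filter_upwards [he] with x hx
    rw [hx]
  have hS : S f = S (hf.mk f) := SN_congr he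
  have := OutAe.ae_of_low hm (OutAe.integrable_of_log hm.aestronglyMeasurable hlog')
    (fun J => hb _ _ (OutAe.measurable_low hm J) (OutAe.norm_low_le _ J))
    (fun ε hε => tail_small h hm hlog' hε)
  filter_upwards [this, he] with x hx hx'
  rw [hS, hx']
  exact hx

end Ml

variable {T : ℝ} [hT : Fact (0 < T)]

/-- **The multi-level outer reduction**, weak form. -/
theorem result_of_MLw (h : MLw) (f : AddCircle T → ℂ)
    (hf : AEStronglyMeasurable f AddCircle.haarAddCircle)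
    (hlog : ∫⁻ x, ‖f x‖ₑ * ENNReal.ofReal (Real.log (2 + ‖f x‖)) ∂AddCircle.haarAddCircle < ⊤) :
    ∀ᵐ x ∂AddCircle.haarAddCircle, Tendsto
      (fun N : ℕ => ∑ k ∈ Finset.Icc (-(N : ℤ)) N, fourierCoeff f k • fourier k x)
      atTop (nhds (f x)) :=
  Ml.ae_of_bdd (Ml.pieceC_of_pieceR (Ml.pieceR_of_line (Ml.line_of_ML h)))
    (fun _ _ hg hC => ae_bdd hg.aestronglyMeasurable (Eventually.of_forall hC)) f hf hlog

/-- **The multi-level outer reduction.** -/
theorem result_of_ML (h : ML) (f : AddCircle T → ℂ)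
    (hf : AEStronglyMeasurable f AddCircle.haarAddCircle)
    (hlog : ∫⁻ x, ‖f x‖ₑ * ENNReal.ofReal (Real.log (2 + ‖f x‖)) ∂AddCircle.haarAddCircle < ⊤) :
    ∀ᵐ x ∂AddCircle.haarAddCircle, Tendsto
      (fun N : ℕ => ∑ k ∈ Finset.Icc (-(N : ℤ)) N, fourierCoeff f k • fourier k x)
      atTop (nhds (f x)) :=
  result_of_MLw h.weak f hf hlog

end Crest.Agent.R100
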