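import Crest.Agent.R100.Crude
import Crest.Agent.R100.Ml

/-!
# Row 100 (helper84): normal forms of the multi-level inequality
-/

set_option autoImplicit false

open MeasureTheory Set

noncomputable section

namespace Crest.Agent.R100.Low

open Crest.Agent.R100

open Classical in
/-- the indicator of the nodes unstopped at level `B` -/
def eB (f : ℝ → ℂ) (B α ℓ : ℝ) (v : List Bool) : ℂ := if AliveB f B α ℓ v then 1 else 0

theorem eB_norm (f : ℝ → ℂ) (B α ℓ : ℝ) (v : List Bool) : ‖eB f B α ℓ v‖ ≤ 1 := by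
  unfold eB; split_ifs <;> simp

theorem eB_alive (f : ℝ → ℂ) (B α ℓ : ℝ) (v : List Bool) (h : eB f B α ℓ v ≠ 0) :
    AliveB f B α ℓ v := by
  unfold eB at h; by_contra h'; simp [h'] at h

/-- `ML` in tree form with `b = 1` -/
def MLt : Prop :=
  ∃ C R₀ : ℝ, ∀ (R B : ℝ) (g : ℝ → ℝ) (n : ℕ) (α ℓ : ℝ) (ξ : List Bool → ℝ), 1 ≤ R → R₀ ≤ R →
    1 ≤ B → B ≤ 16 * (1 + Real.log R) ^ 2 → Measurable g →
    (∀ y, 0 ≤ g y ∧ g y ≤ Real.exp R) → 0 < ℓ → ca (fun y => (g y : ℂ)) α ℓ ≤ 1 →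
      avg n (fun l => ‖win (eB (fun y => (g y : ℂ)) B α ℓ) (U (fun y => (g y : ℂ)) α ℓ (ξ l)) l 0
        (n - 1)‖) ≤ C * R

theorem ca_ofReal {g : ℝ → ℝ} (h0 : ∀ y, 0 ≤ g y) (α ℓ : ℝ) :
    ca (fun y => (g y : ℂ)) α ℓ = av g α ℓ := by
  unfold ca av
  have e : ∀ y, ‖((g y : ℝ) : ℂ)‖ = g y := fun y => by
    rw [Complex.norm_real, Real.norm_eq_abs, abs_of_nonneg (h0 y)]
  simp only [e]

theorem ML_of_MLt (h : MLt) : ML := by
  obtain ⟨C, R₀, h⟩ := h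
  refine ⟨C, R₀, fun R b B g n α ℓ ξ hR hR₀ hb hbB hB hg h0 hℓ hav => ?_⟩
  have hB0 : 0 < B := hb.trans_le hbB
  have hBb : 0 < B / b := div_pos hB0 hb
  have h0' : ∀ y, 0 ≤ g y / b ∧ g y / b ≤ Real.exp R := fun y =>
    ⟨div_nonneg (h0 y).1 hb.le, by rw [div_le_iff₀ hb]; exact (h0 y).2⟩
  have hca : ca (fun y => ((g y / b : ℝ) : ℂ)) α ℓ ≤ 1 := by
    have := lowTs_ca (fun y => (h0 y).1) hb α ℓ
    unfold nrm at this
    rw [this, div_le_one hb]; exact hav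
  have h1 := h R (B / b) (fun y => g y / b) n α ℓ ξ hR hR₀ (by rw [le_div_iff₀ hb]; linarith)
    (by rw [div_le_iff₀ hb]; exact hB) (hg.div_const b) h0' hℓ hca
  rw [mul_comm (C * R) b]
  refine le_trans (le_of_eq ?_) (mul_le_mul_of_nonneg_left h1 hb.le)
  rw [← avg_mul_left]
  refine avg_congr_len n fun l hl => ?_
  have e1 : nrm g B = fun y => ((g y / b : ℝ) : ℂ) / ((B / b : ℝ) : ℂ) := by
    funext y
    unfold nrm
    rw [← Complex.ofReal_div]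
    congr 1
    field_simp
  have e2 : eA (nrm g B) α ℓ = eB (fun y => ((g y / b : ℝ) : ℂ)) (B / b) α ℓ := by
    funext v
    unfold eA eB
    rw [e1, crude_alive_div _ hBb]
  have e3 : U (nrm g B) α ℓ (ξ l) =
      fun v => U (fun y => ((g y / b : ℝ) : ℂ)) α ℓ (ξ l) v / ((B / b : ℝ) : ℂ) := by
    funext v
    rw [e1, crude_U_div]
  rw [Ts_eq hg h0 hB0 (ξ l) α hℓ l, e2, e3, crude_win_div, hl, norm_mul, norm_div,
    Complex.norm_real, Complex.norm_real, Real.norm_of_nonneg hB0.le, Real.norm_of_nonneg hBb.le]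
  field_simp

end Crest.Agent.R100.Low
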