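import Crest.Agent.R100.GenSplit
import Crest.Agent.R100.MlNorm
import Crest.Agent.R100.Crude66

/-!
# Row 100 (helper66): the crude bound in the form `Split.Cost`
-/

set_option autoImplicit false

open MeasureTheory Set

noncomputable section

namespace Crest.Agent.R100.Split

open Crest.Agent.R100 Crest.Agent.R100.Low Crest.Agent.R100.Run

/-- the crude bound -/
theorem cost_crude66 {f : ℝ → ℝ} {R B : ℝ} (hf : Bd (Real.exp R) f) (hR : 1 ≤ R) (hB : 1 ≤ B)
    (α : ℝ) {ℓ : ℝ} (hℓ : 0 < ℓ) : Cost f α ℓ B (60000 * R * B) := by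
  intro n e he ξ
  refine crude0 hf.cx_meas hR (by linarith) (fun y => ?_) α hℓ e he.le (fun v hv k hk => ?_) n ξ
    (fun _ => 0) (fun _ => n - 1) (fun _ _ => le_rfl)
  · have := hf.cx_le y
    nlinarith [Real.exp_pos R]
  · have := he.alive v hv k hk
    unfold avn at this
    rw [← ca_ofReal hf.nn] at this
    exact this

/-- a function vanishing on the top interval costs nothing -/
theorem cost_vanish66 {f : ℝ → ℝ} {α ℓ : ℝ} (B : ℝ) (hℓ : 0 < ℓ)
    (h : ∀ y, α ≤ y → y ≤ α + ℓ → f y = 0) : Cost f α ℓ B 0 := by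
  intro n e _ ξ
  have hU : ∀ ζ, U (cx f) α ℓ ζ = fun _ => 0 := by
    intro ζ
    funext v
    have hs := Str.c66_nd_sub v α ℓ hℓ
    have hl := lowFamA_ln_pos hℓ v
    simp only [U, cu]
    rw [intervalIntegral.integral_congr (g := fun _ => (0 : ℂ))]
    · simp
    · intro y hy
      rw [uIcc_of_le (by linarith)] at hy
      simp [cx, h y (by linarith [hy.1]) (by linarith [hy.2])]
  have : (fun l => ‖Low.win e (U (cx f) α ℓ (ξ l)) l 0 (n - 1)‖) = fun _ => (0 : ℝ) := by
    funext l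
    simp [hU, Low.win, Low.tm]
  rw [this, avg_const]

open Classical in
/-- **death cost** -/
theorem cost_death66 {f : ℝ → ℝ} {R B : ℝ} (hf : Bd (Real.exp R) f) (hR : 1 ≤ R) (hB : 1 ≤ B)
    (α : ℝ) {ℓ : ℝ} (hℓ : 0 < ℓ) (p : Prop) (hp : ∀ y, α ≤ y → y ≤ α + ℓ → f y ≠ 0 → p) :
    Cost f α ℓ B (60000 * R * B * (if p then 1 else 0)) := by
  by_cases h : p
  · simpa [h] using cost_crude66 hf hR hB α hℓ
  · simp only [h, if_false, mul_zero]
    exact cost_vanish66 B hℓ fun y h1 h2 => by_contra fun h3 => h (hp y h1 h2 h3)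

end Crest.Agent.R100.Split
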