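import Crest.Agent.R100.Pot46

/-!
# Row 100, DEATH DEPTH (helper12; design helper83): the light part of a mask
`lam` is a law on `ι`, `x i` the frequency, `w k` the bin width at depth `k`.
-/

set_option autoImplicit false

noncomputable section

namespace Crest.Agent.R100.Death

open Crest.Agent.R100 Crest.Agent.R100.Low Finset

variable {ι : Type*} [Fintype ι]

/-- the mass of the bin of width `w` containing `x i` -/
def binm (lam x : ι → ℝ) (w : ℝ) (i : ι) : ℝ :=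
  ∑ i', if ⌊x i' / w⌋ = ⌊x i / w⌋ then lam i' else 0

open Classical in
/-- the mass of the bins of mass `> θ` -/
def heavy (lam x : ι → ℝ) (w θ : ℝ) : ℝ := ∑ i, if θ < binm lam x w i then lam i else 0

open Classical in
/-- the mass of an interval -/
def im (lam x : ι → ℝ) (a r : ℝ) : ℝ := ∑ i, if a ≤ x i ∧ x i ≤ a + r then lam i else 0

theorem im_mono {lam x : ι → ℝ} (h0 : ∀ i, 0 ≤ lam i) (a : ℝ) {r r' : ℝ} (h : r ≤ r') :
    im lam x a r ≤ im lam x a r' := by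
  unfold im
  refine sum_le_sum fun i _ => ?_
  split_ifs with h1 h2
  · exact le_rfl
  · exact absurd ⟨h1.1, by linarith [h1.2]⟩ h2
  · exact h0 i
  · exact le_rfl

/-- an interval of length `D w` meets at most `D + 2` bins of width `w` -/
theorem im_le {lam x : ι → ℝ} (h0 : ∀ i, 0 ≤ lam i) {w θ D : ℝ} (hw : 0 < w) (hθ : 0 ≤ θ)
    (hD : 0 ≤ D) (hb : ∀ b : ℤ, ∑ i, (if ⌊x i / w⌋ = b then lam i else 0) ≤ θ) (a : ℝ) :
    im lam x a (D * w) ≤ (D + 2) * θ := by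
  have h1 : im lam x a (D * w) ≤
      ∑ b ∈ Icc ⌊a / w⌋ ⌊a / w + D⌋, ∑ i, (if ⌊x i / w⌋ = b then lam i else 0) := by
    rw [sum_comm]
    unfold im
    refine sum_le_sum fun i _ => ?_
    rw [sum_ite_eq]
    split_ifs with h1 h2
    · exact le_rfl
    · refine absurd (mem_Icc.2 ⟨Int.floor_mono ?_, Int.floor_mono ?_⟩) h2
      · exact div_le_div_of_nonneg_right h1.1 hw.le
      · rw [div_add' _ _ _ hw.ne']; exact div_le_div_of_nonneg_right h1.2 hw.le
    · exact h0 i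
    · exact le_rfl
  refine h1.trans ((sum_le_sum fun b _ => hb b).trans ?_)
  rw [sum_const, nsmul_eq_mul]
  refine mul_le_mul_of_nonneg_right ?_ hθ
  have h2 : ⌊a / w⌋ ≤ ⌊a / w + D⌋ + 1 := by
    have := Int.floor_mono (show a / w ≤ a / w + D by linarith)
    omega
  have h3 : ((Icc ⌊a / w⌋ ⌊a / w + D⌋).card : ℤ) = ⌊a / w + D⌋ + 1 - ⌊a / w⌋ :=
    Int.card_Icc_of_le _ _ h2
  have h4 : ((Icc ⌊a / w⌋ ⌊a / w + D⌋).card : ℝ) = (⌊a / w + D⌋ : ℝ) + 1 - (⌊a / w⌋ : ℝ) := by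
    exact_mod_cast h3
  have h5 := Int.floor_le (a / w + D)
  have h6 := Int.lt_floor_add_one (a / w)
  linarith

/-- the light part at one resolution -/
theorem light {lam x : ι → ℝ} (h0 : ∀ i, 0 ≤ lam i) (h1 : ∑ i, lam i = 1) {w θ ε : ℝ}
    (hθ : 0 ≤ θ) (hε : ε ≤ 1 / 2) (hh : heavy lam x w θ ≤ ε) :
    ∃ lam0 : ι → ℝ, (∀ i, 0 ≤ lam0 i) ∧ ∑ i, lam0 i = 1 ∧ (∀ i, (1 - ε) * lam0 i ≤ lam i) ∧
      ∀ b : ℤ, ∑ i, (if ⌊x i / w⌋ = b then lam0 i else 0) ≤ 2 * θ := by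
  classical
  set m : ℝ := ∑ i, if θ < binm lam x w i then 0 else lam i with hm
  have hsum : m + heavy lam x w θ = 1 := by
    rw [hm, heavy, ← sum_add_distrib, ← h1]
    refine sum_congr rfl fun i _ => ?_
    split_ifs <;> simp
  have hm1 : 1 - ε ≤ m := by linarith
  have hm0 : 0 < m := by linarith
  refine ⟨fun i => (if θ < binm lam x w i then 0 else lam i) / m, fun i => ?_, ?_, fun i => ?_,
    fun b => ?_⟩
  · have := h0 i
    beta_reduce
    split_ifs <;> positivity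
  · rw [← sum_div, ← hm, div_self hm0.ne']
  · have := h0 i
    rw [← mul_div_assoc, div_le_iff₀ hm0]
    split_ifs <;> nlinarith
  · have h2 : ∑ i, (if ⌊x i / w⌋ = b then (if θ < binm lam x w i then 0 else lam i) else 0) ≤ θ := by
      by_cases hb : ∃ i, ⌊x i / w⌋ = b ∧ ¬ θ < binm lam x w i
      · obtain ⟨i, hi, hi'⟩ := hb
        refine le_trans ?_ (not_lt.1 hi')
        unfold binm
        refine sum_le_sum fun j _ => ?_
        rw [hi]
        have := h0 j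
        split_ifs <;> linarith
      · refine le_trans (le_of_eq (sum_eq_zero fun i _ => ?_)) hθ
        split_ifs with h3 h4
        · rfl
        · exact absurd ⟨i, h3, h4⟩ hb
        · rfl
    have h3 : ∑ i, (if ⌊x i / w⌋ = b then (if θ < binm lam x w i then 0 else lam i) / m else 0) =
        (∑ i, (if ⌊x i / w⌋ = b then (if θ < binm lam x w i then 0 else lam i) else 0)) / m := by
      rw [sum_div]
      refine sum_congr rfl fun i _ => ?_
      split_ifs <;> simp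
    rw [h3, div_le_iff₀ hm0]
    nlinarith

/-- **death depth** -/
theorem death {lam x : ι → ℝ} (h0 : ∀ i, 0 ≤ lam i) (h1 : ∑ i, lam i = 1) {w : ℕ → ℝ}
    (hw : ∀ k, 0 < w k) (hmono : Monotone w) {θ ε : ℝ} (hθ : 0 ≤ θ) (hε0 : 0 ≤ ε)
    (hε : ε ≤ 1 / 2) (n : ℕ) :
    ∃ d, d ≤ n + 1 ∧ ∃ lam0 : ι → ℝ, (∀ i, 0 ≤ lam0 i) ∧ ∑ i, lam0 i = 1 ∧
      (∀ i, (1 - ε) * lam0 i ≤ lam i) ∧
      (∀ k, k < d → ∀ a D : ℝ, 0 ≤ D → im lam0 x a (D * w k) ≤ (D + 2) * (2 * θ)) ∧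
      (d ≤ n → ε < heavy lam x (w d) θ) := by
  classical
  have hex : ∃ k, k = n + 1 ∨ ε < heavy lam x (w k) θ := ⟨n + 1, Or.inl rfl⟩
  have hd : Nat.find hex ≤ n + 1 := Nat.find_min' hex (Or.inl rfl)
  have hs := Nat.find_spec hex
  have hmin : ∀ k, k < Nat.find hex → heavy lam x (w k) θ ≤ ε := fun k hk =>
    not_lt.1 fun h => Nat.find_min hex hk (Or.inr h)
  generalize Nat.find hex = d at hd hs hmin
  have hlast : d ≤ n → ε < heavy lam x (w d) θ := fun h => hs.resolve_left (by omega)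
  refine ⟨d, hd, ?_⟩
  rcases d with _ | d
  · refine ⟨lam, h0, h1, fun i => ?_, fun k hk => absurd hk (Nat.not_lt_zero k), hlast⟩
    nlinarith [h0 i]
  · obtain ⟨lam0, g0, g1, g2, g3⟩ := light h0 h1 hθ hε (hmin d (Nat.lt_succ_self d))
    refine ⟨lam0, g0, g1, g2, fun k hk a D hD => ?_, hlast⟩
    exact (im_mono g0 a (mul_le_mul_of_nonneg_left (hmono (Nat.lt_succ_iff.1 hk)) hD)).trans
      (im_le g0 (hw d) (by positivity) hD g3 a)

/-- purity passes to a dominated law -/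
theorem pure_dom {lam lam0 : ι → ℝ} (h1 : ∑ i, lam i = 1)
    (g1 : ∑ i, lam0 i = 1) {c η : ℝ} (hc : 0 < c) (hd : ∀ i, c * lam0 i ≤ lam i) (u : ι → ℂ)
    (hu : ∀ i, ‖u i‖ ≤ 1) (hp : 1 - η ≤ ‖∑ i, (lam i : ℂ) * u i‖) :
    1 - η / c ≤ ‖∑ i, (lam0 i : ℂ) * u i‖ := by
  obtain ⟨ω, hω, hs⟩ : ∃ ω : ℂ, ‖ω‖ = 1 ∧
      (ω * ∑ i, (lam i : ℂ) * u i).re = ‖∑ i, (lam i : ℂ) * u i‖ := by
    generalize ∑ i, (lam i : ℂ) * u i = s
    by_cases hs : s = 0
    · exact ⟨1, by simp, by simp [hs]⟩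
    · have hn : (‖s‖ : ℂ) ≠ 0 := by simpa using hs
      refine ⟨(‖s‖ : ℂ) / s, by simp [hs], ?_⟩
      rw [div_mul_cancel₀ _ hs]; simp
  have hre : ∀ μ : ι → ℝ, (ω * ∑ i, (μ i : ℂ) * u i).re = ∑ i, μ i * (ω * u i).re := fun μ => by
    rw [mul_sum, Complex.re_sum]
    refine sum_congr rfl fun i _ => ?_
    rw [mul_left_comm, Complex.re_ofReal_mul]
  have hle : ∀ i, (ω * u i).re ≤ 1 := fun i =>
    (Complex.re_le_norm _).trans (by rw [norm_mul, hω, one_mul]; exact hu i)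
  have h2 : c * ∑ i, lam0 i * (1 - (ω * u i).re) ≤ ∑ i, lam i * (1 - (ω * u i).re) := by
    rw [mul_sum]
    refine sum_le_sum fun i _ => ?_
    rw [← mul_assoc]
    exact mul_le_mul_of_nonneg_right (hd i) (by linarith [hle i])
  simp only [mul_sub, mul_one, sum_sub_distrib, h1, g1] at h2
  rw [← hre, ← hre, hs] at h2
  have h3 : (ω * ∑ i, (lam0 i : ℂ) * u i).re ≤ ‖∑ i, (lam0 i : ℂ) * u i‖ :=
    (Complex.re_le_norm _).trans (by rw [norm_mul, hω, one_mul])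
  have h4 : 1 - ‖∑ i, (lam0 i : ℂ) * u i‖ ≤ η / c := by
    rw [le_div_iff₀ hc]; nlinarith
  linarith

/-- the symmetrised law on `ι × ι`, frequency `x i - x j`, has the same interval bound -/
theorem im_symm {lam x : ι → ℝ} (h0 : ∀ i, 0 ≤ lam i) (h1 : ∑ i, lam i = 1) {r μ : ℝ}
    (h : ∀ a, im lam x a r ≤ μ) (a : ℝ) :
    im (fun p : ι × ι => lam p.1 * lam p.2) (fun p => x p.1 - x p.2) a r ≤ μ := by
  have e : im (fun p : ι × ι => lam p.1 * lam p.2) (fun p => x p.1 - x p.2) a r =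
      ∑ j, lam j * im lam x (a + x j) r := by
    unfold im
    rw [Fintype.sum_prod_type_right]
    refine sum_congr rfl fun j _ => ?_
    rw [mul_sum]
    refine sum_congr rfl fun i _ => ?_
    have : (a ≤ x i - x j ∧ x i - x j ≤ a + r) ↔ (a + x j ≤ x i ∧ x i ≤ a + x j + r) :=
      ⟨fun h => ⟨by linarith [h.1], by linarith [h.2]⟩,
        fun h => ⟨by linarith [h.1], by linarith [h.2]⟩⟩
    simp only [this]
    split_ifs <;> ring
  rw [e]
  calc _ ≤ ∑ j, lam j * μ := sum_le_sum fun j _ => mul_le_mul_of_nonneg_left (h _) (h0 j)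
    _ = μ := by rw [← sum_mul, h1, one_mul]

/-- the transform of the symmetrised law is the squared modulus -/
theorem hat_symm (lam x : ι → ℝ) (t : ℝ) :
    ∑ p : ι × ι, ((lam p.1 * lam p.2 : ℝ) : ℂ) * ex (x p.1 - x p.2) t =
      ((‖∑ i, (lam i : ℂ) * ex (x i) t‖ ^ 2 : ℝ) : ℂ) := by
  rw [← Complex.normSq_eq_norm_sq, ← Complex.mul_conj, map_sum, sum_mul_sum,
    Fintype.sum_prod_type]
  refine sum_congr rfl fun i _ => sum_congr rfl fun j _ => ?_
  have : ex (x i - x j) t = ex (x i) t * (starRingEnd ℂ) (ex (x j) t) := by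
    unfold ex
    rw [← Complex.exp_conj, ← Complex.exp_add]
    congr 1
    simp only [map_mul, map_neg, Complex.conj_ofReal, Complex.conj_I]
    push_cast; ring
  rw [this, map_mul, Complex.conj_ofReal]
  push_cast; ring

/-- a heavy bin inside the small set of Lemma P bounds the fraction `σ` -/
theorem frac_le {lam x : ι → ℝ} (h0 : ∀ i, 0 ≤ lam i) {w θ ε σ C : ℝ} (hθ : 0 < θ) (hσ : 0 ≤ σ)
    (hh : ε < heavy lam x w θ)
    (hP : ∑ i, (if C < σ * binm lam x w i then lam i else 0) ≤ ε) : σ ≤ C / θ := by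
  by_contra hc
  rw [not_le, div_lt_iff₀ hθ] at hc
  refine absurd (le_trans ?_ hP) (not_le.2 hh)
  unfold heavy
  refine sum_le_sum fun i _ => ?_
  have := h0 i
  split_ifs with h1 h2
  · exact le_rfl
  · exact absurd (lt_of_lt_of_le hc (mul_le_mul_of_nonneg_left h1.le hσ)) h2
  · exact this
  · exact le_rfl

open Classical in
/-- union bound over the cells -/
theorem frac_union {Y : Type*} (S : Finset Y) (meet : Y → List Bool → Prop) (k : ℕ) {σ : ℝ}
    (h : ∀ y ∈ S, avg k (fun v => if meet y v then 1 else 0) ≤ σ) :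
    avg k (fun v => if ∃ y ∈ S, meet y v then 1 else 0) ≤ S.card * σ := by
  have h1 : avg k (fun v => if ∃ y ∈ S, meet y v then (1 : ℝ) else 0) ≤
      avg k (fun v => ∑ y ∈ S, if meet y v then (1 : ℝ) else 0) := by
    refine avg_mono_len k fun v _ => ?_
    have hn : ∀ y ∈ S, (0 : ℝ) ≤ if meet y v then 1 else 0 := fun y _ => by
      split_ifs <;> norm_num
    split_ifs with he
    · obtain ⟨y, hy, hm⟩ := he
      have := single_le_sum hn hy
      rwa [if_pos hm] at this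
    · exact sum_nonneg hn
  rw [avg_sum k S (fun y v => if meet y v then (1 : ℝ) else 0)] at h1
  refine h1.trans ((sum_le_sum h).trans ?_)
  rw [sum_const, nsmul_eq_mul]

open Classical in
/-- **DEATH DEPTH** with Lemma P: frequencies `h * z i`, atoms of mass at most `M`, bins of width
`κ 2 ^ k / ℓ`. Before depth `d` the light law `lam0` gives mass `≤ (D + 2) 2 M E` to every interval
of length `D κ 2 ^ k / ℓ`; at depth `d ≤ n` the nodes meeting a pure cell have fraction `≤ C / E`. -/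
theorem death_depth {lam : ι → ℝ} (h0 : ∀ i, 0 ≤ lam i) (h1 : ∑ i, lam i = 1) (z : ι → ℤ)
    {h M : ℝ} (hh : 0 < h) (hM : 0 < M) (hm : ∀ j : ℤ, ∑ i with z i = j, lam i ≤ M) (α : ℝ)
    {ℓ E η κ : ℝ} (hℓ : 0 < ℓ) (hE : 0 < E) (hκ : 0 < κ) (hη : 0 ≤ η) (h4 : η + κ ≤ 1 / 4)
    (n : ℕ) :
    ∃ d, d ≤ n + 1 ∧ ∃ lam0 : ι → ℝ, (∀ i, 0 ≤ lam0 i) ∧ ∑ i, lam0 i = 1 ∧
      (∀ i, (1 - 2 * (η + κ)) * lam0 i ≤ lam i) ∧
      (∀ k, k < d → ∀ a D : ℝ, 0 ≤ D →
        im lam0 (fun i => h * z i) a (D * (κ * 2 ^ k / ℓ)) ≤ (D + 2) * (2 * (M * E))) ∧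
      (d ≤ n → ∀ (t0 : ℝ) (S : List Bool → Prop),
        (∀ v : List Bool, v.length = d → S v → ∃ s ∈ Set.Icc (nd α ℓ v) (nd α ℓ v + ln ℓ v),
          1 - η ≤ ‖∑ i, (lam i : ℂ) * ex (h * z i) (s - t0)‖) →
        avg d (fun v => if S v then 1 else 0) ≤ 4 * (1 + 2 * Real.pi / (h * ℓ)) / E) := by
  obtain ⟨d, hd, lam0, g0, g1, g2, g3, g4⟩ := death (x := fun i => h * z i) h0 h1
    (w := fun k => κ * 2 ^ k / ℓ) (fun k => by positivity)
    (fun a b hab => div_le_div_of_nonneg_right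
      (mul_le_mul_of_nonneg_left (pow_le_pow_right₀ (by norm_num) hab) hκ.le) hℓ.le)
    (θ := M * E) (ε := 2 * (η + κ)) (by positivity) (by positivity) (by linarith) n
  refine ⟨d, hd, lam0, g0, g1, g2, g3, fun hdn t0 S hS => ?_⟩
  have hw : 0 < κ * 2 ^ d / ℓ := by positivity
  have hP := P46.lemmaP lam h0 h1 z hh hm (fun i => ⌊h * z i / (κ * 2 ^ d / ℓ)⌋)
    (w := κ * 2 ^ d / ℓ) (fun i i' e => by
      have h2 := Int.abs_sub_lt_one_of_floor_eq_floor e
      rw [← sub_div, abs_div, abs_of_pos hw, div_lt_one hw] at h2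
      exact h2.le) α hℓ d t0 (η := η) (κ := κ) (by positivity)
    (le_of_eq (by field_simp)) S hS
  have h5 := frac_le h0 (σ := avg d (fun v => if S v then 1 else 0))
    (C := 4 * (1 + 2 * Real.pi / (h * ℓ)) * M) (mul_pos hM hE)
    (avg_nonneg_len d fun l _ => by split_ifs <;> norm_num) (g4 hdn) (by
      simp only [sum_filter] at hP
      simp only [binm]
      convert hP)
  refine h5.trans (le_of_eq ?_)
  field_simp

theorem im_le_one {lam x : ι → ℝ} (h0 : ∀ i, 0 ≤ lam i) (h1 : ∑ i, lam i = 1) (a r : ℝ) :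
    im lam x a r ≤ 1 := by
  rw [← h1]
  unfold im
  refine sum_le_sum fun i _ => ?_
  split_ifs
  · exact le_rfl
  · exact h0 i

/-- **death depth, no bound on the depth**: `inf` = the family never dies by depth -/
theorem death_inf {lam x : ι → ℝ} (h0 : ∀ i, 0 ≤ lam i) (h1 : ∑ i, lam i = 1) {w : ℕ → ℝ}
    (hw : ∀ k, 0 < w k) (hmono : Monotone w) (hbig : ∀ r, ∃ k, r < w k) {θ ε : ℝ} (hθ : 0 ≤ θ)
    (hε0 : 0 ≤ ε) (hε : ε ≤ 1 / 2) :
    ∃ (d : ℕ) (inf : Prop) (lam0 : ι → ℝ), (∀ i, 0 ≤ lam0 i) ∧ ∑ i, lam0 i = 1 ∧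
      (∀ i, (1 - ε) * lam0 i ≤ lam i) ∧
      (∀ k, inf ∨ k < d → ∀ a D : ℝ, 0 ≤ D → im lam0 x a (D * w k) ≤ (D + 2) * (2 * θ)) ∧
      (¬ inf → ε < heavy lam x (w d) θ) := by
  by_cases hex : ∃ k, ε < heavy lam x (w k) θ
  · obtain ⟨n, hn⟩ := hex
    obtain ⟨d, hd, lam0, g0, g1, g2, g3, g4⟩ := death (x := x) h0 h1 hw hmono hθ hε0 hε n
    by_cases hdn : d ≤ n
    · exact ⟨d, False, lam0, g0, g1, g2, fun k hk => g3 k (hk.resolve_left id), fun _ => g4 hdn⟩
    · exact ⟨n, False, lam0, g0, g1, g2,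
        fun k hk => g3 k (by have := hk.resolve_left id; omega), fun _ => hn⟩
  · obtain ⟨k, hk⟩ := hbig (∑ i, |x i|)
    obtain ⟨lam0, g0, g1, g2, g3⟩ := light h0 h1 hθ hε (not_lt.1 fun h => hex ⟨k, h⟩)
    have h4 : 1 ≤ 4 * θ := by
      have e : ∑ i, lam0 i = ∑ i, (if ⌊x i / w k⌋ = 0 then lam0 i else 0) +
          ∑ i, (if ⌊x i / w k⌋ = -1 then lam0 i else 0) := by
        rw [← sum_add_distrib]
        refine sum_congr rfl fun i _ => ?_
        have hi : |x i| < w k :=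
          lt_of_le_of_lt (single_le_sum (f := fun i => |x i|) (fun i _ => abs_nonneg _)
            (mem_univ i)) hk
        have h5 : ⌊x i / w k⌋ < 1 := by
          rw [Int.floor_lt, div_lt_iff₀ (hw k)]
          have := (abs_lt.1 hi).2
          push_cast; linarith
        have h6 : -1 ≤ ⌊x i / w k⌋ := by
          rw [Int.le_floor, le_div_iff₀ (hw k)]
          have := (abs_lt.1 hi).1
          push_cast; linarith
        have h7 : ⌊x i / w k⌋ = 0 ∨ ⌊x i / w k⌋ = -1 := by omega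
        rcases h7 with h7 | h7 <;> simp [h7]
      linarith [g3 0, g3 (-1)]
    refine ⟨0, True, lam0, g0, g1, g2, fun j _ a D hD => ?_, fun h => absurd trivial h⟩
    have := im_le_one (x := x) g0 g1 a (D * w j)
    nlinarith

open Classical in
/-- **DEATH DEPTH** with Lemma P, independent of the depth of the tree -/
theorem death_depth_inf {lam : ι → ℝ} (h0 : ∀ i, 0 ≤ lam i) (h1 : ∑ i, lam i = 1) (z : ι → ℤ)
    {h M : ℝ} (hh : 0 < h) (hM : 0 < M) (hm : ∀ j : ℤ, ∑ i with z i = j, lam i ≤ M) (α : ℝ)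
    {ℓ E η κ : ℝ} (hℓ : 0 < ℓ) (hE : 0 < E) (hκ : 0 < κ) (hη : 0 ≤ η) (h4 : η + κ ≤ 1 / 4) :
    ∃ (d : ℕ) (inf : Prop) (lam0 : ι → ℝ), (∀ i, 0 ≤ lam0 i) ∧ ∑ i, lam0 i = 1 ∧
      (∀ i, (1 - 2 * (η + κ)) * lam0 i ≤ lam i) ∧
      (∀ k, inf ∨ k < d → ∀ a D : ℝ, 0 ≤ D →
        im lam0 (fun i => h * z i) a (D * (κ * 2 ^ k / ℓ)) ≤ (D + 2) * (2 * (M * E))) ∧
      (¬ inf → ∀ (t0 : ℝ) (S : List Bool → Prop),
        (∀ v : List Bool, v.length = d → S v → ∃ s ∈ Set.Icc (nd α ℓ v) (nd α ℓ v + ln ℓ v),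
          1 - η ≤ ‖∑ i, (lam i : ℂ) * ex (h * z i) (s - t0)‖) →
        avg d (fun v => if S v then 1 else 0) ≤ 4 * (1 + 2 * Real.pi / (h * ℓ)) / E) := by
  obtain ⟨d, inf, lam0, g0, g1, g2, g3, g4⟩ := death_inf (x := fun i => h * z i) h0 h1
    (w := fun k => κ * 2 ^ k / ℓ) (fun k => by positivity)
    (fun a b hab => div_le_div_of_nonneg_right
      (mul_le_mul_of_nonneg_left (pow_le_pow_right₀ (by norm_num) hab) hκ.le) hℓ.le)
    (fun r => by
      obtain ⟨k, hk⟩ := pow_unbounded_of_one_lt (r * ℓ / κ) (show (1 : ℝ) < 2 by norm_num)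
      refine ⟨k, ?_⟩
      rw [div_lt_iff₀ hκ] at hk
      rw [lt_div_iff₀ hℓ]; linarith)
    (θ := M * E) (ε := 2 * (η + κ)) (by positivity) (by positivity) (by linarith)
  refine ⟨d, inf, lam0, g0, g1, g2, g3, fun hdn t0 S hS => ?_⟩
  have hw : 0 < κ * 2 ^ d / ℓ := by positivity
  have hP := P46.lemmaP lam h0 h1 z hh hm (fun i => ⌊h * z i / (κ * 2 ^ d / ℓ)⌋)
    (w := κ * 2 ^ d / ℓ) (fun i i' e => by
      have h2 := Int.abs_sub_lt_one_of_floor_eq_floor e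
      rw [← sub_div, abs_div, abs_of_pos hw, div_lt_one hw] at h2
      exact h2.le) α hℓ d t0 (η := η) (κ := κ) (by positivity)
    (le_of_eq (by field_simp)) S hS
  have h5 := frac_le h0 (σ := avg d (fun v => if S v then 1 else 0))
    (C := 4 * (1 + 2 * Real.pi / (h * ℓ)) * M) (mul_pos hM hE)
    (avg_nonneg_len d fun l _ => by split_ifs <;> norm_num) (g4 hdn) (by
      simp only [sum_filter] at hP
      simp only [binm]
      convert hP)
  refine h5.trans (le_of_eq ?_)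
  field_simp

end Crest.Agent.R100.Death
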