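import Crest.Agent.R100.Death
import Crest.Agent.R100.Crude

/-!
# Row 100, the death measure (helper12)
`rhoF f α ℓ d` = the fraction of the nodes of depth `d` of `[α, α+ℓ)` that meet the support of `f`.
-/

set_option autoImplicit false

open MeasureTheory

noncomputable section

namespace Crest.Agent.R100.Death

open Crest.Agent.R100 Crest.Agent.R100.Low Finset

/-- the closed interval `[a, a + r]` meets the support of `f` -/
def Meets (f : ℝ → ℂ) (a r : ℝ) : Prop := ∃ s ∈ Set.Icc a (a + r), f s ≠ 0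

open Classical in
/-- the death measure -/
def rhoF (f : ℝ → ℂ) (α ℓ : ℝ) (d : ℕ) : ℝ :=
  avg d (fun v => if Meets f (nd α ℓ v) (ln ℓ v) then 1 else 0)

theorem rhoF_nn (f : ℝ → ℂ) (α ℓ : ℝ) (d : ℕ) : 0 ≤ rhoF f α ℓ d :=
  avg_nonneg_len d fun l _ => by split_ifs <;> norm_num

theorem rhoF_le_one (f : ℝ → ℂ) (α ℓ : ℝ) (d : ℕ) : rhoF f α ℓ d ≤ 1 := by
  rw [← avg_const d 1]
  exact avg_mono_len d fun l _ => by split_ifs <;> norm_num

theorem ln_cons (ℓ : ℝ) (c : Bool) (u : List Bool) : ln ℓ (c :: u) = ln (ℓ / 2) u := by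
  simp only [ln, List.length_cons, pow_succ]
  field_simp

theorem rhoF_mart (f : ℝ → ℂ) (α ℓ : ℝ) (d : ℕ) :
    (rhoF f (ch false α ℓ) (ℓ / 2) d + rhoF f (ch true α ℓ) (ℓ / 2) d) / 2 =
      rhoF f α ℓ (d + 1) := by
  have e : ∀ (c : Bool) (l : List Bool), Meets f (nd α ℓ (c :: l)) (ln ℓ (c :: l)) =
      Meets f (nd (ch c α ℓ) (ℓ / 2) l) (ln (ℓ / 2) l) := fun c l => by rw [ln_cons]; rfl
  unfold rhoF
  rw [avg]
  congr 2 <;> refine avg_congr_len d fun l _ => ?_ <;> rw [e]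

theorem rhoF_mono {f f' : ℝ → ℂ} (h : ∀ t, f' t ≠ 0 → f t ≠ 0) (α ℓ : ℝ) (d : ℕ) :
    rhoF f' α ℓ d ≤ rhoF f α ℓ d := by
  refine avg_mono_len d fun v _ => ?_
  split_ifs with h1 h2
  · exact le_rfl
  · obtain ⟨s, hs, h3⟩ := h1
    exact absurd ⟨s, hs, h s h3⟩ h2
  · norm_num
  · exact le_rfl

theorem rhoF_mono' {f f' : ℝ → ℂ} (h : ∀ t, ‖f' t‖ ≤ ‖f t‖) (α ℓ : ℝ) (d : ℕ) :
    rhoF f' α ℓ d ≤ rhoF f α ℓ d :=
  rhoF_mono (fun t h1 h2 => h1 (norm_le_zero_iff.1 (by simpa [h2] using h t))) α ℓ d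

theorem node_in : ∀ (u : List Bool) (α ℓ : ℝ), 0 < ℓ →
    α ≤ nd α ℓ u ∧ nd α ℓ u + ln ℓ u ≤ α + ℓ
  | [], α, ℓ, _ => by simp [nd, ln]
  | c :: u, α, ℓ, hℓ => by
    have := node_in u (ch c α ℓ) (ℓ / 2) (half_pos hℓ)
    rw [ln_cons]
    simp only [nd]
    cases c <;> simp only [ch] at this ⊢ <;> simp at this ⊢ <;> constructor <;>
      linarith [this.1, this.2]

theorem U_of_not_meets {f : ℝ → ℂ} {α ℓ : ℝ} (hℓ : 0 < ℓ) (h : ¬ Meets f α ℓ) (ξ : ℝ)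
    (v : List Bool) : U f α ℓ ξ v = 0 := by
  have h1 := node_in v α ℓ hℓ
  have h2 := lowFamA_ln_pos hℓ v
  unfold U cu
  rw [intervalIntegral.integral_congr (g := fun _ => (0 : ℂ)) fun y hy => ?_]
  · simp
  · rw [Set.uIcc_of_le (by linarith)] at hy
    have : f y = 0 := by
      by_contra h3
      exact h ⟨y, ⟨by linarith [hy.1], by linarith [hy.2]⟩, h3⟩
    simp [this]

theorem ca_mono' {f g : ℝ → ℂ} (hf : Measurable f) (hg : Measurable g) {M : ℝ}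
    (hM : ∀ y, ‖g y‖ ≤ M) (hle : ∀ y, ‖f y‖ ≤ ‖g y‖) (a : ℝ) {lam : ℝ} (hl : 0 < lam) :
    ca f a lam ≤ ca g a lam := by
  unfold ca
  exact div_le_div_of_nonneg_right (intervalIntegral.integral_mono_on (by linarith)
    (famA_int hf (fun y => (hle y).trans (hM y)) _ _).norm (famA_int hg hM _ _).norm
    fun y _ => hle y) hl.le

/-- **the cost of death**: a piece `f` of `g`, stopped when an average of `g` exceeds `B ≤ 2 ^ L` -/
theorem crude_rho {f g : ℝ → ℂ} (hf : Measurable f) (hg : Measurable g) {R B : ℝ} (hR : 1 ≤ R)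
    (L : ℕ) (hB : B ≤ 2 ^ L) (hM : ∀ y, ‖g y‖ ≤ Real.exp R) (hle : ∀ y, ‖f y‖ ≤ ‖g y‖) (α : ℝ)
    {ℓ : ℝ} (hℓ : 0 < ℓ) (n : ℕ) (ξ : List Bool → ℝ) (e : List Bool → ℂ) (he : ∀ v, ‖e v‖ ≤ 1)
    (he' : ∀ v, e v ≠ 0 → AliveB g B α ℓ v) :
    avg n (fun l => ‖win e (U f α ℓ (ξ l)) l 0 (n - 1)‖) ≤
      60000 * R * (1 + 2 * L * 2 ^ L) * rhoF f α ℓ 0 := by
  have h0 : rhoF f α ℓ 0 = @ite ℝ (Meets f α ℓ) (Classical.propDecidable _) 1 0 := by
    have e : Meets f (nd α ℓ []) (ln ℓ []) = Meets f α ℓ := by simp [nd, ln]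
    unfold rhoF
    rw [avg, e]
  rw [h0]
  split_ifs with hm
  · rw [mul_one]
    by_cases hz : ∀ v, e v = 0
    · simp only [win, tm, hz, zero_mul, mul_zero, sum_const_zero, norm_zero, avg_const]
      positivity
    push Not at hz
    obtain ⟨v, hv⟩ := hz
    have h1 : ca g α ℓ ≤ B := by simpa [nd, ln] using he' v hv 0 (Nat.zero_le _)
    have h2 : ca f α ℓ ≤ 2 ^ L := (ca_mono' hf hg hM hle α hℓ).trans (h1.trans hB)
    have h3 := crudeL hf hR L one_pos (fun y => by rw [mul_one]; exact (hle y).trans (hM y)) α hℓ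
      e he (fun v hv k hk => by
        rw [mul_one]
        exact (ca_mono' hf hg hM hle _ (lowFamA_ln_pos hℓ _)).trans ((he' v hv k hk).trans hB))
      n ξ (fun _ => 0) (fun _ => n - 1) (fun _ _ => le_rfl)
    refine h3.trans (mul_le_mul_of_nonneg_left ?_ (by positivity))
    have : (0 : ℝ) ≤ 2 * L := by positivity
    nlinarith
  · have : ∀ ζ, U f α ℓ ζ = fun _ => 0 := fun ζ => funext (U_of_not_meets hℓ hm ζ)
    simp [this, win, tm, avg_const]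

open Classical in
/-- the death measure at birth: every point of the support is pure for the centre of some cell -/
theorem rhoF_birth {ι Y : Type*} [Fintype ι] (S : Finset Y) (c : Y → ℝ) {f : ℝ → ℂ}
    (lam x : ι → ℝ) {η σ α ℓ : ℝ} {d : ℕ} (hℓ : 0 < ℓ)
    (hp : ∀ t ∈ Set.Icc α (α + ℓ), f t ≠ 0 →
      ∃ y ∈ S, 1 - η ≤ ‖∑ i, (lam i : ℂ) * ex (x i) (t - c y)‖)
    (hd : ∀ (t0 : ℝ) (T : List Bool → Prop),
      (∀ v : List Bool, v.length = d → T v → ∃ s ∈ Set.Icc (nd α ℓ v) (nd α ℓ v + ln ℓ v),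
        1 - η ≤ ‖∑ i, (lam i : ℂ) * ex (x i) (s - t0)‖) →
      avg d (fun v => if T v then 1 else 0) ≤ σ) :
    rhoF f α ℓ d ≤ S.card * σ := by
  refine le_trans (avg_mono_len d fun v _ => ?_) (frac_union S (fun y v =>
    ∃ s ∈ Set.Icc (nd α ℓ v) (nd α ℓ v + ln ℓ v),
      1 - η ≤ ‖∑ i, (lam i : ℂ) * ex (x i) (s - c y)‖) d
    fun y _ => hd (c y) _ fun v _ h => h)
  split_ifs with h1 h2
  · exact le_rfl
  · obtain ⟨s, hs, h3⟩ := h1
    have h4 := node_in v α ℓ hℓ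
    obtain ⟨y, hy, h5⟩ := hp s ⟨by linarith [hs.1, h4.1], by linarith [hs.2, h4.2]⟩ h3
    exact absurd ⟨y, hy, s, hs, h5⟩ h2
  · norm_num
  · exact le_rfl

end Crest.Agent.R100.Death
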