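import Crest.Agent.R100.LowDefs

/-!
# Row 100, FINE (helper14): counting the `L¹` moves of a nonnegative supermartingale
`last d ε v` is the last fine top above (or at) `v`; a new top is declared at a node when its
distance to the last top is at least `ε`.  Removals are allowed (supermartingale).
-/

set_option autoImplicit false

open MeasureTheory Finset

noncomputable section

namespace Crest.Agent.R100.Fine

open Crest.Agent.R100 Crest.Agent.R100.Low

open Classical in
/-- the last top, on reversed lists -/
def lastR (d : List Bool → List Bool → ℝ) (ε : ℝ) : List Bool → List Bool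
  | [] => []
  | c :: r => if ε ≤ d (c :: r).reverse (lastR d ε r) then (c :: r).reverse else lastR d ε r

/-- the last fine top on the path to `v` -/
def last (d : List Bool → List Bool → ℝ) (ε : ℝ) (v : List Bool) : List Bool :=
  lastR d ε v.reverse

/-- `v` is a fine top -/
def Top (d : List Bool → List Bool → ℝ) (ε : ℝ) (v : List Bool) : Prop := last d ε v = v

variable {d : List Bool → List Bool → ℝ} {ε : ℝ}

theorem last_nil : last d ε [] = [] := rfl

theorem top_nil : Top d ε [] := rfl

open Classical in
theorem last_snoc (v : List Bool) (c : Bool) :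
    last d ε (v ++ [c]) = if ε ≤ d (v ++ [c]) (last d ε v) then v ++ [c] else last d ε v := by
  simp only [last, List.reverse_append, List.reverse_cons, List.reverse_nil, List.nil_append,
    List.singleton_append, lastR, List.reverse_reverse]
  congr

theorem last_prefix (v : List Bool) : last d ε v <+: v := by
  induction v using List.reverseRecOn with
  | nil => simp [last_nil]
  | append_singleton v c ih =>
    rw [last_snoc]
    split_ifs
    · exact List.prefix_refl _
    · exact ih.trans (List.prefix_append _ _)

theorem last_eq_take (v : List Bool) :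
    ∃ k, k ≤ v.length ∧ last d ε v = v.take k :=
  ⟨_, (last_prefix v).length_le, List.prefix_iff_eq_take.1 (last_prefix v)⟩

theorem top_snoc (v : List Bool) (c : Bool) :
    Top d ε (v ++ [c]) ↔ ε ≤ d (v ++ [c]) (last d ε v) := by
  unfold Top
  rw [last_snoc]
  split_ifs with h
  · simp [h]
  · simp only [h, iff_false]
    intro h'
    have := (last_prefix (d := d) (ε := ε) v).length_le
    rw [h'] at this
    simp at this

theorem top_last (v : List Bool) : Top d ε (last d ε v) := by
  induction v using List.reverseRecOn with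
  | nil => exact top_nil
  | append_singleton v c ih =>
    by_cases h : ε ≤ d (v ++ [c]) (last d ε v)
    · have := (top_snoc v c).2 h
      rw [show last d ε (v ++ [c]) = v ++ [c] from this]
      exact this
    · rw [last_snoc, if_neg h]
      exact ih

/-- between fine tops nothing moves -/
theorem dist_last_lt (h0 : ∀ v, d v v < ε) (v : List Bool) : d v (last d ε v) < ε := by
  induction v using List.reverseRecOn with
  | nil => exact h0 _
  | append_singleton v c _ =>
    rw [last_snoc]
    split_ifs with h
    · exact h0 _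
    · exact not_le.1 h

/-- no top strictly between: a top above `v` is above `last v` -/
theorem top_prefix_last {w v : List Bool} (hw : Top d ε w) (h : w <+: v) : w <+: last d ε v := by
  induction v using List.reverseRecOn with
  | nil => simpa [last_nil] using h
  | append_singleton v c ih =>
    rcases List.prefix_concat_iff.1 h with h1 | h1
    · rw [← h1, show last d ε w = w from hw]
    · rw [last_snoc]
      split_ifs
      · exact h
      · exact ih h1

open Classical in
/-- the number of fine tops with an alive parent on the path `l`, depths `1..n` -/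
def cnt (d : List Bool → List Bool → ℝ) (ε : ℝ) (A : List Bool → Prop) (n : ℕ) (l : List Bool) : ℝ :=
  ∑ k ∈ range n, if A (l.take k) ∧ Top d ε (l.take (k + 1)) then 1 else 0

theorem cnt_nonneg (A : List Bool → Prop) (n : ℕ) (l : List Bool) : 0 ≤ cnt d ε A n l :=
  sum_nonneg fun _ _ => by split_ifs <;> norm_num

open Classical in
theorem cnt_snoc (A : List Bool → Prop) (v : List Bool) (c : Bool) :
    cnt d ε A (v.length + 1) (v ++ [c]) =
      cnt d ε A v.length v + if A v ∧ Top d ε (v ++ [c]) then 1 else 0 := by
  unfold cnt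
  rw [sum_range_succ]
  congr 1
  · refine sum_congr rfl fun k hk => ?_
    have hk' : k + 1 ≤ v.length := mem_range.1 hk
    rw [List.take_append_of_le_length (by omega), List.take_append_of_le_length hk']
  · rw [List.take_append_of_le_length le_rfl, List.take_length,
      List.take_of_length_le (by simp)]

/-- the abstract potential argument -/
theorem count_abs (I : List Bool → List Bool → ℝ) (A : List Bool → Prop) {γ Up : ℝ}
    (h1 : ∀ v w, I v w ≤ (I (v ++ [false]) w + I (v ++ [true]) w) / 2)
    (h2 : ∀ v w, I v w ≤ I v v)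
    (h3 : ∀ v c w, A v → w <+: v → ε ≤ d (v ++ [c]) w →
      I (v ++ [c]) w + γ ≤ I (v ++ [c]) (v ++ [c]))
    (h4 : ∀ v, I v v ≤ Up) (n : ℕ) :
    γ * avg n (cnt d ε A n) ≤ Up - I [] [] := by
  have key : ∀ n, I [] [] ≤ avg n (fun l => I l (last d ε l) - γ * cnt d ε A n l) := by
    intro n
    induction n with
    | zero => simp [avg, cnt, last_nil]
    | succ n ih =>
      rw [avg_snoc]
      refine ih.trans (avg_mono_len n fun v hv => ?_)
      subst hv
      have step : ∀ c, I (v ++ [c]) (last d ε v) - γ * cnt d ε A v.length v ≤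
          I (v ++ [c]) (last d ε (v ++ [c])) - γ * cnt d ε A (v.length + 1) (v ++ [c]) := by
        intro c
        rw [cnt_snoc]
        by_cases hT : ε ≤ d (v ++ [c]) (last d ε v)
        · have hT' := (top_snoc v c).2 hT
          rw [show last d ε (v ++ [c]) = v ++ [c] from hT']
          by_cases hA : A v
          · rw [if_pos ⟨hA, hT'⟩]
            have := h3 v c _ hA (last_prefix v) hT
            linarith
          · rw [if_neg fun h => hA h.1]
            have := h2 (v ++ [c]) (last d ε v)
            linarith
        · rw [if_neg fun h => hT ((top_snoc v c).1 h.2), last_snoc, if_neg hT]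
          linarith
      have := h1 v (last d ε v)
      have s0 := step false
      have s1 := step true
      linarith
  have k1 := key n
  have k2 : avg n (fun l => I l (last d ε l) - γ * cnt d ε A n l) ≤
      avg n (fun l => Up - γ * cnt d ε A n l) :=
    avg_mono_len n fun l _ => by linarith [h2 l (last d ε l), h4 l]
  have k3 := k1.trans k2
  rw [avg_sub, avg_const, avg_mul_left] at k3
  have e : avg n (fun l => cnt d ε A n l) = avg n (cnt d ε A n) := rfl
  linarith

/-- the Bregman bound -/
theorem breg {X Y : ℝ} (hX : 0 < X) (hY : 0 < Y) (t : ℝ) :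
    t * |X - Y| - t ^ 2 * (X + Y) / 2 ≤ X * (Real.log X - Real.log Y) - X + Y := by
  obtain ⟨a, ha, rfl⟩ : ∃ a, 0 < a ∧ X = a ^ 2 :=
    ⟨√X, Real.sqrt_pos.2 hX, (Real.sq_sqrt hX.le).symm⟩
  obtain ⟨b, hb, rfl⟩ : ∃ b, 0 < b ∧ Y = b ^ 2 :=
    ⟨√Y, Real.sqrt_pos.2 hY, (Real.sq_sqrt hY.le).symm⟩
  have h1 : Real.log b - Real.log a ≤ b / a - 1 := by
    rw [← Real.log_div hb.ne' ha.ne']
    exact Real.log_le_sub_one_of_pos (div_pos hb ha)
  have h2 : a ^ 2 * (b / a) = a * b := by field_simp
  have h3 : (a - b) ^ 2 ≤ a ^ 2 * (Real.log (a ^ 2) - Real.log (b ^ 2)) - a ^ 2 + b ^ 2 := by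
    rw [Real.log_pow, Real.log_pow]
    have := mul_le_mul_of_nonneg_left h1 (sq_nonneg a)
    push_cast
    nlinarith
  have h4 : |a ^ 2 - b ^ 2| = |a - b| * (a + b) := by
    rw [show a ^ 2 - b ^ 2 = (a - b) * (a + b) by ring, abs_mul, abs_of_pos (add_pos ha hb)]
  rw [h4, ← sq_abs (a - b)] at *
  nlinarith [sq_nonneg (|a - b| - t * (a + b) / 2), mul_nonneg (sq_nonneg t) (sq_nonneg (a - b))]

variable {ι Y : Type*} [Fintype ι] [MeasurableSpace Y]

/-- the total mass -/
def mass (ν : Measure Y) (m : List Bool → ι → Y → ℝ) (v : List Bool) : ℝ :=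
  ∑ a, ∫ y, m v a y ∂ν

/-- the `L¹` distance -/
def dL (ν : Measure Y) (m : List Bool → ι → Y → ℝ) (v w : List Bool) : ℝ :=
  ∑ a, ∫ y, |m v a y - m w a y| ∂ν

theorem dL_self (ν : Measure Y) (m : List Bool → ι → Y → ℝ) (v : List Bool) : dL ν m v v = 0 := by
  simp [dL]

/-- the linearised potential -/
def FF (δ L x w : ℝ) : ℝ :=
  (x + δ) * (Real.log (w + δ) - Real.log δ) + x - w - (1 + L) * x

theorem intb (ν : Measure Y) [IsFiniteMeasure ν] {f : Y → ℝ} (hf : Measurable f) (C : ℝ)
    (h : ∀ y, |f y| ≤ C) : Integrable f ν :=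
  Integrable.of_bound hf.aestronglyMeasurable C (Filter.Eventually.of_forall h)

/-- **FINE, abstract count.** `m` is a bounded nonnegative supermartingale for each `(a, y)`. -/
theorem count (ν : Measure Y) [IsFiniteMeasure ν] (m : List Bool → ι → Y → ℝ)
    (A : List Bool → Prop) {K V P ε : ℝ} (hP : 0 < P) (hV : 0 < V) (hε : 0 < ε)
    (hν : (Fintype.card ι : ℝ) * ν.real Set.univ ≤ V)
    (hm : ∀ v a, Measurable (m v a)) (h0 : ∀ v a y, 0 ≤ m v a y) (hK : ∀ v a y, m v a y ≤ K)
    (hs : ∀ v a y, (m (v ++ [false]) a y + m (v ++ [true]) a y) / 2 ≤ m v a y)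
    (her : ∀ v w, A v → w <+: v → A w) (hA : ∀ v, A v → mass ν m v ≤ P)
    (hr : mass ν m [] ≤ P) (n : ℕ) :
    avg n (cnt (dL ν m) ε A n) ≤ 10 * P ^ 2 * (1 + 2 * Real.log (1 + |K| * V / P)) / ε ^ 2 := by
  set δ := P / V with hδ
  have hδ0 : 0 < δ := div_pos hP hV
  set L := Real.log (1 + |K| * V / P) with hL
  have hKa : ∀ v a y, m v a y ≤ |K| := fun v a y => (hK v a y).trans (le_abs_self K)
  have hlog : ∀ v a y, 0 ≤ Real.log (m v a y + δ) - Real.log δ ∧
      Real.log (m v a y + δ) - Real.log δ ≤ L := by
    intro v a y
    have := h0 v a y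
    refine ⟨sub_nonneg.2 (Real.log_le_log hδ0 (by linarith)), ?_⟩
    rw [← Real.log_div (by positivity) hδ0.ne', hL]
    refine Real.log_le_log (by positivity) ?_
    rw [div_le_iff₀ hδ0, hδ]
    have : (1 + |K| * V / P) * (P / V) = |K| + P / V := by field_simp; ring
    rw [this]
    linarith [hKa v a y]
  have hL0 : 0 ≤ L := Real.log_nonneg (by have : 0 ≤ |K| * V / P := by positivity
                                          linarith)
  have im : ∀ v a, Integrable (m v a) ν := fun v a =>
    intb ν (hm v a) |K| fun y => by rw [abs_of_nonneg (h0 v a y)]; exact hKa v a y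
  have iF : ∀ v w a, Integrable (fun y => FF δ L (m v a y) (m w a y)) ν := by
    intro v w a
    have i1 : Integrable (fun y => (m v a y + δ) * (Real.log (m w a y + δ) - Real.log δ)) ν := by
      refine intb ν (by have := hm v a; have := hm w a; fun_prop) ((|K| + δ) * L) fun y => ?_
      have := h0 v a y
      rw [abs_of_nonneg (mul_nonneg (by positivity) (hlog w a y).1)]
      exact mul_le_mul (by linarith [hKa v a y]) (hlog w a y).2 (hlog w a y).1 (by positivity)
    exact ((i1.add (im v a)).sub (im w a)).sub ((im v a).const_mul _)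
  have hc : ∀ s : ℝ, 0 ≤ s → ∑ _a : ι, ∫ _y, s * δ ∂ν ≤ s * P := by
    intro s hs0
    simp only [integral_const, smul_eq_mul, sum_const, card_univ, nsmul_eq_mul]
    have : (Fintype.card ι : ℝ) * (ν.real Set.univ * (s * δ)) =
        ((Fintype.card ι : ℝ) * ν.real Set.univ) * (s * δ) := by ring
    rw [this]
    calc _ ≤ V * (s * δ) := mul_le_mul_of_nonneg_right hν (by positivity)
      _ = s * P := by rw [hδ]; field_simp
  set I : List Bool → List Bool → ℝ := fun v w => ∑ a, ∫ y, FF δ L (m v a y) (m w a y) ∂ν with hI
  have hB : ∀ (t : ℝ) v w, I v w + t * dL ν m v w - t ^ 2 / 2 * (mass ν m v + mass ν m w) -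
      t ^ 2 * P ≤ I v v := by
    intro t v w
    have e1 : ∀ a, ∫ y, FF δ L (m v a y) (m w a y) ∂ν + t * ∫ y, |m v a y - m w a y| ∂ν -
        t ^ 2 / 2 * (∫ y, m v a y ∂ν + ∫ y, m w a y ∂ν) - ∫ _y, t ^ 2 * δ ∂ν ≤
        ∫ y, FF δ L (m v a y) (m v a y) ∂ν := by
      intro a
      have j1 : Integrable (fun y => |m v a y - m w a y|) ν := ((im v a).sub (im w a)).abs
      have j2 : Integrable (fun y => FF δ L (m v a y) (m w a y) + t * |m v a y - m w a y|) ν :=
        (iF v w a).add (j1.const_mul t)
      have j3 : Integrable (fun y => t ^ 2 / 2 * (m v a y + m w a y)) ν :=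
        ((im v a).add (im w a)).const_mul _
      have j4 : Integrable (fun y => FF δ L (m v a y) (m w a y) + t * |m v a y - m w a y| -
          t ^ 2 / 2 * (m v a y + m w a y)) ν := j2.sub j3
      rw [← integral_const_mul, ← integral_add (im v a) (im w a), ← integral_const_mul,
        ← integral_add (iF v w a) (j1.const_mul t), ← integral_sub j2 j3,
        ← integral_sub j4 (integrable_const _)]
      refine integral_mono (j4.sub (integrable_const _)) (iF v v a) fun y => ?_
      have p1 := h0 v a y
      have p2 := h0 w a y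
      have := breg (X := m v a y + δ) (Y := m w a y + δ) (by positivity) (by positivity) t
      rw [show m v a y + δ - (m w a y + δ) = m v a y - m w a y by ring] at this
      simp only [FF, Pi.add_apply, Pi.sub_apply]
      nlinarith
    have e2 := sum_le_sum fun a (_ : a ∈ (univ : Finset ι)) => e1 a
    have e3 := hc (t ^ 2) (sq_nonneg t)
    simp only [sum_sub_distrib, sum_add_distrib, ← mul_sum] at e2
    simp only [hI, dL, mass]
    linarith
  have hmass : ∀ v c, mass ν m (v ++ [c]) ≤ 2 * mass ν m v := by
    intro v c
    unfold mass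
    rw [mul_sum]
    refine sum_le_sum fun a _ => ?_
    rw [← integral_const_mul]
    refine integral_mono (im _ a) ((im v a).const_mul 2) fun y => ?_
    have := hs v a y
    have p1 := h0 (v ++ [false]) a y
    have p2 := h0 (v ++ [true]) a y
    cases c <;> simp only <;> linarith
  have key := count_abs (d := dL ν m) (ε := ε) I A (γ := ε ^ 2 / (10 * P)) (Up := L * P)
    (fun v w => by
      simp only [hI]
      rw [← sum_add_distrib, sum_div]
      refine sum_le_sum fun a _ => ?_
      rw [← integral_add (iF _ w a) (iF _ w a), ← integral_div]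
      refine integral_mono (iF v w a) (((iF _ w a).add (iF _ w a)).div_const 2) fun y => ?_
      have := hs v a y
      have q := hlog w a y
      simp only [FF, Pi.add_apply]
      nlinarith)
    (fun v w => by simpa using hB 0 v w)
    (fun v c w hv hw hd => by
      have b1 := hB (ε / (5 * P)) (v ++ [c]) w
      have b2 := hmass v c
      have b3 := hA v hv
      have b4 := hA w (her v w hv hw)
      have b5 : ε / (5 * P) * ε ≤ ε / (5 * P) * dL ν m (v ++ [c]) w :=
        mul_le_mul_of_nonneg_left hd (by positivity)
      have b6 : (ε / (5 * P)) ^ 2 / 2 * (mass ν m (v ++ [c]) + mass ν m w) ≤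
          (ε / (5 * P)) ^ 2 / 2 * (3 * P) :=
        mul_le_mul_of_nonneg_left (by linarith) (by positivity)
      have b7 : ε / (5 * P) * ε - (ε / (5 * P)) ^ 2 / 2 * (3 * P) - (ε / (5 * P)) ^ 2 * P =
          ε ^ 2 / (10 * P) := by field_simp; ring
      linarith)
    (fun v => by
      refine le_trans ?_ (hc L hL0)
      refine sum_le_sum fun a _ => integral_mono (iF v v a) (integrable_const _) fun y => ?_
      have := h0 v a y
      have q := hlog v a y
      simp only [FF]
      nlinarith)
    n
  have hroot : -((1 + L) * P) ≤ I [] [] := by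
    have : -((1 + L) * mass ν m []) ≤ I [] [] := by
      simp only [hI, mass]
      rw [mul_sum, ← sum_neg_distrib]
      refine sum_le_sum fun a _ => ?_
      rw [← integral_const_mul, ← integral_neg]
      refine integral_mono ((im [] a).const_mul _).neg (iF [] [] a) fun y => ?_
      have := h0 [] a y
      have q := hlog [] a y
      simp only [FF]
      nlinarith [mul_nonneg (add_nonneg this hδ0.le) q.1]
    nlinarith
  rw [le_div_iff₀ (by positivity)]
  have k2 : ε ^ 2 / (10 * P) * avg n (cnt (dL ν m) ε A n) ≤ P * (1 + 2 * L) := by linarith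
  rw [div_mul_eq_mul_div, div_le_iff₀ (by positivity)] at k2
  nlinarith

end Crest.Agent.R100.Fine
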