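import Crest.Agent.R100.GenSplit

/-!
# Row 100, STRUCT (helper8): the cleaning loop at a node and the recursion of one life
-/

set_option autoImplicit false

open MeasureTheory Set

noncomputable section

namespace Crest.Agent.R100.Split

open Crest.Agent.R100 Crest.Agent.R100.Low

variable {Y : Type*} [Fintype Y]

/-- `c'` is obtained from the cells `c` by restriction to measurable subsets -/
def Sub (c c' : Y → ℝ → ℝ) : Prop := ∀ y, Measurable (c' y) ∧ ∀ t, c' y t = c y t ∨ c' y t = 0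

/-- the sum of the cells -/
def tot (c : Y → ℝ → ℝ) (t : ℝ) : ℝ := ∑ y, c y t

/-- nonnegative measurable cells with sum at most `M` -/
structure Cells (M : ℝ) (c : Y → ℝ → ℝ) : Prop where
  meas : ∀ y, Measurable (c y)
  nn : ∀ y t, 0 ≤ c y t
  le : ∀ t, tot c t ≤ M

omit [Fintype Y] in
theorem Sub.refl {c : Y → ℝ → ℝ} (h : ∀ y, Measurable (c y)) : Sub c c :=
  fun y => ⟨h y, fun _ => Or.inl rfl⟩

omit [Fintype Y] in
theorem Sub.trans {c c' c'' : Y → ℝ → ℝ} (h : Sub c c') (h' : Sub c' c'') : Sub c c'' :=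
  fun y => ⟨(h' y).1, fun t => by
    rcases (h' y).2 t with h1 | h1
    · rw [h1]; exact (h y).2 t
    · exact Or.inr h1⟩

omit [Fintype Y] in
theorem Sub.le {c c' : Y → ℝ → ℝ} (h : Sub c c') (h0 : ∀ y t, 0 ≤ c y t) (y : Y) (t : ℝ) :
    0 ≤ c' y t ∧ c' y t ≤ c y t := by
  rcases (h y).2 t with h1 | h1 <;> rw [h1]
  · exact ⟨h0 y t, le_rfl⟩
  · exact ⟨le_rfl, h0 y t⟩

theorem Sub.tot_le {c c' : Y → ℝ → ℝ} (h : Sub c c') (h0 : ∀ y t, 0 ≤ c y t) (t : ℝ) :
    tot c' t ≤ tot c t := Finset.sum_le_sum fun y _ => (h.le h0 y t).2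

theorem Cells.sub {M : ℝ} {c c' : Y → ℝ → ℝ} (h : Cells M c) (h' : Sub c c') : Cells M c' :=
  ⟨fun y => (h' y).1, fun y t => (h'.le h.nn y t).1, fun t => (h'.tot_le h.nn t).trans (h.le t)⟩

theorem Cells.bd {M : ℝ} {c : Y → ℝ → ℝ} (h : Cells M c) : Bd M (tot c) :=
  ⟨Finset.measurable_sum _ fun y _ => h.meas y, fun t => Finset.sum_nonneg fun y _ => h.nn y t,
    h.le⟩

theorem Cells.bd_diff {M : ℝ} {c c' : Y → ℝ → ℝ} (h : Cells M c) (h' : Sub c c') :
    Bd M (fun t => tot c t - tot c' t) :=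
  ⟨h.bd.meas.sub (h.sub h').bd.meas, fun t => sub_nonneg.2 (h'.tot_le h.nn t),
    fun t => by have := (h.sub h').bd.nn t; have := h.le t; linarith⟩

/-- the result of cleaning the cells `c` at the node `v` -/
structure Clean (M α ℓ θ : ℝ) (Trig : (Y → ℝ → ℝ) → Prop) (Pc : (ℝ → ℝ) → Prop) (v : List Bool)
    (c c' : Y → ℝ → ℝ) (T : Finset ℕ) (r : ℕ → ℝ → ℝ) : Prop where
  sub : Sub c c'
  nt : ¬ Trig c'
  eq : ∀ t, tot c t = tot c' t + ∑ i ∈ T, r i t
  pc : ∀ i ∈ T, Bd M (r i) ∧ Pc (r i) ∧ θ ≤ avn (r i) α ℓ v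
  gap : c' = c ∨ θ ≤ avn (fun t => tot c t - tot c' t) α ℓ v

/-- **NODE**: the cleaning loop -/
theorem node_loop {M α ℓ θ : ℝ} (hℓ : 0 < ℓ) (hθ : 0 < θ) {Go Trig : (Y → ℝ → ℝ) → Prop}
    {Pc : (ℝ → ℝ) → Prop} (v : List Bool) (hGo : ∀ c c', Cells M c → Sub c c' → Go c → Go c')
    (hb : ∀ c, Cells M c → Go c → Trig c → ∃ c', Sub c c' ∧ Pc (fun t => tot c t - tot c' t) ∧
      θ ≤ avn (fun t => tot c t - tot c' t) α ℓ v) :
    ∀ (N : ℕ) (c : Y → ℝ → ℝ), Cells M c → Go c → avn (tot c) α ℓ v < N * θ →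
      ∃ c' T r, Clean M α ℓ θ Trig Pc v c c' T r ∧ ∀ i ∈ T, i < N
  | 0, c, hc, _, h => by
    have := avn_nonneg hc.bd α hℓ v
    simp at h; linarith
  | N + 1, c, hc, hg, h => by
    classical
    by_cases ht : Trig c
    · obtain ⟨c1, h1, h2, h3⟩ := hb c hc hg ht
      have hc1 := hc.sub h1
      have e1 := avn_dec (f := tot c) (s := ({0} : Finset ℕ))
        (F := fun _ t => tot c t - tot c1 t) hc1.bd (fun _ _ => hc.bd_diff h1)
        (fun t => by simp) α ℓ v
      rw [Finset.sum_singleton] at e1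
      obtain ⟨c', T, r, hcl, hT⟩ := node_loop hℓ hθ v hGo hb N c1 hc1 (hGo c c1 hc h1 hg)
        (by push_cast at h; linarith)
      have hN : N ∉ T := fun hN => lt_irrefl _ (hT N hN)
      refine ⟨c', insert N T, fun i => if i = N then fun t => tot c t - tot c1 t else r i,
        ⟨h1.trans hcl.sub, hcl.nt, fun t => ?_, fun i hi => ?_, Or.inr ?_⟩, fun i hi => ?_⟩
      · rw [Finset.sum_insert hN, if_pos rfl, Finset.sum_congr rfl (g := fun i => r i t)
          (fun i hi => by rw [if_neg (fun e : i = N => hN (e ▸ hi))])]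
        have := hcl.eq t
        linarith
      · rcases Finset.mem_insert.1 hi with rfl | hi
        · simp only [if_true]; exact ⟨hc.bd_diff h1, h2, h3⟩
        · rw [if_neg (fun e : i = N => hN (e ▸ hi))]; exact hcl.pc i hi
      · refine h3.trans (avn_mono (hc.bd_diff h1) (hc.bd_diff (h1.trans hcl.sub)) (fun t => ?_)
          α hℓ v)
        have := hcl.sub.tot_le hc1.nn t
        linarith
      · rcases Finset.mem_insert.1 hi with rfl | hi
        · omega
        · have := hT i hi; omega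
    · exact ⟨c, ∅, fun _ _ => 0, ⟨Sub.refl hc.meas, ht, fun t => by simp, by simp, Or.inl rfl⟩,
        by simp⟩

open Classical in
/-- the output of the recursion of one life -/
structure LifeOut (M α ℓ θ : ℝ) (Go Trig : List Bool → (Y → ℝ → ℝ) → Prop)
    (Pc : List Bool → (ℝ → ℝ) → Prop) (a : Y → ℝ → ℝ) (cl : List Bool → Y → ℝ → ℝ)
    (A : List Bool → Prop) (T : List Bool → Finset ℕ) (r : List Bool → ℕ → ℝ → ℝ) : Prop where
  sub : ∀ v, Sub a (cl v)
  dec : ∀ v c, Sub (cl v) (cl (v ++ [c]))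
  root : A []
  up : ∀ v c, A (v ++ [c]) → A v
  her : ∀ v k, A v → A (v.take k)
  go : ∀ v, A v → Go v (cl v)
  nt : ∀ v, A v → ¬ Trig v (cl v)
  gap : ∀ v c, A (v ++ [c]) → cl (v ++ [c]) = cl v ∨
    θ ≤ avn (fun t => tot (cl v) t - tot (cl (v ++ [c])) t) α ℓ (v ++ [c])
  dc : Dec M (tot a) (fun v => if A v then tot (cl v) else fun _ => 0) T r
  pc : ∀ v, ∀ i ∈ T v, (A v ∧ Pc v (r v i) ∧ θ ≤ avn (r v i) α ℓ v) ∨
    ∃ w c, v = w ++ [c] ∧ A w ∧ ¬ A v ∧ ¬ Go v (cl w) ∧ r v i = tot (cl w) ∧ T v = {i}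

/-- **the recursion of one life** -/
theorem life_rec {M α ℓ θ : ℝ} (hℓ : 0 < ℓ) (hθ : 0 < θ)
    {Go Trig : List Bool → (Y → ℝ → ℝ) → Prop} {Pc : List Bool → (ℝ → ℝ) → Prop}
    {a : Y → ℝ → ℝ} (ha : Cells M a) (h0 : Go [] a)
    (hGo : ∀ v c c', Cells M c → Sub c c' → Go v c → Go v c')
    (hb : ∀ v c, Sub a c → Go v c → Trig v c → ∃ c', Sub c c' ∧
      Pc v (fun t => tot c t - tot c' t) ∧ θ ≤ avn (fun t => tot c t - tot c' t) α ℓ v) :
    ∃ cl A T r, LifeOut M α ℓ θ Go Trig Pc a cl A T r := by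
  classical
  have key : ∀ (v : List Bool) (c : Y → ℝ → ℝ), ∃ c' T r, Sub a c → Go v c →
      Clean M α ℓ θ (Trig v) (Pc v) v c c' T r := by
    intro v c
    by_cases h : Sub a c ∧ Go v c
    · obtain ⟨N, hN⟩ := exists_nat_gt (avn (tot c) α ℓ v / θ)
      obtain ⟨c', T, r, hcl, -⟩ := node_loop (Go := fun c => Sub a c ∧ Go v c) (Trig := Trig v)
        (Pc := Pc v) hℓ hθ v
        (fun c c' hc hs hg => ⟨hg.1.trans hs, hGo v c c' hc hs hg.2⟩)
        (fun c _ hg ht => hb v c hg.1 hg.2 ht) N c (ha.sub h.1) h ((div_lt_iff₀ hθ).1 hN)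
      exact ⟨c', T, r, fun _ _ => hcl⟩
    · exact ⟨c, ∅, fun _ _ => 0, fun h1 h2 => absurd ⟨h1, h2⟩ h⟩
  choose nc nT nr hn using key
  let aux : List Bool → (Y → ℝ → ℝ) × Prop := fun rv => List.rec (nc [] a, True)
    (fun c rw s => if s.2 ∧ Go (rw.reverse ++ [c]) s.1 then (nc (rw.reverse ++ [c]) s.1, True)
      else (s.1, False)) rv
  let cl : List Bool → Y → ℝ → ℝ := fun v => (aux v.reverse).1
  let A : List Bool → Prop := fun v => (aux v.reverse).2
  have cl0 : cl [] = nc [] a := rfl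
  have A0 : A [] := trivial
  have hs : ∀ v c, aux (v ++ [c]).reverse = if A v ∧ Go (v ++ [c]) (cl v) then
      (nc (v ++ [c]) (cl v), True) else (cl v, False) := fun v c => by
    simp only [aux, cl, A, List.reverse_append, List.reverse_cons, List.reverse_nil,
      List.nil_append, List.cons_append, List.reverse_reverse]
  have hA : ∀ v c, A (v ++ [c]) ↔ A v ∧ Go (v ++ [c]) (cl v) := fun v c => by
    change (aux (v ++ [c]).reverse).2 ↔ _
    rw [hs]; split_ifs with h <;> simp [h]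
  have hc1 : ∀ v c, A (v ++ [c]) → cl (v ++ [c]) = nc (v ++ [c]) (cl v) := fun v c h => by
    change (aux (v ++ [c]).reverse).1 = _
    rw [hs, if_pos ((hA v c).1 h)]
  have hc2 : ∀ v c, ¬ A (v ++ [c]) → cl (v ++ [c]) = cl v := fun v c h => by
    change (aux (v ++ [c]).reverse).1 = _
    rw [hs, if_neg (fun h' => h ((hA v c).2 h'))]
  have n0 := hn [] a (Sub.refl ha.meas) h0
  have hsub : ∀ v, Sub a (cl v) := fun v => by
    induction v using List.reverseRecOn with
    | nil => exact n0.sub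
    | append_singleton w c ih =>
      by_cases h : A (w ++ [c])
      · rw [hc1 w c h]; exact ih.trans (hn _ _ ih ((hA w c).1 h).2).sub
      · rw [hc2 w c h]; exact ih
  have hcl : ∀ v c, A (v ++ [c]) → Clean M α ℓ θ (Trig (v ++ [c])) (Pc (v ++ [c])) (v ++ [c])
      (cl v) (cl (v ++ [c])) (nT (v ++ [c]) (cl v)) (nr (v ++ [c]) (cl v)) := fun v c h => by
    rw [hc1 v c h]; exact hn _ _ (hsub v) ((hA v c).1 h).2
  have hup : ∀ v c, A (v ++ [c]) → A v := fun v c h => ((hA v c).1 h).1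
  let T : List Bool → Finset ℕ := fun v => if v = [] then nT [] a else
    if A v then nT v (cl v.dropLast) else if A v.dropLast then {0} else ∅
  let r : List Bool → ℕ → ℝ → ℝ := fun v => if v = [] then nr [] a else
    if A v then nr v (cl v.dropLast) else fun _ => tot (cl v.dropLast)
  have T0 : T [] = nT [] a := by simp [T]
  have r0 : r [] = nr [] a := by simp [r]
  have T1 : ∀ v c, T (v ++ [c]) = if A (v ++ [c]) then nT (v ++ [c]) (cl v) else
      if A v then {0} else ∅ := fun v c => by simp [T]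
  have r1 : ∀ v c, r (v ++ [c]) = if A (v ++ [c]) then nr (v ++ [c]) (cl v) else
      fun _ => tot (cl v) := fun v c => by simp [r]
  have hM : 0 ≤ M := (ha.bd.nn 0).trans (ha.le 0)
  have hpc : ∀ v, ∀ i ∈ T v, Bd M (r v i) ∧ ((A v ∧ Pc v (r v i) ∧ θ ≤ avn (r v i) α ℓ v) ∨
      ∃ w c, v = w ++ [c] ∧ A w ∧ ¬ A v ∧ ¬ Go v (cl w) ∧ r v i = tot (cl w) ∧ T v = {i}) := by
    intro v i hi
    induction v using List.reverseRecOn with
    | nil =>
      rw [T0] at hi; rw [r0]
      exact ⟨(n0.pc i hi).1, Or.inl ⟨A0, (n0.pc i hi).2⟩⟩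
    | append_singleton w c _ =>
      rw [T1] at hi; rw [r1]
      by_cases h : A (w ++ [c])
      · rw [if_pos h] at hi ⊢
        exact ⟨((hcl w c h).pc i hi).1, Or.inl ⟨h, ((hcl w c h).pc i hi).2⟩⟩
      · rw [if_neg h] at hi ⊢
        by_cases h' : A w
        · rw [if_pos h', Finset.mem_singleton] at hi
          refine ⟨(ha.sub (hsub w)).bd, Or.inr ⟨w, c, rfl, h', h,
            fun hg => h ((hA w c).2 ⟨h', hg⟩), rfl, ?_⟩⟩
          rw [T1, if_neg h, if_pos h', hi]
        · rw [if_neg h'] at hi; simp at hi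
  refine ⟨cl, A, T, r, hsub, fun v c => ?_, A0, hup, fun v k h => ?_, fun v h => ?_,
    fun v h => ?_, fun v c h => (hcl v c h).gap, ⟨ha.bd, fun v => ?_, fun v i hi => (hpc v i hi).1,
      fun t => ?_, fun v c t => ?_⟩, fun v i hi => (hpc v i hi).2⟩
  · by_cases h : A (v ++ [c])
    · exact (hcl v c h).sub
    · rw [hc2 v c h]; exact Sub.refl fun y => (hsub v y).1
  · induction v using List.reverseRecOn with
    | nil => simpa using A0
    | append_singleton w c ih =>
      rcases le_or_gt k w.length with hk | hk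
      · rw [List.take_append_of_le_length hk]; exact ih (hup w c h)
      · rw [List.take_of_length_le (by simp; omega)]; exact h
  · induction v using List.reverseRecOn with
    | nil => exact hGo [] a _ ha n0.sub h0
    | append_singleton w c _ =>
      exact hGo _ _ _ (ha.sub (hsub w)) (hcl w c h).sub ((hA w c).1 h).2
  · induction v using List.reverseRecOn with
    | nil => exact n0.nt
    | append_singleton w c _ => exact (hcl w c h).nt
  · by_cases h : A v
    · rw [if_pos h]; exact (ha.sub (hsub v)).bd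
    · rw [if_neg h]; exact ⟨measurable_const, fun _ => le_rfl, fun _ => hM⟩
  · rw [if_pos A0, T0, r0]; exact n0.eq t
  · rw [T1, r1]
    by_cases h : A (v ++ [c])
    · simp only [if_pos h, if_pos (hup v c h)]; exact (hcl v c h).eq t
    · by_cases h' : A v
      · simp [h, h']
      · simp [h, h']

end Crest.Agent.R100.Split
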