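import Crest.Agent.R100.LowDV

/-!
# Row 100, RUN (helper42): cells with removals, Hilbert size, joint DV — definitions
`p y v`, `u y v` are mass and coefficient of the cell `y` at the node `v` AFTER the removals made at
`v`; `pc y v`, `uc y v` are the values BEFORE them (without removals `pc = p`, `uc = u`).
-/

set_option autoImplicit false

noncomputable section

namespace Crest.Agent.R100.Run

open Crest.Agent.R100 Crest.Agent.R100.Low

variable {Y : Type*} [Fintype Y]

/-- masses with removals -/
structure RP (p pc : Y → List Bool → ℝ) : Prop where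
  nn : ∀ y v, 0 ≤ p y v
  le : ∀ y v, p y v ≤ pc y v
  mp : ∀ y v, p y v = (pc y (v ++ [false]) + pc y (v ++ [true])) / 2

/-- coefficients with removals -/
structure RU (K : ℝ) (p pc : Y → List Bool → ℝ) (u uc : Y → List Bool → ℂ) : Prop where
  mu : ∀ y v, u y v = (uc y (v ++ [false]) + uc y (v ++ [true])) / 2
  bd : ∀ y v, ‖u y v‖ ≤ K * p y v
  rem : ∀ y v, ‖uc y v - u y v‖ ≤ K * (pc y v - p y v)

/-- the Hilbert size -/
def Sz (p : Y → List Bool → ℝ) (u : Y → List Bool → ℂ) (v : List Bool) : ℝ :=
  ∑ y, ‖u y v‖ ^ 2 / p y v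

/-- the `χ²` increment of the labels at the node `v` -/
def Vl (p pc : Y → List Bool → ℝ) (v : List Bool) : ℝ :=
  ∑ y, (pc y (v ++ [false]) - p y v) ^ 2 / p y v

/-- the mass removed at the node `v` -/
def Rm (p pc : Y → List Bool → ℝ) (v : List Bool) : ℝ := ∑ y, (pc y v - p y v)

/-- label increments and removals along the path up to depth `n` -/
def pen (p pc : Y → List Bool → ℝ) (n : ℕ) (l : List Bool) : ℝ :=
  ∑ k ∈ Finset.range n, (Vl p pc (l.take k) + Rm p pc (l.take (k + 1)))

/-- the term of depth `k` of the shift with increments `D` -/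
def tD (D : List Bool → ℂ) (l : List Bool) (k : ℕ) : ℂ :=
  (sig (l.getD k false) (l.getD (k + 1) false) : ℂ) * D (l.take k)

/-- the window sum -/
def wD (D : List Bool → ℂ) (l : List Bool) (s t : ℕ) : ℂ := ∑ k ∈ Finset.Ico s t, tD D l k

theorem tm_eq_tD (e u : List Bool → ℂ) (l : List Bool) (k : ℕ) :
    tm e u l k = tD (fun v => e v * (u (v ++ [false]) - u v)) l k := rfl

theorem win_eq_wD (e u : List Bool → ℂ) (l : List Bool) (s t : ℕ) :
    win e u l s t = wD (fun v => e v * (u (v ++ [false]) - u v)) l s t := rfl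

/-- the nodes of the run: hereditary, size at most `ε² P`, mass at most `2 P` -/
structure GoodSet (ε P : ℝ) (p : Y → List Bool → ℝ) (u : Y → List Bool → ℂ)
    (Gd : List Bool → Prop) : Prop where
  her : ∀ v k, Gd v → Gd (v.take k)
  sz : ∀ v, Gd v → Sz p u v ≤ ε ^ 2 * P
  ms : ∀ v, Gd v → ∑ y, p y v ≤ 2 * P

end Crest.Agent.R100.Run
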