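import Crest.Agent.R100.LowUnion
import Crest.Agent.R100.LowFamA
import Crest.Agent.R100.RunDefs

/-!
# Row 100, STRUCT (helper8): splitting a function along the tree, induction on a rank
-/

set_option autoImplicit false

open MeasureTheory Set

noncomputable section

namespace Crest.Agent.R100.Split

open Crest.Agent.R100 Crest.Agent.R100.Low Crest.Agent.R100.Run

/-- a real function as a complex one -/
def cx (f : ℝ → ℝ) : ℝ → ℂ := fun y => (f y : ℂ)

/-- the average of `f` on the node `v` -/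
def avn (f : ℝ → ℝ) (α ℓ : ℝ) (v : List Bool) : ℝ := av f (nd α ℓ v) (ln ℓ v)

/-- admissible multipliers: indicators of hereditary sets of nodes where all averages of `f` are
`≤ B` -/
structure Supp (f : ℝ → ℝ) (α ℓ B : ℝ) (e : List Bool → ℂ) : Prop where
  le : ∀ v, ‖e v‖ ≤ 1
  alive : ∀ v, e v ≠ 0 → ∀ k, k ≤ v.length → avn f α ℓ (v.take k) ≤ B
  ind : ∀ v, e v = 0 ∨ e v = 1
  her : ∀ v k, e v ≠ 0 → e (v.take k) ≠ 0

/-- the cost of `f` below the top `[α, α+ℓ)` is at most `X` -/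
def Cost (f : ℝ → ℝ) (α ℓ B X : ℝ) : Prop :=
  ∀ (n : ℕ) (e : List Bool → ℂ), Supp f α ℓ B e → ∀ ξ : List Bool → ℝ,
    avg n (fun l => ‖win e (U (cx f) α ℓ (ξ l)) l 0 (n - 1)‖) ≤ X

/-- the cost of the life `H` (`H v` = what is left after the removals at `v`) is at most `X` -/
def Life (f : ℝ → ℝ) (H : List Bool → ℝ → ℝ) (α ℓ B X : ℝ) : Prop :=
  ∀ (n : ℕ) (e : List Bool → ℂ), Supp f α ℓ B e → ∀ ξ : List Bool → ℝ,
    avg n (fun l => ‖wD (fun v => e v * (U (cx (H v)) α ℓ (ξ l) (v ++ [false]) -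
      U (cx (H v)) α ℓ (ξ l) v)) l 0 (n - 1)‖) ≤ X

/-- measurable with values in `[0, M]` -/
structure Bd (M : ℝ) (f : ℝ → ℝ) : Prop where
  meas : Measurable f
  nn : ∀ y, 0 ≤ f y
  le : ∀ y, f y ≤ M

/-- `H v` is what is left of `f` after the pieces `r v i`, `i ∈ T v`, are removed at `v` -/
structure Dec {ι : Type*} (M : ℝ) (f : ℝ → ℝ) (H : List Bool → ℝ → ℝ) (T : List Bool → Finset ι)
    (r : List Bool → ι → ℝ → ℝ) : Prop where
  bf : Bd M f
  bH : ∀ v, Bd M (H v)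
  br : ∀ v, ∀ i ∈ T v, Bd M (r v i)
  root : ∀ y, f y = H [] y + ∑ i ∈ T [], r [] i y
  step : ∀ v c y, H v y = H (v ++ [c]) y + ∑ i ∈ T (v ++ [c]), r (v ++ [c]) i y

theorem Bd.cx_meas {M : ℝ} {f : ℝ → ℝ} (h : Bd M f) : Measurable (cx f) :=
  Complex.measurable_ofReal.comp h.meas

theorem Bd.cx_le {M : ℝ} {f : ℝ → ℝ} (h : Bd M f) (y : ℝ) : ‖cx f y‖ ≤ M := by
  unfold cx
  rw [Complex.norm_real, Real.norm_of_nonneg (h.nn y)]; exact h.le y

theorem Bd.ii {M : ℝ} {f : ℝ → ℝ} (h : Bd M f) (a b : ℝ) : IntervalIntegrable f volume a b :=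
  lowFamA_bdd h.meas.aestronglyMeasurable (M := M)
    (fun y => by rw [Real.norm_of_nonneg (h.nn y)]; exact h.le y) a b

theorem ln_append (ℓ : ℝ) (v x : List Bool) : ln ℓ (v ++ x) = ln (ln ℓ v) x := by
  unfold ln
  rw [List.length_append, pow_add, div_div]

theorem U_append (f : ℝ → ℂ) (α ℓ ξ : ℝ) (v x : List Bool) :
    U f α ℓ ξ (v ++ x) = U f (nd α ℓ v) (ln ℓ v) ξ x := by
  unfold U
  rw [famA_nd_append, ln_append]

theorem avn_append (f : ℝ → ℝ) (α ℓ : ℝ) (v x : List Bool) :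
    avn f α ℓ (v ++ x) = avn f (nd α ℓ v) (ln ℓ v) x := by
  unfold avn
  rw [famA_nd_append, ln_append]

theorem avn_nil (f : ℝ → ℝ) (α ℓ : ℝ) : avn f α ℓ [] = av f α ℓ := by
  simp [avn, nd, ln]

theorem avn_nonneg {M : ℝ} {f : ℝ → ℝ} (h : Bd M f) (α : ℝ) {ℓ : ℝ} (hℓ : 0 < ℓ) (v : List Bool) :
    0 ≤ avn f α ℓ v := by
  have h1 := lowFamA_ln_pos hℓ v
  unfold avn av
  exact div_nonneg (intervalIntegral.integral_nonneg (by linarith) fun y _ => h.nn y) h1.le

theorem avn_mono {M M' : ℝ} {f g : ℝ → ℝ} (hf : Bd M f) (hg : Bd M' g) (h : ∀ y, f y ≤ g y) (α : ℝ)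
    {ℓ : ℝ} (hℓ : 0 < ℓ) (v : List Bool) : avn f α ℓ v ≤ avn g α ℓ v := by
  have h1 := lowFamA_ln_pos hℓ v
  unfold avn av
  exact div_le_div_of_nonneg_right (intervalIntegral.integral_mono_on (by linarith) (hf.ii _ _)
    (hg.ii _ _) fun y _ => h y) h1.le

theorem avn_mart {M : ℝ} {f : ℝ → ℝ} (hf : Bd M f) (α : ℝ) {ℓ : ℝ} (hℓ : 0 < ℓ) (v : List Bool) :
    avn f α ℓ v = (avn f α ℓ (v ++ [false]) + avn f α ℓ (v ++ [true])) / 2 := by
  have h1 := lowFamA_ln_pos hℓ v
  unfold avn av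
  rw [nd_snoc, nd_snoc, ln_snoc, ln_snoc, lowFamA_ch_false, lowFamA_ch_true]
  have e : nd α ℓ v + ln ℓ v / 2 + ln ℓ v / 2 = nd α ℓ v + ln ℓ v := by ring
  rw [e, ← intervalIntegral.integral_add_adjacent_intervals (hf.ii _ (nd α ℓ v + ln ℓ v / 2))
    (hf.ii _ _)]
  field_simp

theorem U_dec {ι : Type*} {M : ℝ} {f h : ℝ → ℝ} {s : Finset ι} {F : ι → ℝ → ℝ} (hh : Bd M h)
    (hF : ∀ i ∈ s, Bd M (F i)) (e : ∀ y, f y = h y + ∑ i ∈ s, F i y) (α ℓ ξ : ℝ) (u : List Bool) :
    U (cx f) α ℓ ξ u = U (cx h) α ℓ ξ u + ∑ i ∈ s, U (cx (F i)) α ℓ ξ u := by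
  unfold U cu
  have h1 : ∀ y, cx f y * ex ξ y = cx h y * ex ξ y + ∑ i ∈ s, cx (F i) y * ex ξ y := fun y => by
    unfold cx
    rw [e y]; push_cast; rw [add_mul, Finset.sum_mul]
  have h2 : ∀ i ∈ s, IntervalIntegrable (fun y => cx (F i) y * ex ξ y) volume (nd α ℓ u)
      (nd α ℓ u + ln ℓ u) := fun i hi => lowFamA_int (hF i hi).cx_meas (hF i hi).cx_le ξ _ _
  simp only [h1]
  rw [intervalIntegral.integral_add (lowFamA_int hh.cx_meas hh.cx_le ξ _ _)
    (by simpa [Finset.sum_fn] using IntervalIntegrable.sum s h2),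
    intervalIntegral.integral_finsetSum h2, add_div, Finset.sum_div]

theorem avn_dec {ι : Type*} {M : ℝ} {f h : ℝ → ℝ} {s : Finset ι} {F : ι → ℝ → ℝ} (hh : Bd M h)
    (hF : ∀ i ∈ s, Bd M (F i)) (e : ∀ y, f y = h y + ∑ i ∈ s, F i y) (α ℓ : ℝ) (u : List Bool) :
    avn f α ℓ u = avn h α ℓ u + ∑ i ∈ s, avn (F i) α ℓ u := by
  unfold avn av
  have h2 : ∀ i ∈ s, IntervalIntegrable (F i) volume (nd α ℓ u)
      (nd α ℓ u + ln ℓ u) := fun i hi => (hF i hi).ii _ _
  simp only [e]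
  rw [intervalIntegral.integral_add (hh.ii _ _)
    (by simpa [Finset.sum_fn] using IntervalIntegrable.sum s h2),
    intervalIntegral.integral_finsetSum h2, add_div, Finset.sum_div]

variable {ι : Type*} {M : ℝ} {f : ℝ → ℝ} {H : List Bool → ℝ → ℝ} {T : List Bool → Finset ι}
  {r : List Bool → ι → ℝ → ℝ}

theorem Dec.H_le (h : Dec M f H T r) (v : List Bool) (y : ℝ) : H v y ≤ f y := by
  induction v using List.reverseRecOn with
  | nil =>
    have := h.root y
    have h2 : 0 ≤ ∑ i ∈ T [], r [] i y := Finset.sum_nonneg fun i hi => (h.br _ i hi).nn y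
    linarith
  | append_singleton w c ih =>
    have := h.step w c y
    have h2 : 0 ≤ ∑ i ∈ T (w ++ [c]), r (w ++ [c]) i y :=
      Finset.sum_nonneg fun i hi => (h.br _ i hi).nn y
    linarith

theorem Dec.r_le (h : Dec M f H T r) (v : List Bool) {i : ι} (hi : i ∈ T v) (y : ℝ) :
    r v i y ≤ f y := by
  have h1 : r v i y ≤ ∑ i ∈ T v, r v i y :=
    Finset.single_le_sum (f := fun i => r v i y) (fun i hi => (h.br _ i hi).nn y) hi
  have h2 := (h.bH v).nn y
  induction v using List.reverseRecOn with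
  | nil => have := h.root y; linarith
  | append_singleton w c _ =>
    have := h.step w c y
    have := h.H_le w y
    linarith

theorem Dec.U_eq (h : Dec M f H T r) (α ℓ ξ : ℝ) (u l : List Bool) : ∀ k, k ≤ l.length →
    U (cx f) α ℓ ξ u = U (cx (H (l.take k))) α ℓ ξ u +
      ∑ j ∈ Finset.Ico 0 (k + 1), ∑ i ∈ T (l.take j), U (cx (r (l.take j) i)) α ℓ ξ u
  | 0, _ => by
    simpa using U_dec (h.bH []) (h.br []) h.root α ℓ ξ u
  | k + 1, hk => by
    rw [h.U_eq α ℓ ξ u l k (by omega), Finset.sum_Ico_succ_top (Nat.zero_le (k + 1)),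
      List.take_succ_eq_append_getElem (show k < l.length by omega),
      U_dec (h.bH _) (h.br _) (h.step (l.take k) l[k]) α ℓ ξ u]
    ring

theorem Dec.win_eq (h : Dec M f H T r) (α ℓ ξ : ℝ) (e : List Bool → ℂ) (l : List Bool) {m : ℕ}
    (hm : m ≤ l.length) :
    win e (U (cx f) α ℓ ξ) l 0 m =
      wD (fun v => e v * (U (cx (H v)) α ℓ ξ (v ++ [false]) - U (cx (H v)) α ℓ ξ v)) l 0 m +
        ∑ j ∈ Finset.Ico 0 m, ∑ i ∈ T (l.take j), win e (U (cx (r (l.take j) i)) α ℓ ξ) l j m := by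
  unfold win wD
  have h1 : ∀ j ∈ Finset.Ico 0 m, ∑ i ∈ T (l.take j), ∑ k ∈ Finset.Ico j m,
      tm e (U (cx (r (l.take j) i)) α ℓ ξ) l k = ∑ k ∈ Finset.Ico j m, ∑ i ∈ T (l.take j),
      tm e (U (cx (r (l.take j) i)) α ℓ ξ) l k := fun j _ => Finset.sum_comm
  rw [Finset.sum_congr rfl h1, Finset.sum_Ico_Ico_comm, ← Finset.sum_add_distrib]
  refine Finset.sum_congr rfl fun k hk => ?_
  have hk' : k ≤ l.length := by have := (Finset.mem_Ico.1 hk).2; omega
  unfold tm tD
  rw [h.U_eq α ℓ ξ (l.take k ++ [false]) l k hk', h.U_eq α ℓ ξ (l.take k) l k hk']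
  simp only [mul_sub, Finset.sum_sub_distrib, ← Finset.mul_sum]
  ring

theorem Dec.supp (h : Dec M f H T r) {α ℓ B : ℝ} (hℓ : 0 < ℓ) {e : List Bool → ℂ}
    (he : Supp f α ℓ B e) (v : List Bool) {i : ι} (hi : i ∈ T v) :
    Supp (r v i) (nd α ℓ v) (ln ℓ v) B (fun x => e (v ++ x)) where
  le := fun x => he.le _
  alive := fun x hx k hk => by
    have h1 := he.alive (v ++ x) hx (v.length + k) (by rw [List.length_append]; omega)
    rw [List.take_length_add_append] at h1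
    rw [← avn_append]
    exact (avn_mono (h.br v i hi) h.bf (h.r_le v hi) α hℓ _).trans h1
  ind := fun x => he.ind _
  her := fun x k hx => by
    have := he.her (v ++ x) (v.length + k) hx
    rwa [List.take_length_add_append] at this

/-- **SPLIT**: cost of `f` = cost of the life + costs of the pieces -/
theorem split_cost (h : Dec M f H T r) {α ℓ B X₀ Y : ℝ} (hℓ : 0 < ℓ) (X : List Bool → ι → ℝ)
    (hlife : Life f H α ℓ B X₀)
    (hr : ∀ v, ∀ i ∈ T v, Cost (r v i) (nd α ℓ v) (ln ℓ v) B (X v i))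
    (hX : ∀ n, ∑ j ∈ Finset.range n, avg j (fun v => ∑ i ∈ T v, X v i) ≤ Y) :
    Cost f α ℓ B (X₀ + Y) := by
  intro n e he ξ
  have h1 : avg n (fun l => ‖win e (U (cx f) α ℓ (ξ l)) l 0 (n - 1)‖) ≤
      avg n (fun l => ‖wD (fun v => e v * (U (cx (H v)) α ℓ (ξ l) (v ++ [false]) -
        U (cx (H v)) α ℓ (ξ l) v)) l 0 (n - 1)‖ + ∑ j ∈ Finset.range (n - 1),
          ∑ i ∈ T (l.take j), ‖win e (U (cx (r (l.take j) i)) α ℓ (ξ l)) l j (n - 1)‖) := by
    refine avg_mono_len n fun l hl => ?_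
    rw [h.win_eq α ℓ (ξ l) e l (show n - 1 ≤ l.length by omega), Finset.range_eq_Ico]
    refine (norm_add_le _ _).trans (add_le_add le_rfl ((norm_sum_le _ _).trans
      (Finset.sum_le_sum fun j _ => norm_sum_le _ _)))
  rw [avg_add', avg_sum n (Finset.range (n - 1)) (fun j l => ∑ i ∈ T (l.take j),
    ‖win e (U (cx (r (l.take j) i)) α ℓ (ξ l)) l j (n - 1)‖)] at h1
  refine h1.trans (add_le_add (hlife n e he ξ) (le_trans (Finset.sum_le_sum fun j hj => ?_)
    (hX (n - 1))))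
  have hj' : j ≤ n := by have := Finset.mem_range.1 hj; omega
  obtain ⟨m, rfl⟩ := Nat.exists_eq_add_of_le hj'
  rw [avg_split]
  refine avg_mono_len j fun v hv => ?_
  have e1 : ∀ w : List Bool, (v ++ w).take j = v := fun w => by rw [← hv]; simp
  simp only [e1]
  rw [avg_sum m (T v) (fun i w => ‖win e (U (cx (r v i)) α ℓ (ξ (v ++ w))) (v ++ w) j (j + m - 1)‖)]
  refine Finset.sum_le_sum fun i hi => ?_
  have h2 := hr v i hi m (fun x => e (v ++ x)) (h.supp hℓ he v hi) (fun w => ξ (v ++ w))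
  refine le_trans (le_of_eq ?_) h2
  congr 1
  funext w
  rw [win_shift e _ v w j _ hv.le, hv, Nat.sub_self, show j + m - 1 - j = m - 1 by omega]
  simp only [U_append]

theorem Dec.mass_eq (h : Dec M f H T r) (α : ℝ) {ℓ : ℝ} (hℓ : 0 < ℓ) : ∀ n : ℕ,
    avg n (fun v => avn (H v) α ℓ v) + ∑ j ∈ Finset.range (n + 1),
      avg j (fun v => ∑ i ∈ T v, avn (r v i) α ℓ v) = av f α ℓ
  | 0 => by
    have := avn_dec (h.bH []) (h.br []) h.root α ℓ []
    rw [avn_nil] at this
    simp [avg, this]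
  | n + 1 => by
    rw [← h.mass_eq α hℓ n, Finset.sum_range_succ _ (n + 1), avg_snoc, avg_snoc n]
    have : avg n (fun v => avn (H v) α ℓ v) =
        avg n (fun v => (avn (H (v ++ [false])) α ℓ (v ++ [false]) +
          avn (H (v ++ [true])) α ℓ (v ++ [true])) / 2 +
          (∑ i ∈ T (v ++ [false]), avn (r (v ++ [false]) i) α ℓ (v ++ [false]) +
            ∑ i ∈ T (v ++ [true]), avn (r (v ++ [true]) i) α ℓ (v ++ [true])) / 2) := by
      congr 1
      funext v
      rw [avn_mart (h.bH v) α hℓ v, avn_dec (h.bH _) (h.br _) (h.step v false),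
        avn_dec (h.bH _) (h.br _) (h.step v true)]
      ring
    rw [this, avg_add']
    ring

/-- the removed pieces have total mass at most the mass of `f` -/
theorem mass_pieces (h : Dec M f H T r) (α : ℝ) {ℓ : ℝ} (hℓ : 0 < ℓ) (n : ℕ) :
    ∑ j ∈ Finset.range n, avg j (fun v => ∑ i ∈ T v, avn (r v i) α ℓ v) ≤ av f α ℓ := by
  have h1 := h.mass_eq α hℓ n
  rw [Finset.sum_range_succ] at h1
  have h2 : 0 ≤ avg n (fun v => avn (H v) α ℓ v) :=
    avg_nonneg_len n fun v _ => avn_nonneg (h.bH v) α hℓ v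
  have h3 : 0 ≤ avg n (fun v => ∑ i ∈ T v, avn (r v i) α ℓ v) :=
    avg_nonneg_len n fun v _ => Finset.sum_nonneg fun i hi => avn_nonneg (h.br v i hi) α hℓ v
  linarith

/-- a dead piece costs nothing -/
theorem Cost_dead {g : ℝ → ℝ} {α ℓ B : ℝ} (h : B < av g α ℓ) : Cost g α ℓ B 0 := by
  intro n e he ξ
  have h0 : ∀ v, e v = 0 := fun v => by
    by_contra hv
    have := he.alive v hv 0 (Nat.zero_le _)
    rw [List.take_zero, avn_nil] at this
    linarith
  simp [win, tm, h0, avg_const]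

theorem Cost.mono {g : ℝ → ℝ} {α ℓ B X X' : ℝ} (h : Cost g α ℓ B X) (hX : X ≤ X') :
    Cost g α ℓ B X' := fun n e he ξ => (h n e he ξ).trans hX

/-- **induction on the rank.** Each state `s` (function `F s` on the top `(α s, ℓ s)`, level `P s`)
has a life of cost `≤ Dc * P s`; each removed piece is either paid directly (`J v i`, total
`≤ Dc * P s`) or is a state of smaller rank whose level is at most four times its mass. -/
theorem tree_ind {S : Type*} (F : S → ℝ → ℝ) (α ℓ P : S → ℝ) (rk : S → ℕ) {B Dc : ℝ}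
    (hD : 0 ≤ Dc) (hℓ : ∀ s, 0 < ℓ s)
    (hstep : ∀ s, ∃ (H : List Bool → ℝ → ℝ) (T : List Bool → Finset ι)
      (r : List Bool → ι → ℝ → ℝ) (J : List Bool → ι → ℝ), Dec M (F s) H T r ∧
      Life (F s) H (α s) (ℓ s) B (Dc * P s) ∧
      (∀ n, ∑ j ∈ Finset.range n, avg j (fun v => ∑ i ∈ T v, J v i) ≤ Dc * P s) ∧
      ∀ v, ∀ i ∈ T v, 0 ≤ J v i ∧ (Cost (r v i) (nd (α s) (ℓ s) v) (ln (ℓ s) v) B (J v i) ∨
        ∃ s', F s' = r v i ∧ α s' = nd (α s) (ℓ s) v ∧ ℓ s' = ln (ℓ s) v ∧ rk s' < rk s ∧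
          P s' ≤ 4 * avn (r v i) (α s) (ℓ s) v))
    (s : S) : Cost (F s) (α s) (ℓ s) B (Dc * (2 * P s + 8 * rk s * av (F s) (α s) (ℓ s))) := by
  induction hk : rk s using Nat.strong_induction_on generalizing s with
  | _ k ih =>
    obtain ⟨H, T, r, J, hdec, hlife, hJ, hp⟩ := hstep s
    have hk0 : (0 : ℝ) ≤ k := Nat.cast_nonneg k
    have := split_cost hdec (hℓ s) (Y := Dc * P s + Dc * (8 * k) * av (F s) (α s) (ℓ s))
      (fun v i => J v i + Dc * (8 * k) * avn (r v i) (α s) (ℓ s) v) hlife (fun v i hi => by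
        obtain ⟨h0, h1 | ⟨s', e1, e2, e3, hr, hP⟩⟩ := hp v i hi
        · refine h1.mono ?_
          have := avn_nonneg (hdec.br v i hi) (α s) (hℓ s) v
          have : 0 ≤ Dc * (8 * k) * avn (r v i) (α s) (ℓ s) v := by positivity
          linarith
        · have h2 := ih (rk s') (by omega) s' rfl
          rw [e1, e2, e3] at h2
          refine h2.mono ?_
          have h3 := avn_nonneg (hdec.br v i hi) (α s) (hℓ s) v
          have h4 : (rk s' : ℝ) + 1 ≤ k := by exact_mod_cast (show rk s' + 1 ≤ k by omega)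
          change Dc * (2 * P s' + 8 * rk s' * avn (r v i) (α s) (ℓ s) v) ≤ _
          have h5 : 2 * P s' + 8 * rk s' * avn (r v i) (α s) (ℓ s) v ≤
              8 * k * avn (r v i) (α s) (ℓ s) v := by nlinarith
          have h6 := mul_le_mul_of_nonneg_left h5 hD
          linarith) (fun n => by
        have h1 := hJ n
        have h2 := mass_pieces hdec (α s) (hℓ s) n
        have h3 : ∀ j, avg j (fun v => ∑ i ∈ T v, (J v i + Dc * (8 * k) * avn (r v i) (α s) (ℓ s) v))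
            = avg j (fun v => ∑ i ∈ T v, J v i) +
              Dc * (8 * k) * avg j (fun v => ∑ i ∈ T v, avn (r v i) (α s) (ℓ s) v) := fun j => by
          rw [← avg_mul_left, ← avg_add']
          simp only [Finset.sum_add_distrib, Finset.mul_sum]
        simp only [h3]
        rw [Finset.sum_add_distrib, ← Finset.mul_sum]
        have h4 := mul_le_mul_of_nonneg_left h2 (show 0 ≤ Dc * (8 * k) by positivity)
        linarith)
    refine this.mono (le_of_eq ?_)
    ring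

/-- **induction on the rank with an extra additive budget `Q`** (death depth). Each state `s` (function `F s` on the top `(α s, ℓ s)`, level `P s`)
has a life of cost `≤ Dc * P s`; each removed piece is either paid directly (`J v i`, total
`≤ Dc * P s`) or is a state of smaller rank whose level is at most four times its mass. -/
theorem tree_indQ {S : Type*} (F : S → ℝ → ℝ) (α ℓ P Q : S → ℝ) (rk : S → ℕ) {B Dc : ℝ}
    (hD : 0 ≤ Dc) (hℓ : ∀ s, 0 < ℓ s)
    (hstep : ∀ s, ∃ (H : List Bool → ℝ → ℝ) (T : List Bool → Finset ι)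
      (r : List Bool → ι → ℝ → ℝ) (J : List Bool → ι → ℝ), Dec M (F s) H T r ∧
      Life (F s) H (α s) (ℓ s) B (Dc * P s) ∧
      (∀ n, ∑ j ∈ Finset.range n, avg j (fun v => ∑ i ∈ T v, J v i) ≤ Dc * P s + Q s) ∧
      ∀ v, ∀ i ∈ T v, 0 ≤ J v i ∧ (Cost (r v i) (nd (α s) (ℓ s) v) (ln (ℓ s) v) B (J v i) ∨
        ∃ s', F s' = r v i ∧ α s' = nd (α s) (ℓ s) v ∧ ℓ s' = ln (ℓ s) v ∧ rk s' < rk s ∧
          P s' ≤ 4 * avn (r v i) (α s) (ℓ s) v ∧ Q s' ≤ J v i))
    (s : S) :
    Cost (F s) (α s) (ℓ s) B (Dc * (2 * P s + 8 * rk s * av (F s) (α s) (ℓ s)) + Q s) := by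
  induction hk : rk s using Nat.strong_induction_on generalizing s with
  | _ k ih =>
    obtain ⟨H, T, r, J, hdec, hlife, hJ, hp⟩ := hstep s
    have hk0 : (0 : ℝ) ≤ k := Nat.cast_nonneg k
    have := split_cost hdec (hℓ s) (Y := Dc * P s + Q s + Dc * (8 * k) * av (F s) (α s) (ℓ s))
      (fun v i => J v i + Dc * (8 * k) * avn (r v i) (α s) (ℓ s) v) hlife (fun v i hi => by
        obtain ⟨h0, h1 | ⟨s', e1, e2, e3, hr, hP, hQ⟩⟩ := hp v i hi
        · refine h1.mono ?_
          have := avn_nonneg (hdec.br v i hi) (α s) (hℓ s) v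
          have : 0 ≤ Dc * (8 * k) * avn (r v i) (α s) (ℓ s) v := by positivity
          linarith
        · have h2 := ih (rk s') (by omega) s' rfl
          rw [e1, e2, e3] at h2
          refine h2.mono ?_
          have h3 := avn_nonneg (hdec.br v i hi) (α s) (hℓ s) v
          have h4 : (rk s' : ℝ) + 1 ≤ k := by exact_mod_cast (show rk s' + 1 ≤ k by omega)
          change Dc * (2 * P s' + 8 * rk s' * avn (r v i) (α s) (ℓ s) v) + Q s' ≤ _
          have h5 : 2 * P s' + 8 * rk s' * avn (r v i) (α s) (ℓ s) v ≤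
              8 * k * avn (r v i) (α s) (ℓ s) v := by nlinarith
          have h6 := mul_le_mul_of_nonneg_left h5 hD
          linarith) (fun n => by
        have h1 := hJ n
        have h2 := mass_pieces hdec (α s) (hℓ s) n
        have h3 : ∀ j, avg j (fun v => ∑ i ∈ T v, (J v i + Dc * (8 * k) * avn (r v i) (α s) (ℓ s) v))
            = avg j (fun v => ∑ i ∈ T v, J v i) +
              Dc * (8 * k) * avg j (fun v => ∑ i ∈ T v, avn (r v i) (α s) (ℓ s) v) := fun j => by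
          rw [← avg_mul_left, ← avg_add']
          simp only [Finset.sum_add_distrib, Finset.mul_sum]
        simp only [h3]
        rw [Finset.sum_add_distrib, ← Finset.mul_sum]
        have h4 := mul_le_mul_of_nonneg_left h2 (show 0 ≤ Dc * (8 * k) by positivity)
        linarith)
    refine this.mono (le_of_eq ?_)
    ring

end Crest.Agent.R100.Split
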