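import Crest.Agent.R100.Str15

/-!
# Row 100, STRUCT (helper15): the abstract state machine
Classes, lives, captures at every node, doubling, death depth; one induction on the rank.
-/

set_option autoImplicit false

open MeasureTheory Set

noncomputable section

namespace Crest.Agent.R100.Str

open Crest.Agent.R100 Crest.Agent.R100.Low

/-- the rank of a class with mask part `a` and life level `P` -/
def rk (B a P : ℝ) : ℝ := 4 * Real.logb 2 (4 * B / P) + a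

/-- The abstract system. `ok s α ℓ d`: the state `s` is valid at `[α, α+ℓ)` and dies after `d`
more levels; `rho`: the measure of the death nodes; `quiet s α ℓ P`: no trigger at level `P`;
`sub s s'`: `s'` comes from `s` by removals. -/
structure Sys (σ : Type*) (g : ℝ → ℂ) (B ε Cd Cr θ A₀ : ℝ) where
  fn : σ → ℝ → ℂ
  ok : σ → ℝ → ℝ → ℕ → Prop
  a : σ → ℝ
  rho : σ → ℝ → ℝ → ℕ → ℝ
  quiet : σ → ℝ → ℝ → ℝ → Prop
  sub : σ → σ → Prop
  hB : 0 < B
  hCd : 0 ≤ Cd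
  hCr : 0 ≤ Cr
  hθ : 0 < θ
  bmg : BM g
  bm : ∀ s, BM (fn s)
  le : ∀ s y, ‖fn s y‖ ≤ ‖g y‖
  sub_refl : ∀ s, sub s s
  sub_trans : ∀ s s' s'', sub s s' → sub s' s'' → sub s s''
  ok_ch : ∀ s α ℓ d c, 0 < ℓ → ok s α ℓ (d + 1) → ok s (ch c α ℓ) (ℓ / 2) d
  a_nn : ∀ s α ℓ d, 0 < ℓ → ok s α ℓ d → 0 ≤ a s
  rho_nn : ∀ s α ℓ d, 0 ≤ rho s α ℓ d
  rho_mart : ∀ s α ℓ d, 0 < ℓ →
    (rho s (ch false α ℓ) (ℓ / 2) d + rho s (ch true α ℓ) (ℓ / 2) d) / 2 ≤ rho s α ℓ (d + 1)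
  /-- death -/
  crude : ∀ s α ℓ, 0 < ℓ → ok s α ℓ 0 → CB g B ε (fn s) α ℓ (Cr * rho s α ℓ 0)
  /-- one capture at a triggered node -/
  cap : ∀ s α ℓ d P, 0 < ℓ → 0 < P → P ≤ 4 * B → ok s α ℓ (d + 1) → ca (fn s) α ℓ ≤ P →
    rk B (a s) P ≤ A₀ → ¬ quiet s α ℓ P →
    ∃ s' b db, sub s s' ∧ ok s' α ℓ (d + 1) ∧ a s' = a s ∧
      rho s' α ℓ (d + 1) ≤ rho s α ℓ (d + 1) ∧ fn s = fn s' + fn b ∧
      (∀ y, ‖fn s' y‖ + ‖fn b y‖ ≤ ‖fn s y‖) ∧ θ * P ≤ ca (fn b) α ℓ ∧ ok b α ℓ db ∧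
      rk B (a b) (ca (fn b) α ℓ) ≤ rk B (a s) P - 2 ∧ Cr * rho b α ℓ db ≤ Cd * ca (fn b) α ℓ
  /-- one life -/
  life : ∀ (s₀ : σ) (α ℓ : ℝ) (d : ℕ) (P : ℝ) (st : List Bool → σ) (In : List Bool → Prop),
    0 < ℓ → 0 < P → P ≤ 4 * B → ok s₀ α ℓ d → ca (fn s₀) α ℓ ≤ P → rk B (a s₀) P ≤ A₀ →
    (∀ v k, In v → In (v.take k)) →
    (∀ v, In v → v.length < d ∧ ok (st v) (nd α ℓ v) (ln ℓ v) (d - v.length) ∧
      quiet (st v) (nd α ℓ v) (ln ℓ v) P ∧ ms (fn (st v)) α ℓ v ≤ P) →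
    (∀ v, a (st v) = a s₀) → sub s₀ (st []) →
    (∀ v c, sub (st v) (st (v ++ [c])) ∧ (st (v ++ [c]) = st v ∨ (In (v ++ [c]) ∧
      ms (fn (st (v ++ [c]))) α ℓ (v ++ [c]) + θ * P ≤ ms (fn (st v)) α ℓ (v ++ [c])))) →
    ∀ (n : ℕ) (ξ : List Bool → ℝ) (e : List Bool → ℂ), Mul e → (∀ v, e v ≠ 0 → In v) →
      avg n (fun l => ‖∑ k ∈ Finset.range (n - 1),
        tm e (U (fn (st (l.take k))) α ℓ (ξ l)) l k‖) ≤ Cd * P

theorem rk_double {B a P : ℝ} (hB : 0 < B) (hP : 0 < P) : rk B a (2 * P) = rk B a P - 4 := by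
  have : 4 * B / (2 * P) = 4 * B / P / 2 := by field_simp
  rw [rk, rk, this, Real.logb_div (by positivity) (by norm_num),
    Real.logb_self_eq_one (by norm_num)]
  ring

theorem rk_nonneg {B a P : ℝ} (hP : 0 < P) (hPB : P ≤ 4 * B) (ha : 0 ≤ a) : 0 ≤ rk B a P := by
  have : 0 ≤ Real.logb 2 (4 * B / P) :=
    Real.logb_nonneg (by norm_num) (by rw [le_div_iff₀ hP]; linarith)
  rw [rk]; linarith

theorem exists_st {E : Type*} (Pre : List Bool → E → Prop) (Rel : List Bool → E → E → Prop) (e₀ : E)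
    (h0 : Pre [] e₀) (hex : ∀ v e, Pre v e → ∃ e', Rel v e e')
    (hn : ∀ v e e' c, Rel v e e' → Pre (v ++ [c]) e') :
    ∃ st : List Bool → E, Rel [] e₀ (st []) ∧ ∀ v c, Rel (v ++ [c]) (st v) (st (v ++ [c])) := by
  classical
  have hex' : ∀ v e, ∃ e', Pre v e → Rel v e e' := fun v e => by
    by_cases h : Pre v e
    · obtain ⟨e', he'⟩ := hex v e h
      exact ⟨e', fun _ => he'⟩
    · exact ⟨e, fun h' => absurd h' h⟩
  choose step hstep using hex'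
  let sr : List Bool → E := fun r =>
    List.rec (step [] e₀) (fun c r x => step (r.reverse ++ [c]) x) r
  have hs : ∀ v c, sr (v ++ [c]).reverse = step (v ++ [c]) (sr v.reverse) := fun v c => by
    simp [sr]
  have key : ∀ v : List Bool, ∃ e, Rel v e (sr v.reverse) := by
    intro v
    induction v using List.reverseRecOn with
    | nil => exact ⟨e₀, hstep [] e₀ h0⟩
    | append_singleton v c ih =>
      obtain ⟨e, he⟩ := ih
      exact ⟨sr v.reverse, by rw [hs]; exact hstep _ _ (hn v e _ c he)⟩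
  refine ⟨fun v => sr v.reverse, hstep [] e₀ h0, fun v c => ?_⟩
  obtain ⟨e, he⟩ := key v
  simp only [hs]
  exact hstep _ _ (hn v e _ c he)

variable {σ : Type*} {g : ℝ → ℂ} {B ε Cd Cr θ A₀ : ℝ}

/-- the claim -/
def Sys.Cl (S : Sys σ g B ε Cd Cr θ A₀) (N : ℝ) : Prop :=
  ∀ s α ℓ d P, 0 < ℓ → 0 < P → P ≤ 4 * B → S.ok s α ℓ d → ca (S.fn s) α ℓ ≤ P →
    rk B (S.a s) P ≤ A₀ → rk B (S.a s) P < N →
      CB g B ε (S.fn s) α ℓ (Cd * (P + ca (S.fn s) α ℓ * rk B (S.a s) P) + Cr * S.rho s α ℓ d)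

/-- cleaning of one node -/
theorem Sys.clean (S : Sys σ g B ε Cd Cr θ A₀) {N : ℝ} (ih : S.Cl N) {α ℓ P : ℝ} (d : ℕ)
    (hℓ : 0 < ℓ) (hP : 0 < P) (hPB : P ≤ 4 * B) : ∀ (m : ℕ) (s : σ), S.ok s α ℓ (d + 1) →
      ca (S.fn s) α ℓ ≤ P → rk B (S.a s) P ≤ A₀ → rk B (S.a s) P < N + 1 →
      ca (S.fn s) α ℓ < m * (θ * P) →
      ∃ s' Rm, S.sub s s' ∧ S.ok s' α ℓ (d + 1) ∧ S.a s' = S.a s ∧
        S.rho s' α ℓ (d + 1) ≤ S.rho s α ℓ (d + 1) ∧ S.quiet s' α ℓ P ∧ BM Rm ∧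
        S.fn s = S.fn s' + Rm ∧ ca (S.fn s') α ℓ ≤ ca (S.fn s) α ℓ ∧
        (s' = s ∨ ca (S.fn s') α ℓ + θ * P ≤ ca (S.fn s) α ℓ) ∧
        CB g B ε Rm α ℓ (Cd * rk B (S.a s) P * (ca (S.fn s) α ℓ - ca (S.fn s') α ℓ))
  | 0, s, _, _, _, _, hm => by
    have := ca_nonneg (S.fn s) α hℓ
    simp only [Nat.cast_zero, zero_mul] at hm
    linarith
  | m + 1, s, hok, hc, hA, hN, hm => by
    by_cases hq : S.quiet s α ℓ P
    · refine ⟨s, 0, S.sub_refl s, hok, rfl, le_rfl, hq, BM.zero, by simp, le_rfl, Or.inl rfl, ?_⟩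
      simpa using CB.zero g B ε α ℓ
    obtain ⟨s₁, b, db, h1, h2, h3, h4, h5, h6, h7, h8, h9, h10⟩ :=
      S.cap s α ℓ d P hℓ hP hPB hok hc hA hq
    have hθP : 0 < θ * P := mul_pos S.hθ hP
    have hadd := ca_add_le (S.bm s) (S.bm s₁) (S.bm b) h6 α hℓ
    have hs1 := ca_nonneg (S.fn s₁) α hℓ
    obtain ⟨s', Rm, g1, g2, g3, g4, g5, g6, g7, g8, g9, g10⟩ :=
      Sys.clean S ih d hℓ hP hPB m s₁ h2 (by linarith) (by rwa [h3]) (by rwa [h3])
        (by push_cast at hm; linarith)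
    have hb := ih b α ℓ db (ca (S.fn b) α ℓ) hℓ (by linarith) (by linarith) h8 le_rfl
      (by linarith) (by linarith)
    have hA0 := rk_nonneg hP hPB (S.a_nn s α ℓ _ hℓ hok)
    refine ⟨s', Rm + S.fn b, S.sub_trans _ _ _ h1 g1, g2, g3.trans h3, g4.trans h4, g5,
      g6.add (S.bm b), by rw [h5, g7, add_assoc], by linarith, Or.inr (by linarith), ?_⟩
    refine (CB.add g6 (S.bm b) g10 hb).mono ?_
    rw [h3]
    have hmb : 0 ≤ ca (S.fn b) α ℓ := by linarith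
    have e1 : ca (S.fn b) α ℓ * rk B (S.a b) (ca (S.fn b) α ℓ) ≤
        ca (S.fn b) α ℓ * (rk B (S.a s) P - 2) := mul_le_mul_of_nonneg_left h9 hmb
    have e2 := mul_le_mul_of_nonneg_left e1 S.hCd
    have e3 : Cd * rk B (S.a s) P * (ca (S.fn s₁) α ℓ + ca (S.fn b) α ℓ) ≤
        Cd * rk B (S.a s) P * ca (S.fn s) α ℓ :=
      mul_le_mul_of_nonneg_left hadd (mul_nonneg S.hCd hA0)
    nlinarith

open Classical in
/-- the living part -/
def Sys.Fn (S : Sys σ g B ε Cd Cr θ A₀) (e : σ × Prop × (ℝ → ℂ) × ℝ) : ℝ → ℂ :=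
  if e.2.1 then S.fn e.1 else 0

open Classical in
/-- the potential -/
def Sys.V (S : Sys σ g B ε Cd Cr θ A₀) (A α ℓ : ℝ) (d : ℕ) (e : σ × Prop × (ℝ → ℂ) × ℝ)
    (v : List Bool) : ℝ :=
  if e.2.1 then Cd * A * ms (S.fn e.1) α ℓ v + Cr * S.rho e.1 (nd α ℓ v) (ln ℓ v) (d - v.length)
  else 0

theorem ca_mono {f f' : ℝ → ℂ} (h : BM f) (h' : BM f') (hle : ∀ y, ‖f y‖ ≤ ‖f' y‖) (a : ℝ) {lam : ℝ}
    (hl : 0 < lam) : ca f a lam ≤ ca f' a lam := by
  have := ca_add_le h' h BM.zero (fun y => by simpa using hle y) a hl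
  have h2 := ca_nonneg 0 a hl
  linarith

theorem Sys.step (S : Sys σ g B ε Cd Cr θ A₀) {N : ℝ} (ih : S.Cl N) : S.Cl (N + 1) := by
  classical
  intro s₀ α ℓ d P hℓ hP hPB hok hc hA hN
  set A := rk B (S.a s₀) P with hAdef
  have hA0 : 0 ≤ A := rk_nonneg hP hPB (S.a_nn s₀ α ℓ _ hℓ hok)
  have hms : ∀ (f : ℝ → ℂ) v, 0 ≤ ms f α ℓ v := fun f v => ca_nonneg _ _ (lowFamA_ln_pos hℓ v)
  have hV : ∀ e v, 0 ≤ S.V A α ℓ d e v := fun e v => by
    unfold Sys.V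
    split_ifs
    · exact add_nonneg (mul_nonneg (mul_nonneg S.hCd hA0) (hms _ _))
        (mul_nonneg S.hCr (S.rho_nn _ _ _ _))
    · exact le_rfl
  obtain ⟨st, hst0, hst⟩ := exists_st
    (fun v (e : σ × Prop × (ℝ → ℂ) × ℝ) => S.a e.1 = S.a s₀ ∧ (e.2.1 → v.length ≤ d ∧
      S.ok e.1 (nd α ℓ v) (ln ℓ v) (d - v.length) ∧ ms (S.fn e.1) α ℓ v ≤ 2 * P))
    (fun v e e' => S.sub e.1 e'.1 ∧ S.a e'.1 = S.a s₀ ∧ (e'.2.1 → e.2.1) ∧
      (e'.2.1 → v.length < d ∧ S.ok e'.1 (nd α ℓ v) (ln ℓ v) (d - v.length) ∧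
        S.quiet e'.1 (nd α ℓ v) (ln ℓ v) P ∧ ms (S.fn e'.1) α ℓ v ≤ P) ∧
      (e'.1 = e.1 ∨ (e'.2.1 ∧ ms (S.fn e'.1) α ℓ v + θ * P ≤ ms (S.fn e.1) α ℓ v)) ∧
      BM e'.2.2.1 ∧ S.Fn e = S.Fn e' + e'.2.2.1 ∧ CB g B ε e'.2.2.1 (nd α ℓ v) (ln ℓ v) e'.2.2.2 ∧
      S.V A α ℓ d e' v + e'.2.2.2 ≤ S.V A α ℓ d e v)
    (s₀, True, 0, 0) ⟨rfl, fun _ => ⟨by simp, by simpa [nd, ln] using hok,
      by simp only [ms, nd, ln, List.length_nil, pow_zero, div_one]; linarith⟩⟩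
    (by
      rintro v ⟨s, I, R₀, b₀⟩ ⟨ha, hI⟩
      simp only at ha hI
      have hl := lowFamA_ln_pos hℓ v
      by_cases hi : I
      swap
      · refine ⟨(s, False, 0, 0), S.sub_refl _, ha, False.elim, False.elim, Or.inl rfl, BM.zero,
          by simp [Sys.Fn, hi], CB.zero _ _ _ _ _, by simp [Sys.V, hi]⟩
      obtain ⟨h1, h2, h3⟩ := hI hi
      have exit : ∀ x, CB g B ε (S.fn s) (nd α ℓ v) (ln ℓ v) x →
          x ≤ Cd * A * ms (S.fn s) α ℓ v + Cr * S.rho s (nd α ℓ v) (ln ℓ v) (d - v.length) →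
          ∃ e' : σ × Prop × (ℝ → ℂ) × ℝ, S.sub s e'.1 ∧ S.a e'.1 = S.a s₀ ∧ (e'.2.1 → I) ∧
          (e'.2.1 → v.length < d ∧ S.ok e'.1 (nd α ℓ v) (ln ℓ v) (d - v.length) ∧
            S.quiet e'.1 (nd α ℓ v) (ln ℓ v) P ∧ ms (S.fn e'.1) α ℓ v ≤ P) ∧
          (e'.1 = s ∨ (e'.2.1 ∧ ms (S.fn e'.1) α ℓ v + θ * P ≤ ms (S.fn s) α ℓ v)) ∧
          BM e'.2.2.1 ∧ S.Fn (s, I, R₀, b₀) = S.Fn e' + e'.2.2.1 ∧
          CB g B ε e'.2.2.1 (nd α ℓ v) (ln ℓ v) e'.2.2.2 ∧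
          S.V A α ℓ d e' v + e'.2.2.2 ≤ S.V A α ℓ d (s, I, R₀, b₀) v := fun x hx hx' =>
        ⟨(s, False, S.fn s, x), S.sub_refl _, ha, False.elim, False.elim, Or.inl rfl, S.bm s,
          by simp [Sys.Fn, hi], hx, by simpa [Sys.V, hi] using hx'⟩
      have n1 : 0 ≤ Cd * A * ms (S.fn s) α ℓ v := mul_nonneg (mul_nonneg S.hCd hA0) (hms _ _)
      have n2 : 0 ≤ Cr * S.rho s (nd α ℓ v) (ln ℓ v) (d - v.length) :=
        mul_nonneg S.hCr (S.rho_nn _ _ _ _)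
      by_cases hdead : B < ca g (nd α ℓ v) (ln ℓ v)
      · exact exit 0 (CB.dead hdead _) (by linarith)
      by_cases hd : v.length = d
      · have e0 : d - v.length = 0 := by omega
        rw [e0] at h2
        exact exit _ (S.crude s _ _ hl h2) (by rw [e0]; linarith)
      by_cases hm : P < ms (S.fn s) α ℓ v
      · have hle : ms (S.fn s) α ℓ v ≤ B :=
          (ca_mono (S.bm s) S.bmg (S.le s) _ hl).trans (not_lt.1 hdead)
        have hr : rk B (S.a s) (2 * P) = A - 4 := by rw [rk_double S.hB hP, ha]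
        have := ih s _ _ _ (2 * P) hl (by linarith) (by linarith) h2 h3 (by linarith) (by linarith)
        refine exit _ this ?_
        rw [hr]
        have e1 : 0 ≤ Cd * (4 * ms (S.fn s) α ℓ v - 2 * P) := mul_nonneg S.hCd (by linarith)
        simp only [ms] at e1 ⊢
        nlinarith
      obtain ⟨d', hd'⟩ : ∃ d', d - v.length = d' + 1 := ⟨d - v.length - 1, by omega⟩
      rw [hd'] at h2
      have hθP : 0 < θ * P := mul_pos S.hθ hP
      obtain ⟨m, hm'⟩ := exists_nat_gt (ms (S.fn s) α ℓ v / (θ * P))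
      rw [div_lt_iff₀ hθP] at hm'
      obtain ⟨s', Rm, g1, g2, g3, g4, g5, g6, g7, g8, g9, g10⟩ :=
        S.clean ih d' hl hP hPB m s h2 (not_lt.1 hm) (by rwa [ha]) (by rwa [ha]) hm'
      refine ⟨(s', True, Rm, _), g1, g3.trans ha, fun _ => hi,
        fun _ => ⟨by omega, by rwa [hd'], g5, g8.trans (not_lt.1 hm)⟩,
        g9.imp id fun h => ⟨trivial, h⟩, g6, by simpa [Sys.Fn, hi] using g7, g10, ?_⟩
      have := mul_le_mul_of_nonneg_left g4 S.hCr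
      simp only [Sys.V, hi, if_true, hd', ha, ms]
      rw [← hAdef]
      linarith)
    (by
      rintro v e e' c ⟨-, h2, -, h4, -⟩
      refine ⟨h2, fun hi => ?_⟩
      obtain ⟨g1, g2, -, g4⟩ := h4 hi
      refine ⟨by simp; omega, ?_, ?_⟩
      · rw [nd_snoc, ln_snoc]
        refine S.ok_ch _ _ _ _ _ (lowFamA_ln_pos hℓ v) ?_
        have : d - (v ++ [c]).length + 1 = d - v.length := by simp; omega
        rwa [this]
      · have := ms_mart (S.bm e'.1) α hℓ v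
        have a1 := hms (S.fn e'.1) (v ++ [false])
        have a2 := hms (S.fn e'.1) (v ++ [true])
        cases c <;> linarith)
  have hall : ∀ v : List Bool, S.a (st v).1 = S.a s₀ ∧
      ((st v).2.1 → v.length < d ∧ S.ok (st v).1 (nd α ℓ v) (ln ℓ v) (d - v.length) ∧
        S.quiet (st v).1 (nd α ℓ v) (ln ℓ v) P ∧ ms (S.fn (st v).1) α ℓ v ≤ P) ∧
      BM (st v).2.2.1 ∧ CB g B ε (st v).2.2.1 (nd α ℓ v) (ln ℓ v) (st v).2.2.2 := by
    intro v
    induction v using List.reverseRecOn with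
    | nil => exact ⟨hst0.2.1, hst0.2.2.2.1, hst0.2.2.2.2.2.1, hst0.2.2.2.2.2.2.2.1⟩
    | append_singleton v c _ =>
      have h := hst v c
      exact ⟨h.2.1, h.2.2.2.1, h.2.2.2.2.2.1, h.2.2.2.2.2.2.2.1⟩
  have hher : ∀ (w v : List Bool), (st (v ++ w)).2.1 → (st v).2.1 := by
    intro w
    induction w using List.reverseRecOn with
    | nil => intro v h; simpa using h
    | append_singleton w c ih =>
      intro v h
      rw [← List.append_assoc] at h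
      exact ih v ((hst _ c).2.2.1 h)
  have hFn : ∀ e, BM (S.Fn e) := fun e => by
    unfold Sys.Fn
    split_ifs
    · exact S.bm _
    · exact BM.zero
  have main := decomp (g := g) (B := B) (ε := ε) (α := α) (ℓ := ℓ) (x₀ := Cd * P)
    (x₁ := Cd * A * ca (S.fn s₀) α ℓ + Cr * S.rho s₀ α ℓ d) (F := fun v => S.Fn (st v))
    (Rm := fun v => (st v).2.2.1) (f₀ := S.fn s₀) (fun v => hFn _) (fun v => (hall v).2.2.1)
    (by simpa [Sys.Fn] using hst0.2.2.2.2.2.2.1) (fun v c => (hst v c).2.2.2.2.2.2.1)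
    (fun v => (st v).2.2.2) (fun v => (hall v).2.2.2)
    (by
      intro n ξ e he _
      refine le_trans (le_of_eq ?_) (S.life s₀ α ℓ d P (fun v => (st v).1) (fun v => (st v).2.1) hℓ hP
        hPB hok hc hA (fun v k h => hher (v.drop k) _ (by simpa using h)) (fun v => (hall v).2.1)
        (fun v => (hall v).1) hst0.1 (fun v c => ⟨(hst v c).1, (hst v c).2.2.2.2.1⟩) n ξ
        (fun v => if (st v).2.1 then e v else 0) ⟨fun v => by
          by_cases h : (st v).2.1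
          · simpa [h] using he.1 v
          · simp [h], fun v k hv => by
          have h : (st v).2.1 := by by_contra h; simp [h] at hv
          have h' : (st (v.take k)).2.1 := hher (v.drop k) _ (by simpa using h)
          simp only [h, h', if_true] at hv ⊢
          exact he.2 v k hv⟩
        (fun v hv => by by_contra h; simp [h] at hv))
      refine avg_congr_len n fun l _ => ?_
      congr 1
      refine Finset.sum_congr rfl fun k _ => ?_
      by_cases h : (st (l.take k)).2.1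
      · simp [tm, Sys.Fn, h]
      · simp [tm, Sys.Fn, h, U_zero])
    (by
      intro n
      refine mass_abs (m := fun v => S.V A α ℓ d (st v) v) (fun v => hV _ _)
        (fun v => (hall v).2.2.2.nonneg) ?_ (fun v => ?_) n
      · simpa [Sys.V, ms, nd, ln] using hst0.2.2.2.2.2.2.2.2
      · have a1 := (hst v false).2.2.2.2.2.2.2.2
        have a2 := (hst v true).2.2.2.2.2.2.2.2
        suffices h : (S.V A α ℓ d (st v) (v ++ [false]) + S.V A α ℓ d (st v) (v ++ [true])) / 2 ≤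
            S.V A α ℓ d (st v) v by linarith
        by_cases hi : (st v).2.1
        · have hlt := ((hall v).2.1 hi).1
          have e1 : d - v.length = d - (v.length + 1) + 1 := by omega
          have b1 := ms_mart (S.bm (st v).1) α hℓ v
          have b2 := mul_le_mul_of_nonneg_left (S.rho_mart (st v).1 (nd α ℓ v) (ln ℓ v)
            (d - (v.length + 1)) (lowFamA_ln_pos hℓ v)) S.hCr
          simp only [Sys.V, hi, if_true, nd_snoc, ln_snoc, List.length_append, List.length_singleton]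
          rw [e1, b1]
          linarith
        · simp [Sys.V, hi])
  refine main.mono (le_of_eq ?_)
  ring

/-- **STRUCT, abstract form.** -/
theorem Sys.main (S : Sys σ g B ε Cd Cr θ A₀) (s : σ) (α ℓ : ℝ) (d : ℕ) (P : ℝ) (hℓ : 0 < ℓ)
    (hP : 0 < P) (hPB : P ≤ 4 * B) (hok : S.ok s α ℓ d) (hc : ca (S.fn s) α ℓ ≤ P)
    (hA : rk B (S.a s) P ≤ A₀) :
    CB g B ε (S.fn s) α ℓ (Cd * (P + ca (S.fn s) α ℓ * rk B (S.a s) P) + Cr * S.rho s α ℓ d) := by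
  have key : ∀ N : ℕ, S.Cl N := by
    intro N
    induction N with
    | zero =>
      intro s α ℓ d P hℓ hP hPB hok _ _ hN
      have := rk_nonneg hP hPB (S.a_nn s α ℓ d hℓ hok)
      simp only [Nat.cast_zero] at hN
      linarith
    | succ N ih => simpa using S.step ih
  obtain ⟨N, hN⟩ := exists_nat_gt (rk B (S.a s) P)
  exact key N s α ℓ d P hℓ hP hPB hok hc hA hN

end Crest.Agent.R100.Str
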