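import Crest.Agent.R100.InfoRaw

/-!
# Row 100: finite information inequalities for products (helper27)

Superadditivity of the relative entropy against a product reference, Hoeffding's lemma for
finite sums, and the combination "Donsker–Varadhan + Hoeffding".
-/

set_option autoImplicit false

open Finset

noncomputable section

namespace Crest.Agent.R100.InfoRaw

variable {α β ι : Type*}

/-- the `i`-th marginal sums: a function of one coordinate -/
theorem sum_marg [Fintype ι] [DecidableEq ι] [DecidableEq α] (s : Finset α) (p : (ι → α) → ℝ)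
    (i : ι) (f : α → ℝ) :
    ∑ x ∈ Fintype.piFinset (fun _ : ι => s), p x * f (x i) =
      ∑ a ∈ s, (∑ x ∈ Fintype.piFinset (fun _ : ι => s) with x i = a, p x) * f a := by
  rw [← Finset.sum_fiberwise_of_maps_to (g := fun x : ι → α => x i) (t := s)
    (fun x hx => Fintype.mem_piFinset.1 hx i)]
  refine Finset.sum_congr rfl fun a _ => ?_
  rw [Finset.sum_mul]
  exact Finset.sum_congr rfl fun x hx => by rw [(Finset.mem_filter.1 hx).2]

/-- superadditivity: the marginal divergences add up to at most the divergence from the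
product reference -/
theorem superadd [Fintype ι] [DecidableEq ι] [DecidableEq α] (s : Finset α) (p : (ι → α) → ℝ)
    (q : ι → α → ℝ) (hp : ∀ x ∈ Fintype.piFinset (fun _ : ι => s), 0 ≤ p x)
    (hp1 : ∑ x ∈ Fintype.piFinset (fun _ : ι => s), p x = 1)
    (hac : ∀ x ∈ Fintype.piFinset (fun _ : ι => s), ∏ i, q i (x i) = 0 → p x = 0) :
    ∑ i, ∑ a ∈ s, (∑ x ∈ Fintype.piFinset (fun _ : ι => s) with x i = a, p x) *
        Real.log ((∑ x ∈ Fintype.piFinset (fun _ : ι => s) with x i = a, p x) / q i a) ≤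
      ∑ x ∈ Fintype.piFinset (fun _ : ι => s), p x * Real.log (p x / ∏ i, q i (x i)) := by
  set P := Fintype.piFinset (fun _ : ι => s) with hP
  set m : ι → α → ℝ := fun i a => ∑ x ∈ P with x i = a, p x with hm
  have hm0 : ∀ i a, 0 ≤ m i a := fun i a =>
    Finset.sum_nonneg fun x hx => hp x (Finset.mem_filter.1 hx).1
  have hm1 : ∀ i, ∑ a ∈ s, m i a = 1 := fun i => by
    have := sum_marg s p i (fun _ => 1)
    simp only [mul_one] at this
    rw [← hp1]; exact this.symm
  have hmp : ∀ x ∈ P, ∀ i, p x ≤ m i (x i) := fun x hx i =>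
    Finset.single_le_sum (f := p) (fun y hy => hp y (Finset.mem_filter.1 hy).1)
      (Finset.mem_filter.2 ⟨hx, rfl⟩)
  have h0 := kl_nonneg P p (fun x => ∏ i, m i (x i)) hp
    (fun x _ => Finset.prod_nonneg fun i _ => hm0 i _)
    (fun x hx h => by
      obtain ⟨i, _, hi⟩ := Finset.prod_eq_zero_iff.1 h
      exact le_antisymm (hi ▸ hmp x hx i) (hp x hx))
    (by rw [hp1, hP, ← Finset.prod_univ_sum]; simp [hm1])
  have h1 : ∑ i, ∑ a ∈ s, m i a * Real.log (m i a / q i a) =
      ∑ x ∈ P, p x * ∑ i, Real.log (m i (x i) / q i (x i)) := by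
    simp only [Finset.mul_sum]
    rw [Finset.sum_comm (s := P)]
    exact Finset.sum_congr rfl fun i _ => (sum_marg s p i fun a => Real.log (m i a / q i a)).symm
  change ∑ i, ∑ a ∈ s, m i a * Real.log (m i a / q i a) ≤ _
  rw [h1]
  have h2 : ∑ x ∈ P, p x * Real.log (p x / ∏ i, q i (x i)) =
      ∑ x ∈ P, p x * Real.log (p x / ∏ i, m i (x i)) +
        ∑ x ∈ P, p x * ∑ i, Real.log (m i (x i) / q i (x i)) := by
    rw [← Finset.sum_add_distrib]
    refine Finset.sum_congr rfl fun x hx => ?_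
    by_cases h : p x = 0
    · simp [h]
    have hq : ∀ i, q i (x i) ≠ 0 := fun i hi =>
      h (hac x hx (Finset.prod_eq_zero (Finset.mem_univ i) hi))
    have hmi : ∀ i, m i (x i) ≠ 0 := fun i hi => h (le_antisymm (hi ▸ hmp x hx i) (hp x hx))
    rw [Real.log_div h (Finset.prod_ne_zero_iff.2 fun i _ => hq i),
      Real.log_div h (Finset.prod_ne_zero_iff.2 fun i _ => hmi i),
      Finset.sum_congr rfl fun i _ => Real.log_div (hmi i) (hq i), Finset.sum_sub_distrib,
      Real.log_prod (fun i _ => hq i), Real.log_prod (fun i _ => hmi i)]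
    ring
  linarith

/-- superadditivity when all marginals are equal to `m` (exchangeable laws) -/
theorem superadd_exch [Fintype ι] [DecidableEq ι] [DecidableEq α] (s : Finset α)
    (p : (ι → α) → ℝ) (q m : α → ℝ) (hp : ∀ x ∈ Fintype.piFinset (fun _ : ι => s), 0 ≤ p x)
    (hp1 : ∑ x ∈ Fintype.piFinset (fun _ : ι => s), p x = 1)
    (hac : ∀ x ∈ Fintype.piFinset (fun _ : ι => s), ∏ i, q (x i) = 0 → p x = 0)
    (hm : ∀ i, ∀ a ∈ s, ∑ x ∈ Fintype.piFinset (fun _ : ι => s) with x i = a, p x = m a) :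
    (Fintype.card ι : ℝ) * ∑ a ∈ s, m a * Real.log (m a / q a) ≤
      ∑ x ∈ Fintype.piFinset (fun _ : ι => s), p x * Real.log (p x / ∏ i, q (x i)) := by
  have h := superadd s p (fun _ => q) hp hp1 hac
  rw [Finset.sum_congr rfl fun i _ => Finset.sum_congr rfl fun a ha => by rw [hm i a ha]] at h
  simpa using h

open MeasureTheory ProbabilityTheory in
/-- Hoeffding's lemma for finite sums -/
theorem hoeffding (s : Finset α) (p T : α → ℝ) (a b t : ℝ) (hp : ∀ x ∈ s, 0 ≤ p x)
    (hp1 : ∑ x ∈ s, p x = 1) (hT : ∀ x ∈ s, a ≤ T x ∧ T x ≤ b) :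
    ∑ x ∈ s, p x * Real.exp (t * (T x - ∑ y ∈ s, p y * T y)) ≤
      Real.exp (t ^ 2 * (b - a) ^ 2 / 8) := by
  set μ : Measure ℝ := ∑ x ∈ s, ENNReal.ofReal (p x) • Measure.dirac (T x) with hμ
  have hint : ∀ f : ℝ → ℝ, ∫ y, f y ∂μ = ∑ x ∈ s, p x * f (T x) := fun f => by
    rw [hμ, integral_finsetSum_measure
      (fun x _ => (integrable_dirac (by simp)).smul_measure ENNReal.ofReal_ne_top)]
    refine Finset.sum_congr rfl fun x hx => ?_
    rw [integral_smul_measure, integral_dirac, ENNReal.toReal_ofReal (hp x hx), smul_eq_mul]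
  haveI : IsProbabilityMeasure μ := ⟨by
    rw [hμ, Measure.finsetSum_apply]
    simp only [Measure.smul_apply, measure_univ, smul_eq_mul, mul_one]
    rw [← ENNReal.ofReal_sum_of_nonneg hp, hp1, ENNReal.ofReal_one]⟩
  have hb : ∀ᵐ y ∂μ, (fun y : ℝ => y) y ∈ Set.Icc a b := by
    rw [ae_iff, hμ, Measure.finsetSum_apply]
    refine Finset.sum_eq_zero fun x hx => ?_
    rw [Measure.smul_apply, Measure.dirac_apply, Set.indicator_of_notMem, smul_zero]
    simpa using hT x hx
  have h := (hasSubgaussianMGF_of_mem_Icc (μ := μ) (X := fun y : ℝ => y)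
    measurable_id.aemeasurable hb).mgf_le t
  rw [mgf, hint, hint] at h
  refine h.trans (le_of_eq ?_)
  congr 1
  simp only [NNReal.coe_pow, NNReal.coe_div, coe_nnnorm, Real.norm_eq_abs, NNReal.coe_ofNat]
  rw [div_pow, sq_abs]; ring

/-- Hoeffding's lemma for a sum of independent copies, against an upper bound `m` of the mean -/
theorem hoeffding_prod [Fintype ι] [DecidableEq ι] (s : Finset α) (p T : α → ℝ) (a b t m : ℝ)
    (hp : ∀ x ∈ s, 0 ≤ p x) (hp1 : ∑ x ∈ s, p x = 1) (hT : ∀ x ∈ s, a ≤ T x ∧ T x ≤ b)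
    (ht : 0 ≤ t) (hm : ∑ y ∈ s, p y * T y ≤ m) :
    ∑ x ∈ Fintype.piFinset (fun _ : ι => s), (∏ i, p (x i)) * Real.exp (t * ∑ i, (T (x i) - m)) ≤
      Real.exp (Fintype.card ι * (t ^ 2 * (b - a) ^ 2 / 8)) := by
  have h1 : ∑ x ∈ s, p x * Real.exp (t * (T x - m)) ≤ Real.exp (t ^ 2 * (b - a) ^ 2 / 8) := by
    refine le_trans (Finset.sum_le_sum fun x hx => mul_le_mul_of_nonneg_left
      (Real.exp_le_exp.2 (mul_le_mul_of_nonneg_left (by linarith) ht)) (hp x hx))
      (hoeffding s p T a b t hp hp1 hT)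
  have h2 : ∑ x ∈ Fintype.piFinset (fun _ : ι => s),
      (∏ i, p (x i)) * Real.exp (t * ∑ i, (T (x i) - m)) =
      ∏ _i : ι, ∑ x ∈ s, p x * Real.exp (t * (T x - m)) := by
    rw [Finset.prod_univ_sum]
    refine Finset.sum_congr rfl fun x _ => ?_
    rw [Finset.mul_sum, Real.exp_sum, Finset.prod_mul_distrib]
  rw [h2, Finset.prod_const, Finset.card_univ, Real.exp_nat_mul]
  exact pow_le_pow_left₀
    (Finset.sum_nonneg fun x hx => mul_nonneg (hp x hx) (Real.exp_pos _).le) h1 _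

/-- Donsker–Varadhan with a multiplier: if the reference `q` has `∑ q e^{t f} ≤ e^B`, then
`t E_p f ≤ KL(p ‖ q) + B` -/
theorem dv_mul (s : Finset α) (p q f : α → ℝ) (t B : ℝ) (hp : ∀ a ∈ s, 0 ≤ p a)
    (hq : ∀ a ∈ s, 0 ≤ q a) (hac : ∀ a ∈ s, q a = 0 → p a = 0) (hp1 : ∑ a ∈ s, p a = 1)
    (hB : ∑ a ∈ s, q a * Real.exp (t * f a) ≤ Real.exp B) :
    t * ∑ a ∈ s, p a * f a ≤ ∑ a ∈ s, p a * Real.log (p a / q a) + B := by
  have h := dv s p q (fun a => t * f a) hp hq hac hp1
  have h1 : ∑ a ∈ s, p a * (t * f a) = t * ∑ a ∈ s, p a * f a := by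
    rw [Finset.mul_sum]; exact Finset.sum_congr rfl fun a _ => by ring
  have h2 : Real.log (∑ a ∈ s, q a * Real.exp (t * f a)) ≤ B := by
    rcases (Finset.sum_nonneg fun a ha =>
      mul_nonneg (hq a ha) (Real.exp_pos (t * f a)).le).eq_or_lt with h0 | h0
    · exfalso
      have hz := (Finset.sum_eq_zero_iff_of_nonneg fun a ha =>
        mul_nonneg (hq a ha) (Real.exp_pos (t * f a)).le).1 h0.symm
      have : ∑ a ∈ s, p a = 0 := Finset.sum_eq_zero fun a ha =>
        hac a ha ((mul_eq_zero.1 (hz a ha)).resolve_right (Real.exp_pos _).ne')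
      linarith
    · exact (Real.log_le_iff_le_exp h0).2 hB
  linarith

/-- the relative entropy of products is the sum -/
theorem kl_prod [Fintype ι] [DecidableEq ι] (s : Finset α) (p q : ι → α → ℝ)
    (hp1 : ∀ i, ∑ a ∈ s, p i a = 1) (hac : ∀ i, ∀ a ∈ s, q i a = 0 → p i a = 0) :
    ∑ x ∈ Fintype.piFinset (fun _ : ι => s),
        (∏ i, p i (x i)) * Real.log ((∏ i, p i (x i)) / ∏ i, q i (x i)) =
      ∑ i, ∑ a ∈ s, p i a * Real.log (p i a / q i a) := by
  classical
  have h1 : ∀ x ∈ Fintype.piFinset (fun _ : ι => s),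
      (∏ i, p i (x i)) * Real.log ((∏ i, p i (x i)) / ∏ i, q i (x i)) =
        ∑ j, (∏ i, p i (x i)) * Real.log (p j (x j) / q j (x j)) := fun x hx => by
    by_cases h : ∏ i, p i (x i) = 0
    · simp [h]
    have hp : ∀ i, p i (x i) ≠ 0 := fun i => Finset.prod_ne_zero_iff.1 h i (Finset.mem_univ i)
    have hq : ∀ i, q i (x i) ≠ 0 := fun i hi =>
      hp i (hac i _ (Fintype.mem_piFinset.1 hx i) hi)
    rw [← Finset.mul_sum, ← Finset.prod_div_distrib,
      Real.log_prod (fun i _ => div_ne_zero (hp i) (hq i))]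
  rw [Finset.sum_congr rfl h1, Finset.sum_comm]
  refine Finset.sum_congr rfl fun j _ => ?_
  have h2 : ∀ x : ι → α, (∏ i, p i (x i)) * Real.log (p j (x j) / q j (x j)) =
      ∏ i, (p i (x i) * if i = j then Real.log (p i (x i) / q i (x i)) else 1) := fun x => by
    rw [Finset.prod_mul_distrib, Finset.prod_ite_eq']; simp
  simp only [h2]
  rw [← Finset.prod_univ_sum (fun _ : ι => s)
    (fun i a => p i a * if i = j then Real.log (p i a / q i a) else 1),
    Finset.prod_eq_single j]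
  · simp
  · intro i _ hi
    simp [hi, hp1 i]
  · simp

end Crest.Agent.R100.InfoRaw
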