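import Mathlib

/-!
# Row 100: finite information inequalities, definition-free (helper27)

All relative entropies are written as `∑ a ∈ s, p a * Real.log (p a / q a)`.
-/

set_option autoImplicit false

open Finset

noncomputable section

namespace Crest.Agent.R100.InfoRaw

variable {α β : Type*}

/-- pointwise Gibbs inequality -/
theorem sub_le_mul_log_div {x y : ℝ} (hx : 0 ≤ x) (hy : 0 ≤ y) (h : y = 0 → x = 0) :
    x - y ≤ x * Real.log (x / y) := by
  rcases hx.eq_or_lt with rfl | hx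
  · simpa using hy
  have hy' : 0 < y := hy.lt_of_ne' fun h0 => hx.ne' (h h0)
  have h1 := Real.log_le_sub_one_of_pos (div_pos hy' hx)
  have h2 : Real.log (x / y) = -Real.log (y / x) := by
    rw [← Real.log_inv, inv_div]
  rw [h2]
  have h3 : x * (y / x - 1) = y - x := by field_simp
  nlinarith [mul_le_mul_of_nonneg_left h1 hx.le]

/-- Gibbs inequality with masses -/
theorem sum_sub_le_kl (s : Finset α) (p q : α → ℝ) (hp : ∀ a ∈ s, 0 ≤ p a)
    (hq : ∀ a ∈ s, 0 ≤ q a) (hac : ∀ a ∈ s, q a = 0 → p a = 0) :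
    ∑ a ∈ s, p a - ∑ a ∈ s, q a ≤ ∑ a ∈ s, p a * Real.log (p a / q a) := by
  rw [← Finset.sum_sub_distrib]
  exact Finset.sum_le_sum fun a ha => sub_le_mul_log_div (hp a ha) (hq a ha) (hac a ha)

/-- `KL ≥ 0` when the reference has at most the mass of `p` -/
theorem kl_nonneg (s : Finset α) (p q : α → ℝ) (hp : ∀ a ∈ s, 0 ≤ p a)
    (hq : ∀ a ∈ s, 0 ≤ q a) (hac : ∀ a ∈ s, q a = 0 → p a = 0)
    (hm : ∑ a ∈ s, q a ≤ ∑ a ∈ s, p a) :
    0 ≤ ∑ a ∈ s, p a * Real.log (p a / q a) :=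
  le_trans (by linarith) (sum_sub_le_kl s p q hp hq hac)

/-- scaling the reference -/
theorem mul_log_div_mul {x y c : ℝ} (hc : c ≠ 0) (h : y = 0 → x = 0) :
    x * Real.log (x / (y * c)) = x * Real.log (x / y) - x * Real.log c := by
  by_cases hx : x = 0
  · simp [hx]
  have hy : y ≠ 0 := fun h0 => hx (h h0)
  rw [← div_div, Real.log_div (div_ne_zero hx hy) hc, mul_sub]

/-- the log-sum inequality -/
theorem log_sum (s : Finset α) (p q : α → ℝ) (hp : ∀ a ∈ s, 0 ≤ p a)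
    (hq : ∀ a ∈ s, 0 ≤ q a) (hac : ∀ a ∈ s, q a = 0 → p a = 0) :
    (∑ a ∈ s, p a) * Real.log ((∑ a ∈ s, p a) / ∑ a ∈ s, q a) ≤
      ∑ a ∈ s, p a * Real.log (p a / q a) := by
  have hP : 0 ≤ ∑ a ∈ s, p a := Finset.sum_nonneg hp
  rcases hP.eq_or_lt with h0 | hP
  · have hz : ∀ a ∈ s, p a = 0 := (Finset.sum_eq_zero_iff_of_nonneg hp).1 h0.symm
    rw [← h0, zero_mul]
    exact (Finset.sum_eq_zero fun a ha => by rw [hz a ha, zero_mul]).ge
  have hQ : 0 < ∑ a ∈ s, q a := by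
    refine (Finset.sum_nonneg hq).lt_of_ne' fun h0 => hP.ne' ?_
    have hz : ∀ a ∈ s, q a = 0 := (Finset.sum_eq_zero_iff_of_nonneg hq).1 h0
    exact Finset.sum_eq_zero fun a ha => hac a ha (hz a ha)
  set c := (∑ a ∈ s, p a) / ∑ a ∈ s, q a with hc
  have hc0 : 0 < c := div_pos hP hQ
  have h1 := kl_nonneg s p (fun a => q a * c) hp (fun a ha => mul_nonneg (hq a ha) hc0.le)
    (fun a ha h => hac a ha ((mul_eq_zero.1 h).resolve_right hc0.ne'))
    (by rw [← Finset.sum_mul, hc, mul_div_cancel₀ _ hQ.ne'])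
  rw [Finset.sum_congr rfl fun a ha => mul_log_div_mul hc0.ne' (hac a ha),
    Finset.sum_sub_distrib, ← Finset.sum_mul] at h1
  linarith

/-- Gibbs: for a probability `p` and a nonnegative `q`, `-log (∑ q) ≤ KL(p ‖ q)` -/
theorem neg_log_sum_le_kl (s : Finset α) (p q : α → ℝ) (hp : ∀ a ∈ s, 0 ≤ p a)
    (hq : ∀ a ∈ s, 0 ≤ q a) (hac : ∀ a ∈ s, q a = 0 → p a = 0) (hp1 : ∑ a ∈ s, p a = 1) :
    -Real.log (∑ a ∈ s, q a) ≤ ∑ a ∈ s, p a * Real.log (p a / q a) := by
  have h := log_sum s p q hp hq hac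
  rwa [hp1, one_mul, one_div, Real.log_inv] at h

/-- the Donsker–Varadhan inequality -/
theorem dv (s : Finset α) (p q f : α → ℝ) (hp : ∀ a ∈ s, 0 ≤ p a)
    (hq : ∀ a ∈ s, 0 ≤ q a) (hac : ∀ a ∈ s, q a = 0 → p a = 0) (hp1 : ∑ a ∈ s, p a = 1) :
    ∑ a ∈ s, p a * f a ≤
      ∑ a ∈ s, p a * Real.log (p a / q a) + Real.log (∑ a ∈ s, q a * Real.exp (f a)) := by
  have h := neg_log_sum_le_kl s p (fun a => q a * Real.exp (f a)) hp
    (fun a ha => mul_nonneg (hq a ha) (Real.exp_pos _).le)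
    (fun a ha h => hac a ha ((mul_eq_zero.1 h).resolve_right (Real.exp_pos _).ne')) hp1
  rw [Finset.sum_congr rfl fun a ha => mul_log_div_mul (Real.exp_pos _).ne' (hac a ha),
    Finset.sum_sub_distrib] at h
  simp only [Real.log_exp] at h
  linarith

/-- a larger reference gives a smaller relative entropy -/
theorem kl_le_of_le_mul (s : Finset α) (p q r : α → ℝ) (c : ℝ) (hc : 0 < c)
    (hp : ∀ a ∈ s, 0 ≤ p a) (hq : ∀ a ∈ s, 0 ≤ q a) (hac : ∀ a ∈ s, q a = 0 → p a = 0)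
    (hqr : ∀ a ∈ s, q a ≤ c * r a) :
    ∑ a ∈ s, p a * Real.log (p a / r a) ≤
      ∑ a ∈ s, p a * Real.log (p a / q a) + (∑ a ∈ s, p a) * Real.log c := by
  rw [Finset.sum_mul, ← Finset.sum_add_distrib]
  refine Finset.sum_le_sum fun a ha => ?_
  rcases (hp a ha).eq_or_lt with h0 | h0
  · simp [← h0]
  have hq' : 0 < q a := (hq a ha).lt_of_ne' fun h => h0.ne' (hac a ha h)
  have hr : 0 < r a := by
    by_contra hr
    have : c * r a ≤ 0 := mul_nonpos_of_nonneg_of_nonpos hc.le (not_lt.1 hr)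
    linarith [hqr a ha]
  rw [← mul_add, ← Real.log_mul (div_pos h0 hq').ne' hc.ne']
  refine mul_le_mul_of_nonneg_left (Real.log_le_log (div_pos h0 hr) ?_) h0.le
  rw [div_mul_eq_mul_div, div_le_div_iff₀ hr hq']
  nlinarith [mul_le_mul_of_nonneg_left (hqr a ha) h0.le]

/-- a bounded density bounds the relative entropy -/
theorem kl_le_log_of_le (s : Finset α) (p q : α → ℝ) (c : ℝ) (hc : 0 < c)
    (hp : ∀ a ∈ s, 0 ≤ p a) (hpq : ∀ a ∈ s, p a ≤ c * q a) :
    ∑ a ∈ s, p a * Real.log (p a / q a) ≤ (∑ a ∈ s, p a) * Real.log c := by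
  have h := kl_le_of_le_mul s p p q c hc hp hp (fun _ _ h => h) hpq
  have h0 : ∑ a ∈ s, p a * Real.log (p a / p a) = 0 :=
    Finset.sum_eq_zero fun a _ => by
      by_cases h : p a = 0
      · simp [h]
      · simp [div_self h]
  rwa [h0, zero_add] at h

/-- data processing under a (sub)stochastic kernel with row sums `1` -/
theorem dp_kernel (s : Finset α) (t : Finset β) (p q : α → ℝ) (K : α → β → ℝ)
    (hp : ∀ a ∈ s, 0 ≤ p a) (hq : ∀ a ∈ s, 0 ≤ q a) (hac : ∀ a ∈ s, q a = 0 → p a = 0)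
    (hK : ∀ a ∈ s, ∀ b ∈ t, 0 ≤ K a b) (hK1 : ∀ a ∈ s, ∑ b ∈ t, K a b = 1) :
    ∑ b ∈ t, (∑ a ∈ s, p a * K a b) *
        Real.log ((∑ a ∈ s, p a * K a b) / ∑ a ∈ s, q a * K a b) ≤
      ∑ a ∈ s, p a * Real.log (p a / q a) := by
  calc _ ≤ ∑ b ∈ t, ∑ a ∈ s, p a * K a b * Real.log (p a * K a b / (q a * K a b)) := by
        refine Finset.sum_le_sum fun b hb => log_sum s _ _
          (fun a ha => mul_nonneg (hp a ha) (hK a ha b hb))
          (fun a ha => mul_nonneg (hq a ha) (hK a ha b hb)) fun a ha h => ?_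
        rcases mul_eq_zero.1 h with h | h
        · rw [hac a ha h, zero_mul]
        · rw [h, mul_zero]
    _ = ∑ a ∈ s, ∑ b ∈ t, K a b * (p a * Real.log (p a / q a)) := by
        rw [Finset.sum_comm]
        refine Finset.sum_congr rfl fun a _ => Finset.sum_congr rfl fun b _ => ?_
        by_cases h : K a b = 0
        · simp [h]
        · rw [mul_div_mul_right _ _ h]; ring
    _ = _ := Finset.sum_congr rfl fun a ha => by rw [← Finset.sum_mul, hK1 a ha, one_mul]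

/-- data processing under a map -/
theorem dp_map [DecidableEq β] (s : Finset α) (t : Finset β) (p q : α → ℝ) (φ : α → β)
    (hp : ∀ a ∈ s, 0 ≤ p a) (hq : ∀ a ∈ s, 0 ≤ q a) (hac : ∀ a ∈ s, q a = 0 → p a = 0)
    (hφ : ∀ a ∈ s, φ a ∈ t) :
    ∑ b ∈ t, (∑ a ∈ s with φ a = b, p a) *
        Real.log ((∑ a ∈ s with φ a = b, p a) / ∑ a ∈ s with φ a = b, q a) ≤
      ∑ a ∈ s, p a * Real.log (p a / q a) := by
  rw [← Finset.sum_fiberwise_of_maps_to hφ (fun a => p a * Real.log (p a / q a))]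
  exact Finset.sum_le_sum fun b _ => log_sum _ p q
    (fun a ha => hp a (Finset.mem_filter.1 ha).1) (fun a ha => hq a (Finset.mem_filter.1 ha).1)
    (fun a ha => hac a (Finset.mem_filter.1 ha).1)

/-- convexity of the relative entropy in both arguments -/
theorem kl_convex (s : Finset α) (t : Finset β) (w : β → ℝ) (p q : β → α → ℝ)
    (hw : ∀ b ∈ t, 0 ≤ w b) (hp : ∀ b ∈ t, ∀ a ∈ s, 0 ≤ p b a)
    (hq : ∀ b ∈ t, ∀ a ∈ s, 0 ≤ q b a) (hac : ∀ b ∈ t, ∀ a ∈ s, q b a = 0 → p b a = 0) :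
    ∑ a ∈ s, (∑ b ∈ t, w b * p b a) *
        Real.log ((∑ b ∈ t, w b * p b a) / ∑ b ∈ t, w b * q b a) ≤
      ∑ b ∈ t, w b * ∑ a ∈ s, p b a * Real.log (p b a / q b a) := by
  calc _ ≤ ∑ a ∈ s, ∑ b ∈ t, w b * p b a * Real.log (w b * p b a / (w b * q b a)) := by
        refine Finset.sum_le_sum fun a ha => log_sum t _ _
          (fun b hb => mul_nonneg (hw b hb) (hp b hb a ha))
          (fun b hb => mul_nonneg (hw b hb) (hq b hb a ha)) fun b hb h => ?_
        rcases mul_eq_zero.1 h with h | h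
        · rw [h, zero_mul]
        · rw [hac b hb a ha h, mul_zero]
    _ = _ := by
        rw [Finset.sum_comm]
        refine Finset.sum_congr rfl fun b _ => ?_
        rw [Finset.mul_sum]
        refine Finset.sum_congr rfl fun a _ => ?_
        by_cases h : w b = 0
        · simp [h]
        · rw [mul_div_mul_left _ _ h]; ring

/-- change of reference: `x log (x / y) = x log (x / z) + x log (z / y)` -/
theorem mul_log_div_split {x y z : ℝ} (hy : y = 0 → x = 0) (hz : z = 0 → x = 0) :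
    x * Real.log (x / y) = x * Real.log (x / z) + x * Real.log (z / y) := by
  by_cases hx : x = 0
  · simp [hx]
  have hy' : y ≠ 0 := fun h => hx (hy h)
  have hz' : z ≠ 0 := fun h => hx (hz h)
  rw [Real.log_div hx hy', Real.log_div hx hz', Real.log_div hz' hy']; ring

/-- the chain rule: joint weight `p a b`, reference `q a * r a b` -/
theorem chain (s : Finset α) (t : Finset β) (p r : α → β → ℝ) (q : α → ℝ)
    (hp : ∀ a ∈ s, ∀ b ∈ t, 0 ≤ p a b)
    (hac : ∀ a ∈ s, ∀ b ∈ t, q a * r a b = 0 → p a b = 0) :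
    ∑ a ∈ s, ∑ b ∈ t, p a b * Real.log (p a b / (q a * r a b)) =
      ∑ a ∈ s, (∑ b ∈ t, p a b) * Real.log ((∑ b ∈ t, p a b) / q a) +
        ∑ a ∈ s, ∑ b ∈ t, p a b * Real.log (p a b / ((∑ b ∈ t, p a b) * r a b)) := by
  rw [← Finset.sum_add_distrib]
  refine Finset.sum_congr rfl fun a ha => ?_
  rw [Finset.sum_mul, ← Finset.sum_add_distrib]
  refine Finset.sum_congr rfl fun b hb => ?_
  by_cases hx : p a b = 0
  · simp [hx]
  have h1 : q a * r a b ≠ 0 := fun h => hx (hac a ha b hb h)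
  have hq : q a ≠ 0 := left_ne_zero_of_mul h1
  have hr : r a b ≠ 0 := right_ne_zero_of_mul h1
  have hP : ∑ b ∈ t, p a b ≠ 0 := fun h =>
    hx ((Finset.sum_eq_zero_iff_of_nonneg (hp a ha)).1 h b hb)
  rw [Real.log_div hx h1, Real.log_div hP hq, Real.log_div hx (mul_ne_zero hP hr),
    Real.log_mul hq hr, Real.log_mul hP hr]
  ring

/-- mutual information is at most the mean divergence from any reference probability `r`:
`∑ p log (p / (p₁ p₂)) ≤ ∑ p log (p / (p₁ r))` -/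
theorem mi_le_ref (s : Finset α) (t : Finset β) (p : α → β → ℝ) (r : β → ℝ)
    (hp : ∀ a ∈ s, ∀ b ∈ t, 0 ≤ p a b) (hr : ∀ b ∈ t, 0 ≤ r b)
    (hac : ∀ a ∈ s, ∀ b ∈ t, r b = 0 → p a b = 0)
    (hm : ∑ b ∈ t, r b ≤ ∑ b ∈ t, ∑ a ∈ s, p a b) :
    ∑ a ∈ s, ∑ b ∈ t, p a b * Real.log (p a b / ((∑ b ∈ t, p a b) * ∑ a ∈ s, p a b)) ≤
      ∑ a ∈ s, ∑ b ∈ t, p a b * Real.log (p a b / ((∑ b ∈ t, p a b) * r b)) := by
  have h0 := kl_nonneg t (fun b => ∑ a ∈ s, p a b) r
    (fun b hb => Finset.sum_nonneg fun a ha => hp a ha b hb) hr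
    (fun b hb h => Finset.sum_eq_zero fun a ha => hac a ha b hb h) hm
  have h1 : ∑ a ∈ s, ∑ b ∈ t, p a b * Real.log (p a b / ((∑ b ∈ t, p a b) * r b)) =
      ∑ a ∈ s, ∑ b ∈ t, p a b * Real.log (p a b / ((∑ b ∈ t, p a b) * ∑ a ∈ s, p a b)) +
        ∑ b ∈ t, (∑ a ∈ s, p a b) * Real.log ((∑ a ∈ s, p a b) / r b) := by
    simp only [Finset.sum_mul (s := s) (f := fun a => p a _)]
    rw [Finset.sum_comm (s := t) (t := s), ← Finset.sum_add_distrib]
    refine Finset.sum_congr rfl fun a ha => ?_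
    rw [← Finset.sum_add_distrib]
    refine Finset.sum_congr rfl fun b hb => ?_
    by_cases hx : p a b = 0
    · simp [hx]
    have hr' : r b ≠ 0 := fun h => hx (hac a ha b hb h)
    have hP : ∑ b ∈ t, p a b ≠ 0 := fun h =>
      hx ((Finset.sum_eq_zero_iff_of_nonneg (hp a ha)).1 h b hb)
    have hQ : ∑ a ∈ s, p a b ≠ 0 := fun h =>
      hx ((Finset.sum_eq_zero_iff_of_nonneg fun a ha => hp a ha b hb).1 h a ha)
    rw [Real.log_div hx (mul_ne_zero hP hr'), Real.log_div hx (mul_ne_zero hP hQ),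
      Real.log_div hQ hr', Real.log_mul hP hr', Real.log_mul hP hQ]
    ring
  linarith

end Crest.Agent.R100.InfoRaw
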