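import Crest.Agent.R100.InstCrude

/-! # Row 100, STRUCT instance: the new class -/

set_option autoImplicit false

open MeasureTheory Set

noncomputable section

namespace Crest.Agent.R100.Inst

open Crest.Agent.R100 Crest.Agent.R100.Low Crest.Agent.R100.Str Crest.Agent.R100.Life

/-- `death_depth_inf` (`η = 1/100`, `E = exp (R / mm R)`, `D = 1 / kap R`), symmetrisation
(`im_symm`, `hat_symm`, `pure_dom`), cells `K.Y × Fin m`, `frac_union`; if `inf`, take `db` with
`ℓ / 2 ^ db < ε` (then `rho = 0`). -/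
theorem birth {R ε M : ℝ} (hb : Big R) (hε : 0 < ε) (hM : 0 < M) {K : Cls} (S : Set ℝ)
    (hl : ∀ y, MeasurableSet {t | K.lab t = y}) (α : ℝ) {ℓ : ℝ} (hℓ : 0 < ℓ) {ι : Type} [Fintype ι]
    {E : ι → ℝ} {z : ι → ℤ} {m : ℕ} (hm : 0 < m) {y : K.Y → Fin m → ℝ} {Bs : K.Y → Fin m → Set ℝ}
    (h : Pieces R K ℓ M E z y Bs) :
    ∃ (Kb : Cls) (db : ℕ), Fintype.card Kb.Y = Fintype.card K.Y * m ∧ Kb.μ = mun R M ∧
      Ok0 Kb (capS K S α ℓ Bs) ℓ db ∧ rho ε (capS K S α ℓ Bs) α ℓ db ≤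
        Fintype.card K.Y * m * (4 * (1 + 2 * Real.pi / kap R) / Real.exp (R / mm R)) := by
  classical
  have hm4 := hb.m4
  have hm0 : 0 < mm R := by linarith
  have hκ : 0 < kap R := by unfold kap; positivity
  have hκ1 : kap R ≤ 1 / 100 := by
    unfold kap
    have : (100:ℝ) ≤ mm R ^ 70 :=
      le_trans (by linarith) (le_self_pow₀ (by linarith) (by norm_num))
    rw [one_div]; exact inv_anti₀ (by norm_num) this
  have hh : 0 < kap R / ℓ := by positivity
  obtain ⟨d, inf, lam0, g0, g1, gd, gb, gi⟩ := Death.death_depth_inf h.nn h.one z hh hM h.atom α hℓ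
    (Real.exp_pos (R / mm R)) hκ (η := 1 / 100) (by norm_num) (by linarith)
  let sel : K.Y → ℝ → Fin m := fun A t => if h : ∃ k, t ∈ Bs A k then h.choose else ⟨0, hm⟩
  have sel_mem : ∀ A t, (∃ k, t ∈ Bs A k) → t ∈ Bs A (sel A t) := fun A t ht => by
    simp only [sel, dif_pos ht]; exact ht.choose_spec
  have sel_eq : ∀ A k t, t ∈ Bs A k → sel A t = k := fun A k t ht => by
    by_contra hne
    exact Set.disjoint_left.1 (h.disj A _ _ hne) (sel_mem A t ⟨k, ht⟩) ht
  let Kb : Cls :=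
    { Y := K.Y × Fin m, fY := inferInstance, Ω := ι × ι, fΩ := inferInstance
      lab := fun t => (K.lab t, sel (K.lab t) t)
      cen := fun p => y p.1 p.2
      lam := fun p => lam0 p.1 * lam0 p.2
      Z := fun p => kap R / ℓ * z p.1 - kap R / ℓ * z p.2
      μ := mun R M }
  have hF : ∀ τ, ∑ p : ι × ι, ((lam0 p.1 * lam0 p.2 : ℝ) : ℂ) *
      ex (kap R / ℓ * z p.1 - kap R / ℓ * z p.2) τ =
      ((‖∑ i, (lam0 i : ℂ) * ex (kap R / ℓ * z i) τ‖ ^ 2 : ℝ) : ℂ) :=
    fun τ => Death.hat_symm lam0 (fun i => kap R / ℓ * z i) τ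
  have hF' : ∀ τ, Kb.F τ = ‖∑ i, (lam0 i : ℂ) * ex (kap R / ℓ * z i) τ‖ ^ 2 := fun τ =>
    (congrArg Complex.re (hF τ)).trans (Complex.ofReal_re _)
  have ok : ∀ db, (∀ k, k < db → inf ∨ k < d) → Ok0 Kb (capS K S α ℓ Bs) ℓ db := by
    intro db hdb
    refine ⟨?_, fun p => mul_nonneg (g0 _) (g0 _), ?_, fun τ => ?_, fun t ht => ?_,
      fun k hk a => ?_⟩
    · rintro ⟨A, k⟩
      have e : {t | Kb.lab t = (A, k)} = {t | K.lab t = A} ∩
          (Bs A k ∪ ((⋃ k', Bs A k')ᶜ ∩ {_t | (⟨0, hm⟩ : Fin m) = k})) := by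
        ext t
        show (K.lab t, sel (K.lab t) t) = (A, k) ↔ _
        simp only [Prod.mk.injEq, mem_inter_iff, mem_setOf_eq, mem_union, mem_compl_iff,
          mem_iUnion]
        constructor
        · rintro ⟨rfl, h2⟩
          refine ⟨rfl, ?_⟩
          by_cases he : ∃ k', t ∈ Bs (K.lab t) k'
          · left; rw [← h2]; exact sel_mem _ _ he
          · right; refine ⟨he, ?_⟩
            simpa only [sel, dif_neg he] using h2
        · rintro ⟨rfl, h2 | ⟨he, h2⟩⟩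
          · exact ⟨rfl, sel_eq _ _ _ h2⟩
          · refine ⟨rfl, ?_⟩
            simpa only [sel, dif_neg he] using h2
      rw [e]
      exact (hl A).inter ((h.meas A k).union
        ((MeasurableSet.iUnion fun k' => h.meas A k').compl.inter (MeasurableSet.const _)))
    · show ∑ p : ι × ι, lam0 p.1 * lam0 p.2 = 1
      rw [Fintype.sum_prod_type]
      simp only [← Finset.mul_sum, g1, mul_one]
    · rw [hF']; exact hF τ
    · rw [hF']
      have h1 := h.pure _ _ t (sel_mem _ t ht.2.2)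
      have hc : (0:ℝ) < 1 - 2 * (1 / 100 + kap R) := by linarith
      have h2 := Death.pure_dom h.one g1 hc gd
        (fun i => ex (kap R / ℓ * z i) (t - y (K.lab t) (sel (K.lab t) t)))
        (fun i => by unfold ex; rw [Complex.norm_exp]; simp) (η := 1 / 100) (by linarith)
      have h3 : (1 / 100 : ℝ) / (1 - 2 * (1 / 100 + kap R)) ≤ 1 / 10 := by
        rw [div_le_iff₀ hc]; linarith
      have h4 : (9 / 10 : ℝ) ≤ ‖∑ i, (lam0 i : ℂ) *
          ex (kap R / ℓ * z i) (t - y (K.lab t) (sel (K.lab t) t))‖ := by linarith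
      show (1 / 2 : ℝ) ≤ ‖∑ i, (lam0 i : ℂ) *
          ex (kap R / ℓ * z i) (t - y (K.lab t) (sel (K.lab t) t))‖ ^ 2
      nlinarith
    · have e : 1 / kap R * (kap R * 2 ^ k / ℓ) = 2 ^ k / ℓ := by field_simp
      refine Death.im_symm (x := fun i => kap R / ℓ * z i) g0 g1 (fun a => ?_) a
      have := gb k (hdb k hk) a (1 / kap R) (by positivity)
      rwa [e] at this
  have hcard : Fintype.card Kb.Y = Fintype.card K.Y * m := by
    show Fintype.card (K.Y × Fin m) = _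
    simp
  by_cases hinf : inf
  · obtain ⟨db, hdb⟩ := pow_unbounded_of_one_lt (ℓ / ε) (one_lt_two (α := ℝ))
    refine ⟨Kb, db, hcard, rfl, ok db fun _ _ => Or.inl hinf, ?_⟩
    rw [rho_short]
    · positivity
    · rw [div_lt_iff₀ hε] at hdb
      rw [div_lt_iff₀ (by positivity)]
      linarith
  · refine ⟨Kb, d, hcard, rfl, ok d fun _ hk => Or.inr hk, ?_⟩
    have e : kap R / ℓ * ℓ = kap R := by field_simp
    have hu := Death.frac_union (Finset.univ : Finset (K.Y × Fin m))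
      (fun p v => ∃ t ∈ Bs p.1 p.2, t ∈ Icc (nd α ℓ v) (nd α ℓ v + ln ℓ v)) d
      (σ := 4 * (1 + 2 * Real.pi / kap R) / Real.exp (R / mm R)) (fun p _ => by
        have := gi hinf (y p.1 p.2)
          (fun v => ∃ t ∈ Bs p.1 p.2, t ∈ Icc (nd α ℓ v) (nd α ℓ v + ln ℓ v))
          (fun v _ ⟨t, ht, ht'⟩ => ⟨t, ht', by have := h.pure _ _ t ht; linarith⟩)
        rw [e] at this
        convert this)
    have hc : ((Finset.univ : Finset (K.Y × Fin m)).card : ℝ) = Fintype.card K.Y * m := by simp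
    rw [hc] at hu
    refine le_trans ?_ hu
    unfold rho
    refine avg_mono_len d fun v _ => ?_
    split_ifs with h1 h2
    · exact le_rfl
    · exfalso
      obtain ⟨-, t, ⟨-, -, k, hk⟩, ht⟩ := h1
      exact h2 ⟨(K.lab t, k), Finset.mem_univ _, t, hk, ht⟩
    · norm_num
    · exact le_rfl

/-- Parseval at birth (`P46.bessel`): every piece has relative measure `≤ 2 (1 + 2π/κ) M` -/
theorem mass_birth {R M : ℝ} {g : ℝ → ℝ} (hb : Big R) (hg : GG R g) {K : Cls} {S : Set ℝ}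
    (hS : MeasurableSet S) (hl : ∀ y, MeasurableSet {t | K.lab t = y}) (α : ℝ) {ℓ : ℝ} (hℓ : 0 < ℓ)
    {ι : Type} [Fintype ι] {E : ι → ℝ} {z : ι → ℤ} {m : ℕ} {y : K.Y → Fin m → ℝ}
    {Bs : K.Y → Fin m → Set ℝ} (h : Pieces R K ℓ M E z y Bs) :
    ca (fnS g (capS K S α ℓ Bs)) α ℓ ≤
      Fintype.card K.Y * m * (Real.exp R * (2 * (1 + 2 * Real.pi / kap R) * M)) := by
  have hm : 0 < mm R := lt_of_lt_of_le (by norm_num) hb.m4
  have hk : 0 < kap R := by unfold kap; positivity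
  have hc : ∀ (A : K.Y) (k : Fin m), Continuous fun t : ℝ =>
      ‖∑ i, (E i : ℂ) * ex (kap R / ℓ * z i) (t - y A k)‖ ^ 2 := fun A k => by
    refine (Continuous.norm (continuous_finsetSum _ fun i _ => continuous_const.mul ?_)).pow 2
    exact (P46.cont_ex _).comp (continuous_id.sub continuous_const)
  have hpt : ∀ t, ‖fnS g (capS K S α ℓ Bs) t‖ ≤ ∑ A : K.Y, ∑ k : Fin m, Real.exp R * 2 *
      ‖∑ i, (E i : ℂ) * ex (kap R / ℓ * z i) (t - y A k)‖ ^ 2 := fun t => by
    have hn : ∀ (A : K.Y) (k : Fin m), 0 ≤ Real.exp R * 2 *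
        ‖∑ i, (E i : ℂ) * ex (kap R / ℓ * z i) (t - y A k)‖ ^ 2 := fun A k => by positivity
    rw [norm_fnS hg]
    by_cases ht : t ∈ capS K S α ℓ Bs
    · rw [indicator_of_mem ht]
      obtain ⟨-, -, k, hk⟩ := ht
      have h1 := h.pure _ k t hk
      have h2 := (hg.bd t).2
      have h3 : (99 / 100 : ℝ) ^ 2 ≤
          ‖∑ i, (E i : ℂ) * ex (kap R / ℓ * z i) (t - y (K.lab t) k)‖ ^ 2 :=
        pow_le_pow_left₀ (by norm_num) h1 2
      have h4 := Real.exp_pos R
      calc g t ≤ Real.exp R * 2 *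
            ‖∑ i, (E i : ℂ) * ex (kap R / ℓ * z i) (t - y (K.lab t) k)‖ ^ 2 := by nlinarith
        _ ≤ ∑ k : Fin m, Real.exp R * 2 *
            ‖∑ i, (E i : ℂ) * ex (kap R / ℓ * z i) (t - y (K.lab t) k)‖ ^ 2 :=
          Finset.single_le_sum (f := fun k : Fin m => Real.exp R * 2 *
            ‖∑ i, (E i : ℂ) * ex (kap R / ℓ * z i) (t - y (K.lab t) k)‖ ^ 2)
            (fun k _ => hn _ k) (Finset.mem_univ k)
        _ ≤ _ := Finset.single_le_sum (f := fun A : K.Y => ∑ k : Fin m, Real.exp R * 2 *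
            ‖∑ i, (E i : ℂ) * ex (kap R / ℓ * z i) (t - y A k)‖ ^ 2)
            (fun A _ => Finset.sum_nonneg fun k _ => hn A k) (Finset.mem_univ (K.lab t))
    · rw [indicator_of_notMem ht]
      exact Finset.sum_nonneg fun A _ => Finset.sum_nonneg fun k _ => hn A k
  have hc2 : ∀ A : K.Y, Continuous fun t : ℝ => ∑ k : Fin m, Real.exp R * 2 *
      ‖∑ i, (E i : ℂ) * ex (kap R / ℓ * z i) (t - y A k)‖ ^ 2 := fun A =>
    continuous_finsetSum _ fun k _ => continuous_const.mul (hc A k)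
  have hint := intervalIntegral.integral_mono_on (show α ≤ α + ℓ by linarith)
    ((bm_fnS hg (capS_meas hS hl α ℓ h.meas)).ii α (α + ℓ))
    ((continuous_finsetSum Finset.univ fun A _ => hc2 A).intervalIntegrable α (α + ℓ))
    (fun t _ => hpt t)
  rw [intervalIntegral.integral_finsetSum
    (fun A _ => (hc2 A).intervalIntegrable α (α + ℓ))] at hint
  have hA : ∀ A : K.Y, ∫ t in α..α + ℓ, ∑ k : Fin m, Real.exp R * 2 *
      ‖∑ i, (E i : ℂ) * ex (kap R / ℓ * z i) (t - y A k)‖ ^ 2 ≤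
      m * (Real.exp R * (2 * (1 + 2 * Real.pi / kap R) * M) * ℓ) := fun A => by
    have hc3 : ∀ k : Fin m, Continuous fun t : ℝ => Real.exp R * 2 *
        ‖∑ i, (E i : ℂ) * ex (kap R / ℓ * z i) (t - y A k)‖ ^ 2 := fun k =>
      continuous_const.mul (hc A k)
    rw [intervalIntegral.integral_finsetSum
      (fun k _ => (hc3 k).intervalIntegrable α (α + ℓ))]
    refine (Finset.sum_le_card_nsmul _ _
      (Real.exp R * (2 * (1 + 2 * Real.pi / kap R) * M) * ℓ) fun k _ => ?_).trans (by simp)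
    rw [intervalIntegral.integral_const_mul]
    have h1 := P46.bessel E h.nn z (div_pos hk hℓ) h.atom α hℓ.le (y A k)
    rw [h.one, mul_one] at h1
    have e : (ℓ + 2 * Real.pi / (kap R / ℓ)) * M = (1 + 2 * Real.pi / kap R) * M * ℓ := by
      field_simp
    rw [e] at h1
    have h4 := Real.exp_pos R
    nlinarith
  have hsum := Finset.sum_le_card_nsmul Finset.univ _ _ (fun A _ => hA A)
  unfold ca
  rw [div_le_iff₀ hℓ]
  refine hint.trans (hsum.trans (le_of_eq ?_))
  simp only [Finset.card_univ, nsmul_eq_mul]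
  ring

end Crest.Agent.R100.Inst
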