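import Crest.Agent.R100.InstDefs
import Crest.Agent.R100.Capt54

/-! # Row 100, STRUCT instance (helper68): a trigger gives pieces -/

set_option autoImplicit false

open MeasureTheory Set Filter

noncomputable section

namespace Crest.Agent.R100.Inst.H68

open Crest.Agent.R100 Crest.Agent.R100.Low Crest.Agent.R100.Str Crest.Agent.R100.Life
  Crest.Agent.R100.Ent Crest.Agent.R100.C54

open Classical in
theorem core {R w : ℝ} (hR2 : 2 ≤ R) (hm1 : 1 ≤ mm R) (hw9 : 10 ^ 9 ≤ w)
    (hwR : 5 * R = Real.exp (w ^ 100)) (hwm : 400 * mm R ^ 24 ≤ w) (hw100 : w ^ 100 ≤ 2 * R)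
    {Y : Type} [Fintype Y] (h : Y → ℝ → ℝ) (α ℓ P : ℝ) (j : ℕ)
    (F : Finset ℤ) (T : ℝ) (hm : ∀ y, Measurable (h y))
    (hb : ∀ y t, 0 ≤ h y t ∧ h y t ≤ 2 * Real.exp R) (hY : Real.log (Fintype.card Y) ≤ R)
    (hℓ : 0 < ℓ) (hP : Real.exp (-R) ≤ P) (hmass : ∑ y, av (h y) α ℓ ≤ P)
    (hj : (2 : ℝ) ^ j ≤ mm R ^ 3)
    (hF : ∀ N ∈ F, P / 2 ^ j ≤ ∑ y, ‖cu (fun t => (h y t : ℂ)) (N * kap R / ℓ) α ℓ‖)
    (hT1 : 0 < T) (hT3 : T ≤ Real.exp (4 * R)) (hTF : T < F.card) :
    ∃ (F' : Finset ℤ) (E : F' → ℝ) (m : ℕ) (c : Y → Fin m → ℝ) (B : Y → Fin m → Set ℝ),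
      IsProb E ∧ (∀ N, E N ≤ Real.exp (R / mm R ^ 50) / T) ∧
      (m : ℝ) ≤ Real.exp (R / mm R ^ 50) ∧
      (∀ y i, MeasurableSet (B y i)) ∧ (∀ y i i', i ≠ i' → Disjoint (B y i) (B y i')) ∧
      (∀ y i, ∀ t ∈ B y i, 1 - ‖∑ N : F', (E N : ℂ) * ex (kap R / ℓ * ((N : ℤ) : ℝ)) (t - c y i)‖ ^ 2
        ≤ 1 / 100) ∧
      P / (4 * ((2 : ℝ) ^ j) ^ 3) ≤ ∑ y, ∑ i, av ((B y i).indicator (h y)) α ℓ := by
  have hP0 : 0 < P := (Real.exp_pos _).trans_le hP
  have hκ0 : 0 < kap R := by unfold kap; positivity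
  have hκ1 : kap R ≤ 1 := by
    unfold kap
    exact inv_le_one_of_one_le₀ (one_le_pow₀ hm1)
  have hw0 : 0 < w := by linarith [show (0 : ℝ) < 10 ^ 9 by norm_num]
  have hw1 : 1 ≤ w := by linarith [show (1 : ℝ) ≤ 10 ^ 9 by norm_num]
  have h2j : (1 : ℝ) ≤ 2 ^ j := one_le_pow₀ (by norm_num)
  -- the sub-family of frequencies
  obtain ⟨F', hF'F, hF'c⟩ := Finset.exists_subset_card_eq (s := F) (n := ⌊T⌋₊ + 1)
    (Nat.succ_le_of_lt ((Nat.floor_lt hT1.le).2 hTF))
  have hcard : (Fintype.card F' : ℝ) = (⌊T⌋₊ : ℝ) + 1 := by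
    rw [Fintype.card_coe, hF'c]; push_cast; rfl
  have hcT : T < (Fintype.card F' : ℝ) := by rw [hcard]; exact Nat.lt_floor_add_one T
  have hcT2 : (Fintype.card F' : ℝ) ≤ T + 1 := by
    rw [hcard]; linarith [Nat.floor_le hT1.le]
  have hc0 : (0 : ℝ) < Fintype.card F' := by linarith
  set D : F' → ℝ := fun _ => (Fintype.card F' : ℝ)⁻¹ with hD
  have hDp : IsProb D := ⟨fun _ => by positivity, by
    simp only [hD, Finset.sum_const, Finset.card_univ, nsmul_eq_mul]
    exact mul_inv_cancel₀ hc0.ne'⟩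
  have : ∀ y, IsFiniteMeasure (nu (h y) α ℓ) := fun y => nu_fin (fun t => (hb y t).2) α ℓ
  set p : ℝ := ∑ y, av (h y) α ℓ with hp
  have htot : ∑ y, (nu (h y) α ℓ).real univ = ℓ * p := by
    rw [hp, Finset.mul_sum]
    refine Finset.sum_congr rfl fun y _ => ?_
    rw [nu_real (hm y) (fun t => (hb y t).1) α hℓ MeasurableSet.univ, indicator_univ]
  have hFne : F.Nonempty := by
    rw [← Finset.card_pos]
    exact_mod_cast (show (0 : ℝ) < F.card by linarith)
  have hpP : P / 2 ^ j ≤ p := by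
    obtain ⟨N, hN⟩ := hFne
    exact (hF N hN).trans (Finset.sum_le_sum fun y _ => cu_le_av (fun t => (hb y t).1) α hℓ _)
  have hp0 : 0 < p := lt_of_lt_of_le (by positivity) hpP
  set s : ℝ := ((2 : ℝ) ^ j)⁻¹ with hs
  have hs0 : 0 < s := by positivity
  have hs1 : s ≤ 1 := inv_le_one_of_one_le₀ h2j
  have hsm : (mm R ^ 3)⁻¹ ≤ s := inv_anti₀ (by positivity) hj
  have hsP : P / 2 ^ j = s * P := by rw [hs]; ring
  have hmm0 : 0 < mm R := by linarith
  have hs8 : s ^ 8 ≤ 1 := pow_le_one₀ hs0.le hs1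
  obtain ⟨E, m, c, B, hE, hED, hmle, hBm, hBd, hpure, hcapt⟩ :=
    AdP.ad_line (θ := kap R / ℓ) (α := α) (ℓ := ℓ) (c := 2 * Real.exp R) (s := s) (w := w)
      (R := 5 * R) (ε := s ^ 8 / 400) (by positivity)
      (by rw [div_mul_cancel₀ _ hℓ.ne']; linarith [Real.pi_gt_three]) (by positivity)
      (fun y => nu (h y) α ℓ) (fun y => nu_le (fun t => (hb y t).2) α ℓ)
      (by rw [htot]; positivity) (fun N : F' => (N : ℤ)) hs0 hs1
      (fun N => by
        rw [htot]
        have e1 := hF N (hF'F N.2)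
        have e2 : ∑ y, ‖∫ t, ex (kap R / ℓ * ((N : ℤ) : ℝ)) t ∂nu (h y) α ℓ‖ =
            ℓ * ∑ y, ‖cu (fun t => (h y t : ℂ)) ((N : ℤ) * kap R / ℓ) α ℓ‖ := by
          rw [Finset.mul_sum]
          refine Finset.sum_congr rfl fun y _ => ?_
          rw [nu_ex (hm y) (fun t => (hb y t).1) α hℓ]
          congr 3
          ring
        rw [e2]
        rw [hsP] at e1
        have e3 : s * p ≤ s * P := mul_le_mul_of_nonneg_left hmass hs0.le
        nlinarith)
      hw9 hwR
      (by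
        have e1 : ((mm R ^ 3)⁻¹) ^ 8 ≤ s ^ 8 := pow_le_pow_left₀ (by positivity) hsm 8
        have e2 : ((mm R ^ 3)⁻¹) ^ 8 = (mm R ^ 24)⁻¹ := by rw [inv_pow, ← pow_mul]
        have e3 : 1 / w ≤ (mm R ^ 24)⁻¹ / 400 := by
          rw [← one_div, div_div, mul_comm]
          exact one_div_le_one_div_of_le (by positivity) hwm
        linarith)
      (by have : 0 ≤ s ^ 8 := by positivity
          linarith)
      (by
        rw [Real.log_le_iff_le_exp hc0]
        have e1 : Real.exp (5 * R) = Real.exp (4 * R) * Real.exp R := by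
          rw [← Real.exp_add]; ring_nf
        have e2 := Real.add_one_le_exp R
        have e3 := Real.add_one_le_exp (4 * R)
        nlinarith)
      (by
        rw [htot]
        have e1 : (Fintype.card Y : ℝ) ≤ Real.exp R := by
          rcases Nat.eq_zero_or_pos (Fintype.card Y) with h0 | h0
          · rw [h0]; simp [Real.exp_nonneg]
          · exact (Real.log_le_iff_le_exp (by exact_mod_cast h0)).1 hY
        have e2 : 128 * mm R ^ 79 ≤ Real.exp (2 * R) := by
          have a1 : mm R ^ 24 ≤ w := by nlinarith [pow_pos hmm0 24]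
          have a2 : mm R ^ 79 ≤ mm R ^ 96 := pow_le_pow_right₀ hm1 (by norm_num)
          have a3 : mm R ^ 96 ≤ w ^ 4 := by
            rw [show 96 = 24 * 4 by norm_num, pow_mul]
            exact pow_le_pow_left₀ (by positivity) a1 4
          have a4 : w ^ 5 ≤ w ^ 100 := pow_le_pow_right₀ hw1 (by norm_num)
          have a5 : 128 * w ^ 4 ≤ w ^ 5 := by
            rw [pow_succ w 4, mul_comm]
            exact mul_le_mul_of_nonneg_left (by linarith [show (128 : ℝ) ≤ 10 ^ 9 by norm_num])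
              (by positivity)
          have a6 := Real.add_one_le_exp (2 * R)
          linarith
        have e3 : (mm R ^ 79)⁻¹ * Real.exp (-R) ≤ s ^ 2 * p * kap R := by
          have a1 : (mm R ^ 79)⁻¹ = ((mm R ^ 3)⁻¹) ^ 3 * kap R := by
            unfold kap; field_simp
          have a2 : ((mm R ^ 3)⁻¹) ^ 3 ≤ s ^ 3 := pow_le_pow_left₀ (by positivity) hsm 3
          have a3 : s * Real.exp (-R) ≤ p := by
            rw [hsP] at hpP
            exact (mul_le_mul_of_nonneg_left hP hs0.le).trans hpP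
          rw [a1]
          calc ((mm R ^ 3)⁻¹) ^ 3 * kap R * Real.exp (-R) ≤ s ^ 3 * kap R * Real.exp (-R) := by
                gcongr
            _ = s ^ 2 * (s * Real.exp (-R)) * kap R := by ring
            _ ≤ _ := by gcongr
        have e4 : s ^ 2 * (ℓ * p) * (kap R / ℓ) = s ^ 2 * p * kap R := by field_simp
        rw [e4]
        have e5 : Real.exp (5 * R) =
            Real.exp R * Real.exp R * Real.exp R * Real.exp (2 * R) := by
          rw [← Real.exp_add, ← Real.exp_add, ← Real.exp_add]; ring_nf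
        have e6 : Real.exp (-R) * Real.exp R = 1 := by rw [← Real.exp_add]; simp
        have e7 := Real.exp_pos R
        calc 16 * Real.pi * Fintype.card Y * (2 * Real.exp R)
            ≤ 16 * 4 * Real.exp R * (2 * Real.exp R) := by
              gcongr
              exact Real.pi_le_four
          _ = (mm R ^ 79)⁻¹ * Real.exp (-R) *
              (Real.exp R * Real.exp R * Real.exp R * (128 * mm R ^ 79)) := by
              have : (mm R ^ 79)⁻¹ * mm R ^ 79 = 1 := inv_mul_cancel₀ (by positivity)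
              linear_combination (-128 * Real.exp R * Real.exp R) * e6 -
                (128 * Real.exp R * Real.exp R * Real.exp (-R) * Real.exp R) * this
          _ ≤ _ := by rw [e5]; gcongr)
      hDp
  have hK : Real.exp (3 * (5 * R) / w ^ 12) ≤ Real.exp (R / mm R ^ 50) := by
    refine Real.exp_le_exp.2 ?_
    have a1 : mm R ^ 24 ≤ w := by nlinarith [pow_pos hmm0 24]
    have a2 : mm R ^ 50 ≤ mm R ^ 72 := pow_le_pow_right₀ hm1 (by norm_num)
    have a3 : mm R ^ 72 ≤ w ^ 3 := by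
      rw [show 72 = 24 * 3 by norm_num, pow_mul]
      exact pow_le_pow_left₀ (by positivity) a1 3
    have a4 : w ^ 4 ≤ w ^ 12 := pow_le_pow_right₀ hw1 (by norm_num)
    have a5 : 15 * w ^ 3 ≤ w ^ 4 := by
      rw [pow_succ w 3, mul_comm]
      exact mul_le_mul_of_nonneg_left (by linarith [show (15 : ℝ) ≤ 10 ^ 9 by norm_num])
        (by positivity)
    rw [div_le_div_iff₀ (by positivity) (by positivity)]
    nlinarith
  have hEm : ∀ N, E N ≤ Real.exp (R / mm R ^ 50) / T := fun N => by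
    refine (hED N).trans ?_
    rw [div_eq_mul_inv (Real.exp _)]
    exact mul_le_mul hK (inv_anti₀ hT1 hcT.le) (by positivity) (by positivity)
  refine ⟨F', E, m, c, B, hE, hEm, hmle.trans hK, hBm, hBd, fun y i t ht => ?_, ?_⟩
  · have := hpure y i t ht
    linarith
  · rw [htot] at hcapt
    have e1 : ∑ y, ∑ i, (nu (h y) α ℓ).real (B y i) =
        ℓ * ∑ y, ∑ i, av ((B y i).indicator (h y)) α ℓ := by
      rw [Finset.mul_sum]
      refine Finset.sum_congr rfl fun y _ => ?_
      rw [Finset.mul_sum]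
      exact Finset.sum_congr rfl fun i _ =>
        nu_real (hm y) (fun t => (hb y t).1) α hℓ (hBm y i)
    rw [e1] at hcapt
    have e2 : P / (4 * ((2 : ℝ) ^ j) ^ 3) = s ^ 2 / 4 * (s * P) := by
      rw [hs]; field_simp
    rw [e2, ← hsP]
    refine le_of_mul_le_mul_left (le_trans ?_ hcapt) hℓ
    have : 0 ≤ ℓ * (s ^ 2 / 4) := by positivity
    nlinarith

variable {R : ℝ} {g : ℝ → ℝ} {K : Cls} {S : Set ℝ} {ℓ : ℝ} {d : ℕ}

theorem F_cont (K : Cls) : Continuous K.F := by
  unfold Cls.F ex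
  fun_prop

theorem F_le (hok : Ok0 K S ℓ d) (τ : ℝ) : K.F τ ≤ 1 := by
  unfold Cls.F
  refine (Complex.re_le_norm _).trans ((norm_sum_le _ _).trans (le_of_eq ?_))
  rw [← hok.lone]
  refine Finset.sum_congr rfl fun ω _ => ?_
  rw [norm_mul, P46.norm_ex, mul_one, Complex.norm_real, Real.norm_of_nonneg (hok.lnn ω)]

theorem h_meas (hg : GG R g) (hS : MeasurableSet S) (hok : Ok0 K S ℓ d) (y : K.Y) :
    Measurable (K.h g S y) := by
  classical
  unfold Cls.h
  exact Measurable.ite (hS.inter (hok.mlab y))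
    (hg.meas.div ((F_cont K).measurable.comp (measurable_id.sub_const _))) measurable_const

open Classical in
theorem h_bd (hg : GG R g) (hok : Ok0 K S ℓ d) (y : K.Y) (t : ℝ) :
    0 ≤ K.h g S y t ∧ K.h g S y t ≤ 2 * (if t ∈ S ∧ K.lab t = y then g t else 0) := by
  unfold Cls.h
  split_ifs with h
  · have h1 := hok.pure t h.1
    rw [h.2] at h1
    have h2 := (hg.bd t).1
    refine ⟨div_nonneg h2 (by linarith), ?_⟩
    rw [div_le_iff₀ (by linarith)]
    nlinarith
  · simp

theorem av_sum {ι : Type} (s : Finset ι) (f : ι → ℝ → ℝ) {α ℓ : ℝ}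
    (hf : ∀ i ∈ s, IntervalIntegrable (f i) volume α (α + ℓ)) :
    ∑ i ∈ s, av (f i) α ℓ = av (fun t => ∑ i ∈ s, f i t) α ℓ := by
  unfold av
  rw [intervalIntegral.integral_finsetSum hf, Finset.sum_div]

theorem ii_bd {f : ℝ → ℝ} (hf : Measurable f) {M : ℝ} (hM : ∀ t, 0 ≤ f t ∧ f t ≤ M) (a b : ℝ) :
    IntervalIntegrable f volume a b := by
  refine (intervalIntegrable_const (c := M)).mono_fun' hf.aestronglyMeasurable
    (Eventually.of_forall fun t => ?_)
  simp only [Real.norm_eq_abs, abs_of_nonneg (hM t).1]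
  exact (hM t).2

theorem av_le_two (hg : GG R g) {S' : Set ℝ} (hS' : MeasurableSet S') {f : ℝ → ℝ} {α : ℝ}
    (hℓ : 0 < ℓ) (hf : IntervalIntegrable f volume α (α + ℓ))
    (h : ∀ t ∈ Ioc α (α + ℓ), f t ≤ 2 * S'.indicator g t) :
    av f α ℓ ≤ 2 * ca (fnS g S') α ℓ := by
  have hi : IntervalIntegrable (S'.indicator g) volume α (α + ℓ) :=
    ii_bd (hg.meas.indicator hS') (M := Real.exp R) (fun t => by
      by_cases ht : t ∈ S'
      · simpa [ht] using hg.bd t
      · simp [ht, Real.exp_nonneg]) _ _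
  have e : ca (fnS g S') α ℓ = av (S'.indicator g) α ℓ := by
    unfold ca
    simp only [norm_fnS hg]
    rfl
  rw [e, av, av, ← mul_div_assoc, ← intervalIntegral.integral_const_mul]
  refine div_le_div_of_nonneg_right ?_ hℓ.le
  exact intervalIntegral.integral_mono_on_of_le_Ioo (by linarith) hf (hi.const_mul 2)
    fun t ht => h t (Ioo_subset_Ioc_self ht)

theorem capt {R : ℝ} {g : ℝ → ℝ} (hb : Big R) (hg : GG R g) {K : Cls} {S : Set ℝ}
    (hS : MeasurableSet S) (α : ℝ) {ℓ P : ℝ} {d : ℕ} (hℓ : 0 < ℓ) (hok : Ok R K S ℓ d)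
    (hP : Real.exp (-(40 * mm R)) ≤ P) (hc : ca (fnS g S) α ℓ ≤ P) (hq : ¬ Quiet R g K S α ℓ P) :
    ∃ (j : ℕ) (ι : Type) (_ : Fintype ι) (E : ι → ℝ) (z : ι → ℤ) (m : ℕ) (y : K.Y → Fin m → ℝ)
      (Bs : K.Y → Fin m → Set ℝ), (2 : ℝ) ^ j ≤ mm R ^ 3 ∧ (m : ℝ) ≤ Real.exp (R / mm R ^ 50) ∧
      Pieces R K ℓ (Mn R K.μ j) E z y Bs ∧ P / (4 * 8 ^ j) ≤ ca (fnS g (capS K S α ℓ Bs)) α ℓ := by
  classical
  unfold Quiet at hq
  push Not at hq
  obtain ⟨j, hj, F, hF, hTF⟩ := hq
  obtain ⟨w, hw9, hwR, hwm, -⟩ := hb.ad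
  have hm4 := hb.m4
  have hR1 := hb.one
  have hm1 : 1 ≤ mm R := by linarith
  have hm0 : 0 < mm R := by linarith
  have hlog : Real.exp (mm R) = 2 + Real.log R := by
    have := Real.log_nonneg hR1
    unfold mm
    rw [Real.exp_log (by linarith)]
  have hlR := Real.log_le_sub_one_of_pos (show 0 < R by linarith)
  have hq2 : mm R ^ 2 / 2 ≤ Real.exp (mm R) := by
    have := Real.pow_div_factorial_le_exp (mm R) hm0.le 2
    simpa [Nat.factorial] using this
  have hRm : 100 * mm R ≤ R := by nlinarith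
  have hw100 : w ^ 100 ≤ 2 * R := by
    have e : w ^ 100 = Real.log (5 * R) := by rw [hwR, Real.log_exp]
    rw [e, Real.log_mul (by norm_num) (by linarith)]
    have := Real.log_le_sub_one_of_pos (x := 5) (by norm_num)
    linarith
  have hP0 : 0 < P := (Real.exp_pos _).trans_le hP
  have hRm0 : 0 ≤ R / mm R := by positivity
  set δ : ℝ := 4 * (2 : ℝ) ^ ((j : ℝ) / 4) * (R / mm R) with hδ
  have hδR : δ ≤ R := by
    have e1 : ((2 : ℝ) ^ ((j : ℝ) / 4)) ^ 4 = 2 ^ j := by
      rw [← Real.rpow_natCast, ← Real.rpow_mul (by norm_num), ← Real.rpow_natCast]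
      congr 1
      push_cast; ring
    have e2 : (2 : ℝ) ^ ((j : ℝ) / 4) ≤ mm R / 4 := by
      refine le_of_pow_le_pow_left₀ (n := 4) (by norm_num) (by positivity) ?_
      rw [e1]
      refine hj.trans ?_
      have : 0 < mm R ^ 3 := by positivity
      nlinarith
    calc δ ≤ 4 * (mm R / 4) * (R / mm R) := by rw [hδ]; gcongr
      _ = R := by field_simp
  have hμ := hok.mu0
  have hT3 : Real.exp δ / K.μ ≤ Real.exp (4 * R) := by
    rw [div_le_iff₀ hμ]
    calc Real.exp δ ≤ Real.exp (4 * R + Real.log K.μ) :=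
          Real.exp_le_exp.2 (by linarith [hok.mu1])
      _ = _ := by rw [Real.exp_add, Real.exp_log hμ]
  have haa : 0 ≤ aa R K.μ := by
    unfold aa
    exact div_nonneg (by linarith [hok.mu1]) hRm0
  have hY : Real.log (Fintype.card K.Y) ≤ R := by
    refine hok.card.trans ?_
    have e1 : 120 * mm R ≤ mm R ^ 50 := by
      have : mm R ^ 2 ≤ mm R ^ 50 := pow_le_pow_right₀ hm1 (by norm_num)
      nlinarith
    calc R / mm R ^ 50 * (120 * mm R - aa R K.μ) ≤ R / mm R ^ 50 * mm R ^ 50 :=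
          mul_le_mul_of_nonneg_left (by linarith) (by positivity)
      _ = R := by field_simp
  have hm := h_meas hg hS hok.toOk0
  have hbd : ∀ y t, 0 ≤ K.h g S y t ∧ K.h g S y t ≤ 2 * Real.exp R := fun y t => by
    obtain ⟨h1, h2⟩ := h_bd hg hok.toOk0 y t
    refine ⟨h1, h2.trans ?_⟩
    have := hg.bd t
    have := Real.exp_pos R
    split_ifs <;> linarith
  have hmass : ∑ y, av (K.h g S y) α ℓ ≤ 2 * P := by
    rw [av_sum _ _ fun y _ => ii_bd (hm y) (hbd y) _ _]
    refine (av_le_two hg hS hℓ (IntervalIntegrable.sum Finset.univ (fun y _ => ii_bd (hm y) (hbd y) _ _)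
      |>.congr fun t _ => by simp) fun t _ => ?_).trans (by linarith)
    refine (Finset.sum_le_sum fun y _ => (h_bd hg hok.toOk0 y t).2).trans (le_of_eq ?_)
    rw [← Finset.mul_sum]
    by_cases ht : t ∈ S <;> simp [ht]
  obtain ⟨F', E, m, c, B, hE, hEm, hmle, hBm, hBd, hpure, hcap⟩ :=
    core (by linarith) hm1 hw9 hwR (by nlinarith [pow_pos hm0 24]) hw100 (K.h g S) α ℓ (2 * P) j F
      (Real.exp δ / K.μ) hm hbd hY hℓ
      ((Real.exp_le_exp.2 (by linarith)).trans (hP.trans (by linarith))) hmass hj hF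
      (by positivity) hT3 hTF
  have hMn : Real.exp (R / mm R ^ 50) / (Real.exp δ / K.μ) = Mn R K.μ j := by
    unfold Mn
    rw [Real.exp_sub, ← hδ]
    field_simp
  refine ⟨j, F', inferInstance, E, fun N => (N : ℤ), m, c, B, hj, hmle,
    ⟨hE.nn, hE.one, fun N => ?_, hBm, hBd, fun A k t ht => ?_⟩, ?_⟩
  · rw [← hMn]
    by_cases hN : N ∈ F'
    · rw [Finset.sum_eq_single_of_mem (⟨N, hN⟩ : F') (by simp)
        (fun b hb hne => absurd (Subtype.ext (by simpa using hb)) hne)]
      exact hEm _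
    · rw [Finset.sum_eq_zero fun b hb => absurd (by
        have : (b : ℤ) = N := by simpa using hb
        exact this ▸ b.2) hN]
      positivity
  · have := hpure A k t ht
    refine le_of_pow_le_pow_left₀ (n := 2) (by norm_num) (norm_nonneg _) ?_
    linarith
  · have hii : ∀ y i, IntervalIntegrable ((B y i).indicator (K.h g S y)) volume α (α + ℓ) :=
      fun y i => ii_bd ((hm y).indicator (hBm y i)) (M := 2 * Real.exp R) (fun t => by
        by_cases ht : t ∈ B y i
        · simpa [ht] using hbd y t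
        · simp [ht, Real.exp_nonneg]) _ _
    have hi2 : ∀ y, IntervalIntegrable (fun t => ∑ i, (B y i).indicator (K.h g S y) t) volume α
        (α + ℓ) := fun y => (IntervalIntegrable.sum Finset.univ (fun i _ => hii y i)).congr fun t _ => by simp
    have e1 : ∑ y, ∑ i, av ((B y i).indicator (K.h g S y)) α ℓ =
        av (fun t => ∑ y, ∑ i, (B y i).indicator (K.h g S y) t) α ℓ := by
      rw [← av_sum _ _ fun y _ => hi2 y]
      exact Finset.sum_congr rfl fun y _ => av_sum _ _ fun i _ => hii y i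
    have e2 := av_le_two hg (capS_meas hS hok.mlab α ℓ hBm) hℓ
      (f := fun t => ∑ y, ∑ i, (B y i).indicator (K.h g S y) t)
      ((IntervalIntegrable.sum Finset.univ (fun y _ => hi2 y)).congr fun t _ => by simp) fun t ht => by
        have hz : ∀ y, y ≠ K.lab t → ∑ i, (B y i).indicator (K.h g S y) t = 0 := fun y hy =>
          Finset.sum_eq_zero fun i _ => by
            have : K.h g S y t = 0 := by
              unfold Cls.h
              rw [if_neg fun h => hy h.2.symm]
            by_cases hB : t ∈ B y i <;> simp [hB, this]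
        show ∑ y, ∑ i, (B y i).indicator (K.h g S y) t ≤ _
        rw [Finset.sum_eq_single (K.lab t) (fun y _ hy => hz y hy) (by simp)]
        have h2 := (h_bd hg hok.toOk0 (K.lab t) t).2
        have h3 := (hg.bd t).1
        by_cases hex : ∃ k, t ∈ B (K.lab t) k
        · obtain ⟨k, hk⟩ := hex
          rw [Finset.sum_eq_single k (fun i _ hi => indicator_of_notMem
            (fun hi' => Set.disjoint_left.1 (hBd _ i k hi) hi' hk) _) (by simp),
            indicator_of_mem hk]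
          by_cases htS : t ∈ S
          · rw [indicator_of_mem (show t ∈ capS K S α ℓ B from ⟨htS, ht, k, hk⟩)]
            simpa [htS] using h2
          · rw [indicator_of_notMem (fun h => htS h.1)]
            simpa [htS] using h2
        · rw [Finset.sum_eq_zero fun i _ => indicator_of_notMem (fun hi => hex ⟨i, hi⟩) _]
          exact mul_nonneg (by norm_num) (indicator_nonneg (fun t _ => (hg.bd t).1) t)
    have e3 : 2 * P / (4 * ((2 : ℝ) ^ j) ^ 3) = 2 * (P / (4 * 8 ^ j)) := by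
      rw [← pow_mul, mul_comm j 3, pow_mul]
      norm_num
      ring
    rw [e1, e3] at hcap
    linarith

end Crest.Agent.R100.Inst.H68
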