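import Crest.Agent.R100.LifeDefs

/-! # Row 100: asymptotics of `mm R = log (2 + log R)` -/

set_option autoImplicit false

open Filter

noncomputable section

namespace Crest.Agent.R100.Num49

open Crest.Agent.R100.Life

theorem tend_log : Tendsto (fun R : ℝ => 2 + Real.log R) atTop atTop :=
  tendsto_atTop_add_const_left _ _ Real.tendsto_log_atTop

theorem tend_mm : Tendsto mm atTop atTop := Real.tendsto_log_atTop.comp tend_log

theorem ev_mm (C : ℝ) : ∀ᶠ R in atTop, C ≤ mm R := tend_mm.eventually_ge_atTop C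

theorem exp_mm {R : ℝ} (hR : 1 ≤ R) : Real.exp (mm R) = 2 + Real.log R :=
  Real.exp_log (by linarith [Real.log_nonneg hR])

/-- `C y ^ k ≤ exp (c y)` -/
theorem ev_pow_exp (C : ℝ) (k : ℕ) {c : ℝ} (hc : 0 < c) :
    ∀ᶠ y : ℝ in atTop, C * y ^ k ≤ Real.exp (c * y) := by
  have h := (isLittleO_pow_exp_pos_mul_atTop k hc).const_mul_left C
  filter_upwards [h.bound one_pos] with y hy
  rw [one_mul, Real.norm_of_nonneg (Real.exp_pos _).le] at hy
  exact (le_abs_self _).trans hy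

/-- `C m ^ k ≤ exp (c m) = (2 + log R) ^ c` -/
theorem ev_mm_exp (C : ℝ) (k : ℕ) {c : ℝ} (hc : 0 < c) :
    ∀ᶠ R in atTop, C * mm R ^ k ≤ Real.exp (c * mm R) := tend_mm.eventually (ev_pow_exp C k hc)

theorem ev_mm_log (C : ℝ) (k : ℕ) : ∀ᶠ R in atTop, C * mm R ^ k ≤ Real.log R := by
  filter_upwards [ev_mm_exp (2 * C) k one_pos, eventually_ge_atTop (Real.exp 2)] with R h hR
  have h1 : 1 ≤ R := le_trans (by linarith [Real.add_one_le_exp (2 : ℝ)]) hR
  have h2 : 2 ≤ Real.log R := (Real.le_log_iff_exp_le (by linarith)).2 hR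
  rw [one_mul, exp_mm h1] at h
  linarith

theorem ev_log_pow (C : ℝ) (k : ℕ) {c : ℝ} (hc : 0 < c) :
    ∀ᶠ R in atTop, C * Real.log R ^ k ≤ R ^ c := by
  filter_upwards [Real.tendsto_log_atTop.eventually (ev_pow_exp C k hc),
    eventually_gt_atTop 0] with R h hR
  rwa [Real.rpow_def_of_pos hR, mul_comm (Real.log R)]

/-- `C m ^ k (log R) ^ j ≤ √R` -/
theorem ev_sqrt (C : ℝ) (k j : ℕ) :
    ∀ᶠ R in atTop, C * mm R ^ k * Real.log R ^ j ≤ Real.sqrt R := by
  filter_upwards [ev_mm_log C k, ev_log_pow 1 (j + 1) (c := 1 / 2) (by norm_num),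
    eventually_ge_atTop 1] with R h1 h2 hR
  rw [Real.sqrt_eq_rpow]
  have h0 : 0 ≤ Real.log R ^ j := pow_nonneg (Real.log_nonneg hR) j
  calc _ ≤ Real.log R * Real.log R ^ j := mul_le_mul_of_nonneg_right h1 h0
    _ = 1 * Real.log R ^ (j + 1) := by ring
    _ ≤ _ := h2

/-- `C m ^ k (log R) ^ j ≤ R / m ^ l` -/
theorem ev_div (C : ℝ) (k j l : ℕ) :
    ∀ᶠ R in atTop, C * mm R ^ k * Real.log R ^ j ≤ R / mm R ^ l := by
  filter_upwards [ev_sqrt C (k + l) j, ev_mm 1, eventually_ge_atTop 1] with R h1 h2 hR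
  rw [le_div_iff₀ (by positivity)]
  have h3 : Real.sqrt R ≤ R := by
    rw [Real.sqrt_le_left (by linarith)]; nlinarith
  calc _ = C * mm R ^ (k + l) * Real.log R ^ j := by ring
    _ ≤ R := h1.trans h3

/-- `C m ^ k ≤ R / m ^ l` -/
theorem ev_div' (C : ℝ) (k l : ℕ) : ∀ᶠ R in atTop, C * mm R ^ k ≤ R / mm R ^ l := by
  simpa using ev_div C k 0 l

/-- `C R ^ j exp (D m ^ k) ≤ exp (R / (E m ^ l))` -/
theorem ev_exp (C D : ℝ) (j k l : ℕ) {E : ℝ} (hE : 0 < E) :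
    ∀ᶠ R in atTop, C * R ^ j * Real.exp (D * mm R ^ k) ≤ Real.exp (R / (E * mm R ^ l)) := by
  filter_upwards [ev_div (3 * E * j) 0 1 l, ev_div' (3 * E * D) k l,
    ev_div' (3 * E * |C|) 0 l, ev_mm 1, eventually_ge_atTop 1] with R h1 h2 h3 hm hR
  have hR0 : 0 < R := by linarith
  have e1 : R ^ j = Real.exp (j * Real.log R) := by
    rw [← Real.log_pow, Real.exp_log (by positivity)]
  have e2 : C ≤ Real.exp |C| := by linarith [le_abs_self C, Real.add_one_le_exp |C|]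
  have e3 : R / (E * mm R ^ l) = R / mm R ^ l / E := by field_simp
  calc _ ≤ Real.exp |C| * R ^ j * Real.exp (D * mm R ^ k) := by gcongr
    _ = Real.exp (|C| + j * Real.log R + D * mm R ^ k) := by
      rw [e1, ← Real.exp_add, ← Real.exp_add]
    _ ≤ _ := by
      rw [Real.exp_le_exp, e3, le_div_iff₀ hE]
      simp only [pow_zero, pow_one, mul_one] at h1 h3
      nlinarith

/-- the parameter `w` of `AD` for `a R` -/
theorem ev_w {a : ℝ} (ha : 1 ≤ a) (C : ℝ) (k : ℕ) : ∀ᶠ R in atTop, ∃ w : ℝ, 10 ^ 9 ≤ w ∧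
    a * R = Real.exp (w ^ 100) ∧ C * mm R ^ k ≤ w := by
  filter_upwards [ev_mm_log ((max C (10 ^ 9)) ^ 100) (k * 100), ev_mm 1, eventually_ge_atTop 1]
    with R h hm hR
  have h0 : 0 ≤ Real.log R := Real.log_nonneg hR
  have h1 : Real.log R ≤ Real.log (a * R) := Real.log_le_log (by linarith) (by nlinarith)
  have h2 : ((Real.log (a * R)) ^ ((100 : ℕ) : ℝ)⁻¹) ^ 100 = Real.log (a * R) :=
    Real.rpow_inv_natCast_pow (by linarith) (by norm_num)
  have h3 : max C (10 ^ 9) * mm R ^ k ≤ (Real.log (a * R)) ^ ((100 : ℕ) : ℝ)⁻¹ := by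
    refine le_of_pow_le_pow_left₀ (n := 100) (by norm_num) (Real.rpow_nonneg (by linarith) _) ?_
    rw [h2, mul_pow, ← pow_mul]
    linarith
  have h4 : 1 ≤ mm R ^ k := one_le_pow₀ hm
  have h5 : (10 : ℝ) ^ 9 ≤ max C (10 ^ 9) := le_max_right _ _
  refine ⟨_, le_trans (by nlinarith) h3, ?_,
    le_trans (mul_le_mul_of_nonneg_right (le_max_left _ _) (by positivity)) h3⟩
  rw [h2, Real.exp_log (by nlinarith)]

/-- the numbers of the capture lemma: `ad_line` is used with `R' = a R`, `ε = 1 / w` -/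
theorem ev_cap {a : ℝ} (ha : 1 ≤ a) : ∀ᶠ R in atTop, ∃ w : ℝ, 10 ^ 9 ≤ w ∧
    a * R = Real.exp (w ^ 100) ∧ 32 * mm R ^ 50 ≤ w ∧ 3 * (a * R) / w ^ 12 ≤ R / mm R ^ 50 := by
  filter_upwards [ev_w ha (max 32 (3 * a)) 50, ev_mm 1, eventually_ge_atTop 1] with R h hm hR
  obtain ⟨w, h1, h2, h3⟩ := h
  have h4 : 0 < mm R ^ 50 := by positivity
  have h5 := mul_le_mul_of_nonneg_right (le_max_left 32 (3 * a)) h4.le
  have h6 := mul_le_mul_of_nonneg_right (le_max_right 32 (3 * a)) h4.le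
  have w1 : 1 ≤ w := le_trans (by norm_num) h1
  have h7 : w ≤ w ^ 12 := le_self_pow₀ w1 (by norm_num)
  refine ⟨w, h1, h2, h5.trans h3, ?_⟩
  rw [div_le_div_iff₀ (by positivity) h4]
  nlinarith

end Crest.Agent.R100.Num49
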