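import Crest.Agent.R100.InstDefs
import Crest.Agent.R100.Num49

set_option autoImplicit false

open MeasureTheory Set

noncomputable section

namespace Crest.Agent.R100.Inst.H49

open Crest.Agent.R100 Crest.Agent.R100.Low Crest.Agent.R100.Str Crest.Agent.R100.Life

theorem big_exists : ∃ R₀ : ℝ, ∀ R, R₀ ≤ R → Big R := by
  refine Filter.eventually_atTop.1 ?_
  filter_upwards [Filter.eventually_ge_atTop 1, Num49.ev_mm (10 ^ 4),
    Num49.ev_exp 1 1000 1 1 50 one_pos, Num49.ev_w (a := 5) (by norm_num) 3200 50] with R h1 h2 h3 h4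
  obtain ⟨w, w1, w2, w3⟩ := h4
  have m1 : 1 ≤ mm R := le_trans (by norm_num) h2
  have h5 : mm R ^ 24 ≤ mm R ^ 50 := pow_le_pow_right₀ m1 (by norm_num)
  have h6 : w ≤ w ^ 12 := le_self_pow₀ (le_trans (by norm_num) w1) (by norm_num)
  have h7 : 0 ≤ mm R ^ 50 := by positivity
  exact ⟨h1, h2, by simpa using h3, w, w1, w2, by linarith, by linarith⟩

theorem m1 {R : ℝ} (hb : Big R) : 1 ≤ mm R := le_trans (by norm_num) hb.m4

theorem mas {R : ℝ} (hb : Big R) : 1000 * mm R ≤ R / mm R ^ 50 := by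
  have h := hb.master
  have h1 : Real.exp (1000 * mm R) ≤ R * Real.exp (1000 * mm R) :=
    le_mul_of_one_le_left (Real.exp_pos _).le hb.one
  exact Real.exp_le_exp.1 (h1.trans h)

theorem div_le {R : ℝ} (hb : Big R) {j k : ℕ} (h : j < k) :
    10000 * (R / mm R ^ k) ≤ R / mm R ^ j := by
  have m1 := m1 hb
  have h1 : mm R ^ (j + 1) ≤ mm R ^ k := pow_le_pow_right₀ m1 h
  have h2 := hb.m4
  have h0 := hb.one
  rw [← mul_div_assoc, div_le_div_iff₀ (by positivity) (by positivity)]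
  have h3 : 10000 * mm R ^ j ≤ mm R ^ k := by
    refine le_trans ?_ h1
    rw [pow_succ, mul_comm]
    exact mul_le_mul_of_nonneg_left (by linarith) (by positivity)
  nlinarith

theorem pow_le_exp {R : ℝ} (hb : Big R) (k : ℕ) : mm R ^ k ≤ Real.exp (k * mm R) := by
  rw [Real.exp_nat_mul]
  exact pow_le_pow_left₀ (by linarith [m1 hb]) (by linarith [Real.add_one_le_exp (mm R)]) k

theorem c_le_exp {R c : ℝ} (hb : Big R) (hc : c ≤ 10 ^ 4) : c ≤ Real.exp (mm R) := by
  linarith [Real.add_one_le_exp (mm R), hb.m4]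

theorem B_le {R B : ℝ} (hb : Big R) (hB' : B ≤ 16 * (1 + Real.log R) ^ 2) :
    B ≤ 16 * Real.exp (2 * mm R) := by
  have h1 := Num49.exp_mm hb.one
  have h2 := Real.log_nonneg hb.one
  have : Real.exp (2 * mm R) = Real.exp (mm R) ^ 2 := by rw [← Real.exp_nat_mul]; norm_num
  rw [this, h1]
  nlinarith

theorem kap_le {R : ℝ} (hb : Big R) : 1 + 2 * Real.pi / kap R ≤ Real.exp (71 * mm R) := by
  have h1 := pow_le_exp hb 70
  have h2 := c_le_exp hb (c := 9) (by norm_num)
  have h3 : 1 ≤ mm R ^ 70 := one_le_pow₀ (m1 hb)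
  have e : Real.exp (71 * mm R) = Real.exp (mm R) * Real.exp ((70 : ℕ) * mm R) := by
    rw [← Real.exp_add]; congr 1; push_cast; ring
  rw [e, kap, div_inv_eq_mul]
  nlinarith [Real.pi_le_four, Real.pi_pos]

theorem num_P {R B a P : ℝ} (hb : Big R) (hB : 1 ≤ B) (ha : 0 ≤ a) (hP : 0 < P)
    (h : rk B a P ≤ 160 * mm R) : Real.exp (-(40 * mm R)) ≤ P := by
  have m1 := m1 hb
  have h1 : Real.logb 2 (4 * B / P) ≤ 40 * mm R := by rw [rk] at h; linarith
  have l2 : 0 < Real.log 2 := Real.log_pos (by norm_num)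
  rw [Real.logb, div_le_iff₀ l2] at h1
  have h2 : Real.log (1 / P) ≤ Real.log (4 * B / P) :=
    Real.log_le_log (by positivity) (div_le_div_of_nonneg_right (by linarith) hP.le)
  rw [one_div, Real.log_inv] at h2
  rw [← Real.le_log_iff_exp_le hP]
  nlinarith [Real.log_two_lt_d9]

theorem num_root {R B : ℝ} (hb : Big R) (hB : 1 ≤ B) (hB' : B ≤ 16 * (1 + Real.log R) ^ 2) :
    aa R 1 = 120 * mm R ∧ rk B (aa R 1) 1 ≤ 160 * mm R := by
  have m1 := m1 hb
  have h0 := hb.one
  have e : aa R 1 = 120 * mm R := by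
    rw [aa, Real.log_one]; field_simp; ring
  refine ⟨e, ?_⟩
  have h1 := B_le hb hB'
  have h2 := c_le_exp hb (c := 64) (by norm_num)
  have h3 : 4 * B / 1 ≤ Real.exp (3 * mm R) := by
    have : Real.exp (3 * mm R) = Real.exp (mm R) * Real.exp (2 * mm R) := by
      rw [← Real.exp_add]; congr 1; ring
    rw [this]
    nlinarith [Real.exp_pos (2 * mm R)]
  have h4 : Real.log (4 * B / 1) ≤ 3 * mm R := (Real.log_le_iff_le_exp (by positivity)).2 h3
  have l2 : 0 < Real.log 2 := Real.log_pos (by norm_num)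
  have h5 : Real.logb 2 (4 * B / 1) ≤ 10 * mm R := by
    rw [Real.logb, div_le_iff₀ l2]
    nlinarith [Real.log_two_gt_d9]
  rw [rk, e]; linarith

theorem aa_nn {R μ : ℝ} (hb : Big R) (h : -(3 * R) ≤ Real.log μ) : 0 ≤ aa R μ := by
  have m1 := m1 hb
  have h0 := hb.one
  exact div_nonneg (by linarith) (by positivity)

theorem num_aa {R μ : ℝ} (hb : Big R) (hμ : 0 < μ) (j : ℕ) :
    0 < mun R (Mn R μ j) ∧ aa R (mun R (Mn R μ j)) ≤ aa R μ - (12 * j + 10) := by
  have m1 := m1 hb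
  have h0 := hb.one
  have k0 : 0 < kap R := by unfold kap; positivity
  have p0 : 0 < mun R (Mn R μ j) := by unfold mun Mn; positivity
  refine ⟨p0, ?_⟩
  set D := R / mm R with hD
  have D0 : 0 < D := by positivity
  have h1 : (1 / kap R + 2) * 2 ≤ Real.exp (72 * mm R) := by
    have h1 := pow_le_exp hb 70
    have h2 := c_le_exp hb (c := 6) (by norm_num)
    have h3 : 1 ≤ mm R ^ 70 := one_le_pow₀ m1
    have e : Real.exp (71 * mm R) = Real.exp (mm R) * Real.exp ((70 : ℕ) * mm R) := by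
      rw [← Real.exp_add]; congr 1; push_cast; ring
    refine le_trans ?_ (Real.exp_le_exp.2 (show 71 * mm R ≤ 72 * mm R by linarith))
    rw [e, kap, one_div, inv_inv]
    nlinarith
  have h2 : mun R (Mn R μ j) ≤ Real.exp (72 * mm R + (R / mm R ^ 50 -
      4 * (2 : ℝ) ^ ((j : ℝ) / 4) * D) + Real.log μ + D) := by
    rw [Real.exp_add, Real.exp_add, Real.exp_add, Real.exp_log hμ]
    calc _ = (1 / kap R + 2) * 2 * Real.exp (R / mm R ^ 50 - 4 * (2 : ℝ) ^ ((j : ℝ) / 4) * D) * μ *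
          Real.exp D := by unfold mun Mn; ring
      _ ≤ _ := by gcongr
  have h3 := (Real.log_le_iff_le_exp p0).2 h2
  have h4 := mas hb
  have h5 := div_le hb (j := 1) (k := 50) (by norm_num)
  rw [pow_one] at h5
  have h6 : 1 + (j : ℝ) / 6 ≤ (2 : ℝ) ^ ((j : ℝ) / 4) := by
    rw [Real.rpow_def_of_pos (by norm_num)]
    have := Real.add_one_le_exp (Real.log 2 * ((j : ℝ) / 4))
    have hj : (0 : ℝ) ≤ j := Nat.cast_nonneg j
    nlinarith [Real.log_two_gt_d9]
  have h7 := mul_le_mul_of_nonneg_right h6 D0.le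
  have hj : (0 : ℝ) ≤ j * D := by positivity
  unfold aa
  rw [← hD, le_sub_iff_add_le, div_add' _ _ _ D0.ne', div_le_div_iff_of_pos_right D0]
  nlinarith

theorem num_rk {B a a' P p : ℝ} (hB : 0 < B) (hP : 0 < P) (j : ℕ) (hp : P / (4 * 8 ^ j) ≤ p)
    (ha : a' ≤ a - (12 * j + 10)) : rk B a' p ≤ rk B a P - 2 := by
  have p0 : 0 < p := lt_of_lt_of_le (by positivity) hp
  have h1 : 4 * B / p ≤ 4 * B / P * 2 ^ (3 * j + 2) := by
    rw [div_le_iff₀ (by positivity)] at hp
    have e : (2 : ℝ) ^ (3 * j + 2) = 4 * 8 ^ j := by rw [pow_add, pow_mul]; norm_num; ring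
    rw [e, div_mul_eq_mul_div, div_le_div_iff₀ p0 hP]
    nlinarith
  have h2 := Real.logb_le_logb_of_le (b := 2) (by norm_num) (by positivity) h1
  rw [Real.logb_mul (by positivity) (by positivity), Real.logb_pow,
    Real.logb_self_eq_one (by norm_num)] at h2
  push_cast at h2
  rw [rk, rk]; linarith

theorem num_theta {R P : ℝ} (hb : Big R) (hP : 0 < P) {j : ℕ} (hj : (2 : ℝ) ^ j ≤ mm R ^ 3) :
    2 / mm R ^ 30 * P ≤ P / (4 * 8 ^ j) := by
  have m1 := m1 hb
  have h1 : (8 : ℝ) ^ j ≤ mm R ^ 9 := by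
    calc (8 : ℝ) ^ j = ((2 : ℝ) ^ j) ^ 3 := by rw [← pow_mul, mul_comm, pow_mul]; norm_num
      _ ≤ (mm R ^ 3) ^ 3 := by gcongr
      _ = _ := by ring
  have h2 : mm R ^ 10 ≤ mm R ^ 30 := pow_le_pow_right₀ m1 (by norm_num)
  have h3 : 8 * mm R ^ 9 ≤ mm R ^ 10 := by
    rw [pow_succ _ 9, mul_comm]
    exact mul_le_mul_of_nonneg_left (by linarith [hb.m4]) (by positivity)
  rw [div_mul_eq_mul_div, div_le_div_iff₀ (by positivity) (by positivity)]
  nlinarith

theorem num_card {R μ μ' : ℝ} (hb : Big R) {nY m : ℕ} (hm : (m : ℝ) ≤ Real.exp (R / mm R ^ 50))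
    (hm0 : 0 < m) (hY0 : 0 < nY) (hY : Real.log nY ≤ R / mm R ^ 50 * (120 * mm R - aa R μ))
    (ha : aa R μ' ≤ aa R μ - 1) (ha0 : 0 ≤ aa R μ) :
    Real.log ((nY * m : ℕ) : ℝ) ≤ R / mm R ^ 50 * (120 * mm R - aa R μ') ∧
      (nY : ℝ) * m ≤ Real.exp (R / mm R ^ 40) := by
  have m1 := m1 hb
  have h0 := hb.one
  have hm0' : (0 : ℝ) < m := by exact_mod_cast hm0
  have hY0' : (0 : ℝ) < nY := by exact_mod_cast hY0
  have h1 := (Real.log_le_iff_le_exp hm0').2 hm
  have K0 : 0 < R / mm R ^ 50 := by positivity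
  have h2 : Real.log ((nY : ℝ) * m) = Real.log nY + Real.log m := Real.log_mul hY0'.ne' hm0'.ne'
  constructor
  · push_cast
    rw [h2]
    nlinarith
  · rw [← Real.log_le_iff_le_exp (by positivity), h2]
    have h3 := div_le hb (j := 40) (k := 49) (by norm_num)
    have h4 : R / mm R ^ 50 * mm R = R / mm R ^ 49 := by field_simp
    nlinarith

theorem num_mu {R M N p : ℝ} (hb : Big R) (hM : 0 < M) (hN : N ≤ Real.exp (R / mm R ^ 40))
    (hp : 2 / mm R ^ 30 * Real.exp (-(40 * mm R)) ≤ p)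
    (h : p ≤ N * (Real.exp R * (2 * (1 + 2 * Real.pi / kap R) * M))) :
    -(3 * R) ≤ Real.log (mun R M) := by
  have m1 := m1 hb
  have h0 := hb.one
  have k0 : 0 < kap R := by unfold kap; positivity
  have h1 : M ≤ mun R M := by
    unfold mun
    have : 1 ≤ Real.exp (R / mm R) := Real.one_le_exp (by positivity)
    have h2 : 0 < 1 / kap R := by positivity
    have h3 : M ≤ M * Real.exp (R / mm R) := le_mul_of_one_le_right hM.le this
    nlinarith
  refine le_trans ?_ (Real.log_le_log hM h1)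
  rw [Real.le_log_iff_exp_le hM]
  have h2 := kap_le hb
  have h3 := pow_le_exp hb 30
  have h4 : 2 * Real.exp (-(70 * mm R)) ≤ p := by
    refine le_trans ?_ hp
    have : Real.exp (-(70 * mm R)) = Real.exp (-(40 * mm R)) / Real.exp ((30 : ℕ) * mm R) := by
      rw [← Real.exp_sub]; congr 1; push_cast; ring
    rw [this, div_mul_eq_mul_div, ← mul_div_assoc]
    gcongr
  have h5 : p ≤ Real.exp (R / mm R ^ 40) * (Real.exp R * (2 * Real.exp (71 * mm R) * M)) := by
    refine h.trans ?_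
    gcongr
  have h6 := mas hb
  have h7 := div_le hb (j := 0) (k := 50) (by norm_num)
  have h8 := div_le hb (j := 0) (k := 40) (by norm_num)
  rw [pow_zero, div_one] at h7 h8
  have h9 : Real.exp (R / mm R ^ 40) * (Real.exp R * (2 * Real.exp (71 * mm R) * M)) =
      2 * (Real.exp (R / mm R ^ 40 + R + 71 * mm R) * M) := by
    rw [Real.exp_add, Real.exp_add]; ring
  have h10 : Real.exp (-(3 * R)) * Real.exp (R / mm R ^ 40 + R + 71 * mm R) ≤
      Real.exp (-(70 * mm R)) := by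
    rw [← Real.exp_add, Real.exp_le_exp]; linarith
  refine le_of_mul_le_mul_right ?_ (Real.exp_pos (R / mm R ^ 40 + R + 71 * mm R))
  linarith

theorem num_rho {R B N p r : ℝ} (hb : Big R) (hB : 1 ≤ B) (hB' : B ≤ 16 * (1 + Real.log R) ^ 2)
    (hN : N ≤ Real.exp (R / mm R ^ 40)) (hp : 2 / mm R ^ 30 * Real.exp (-(40 * mm R)) ≤ p)
    (hr : r ≤ N * (4 * (1 + 2 * Real.pi / kap R) / Real.exp (R / mm R))) :
    60000 * R * B * r ≤ 2 * (R / mm R) * p := by
  have m1 := m1 hb
  have h0 := hb.one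
  have k0 : 0 < kap R := by unfold kap; positivity
  have h2 := kap_le hb
  have h3 := pow_le_exp hb 30
  have h4 : 2 * Real.exp (-(70 * mm R)) ≤ p := by
    refine le_trans ?_ hp
    have : Real.exp (-(70 * mm R)) = Real.exp (-(40 * mm R)) / Real.exp ((30 : ℕ) * mm R) := by
      rw [← Real.exp_sub]; congr 1; push_cast; ring
    rw [this, div_mul_eq_mul_div, ← mul_div_assoc]
    gcongr
  have h5 : r ≤ Real.exp (R / mm R ^ 40) * (4 * Real.exp (71 * mm R) / Real.exp (R / mm R)) := by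
    refine hr.trans ?_
    gcongr
  have h6 := mas hb
  have h7 := div_le hb (j := 1) (k := 50) (by norm_num)
  have h8 := div_le hb (j := 1) (k := 40) (by norm_num)
  rw [pow_one] at h7 h8
  have hB2 := B_le hb hB'
  have c1 := c_le_exp hb (c := 1000) (by norm_num)
  have c2 : 960000 ≤ Real.exp (2 * mm R) := by
    have : Real.exp (2 * mm R) = Real.exp (mm R) ^ 2 := by rw [← Real.exp_nat_mul]; norm_num
    rw [this]; nlinarith
  have c3 : mm R ≤ Real.exp (mm R) := by linarith [Real.add_one_le_exp (mm R)]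
  have e1 : R = R / mm R * mm R := by field_simp
  have D0 : 0 < R / mm R := by positivity
  calc 60000 * R * B * r ≤ 60000 * R * (16 * Real.exp (2 * mm R)) *
        (Real.exp (R / mm R ^ 40) * (4 * Real.exp (71 * mm R) / Real.exp (R / mm R))) := by
        by_cases r0 : 0 ≤ r
        · gcongr
        · exact le_trans (mul_nonpos_of_nonneg_of_nonpos (by positivity) (not_le.mp r0).le)
            (by positivity)
    _ = 4 * (R / mm R) * (960000 * mm R * (Real.exp (2 * mm R) *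
        Real.exp (R / mm R ^ 40) * Real.exp (71 * mm R) / Real.exp (R / mm R))) := by
        field_simp; ring
    _ ≤ 4 * (R / mm R) * (Real.exp (2 * mm R) * Real.exp (mm R) * (Real.exp (2 * mm R) *
        Real.exp (R / mm R ^ 40) * Real.exp (71 * mm R) / Real.exp (R / mm R))) := by gcongr
    _ = 4 * (R / mm R) * Real.exp (2 * mm R + mm R + (2 * mm R + R / mm R ^ 40 + 71 * mm R -
        R / mm R)) := by
        simp only [Real.exp_add, Real.exp_sub]
    _ ≤ 4 * (R / mm R) * Real.exp (-(70 * mm R)) := by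
        gcongr
        linarith
    _ = 2 * (R / mm R) * (2 * Real.exp (-(70 * mm R))) := by ring
    _ ≤ _ := by gcongr

end Crest.Agent.R100.Inst.H49
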