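import Crest.Agent.R100.InstDefs
import Crest.Agent.R100.InstN49

/-! # Row 100, STRUCT instance: numerics -/

set_option autoImplicit false

open MeasureTheory Set

noncomputable section

namespace Crest.Agent.R100.Inst

open Crest.Agent.R100 Crest.Agent.R100.Low Crest.Agent.R100.Str Crest.Agent.R100.Life

theorem num_P {R B a P : ℝ} (hb : Big R) (hB : 1 ≤ B) (ha : 0 ≤ a) (hP : 0 < P)
    (h : rk B a P ≤ 160 * mm R) : Real.exp (-(40 * mm R)) ≤ P := by
  have m0 : 0 < mm R := lt_of_lt_of_le (by norm_num) hb.m4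
  have l2 : 0 < Real.log 2 := Real.log_pos (by norm_num)
  have l3 : Real.log 2 ≤ 1 := (Real.log_le_sub_one_of_pos (by norm_num)).trans (by norm_num)
  unfold rk at h
  have h1 : Real.log (4 * B / P) / Real.log 2 ≤ 40 * mm R := by
    unfold Real.logb at h; linarith
  rw [div_le_iff₀ l2, Real.log_div (by positivity) hP.ne'] at h1
  have h2 : 0 ≤ Real.log (4 * B) := Real.log_nonneg (by linarith)
  rw [← Real.le_log_iff_exp_le hP]
  nlinarith

theorem num_root {R B : ℝ} (hb : Big R) (hB : 1 ≤ B) (hB' : B ≤ 16 * (1 + Real.log R) ^ 2) :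
    aa R 1 = 120 * mm R ∧ rk B (aa R 1) 1 ≤ 160 * mm R := by
  have m4 := hb.m4
  have m0 : 0 < mm R := lt_of_lt_of_le (by norm_num) hb.m4
  have R0 : 0 < R := lt_of_lt_of_le one_pos hb.one
  have e : aa R 1 = 120 * mm R := by
    unfold aa; rw [Real.log_one]; field_simp; ring
  refine ⟨e, ?_⟩
  have l2 : 1 / 2 ≤ Real.log 2 := by linarith [Real.log_two_gt_d9]
  have lR : 0 ≤ Real.log R := Real.log_nonneg hb.one
  have e2 : Real.exp (mm R) = 2 + Real.log R := Real.exp_log (by linarith)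
  have h1 : Real.log (4 * B / 1) ≤ 64 + 2 * mm R := by
    rw [Real.log_le_iff_le_exp (by positivity), Real.exp_add, two_mul, Real.exp_add, e2]
    have h2 : (64 : ℝ) ≤ Real.exp 64 := by linarith [Real.add_one_le_exp (64 : ℝ)]
    have h3 : (1 + Real.log R) ^ 2 ≤ (2 + Real.log R) * (2 + Real.log R) := by nlinarith
    calc 4 * B / 1 ≤ 64 * ((2 + Real.log R) * (2 + Real.log R)) := by linarith
      _ ≤ _ := by gcongr
  have h4 : Real.log (4 * B / 1) / Real.log 2 ≤ 10 * mm R := by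
    rw [div_le_iff₀ (by linarith)]; nlinarith
  unfold rk Real.logb
  rw [e]; linarith

theorem aa_nn {R μ : ℝ} (hb : Big R) (h : -(3 * R) ≤ Real.log μ) : 0 ≤ aa R μ := by
  have m0 : 0 < mm R := lt_of_lt_of_le (by norm_num) hb.m4
  have R0 : 0 < R := lt_of_lt_of_le one_pos hb.one
  unfold aa
  exact div_nonneg (by linarith) (by positivity)

/-- the rank drop: `log (mun R (Mn R μ j)) ≤ log μ - 2 * 2^(j/4) * (R / mm R)` -/
theorem num_aa {R μ : ℝ} (hb : Big R) (hμ : 0 < μ) (j : ℕ) :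
    0 < mun R (Mn R μ j) ∧ aa R (mun R (Mn R μ j)) ≤ aa R μ - (12 * j + 10) := by
  exact H49.num_aa hb hμ j

theorem num_rk {B a a' P p : ℝ} (hB : 0 < B) (hP : 0 < P) (j : ℕ) (hp : P / (4 * 8 ^ j) ≤ p)
    (ha : a' ≤ a - (12 * j + 10)) : rk B a' p ≤ rk B a P - 2 := by
  have p0 : 0 < p := lt_of_lt_of_le (by positivity) hp
  have h1 : Real.logb 2 (4 * B / p) ≤ Real.logb 2 (4 * B / P * 2 ^ (2 + 3 * j)) := by
    refine Real.logb_le_logb_of_le (by norm_num) (by positivity) ?_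
    calc 4 * B / p ≤ 4 * B / (P / (4 * 8 ^ j)) :=
          div_le_div_of_nonneg_left (by positivity) (by positivity) hp
      _ = 4 * B / P * 2 ^ (2 + 3 * j) := by
          rw [pow_add, pow_mul]; norm_num; field_simp
  rw [Real.logb_mul (by positivity) (by positivity), Real.logb_pow,
    Real.logb_self_eq_one (by norm_num)] at h1
  push_cast at h1
  unfold rk
  linarith

theorem num_theta {R P : ℝ} (hb : Big R) (hP : 0 < P) {j : ℕ} (hj : (2 : ℝ) ^ j ≤ mm R ^ 3) :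
    2 / mm R ^ 30 * P ≤ P / (4 * 8 ^ j) := by
  have m4 := hb.m4
  have m1 : 1 ≤ mm R := le_trans (by norm_num) m4
  have h1 : (8 : ℝ) ^ j ≤ mm R ^ 9 := by
    calc (8 : ℝ) ^ j = (2 ^ j) ^ 3 := by rw [← pow_mul, mul_comm, pow_mul]; norm_num
      _ ≤ (mm R ^ 3) ^ 3 := pow_le_pow_left₀ (by positivity) hj 3
      _ = mm R ^ 9 := by ring
  have h2 : 8 ≤ mm R ^ 21 := le_trans (le_trans (by norm_num) m4) (le_self_pow₀ m1 (by norm_num))
  have h3 : 2 * (4 * (8 : ℝ) ^ j) ≤ mm R ^ 30 := by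
    calc 2 * (4 * (8 : ℝ) ^ j) = 8 * 8 ^ j := by ring
      _ ≤ mm R ^ 21 * mm R ^ 9 := by gcongr
      _ = mm R ^ 30 := by ring
  rw [div_mul_eq_mul_div, div_le_div_iff₀ (by positivity) (by positivity)]
  nlinarith

/-- `N` = number of new cells -/
theorem num_card {R μ μ' : ℝ} (hb : Big R) {nY m : ℕ} (hm : (m : ℝ) ≤ Real.exp (R / mm R ^ 50))
    (hm0 : 0 < m) (hY0 : 0 < nY) (hY : Real.log nY ≤ R / mm R ^ 50 * (120 * mm R - aa R μ))
    (ha : aa R μ' ≤ aa R μ - 1) (ha0 : 0 ≤ aa R μ) :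
    Real.log ((nY * m : ℕ) : ℝ) ≤ R / mm R ^ 50 * (120 * mm R - aa R μ') ∧
      (nY : ℝ) * m ≤ Real.exp (R / mm R ^ 40) := by
  have m4 := hb.m4
  have m1 : 1 ≤ mm R := le_trans (by norm_num) m4
  have R0 : 0 < R := lt_of_lt_of_le one_pos hb.one
  have K0 : 0 < R / mm R ^ 50 := by positivity
  have n0 : (0 : ℝ) < nY := by exact_mod_cast hY0
  have k0 : (0 : ℝ) < m := by exact_mod_cast hm0
  have h1 : Real.log m ≤ R / mm R ^ 50 := (Real.log_le_iff_le_exp k0).2 hm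
  have h2 : Real.log ((nY : ℝ) * m) = Real.log nY + Real.log m := Real.log_mul n0.ne' k0.ne'
  refine ⟨?_, ?_⟩
  · push_cast
    rw [h2]
    nlinarith [mul_le_mul_of_nonneg_left ha K0.le]
  · rw [← Real.log_le_iff_le_exp (by positivity), h2]
    have h3 : 120 * mm R + 1 ≤ mm R ^ 10 := by
      have : mm R ^ 2 ≤ mm R ^ 10 := pow_le_pow_right₀ m1 (by norm_num)
      nlinarith
    have h4 : R / mm R ^ 40 = R / mm R ^ 50 * mm R ^ 10 := by field_simp
    rw [h4]
    nlinarith [mul_le_mul_of_nonneg_left h3 K0.le, mul_nonneg K0.le ha0]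

theorem num_mu {R M N p : ℝ} (hb : Big R) (hM : 0 < M) (hN : N ≤ Real.exp (R / mm R ^ 40))
    (hp : 2 / mm R ^ 30 * Real.exp (-(40 * mm R)) ≤ p)
    (h : p ≤ N * (Real.exp R * (2 * (1 + 2 * Real.pi / kap R) * M))) :
    -(3 * R) ≤ Real.log (mun R M) := by
  exact H49.num_mu hb hM hN hp h

theorem num_rho {R B N p r : ℝ} (hb : Big R) (hB : 1 ≤ B) (hB' : B ≤ 16 * (1 + Real.log R) ^ 2)
    (hN : N ≤ Real.exp (R / mm R ^ 40)) (hp : 2 / mm R ^ 30 * Real.exp (-(40 * mm R)) ≤ p)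
    (hr : r ≤ N * (4 * (1 + 2 * Real.pi / kap R) / Real.exp (R / mm R))) :
    60000 * R * B * r ≤ 2 * (R / mm R) * p := by
  exact H49.num_rho hb hB hB' hN hp hr

end Crest.Agent.R100.Inst
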