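import Crest.Agent.R100.InstDefs
import Crest.Agent.R100.InstNum
import Crest.Agent.R100.AdPlusC
import Crest.Agent.R100.InstC68

/-! # Row 100, STRUCT instance: a trigger gives pieces -/

set_option autoImplicit false

open MeasureTheory Set

noncomputable section

namespace Crest.Agent.R100.Inst

open Crest.Agent.R100 Crest.Agent.R100.Low Crest.Agent.R100.Str Crest.Agent.R100.Life

/-- `ad_line` with `θ = kap R / ℓ`, `ν A = (K.h g S A) dt` on `Ioc α (α+ℓ)`, `c = 2 e^R`,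
`s = 2^{-j}`, AD parameter `5 R`, `ε = 1 / w`, `ι = F'` a subset of `F` with
`⌊exp(δ_j)/μ⌋₊ + 1` elements, `D` uniform; captured `g`-mass is at least half the `h`-mass,
`h`-mass `≥ 2 P s`. -/
theorem capt {R : ℝ} {g : ℝ → ℝ} (hb : Big R) (hg : GG R g) {K : Cls} {S : Set ℝ}
    (hS : MeasurableSet S) (α : ℝ) {ℓ P : ℝ} {d : ℕ} (hℓ : 0 < ℓ) (hok : Ok R K S ℓ d)
    (hP : Real.exp (-(40 * mm R)) ≤ P) (hc : ca (fnS g S) α ℓ ≤ P) (hq : ¬ Quiet R g K S α ℓ P) :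
    ∃ (j : ℕ) (ι : Type) (_ : Fintype ι) (E : ι → ℝ) (z : ι → ℤ) (m : ℕ) (y : K.Y → Fin m → ℝ)
      (Bs : K.Y → Fin m → Set ℝ), (2 : ℝ) ^ j ≤ mm R ^ 3 ∧ (m : ℝ) ≤ Real.exp (R / mm R ^ 50) ∧
      Pieces R K ℓ (Mn R K.μ j) E z y Bs ∧ P / (4 * 8 ^ j) ≤ ca (fnS g (capS K S α ℓ Bs)) α ℓ :=
  H68.capt hb hg hS α hℓ hok hP hc hq

end Crest.Agent.R100.Inst
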