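import Crest.Agent.R100.InstDefs
import Crest.Agent.R100.Crude

/-! # Row 100, STRUCT instance: death -/

set_option autoImplicit false

open MeasureTheory Set

noncomputable section

namespace Crest.Agent.R100.Inst

open Crest.Agent.R100 Crest.Agent.R100.Low Crest.Agent.R100.Str Crest.Agent.R100.Life

theorem rho_nn (ε : ℝ) (S : Set ℝ) (α ℓ : ℝ) (d : ℕ) : 0 ≤ rho ε S α ℓ d := by
  unfold rho
  refine avg_nonneg_len d fun l _ => ?_
  split_ifs <;> norm_num

theorem rho_mart (ε : ℝ) (S : Set ℝ) (α ℓ : ℝ) (d : ℕ) :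
    (rho ε S (ch false α ℓ) (ℓ / 2) d + rho ε S (ch true α ℓ) (ℓ / 2) d) / 2 =
      rho ε S α ℓ (d + 1) := by
  have hln : ∀ (c : Bool) (l : List Bool), ln ℓ (c :: l) = ln (ℓ / 2) l := fun c l => by
    unfold ln; rw [List.length_cons, pow_succ]; ring
  have hnd : ∀ (c : Bool) (l : List Bool), nd α ℓ (c :: l) = nd (ch c α ℓ) (ℓ / 2) l :=
    fun _ _ => rfl
  unfold rho
  rw [avg]
  congr 2 <;> exact avg_congr_len d fun l _ => by rw [hln, hnd]

theorem rho_mono (ε : ℝ) {S S' : Set ℝ} (h : S' ⊆ S) (α ℓ : ℝ) (d : ℕ) :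
    rho ε S' α ℓ d ≤ rho ε S α ℓ d := by
  unfold rho
  refine avg_mono_len d fun l _ => ?_
  split_ifs with h1 h2
  · exact le_rfl
  · exact absurd ⟨h1.1, by obtain ⟨t, ht, ht'⟩ := h1.2; exact ⟨t, h ht, ht'⟩⟩ h2
  · norm_num
  · exact le_rfl

theorem rho_short {ε ℓ : ℝ} {d : ℕ} (h : ℓ / 2 ^ d < ε) (S : Set ℝ) (α : ℝ) :
    rho ε S α ℓ d = 0 := by
  unfold rho
  refine (avg_congr_len d (F' := fun _ => 0) fun l hl => ?_).trans (avg_const d 0)
  rw [if_neg]
  rintro ⟨h1, -⟩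
  unfold ln at h1
  rw [hl] at h1
  linarith

theorem instCrude25_sub : ∀ (l : List Bool) (α ℓ : ℝ), 0 < ℓ →
    α ≤ nd α ℓ l ∧ nd α ℓ l + ln ℓ l ≤ α + ℓ
  | [], α, ℓ, _ => ⟨le_rfl, by simp [nd, ln]⟩
  | c :: u, α, ℓ, h => by
    have := instCrude25_sub u (ch c α ℓ) (ℓ / 2) (by linarith)
    have e : ln ℓ (c :: u) = ln (ℓ / 2) u := by
      simp only [ln, List.length_cons, pow_succ]; ring
    rw [e]
    simp only [nd]
    cases c
    · rw [lowFamA_ch_false] at this ⊢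
      constructor <;> linarith [this.1, this.2]
    · rw [lowFamA_ch_true] at this ⊢
      constructor <;> linarith [this.1, this.2]

/-- `crude0` with `b = B` if the node is long and meets `S`; `CB.short`; `U = 0` if `S` misses the
node (`CB.congr` with `CB.zero`) -/
theorem crude_st {R B ε : ℝ} {g : ℝ → ℝ} (hR : 1 ≤ R) (hg : GG R g) (hB : 1 ≤ B) {S : Set ℝ}
    (hS : MeasurableSet S) (α : ℝ) {ℓ : ℝ} (hℓ : 0 < ℓ) :
    CB (fun t => (g t : ℂ)) B ε (fnS g S) α ℓ (60000 * R * B * rho ε S α ℓ 0) := by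
  classical
  have hB0 : 0 < B := by linarith
  have hr : rho ε S α ℓ 0 = if ε ≤ ℓ ∧ ∃ t ∈ S, t ∈ Icc α (α + ℓ) then 1 else 0 := by
    simp only [rho, avg, nd, ln, List.length_nil, pow_zero, div_one]
  rw [hr]
  split_ifs with hc
  · rw [mul_one]
    intro n ξ e he he'
    have hbm := bm_fnS hg hS
    have hgm : BM (fun t => (g t : ℂ)) :=
      ⟨Complex.measurable_ofReal.comp hg.meas, Real.exp R, fun y => by
        rw [Complex.norm_real, Real.norm_of_nonneg (hg.bd y).1]; exact (hg.bd y).2⟩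
    have hle : ∀ y, ‖fnS g S y‖ ≤ ‖(g y : ℂ)‖ := fun y => by
      rw [norm_fnS hg, Complex.norm_real, Real.norm_of_nonneg (hg.bd y).1]
      exact Set.indicator_le_self' (fun t _ => (hg.bd t).1) y
    refine crude0 hbm.1 hR hB0 (fun y => ?_) α hℓ e he.norm (fun v hv k hk => ?_) n ξ
      (fun _ => 0) (fun _ => n - 1) (fun _ _ => le_rfl)
    · refine (hle y).trans ?_
      rw [Complex.norm_real, Real.norm_of_nonneg (hg.bd y).1]
      exact (hg.bd y).2.trans (le_mul_of_one_le_right (Real.exp_pos R).le hB)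
    · refine le_trans ?_ (he' v hv k hk).1
      have hl := lowFamA_ln_pos hℓ (v.take k)
      unfold ca
      refine div_le_div_of_nonneg_right ?_ hl.le
      exact intervalIntegral.integral_mono_on (by linarith) (hbm.ii _ _) (hgm.ii _ _)
        fun y _ => hle y
  · rw [mul_zero]
    by_cases hε : ε ≤ ℓ
    · have hm : ∀ t ∈ Icc α (α + ℓ), t ∉ S := fun t ht hts => hc ⟨hε, t, hts, ht⟩
      refine (CB.zero _ B ε α ℓ).congr fun ξ v => ?_
      rw [U_zero]
      have hl := lowFamA_ln_pos hℓ v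
      have hs := instCrude25_sub v α ℓ hℓ
      simp only [U, cu, Pi.zero_apply]
      rw [intervalIntegral.integral_congr (g := fun _ => (0 : ℂ)) ?_]
      · simp
      · intro y hy
        rw [uIcc_of_le (by linarith)] at hy
        have : y ∉ S := hm y ⟨hs.1.trans hy.1, hy.2.trans hs.2⟩
        simp [fnS, this]
    · exact CB.short (not_le.1 hε) _

theorem Ok.ch {R : ℝ} {K : Cls} {S : Set ℝ} {ℓ : ℝ} {d : ℕ} (h : Ok R K S ℓ (d + 1)) :
    Ok R K S (ℓ / 2) d := by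
  refine ⟨⟨h.mlab, h.lnn, h.lone, h.real, h.pure, fun k hk a => ?_⟩, h.mu0, h.mu1, h.card⟩
  have e : (2 : ℝ) ^ k / (ℓ / 2) = 2 ^ (k + 1) / ℓ := by
    rw [pow_succ, div_div_eq_mul_div]
  rw [e]
  exact h.bin (k + 1) (by omega) a

theorem Ok.sub {R : ℝ} {K : Cls} {S S' : Set ℝ} {ℓ : ℝ} {d : ℕ} (h : Ok R K S ℓ d) (hS : S' ⊆ S) :
    Ok R K S' ℓ d :=
  ⟨⟨h.mlab, h.lnn, h.lone, h.real, fun t ht => h.pure t (hS ht), h.bin⟩, h.mu0, h.mu1, h.card⟩

end Crest.Agent.R100.Inst
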