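import Crest.Agent.R100.LowFamA

/-!
# Row 100, STRUCT tools (helper15): cost bounds `CB`, path decomposition, mass accounting
-/

set_option autoImplicit false

open MeasureTheory Set

noncomputable section

namespace Crest.Agent.R100.Str

open Crest.Agent.R100 Crest.Agent.R100.Low

/-- bounded and measurable -/
def BM (f : ℝ → ℂ) : Prop := Measurable f ∧ ∃ M, ∀ y, ‖f y‖ ≤ M

/-- all prefix averages of `‖g‖` are at most `B`, and the node is not shorter than `ε` -/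
def AlB (g : ℝ → ℂ) (B ε α ℓ : ℝ) (v : List Bool) : Prop :=
  ∀ k, k ≤ v.length → ca g (nd α ℓ (v.take k)) (ln ℓ (v.take k)) ≤ B ∧ ε ≤ ln ℓ (v.take k)

/-- the indicator of a hereditary set of nodes -/
def Mul (e : List Bool → ℂ) : Prop :=
  (∀ v, e v = 0 ∨ e v = 1) ∧ ∀ v k, e v ≠ 0 → e (v.take k) ≠ 0

theorem Mul.norm {e : List Bool → ℂ} (h : Mul e) (v : List Bool) : ‖e v‖ ≤ 1 := by
  rcases h.1 v with h | h <;> simp [h]

/-- the cost of `f` below `[α, α+ℓ)`, stopped by the averages of `g`, is at most `x` -/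
def CB (g : ℝ → ℂ) (B ε : ℝ) (f : ℝ → ℂ) (α ℓ x : ℝ) : Prop :=
  ∀ (n : ℕ) (ξ : List Bool → ℝ) (e : List Bool → ℂ), Mul e →
    (∀ v, e v ≠ 0 → AlB g B ε α ℓ v) →
      avg n (fun l => ‖win e (U f α ℓ (ξ l)) l 0 (n - 1)‖) ≤ x

theorem BM.add {f f' : ℝ → ℂ} (h : BM f) (h' : BM f') : BM (f + f') := by
  obtain ⟨hm, M, hM⟩ := h
  obtain ⟨hm', M', hM'⟩ := h'
  exact ⟨hm.add hm', M + M', fun y => (norm_add_le _ _).trans (add_le_add (hM y) (hM' y))⟩

theorem BM.zero : BM 0 := ⟨measurable_zero, 0, fun _ => by simp⟩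

theorem BM.sum {ι : Type*} (s : Finset ι) {f : ι → ℝ → ℂ} (h : ∀ i ∈ s, BM (f i)) :
    BM (∑ i ∈ s, f i) := by
  classical
  induction s using Finset.induction_on with
  | empty => simpa using BM.zero
  | insert i s hi ih =>
    rw [Finset.sum_insert hi]
    exact (h i (by simp)).add (ih fun j hj => h j (by simp [hj]))

theorem U_add {f f' : ℝ → ℂ} (h : BM f) (h' : BM f') (α ℓ ξ : ℝ) :
    U (f + f') α ℓ ξ = U f α ℓ ξ + U f' α ℓ ξ := by
  obtain ⟨hm, M, hM⟩ := h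
  obtain ⟨hm', M', hM'⟩ := h'
  funext v
  simp only [U, cu, Pi.add_apply, add_mul]
  rw [intervalIntegral.integral_add (lowFamA_int hm hM _ _ _) (lowFamA_int hm' hM' _ _ _), add_div]

theorem U_zero (α ℓ ξ : ℝ) : U 0 α ℓ ξ = 0 := by
  funext v; simp [U, cu]

theorem U_sum {ι : Type*} (s : Finset ι) {f : ι → ℝ → ℂ} (h : ∀ i ∈ s, BM (f i)) (α ℓ ξ : ℝ) :
    U (∑ i ∈ s, f i) α ℓ ξ = ∑ i ∈ s, U (f i) α ℓ ξ := by
  classical
  induction s using Finset.induction_on with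
  | empty => simpa using U_zero α ℓ ξ
  | insert i s hi ih =>
    have h2 : ∀ j ∈ s, BM (f j) := fun j hj => h j (by simp [hj])
    rw [Finset.sum_insert hi, Finset.sum_insert hi, U_add (h i (by simp)) (BM.sum s h2), ih h2]

theorem tm_add (e u u' : List Bool → ℂ) (l : List Bool) (k : ℕ) :
    tm e (u + u') l k = tm e u l k + tm e u' l k := by
  simp only [tm, Pi.add_apply]; ring

theorem tm_zero (e : List Bool → ℂ) (l : List Bool) (k : ℕ) : tm e 0 l k = 0 := by simp [tm]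

theorem tm_sum {ι : Type*} (s : Finset ι) (e : List Bool → ℂ) (u : ι → List Bool → ℂ)
    (l : List Bool) (k : ℕ) : tm e (∑ i ∈ s, u i) l k = ∑ i ∈ s, tm e (u i) l k := by
  classical
  induction s using Finset.induction_on with
  | empty => simpa using tm_zero e l k
  | insert i s hi ih => rw [Finset.sum_insert hi, Finset.sum_insert hi, tm_add, ih]

theorem win_add (e u u' : List Bool → ℂ) (l : List Bool) (s t : ℕ) :
    win e (u + u') l s t = win e u l s t + win e u' l s t := by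
  simp only [win, tm_add, Finset.sum_add_distrib]

theorem ln_append (ℓ : ℝ) (v w : List Bool) : ln ℓ (v ++ w) = ln (ln ℓ v) w := by
  simp only [ln, List.length_append, pow_add]; field_simp

theorem U_append (f : ℝ → ℂ) (α ℓ ξ : ℝ) (v w : List Bool) :
    U f α ℓ ξ (v ++ w) = U f (nd α ℓ v) (ln ℓ v) ξ w := by
  simp only [U, famA_nd_append, ln_append]

theorem take_app (v w : List Bool) (k : ℕ) : (v ++ w).take (v.length + k) = v ++ w.take k := by
  rw [List.take_append]; simp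

theorem Mul.shift {e : List Bool → ℂ} (h : Mul e) (v : List Bool) : Mul fun x => e (v ++ x) :=
  ⟨fun _ => h.1 _, fun x k hx => by
    have := h.2 _ (v.length + k) hx
    rwa [take_app] at this⟩

theorem AlB.append {g : ℝ → ℂ} {B ε α ℓ : ℝ} {v w : List Bool} (h : AlB g B ε α ℓ (v ++ w)) :
    AlB g B ε (nd α ℓ v) (ln ℓ v) w := by
  intro k hk
  have := h (v.length + k) (by simp [hk])
  rwa [take_app, famA_nd_append, ln_append] at this

theorem AlB.take {g : ℝ → ℂ} {B ε α ℓ : ℝ} {v : List Bool} (h : AlB g B ε α ℓ v) (j : ℕ) :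
    AlB g B ε α ℓ (v.take j) := by
  intro k hk
  have h1 : k ≤ j := hk.trans (by simp)
  have h2 : k ≤ v.length := hk.trans (by simp)
  rw [List.take_take, min_eq_left h1]
  exact h k h2

theorem AlB.root {g : ℝ → ℂ} {B ε α ℓ : ℝ} {v : List Bool} (h : AlB g B ε α ℓ v) : ca g α ℓ ≤ B := by
  simpa [nd, ln] using (h 0 (Nat.zero_le _)).1

theorem AlB.root' {g : ℝ → ℂ} {B ε α ℓ : ℝ} {v : List Bool} (h : AlB g B ε α ℓ v) : ε ≤ ℓ := by
  simpa [ln] using (h 0 (Nat.zero_le _)).2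

theorem AlB.self {g : ℝ → ℂ} {B ε α ℓ : ℝ} {v : List Bool} (h : AlB g B ε α ℓ v) :
    ca g (nd α ℓ v) (ln ℓ v) ≤ B := by
  simpa using (h v.length le_rfl).1

theorem tm_append (e u : List Bool → ℂ) (v w : List Bool) (k : ℕ) :
    tm e u (v ++ w) (v.length + k) = tm (fun x => e (v ++ x)) (fun x => u (v ++ x)) w k := by
  simp only [tm, take_app, List.append_assoc]
  have h1 : (v ++ w).getD (v.length + k) false = w.getD k false := by
    simp [List.getD, List.getElem?_append_right]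
  have h2 : (v ++ w).getD (v.length + k + 1) false = w.getD (k + 1) false := by
    rw [add_assoc]; simp [List.getD, List.getElem?_append_right]
  rw [h1, h2]

theorem win_append (e u : List Bool → ℂ) (v w : List Bool) (s t : ℕ) :
    win e u (v ++ w) (v.length + s) (v.length + t) =
      win (fun x => e (v ++ x)) (fun x => u (v ++ x)) w s t := by
  simp only [win]
  rw [Finset.sum_Ico_eq_sum_range, Finset.sum_Ico_eq_sum_range]
  have : v.length + t - (v.length + s) = t - s := by omega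
  rw [this]
  refine Finset.sum_congr rfl fun k _ => ?_
  rw [add_assoc, tm_append]

theorem CB.nonneg {g f : ℝ → ℂ} {B ε α ℓ x : ℝ} (h : CB g B ε f α ℓ x) : 0 ≤ x :=
  (avg_nonneg_len 0 fun _ _ => norm_nonneg _).trans
    (h 0 (fun _ => 0) (fun _ => 0) ⟨fun _ => Or.inl rfl, fun _ _ h => h⟩
      (fun _ hv => absurd rfl hv))

theorem CB.mono {g f : ℝ → ℂ} {B ε α ℓ x x' : ℝ} (h : CB g B ε f α ℓ x) (hx : x ≤ x') :
    CB g B ε f α ℓ x' := fun n ξ e he he' => (h n ξ e he he').trans hx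

theorem CB.zero (g : ℝ → ℂ) (B ε α ℓ : ℝ) : CB g B ε 0 α ℓ 0 := by
  intro n ξ e _ _
  simp [U_zero, win, tm_zero, avg_const]

theorem CB.add {g f f' : ℝ → ℂ} {B ε α ℓ x x' : ℝ} (hf : BM f) (hf' : BM f') (h : CB g B ε f α ℓ x)
    (h' : CB g B ε f' α ℓ x') : CB g B ε (f + f') α ℓ (x + x') := by
  intro n ξ e he he'
  refine le_trans ?_ (add_le_add (h n ξ e he he') (h' n ξ e he he'))
  rw [← avg_add']
  refine avg_mono_len n fun l _ => ?_
  rw [U_add hf hf', win_add]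
  exact norm_add_le _ _

theorem CB.sum {ι : Type*} (s : Finset ι) {g : ℝ → ℂ} {f : ι → ℝ → ℂ} {B ε α ℓ : ℝ} {x : ι → ℝ}
    (hf : ∀ i ∈ s, BM (f i)) (h : ∀ i ∈ s, CB g B ε (f i) α ℓ (x i)) :
    CB g B ε (∑ i ∈ s, f i) α ℓ (∑ i ∈ s, x i) := by
  classical
  induction s using Finset.induction_on with
  | empty => simpa using CB.zero g B ε α ℓ
  | insert i s hi ih =>
    have h2 : ∀ j ∈ s, BM (f j) := fun j hj => hf j (by simp [hj])
    rw [Finset.sum_insert hi, Finset.sum_insert hi]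
    exact CB.add (hf i (by simp)) (BM.sum s h2) (h i (by simp))
      (ih h2 fun j hj => h j (by simp [hj]))

/-- a dead top costs nothing -/
theorem CB.dead {g : ℝ → ℂ} {B ε α ℓ : ℝ} (h : B < ca g α ℓ) (f : ℝ → ℂ) : CB g B ε f α ℓ 0 := by
  intro n ξ e _ he'
  have : ∀ v, e v = 0 := fun v => by
    by_contra hv
    exact absurd (he' v hv).root (not_le.2 h)
  simp [win, tm, this, avg_const]

/-- a short top costs nothing -/
theorem CB.short {g : ℝ → ℂ} {B ε α ℓ : ℝ} (h : ℓ < ε) (f : ℝ → ℂ) : CB g B ε f α ℓ 0 := by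
  intro n ξ e _ he'
  have : ∀ v, e v = 0 := fun v => by
    by_contra hv
    exact absurd (he' v hv).root' (not_le.2 h)
  simp [win, tm, this, avg_const]

/-- only the values on the top interval matter -/
theorem CB.congr {g f f' : ℝ → ℂ} {B ε α ℓ x : ℝ} (h : CB g B ε f α ℓ x)
    (hff : ∀ ξ v, U f' α ℓ ξ v = U f α ℓ ξ v) : CB g B ε f' α ℓ x := by
  intro n ξ e he he'
  have : ∀ ξ, U f' α ℓ ξ = U f α ℓ ξ := fun ξ => funext (hff ξ)
  simpa only [this] using h n ξ e he he'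

/-- pieces born at depth `j` -/
theorem node_bound {g : ℝ → ℂ} {B ε α ℓ : ℝ} (Rm : List Bool → ℝ → ℂ) (bd : List Bool → ℝ) (j n : ℕ)
    (hj : j < n) (h : ∀ v, v.length = j → CB g B ε (Rm v) (nd α ℓ v) (ln ℓ v) (bd v))
    (ξ : List Bool → ℝ) (e : List Bool → ℂ) (he : Mul e)
    (he' : ∀ v, e v ≠ 0 → AlB g B ε α ℓ v) :
    avg n (fun l => ‖win e (U (Rm (l.take j)) α ℓ (ξ l)) l j (n - 1)‖) ≤ avg j bd := by
  obtain ⟨m, rfl⟩ := Nat.exists_eq_add_of_lt hj
  rw [add_assoc, avg_split]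
  refine avg_mono_len j fun v hv => ?_
  refine le_trans (le_of_eq ?_) (h v hv (m + 1) (fun w => ξ (v ++ w)) (fun x => e (v ++ x))
    (he.shift v) (fun x hx => (he' _ hx).append))
  refine avg_congr_len _ fun w _ => ?_
  have h1 : (v ++ w).take j = v := by rw [← hv]; simp
  have h2 := win_append e (U (Rm v) α ℓ (ξ (v ++ w))) v w 0 m
  rw [hv] at h2
  simp only [h1, add_zero, U_append] at h2 ⊢
  have h3 : j + (m + 1) - 1 = j + m := by omega
  rw [h3, h2]; rfl

theorem tele {F Rm : List Bool → ℝ → ℂ} {f₀ : ℝ → ℂ} (h0 : f₀ = F [] + Rm [])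
    (hs : ∀ v c, F v = F (v ++ [c]) + Rm (v ++ [c])) (l : List Bool) :
    ∀ k, k ≤ l.length → f₀ = F (l.take k) + ∑ j ∈ Finset.range (k + 1), Rm (l.take j)
  | 0, _ => by simpa using h0
  | k + 1, hk => by
    have ih := tele h0 hs l k (by omega)
    have hk' : k < l.length := hk
    have e1 : l.take (k + 1) = l.take k ++ [l[k]] := by rw [List.take_succ_eq_append_getElem hk']
    rw [Finset.sum_range_succ, e1, ih, hs (l.take k) l[k]]
    abel

/-- **Decomposition**: cost of `f₀` ≤ cost of the life + costs of the removed pieces. -/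
theorem decomp {g : ℝ → ℂ} {B ε α ℓ x₀ x₁ : ℝ} {F Rm : List Bool → ℝ → ℂ} {f₀ : ℝ → ℂ}
    (hF : ∀ v, BM (F v)) (hR : ∀ v, BM (Rm v)) (h0 : f₀ = F [] + Rm [])
    (hs : ∀ v c, F v = F (v ++ [c]) + Rm (v ++ [c])) (bd : List Bool → ℝ)
    (hbd : ∀ v, CB g B ε (Rm v) (nd α ℓ v) (ln ℓ v) (bd v))
    (hlife : ∀ (n : ℕ) (ξ : List Bool → ℝ) (e : List Bool → ℂ), Mul e →
      (∀ v, e v ≠ 0 → AlB g B ε α ℓ v) →
      avg n (fun l => ‖∑ k ∈ Finset.range (n - 1), tm e (U (F (l.take k)) α ℓ (ξ l)) l k‖) ≤ x₀)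
    (hsum : ∀ n, ∑ j ∈ Finset.range n, avg j bd ≤ x₁) : CB g B ε f₀ α ℓ (x₀ + x₁) := by
  intro n ξ e he he'
  have key : ∀ l : List Bool, l.length = n → win e (U f₀ α ℓ (ξ l)) l 0 (n - 1) =
      ∑ k ∈ Finset.range (n - 1), tm e (U (F (l.take k)) α ℓ (ξ l)) l k +
        ∑ j ∈ Finset.range (n - 1), win e (U (Rm (l.take j)) α ℓ (ξ l)) l j (n - 1) := by
    intro l hl
    simp only [win, Finset.range_eq_Ico]
    rw [Finset.sum_Ico_Ico_comm, ← Finset.sum_add_distrib]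
    refine Finset.sum_congr rfl fun k hk => ?_
    have hk' : k ≤ l.length := by
      have := (Finset.mem_Ico.1 hk).2
      omega
    rw [tele h0 hs l k hk', U_add (hF _) (BM.sum _ fun j _ => hR _), U_sum _ (fun j _ => hR _),
      tm_add, tm_sum, Finset.range_eq_Ico]
  calc avg n (fun l => ‖win e (U f₀ α ℓ (ξ l)) l 0 (n - 1)‖)
      ≤ avg n (fun l => ‖∑ k ∈ Finset.range (n - 1), tm e (U (F (l.take k)) α ℓ (ξ l)) l k‖ +
        ∑ j ∈ Finset.range (n - 1), ‖win e (U (Rm (l.take j)) α ℓ (ξ l)) l j (n - 1)‖) := by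
        refine avg_mono_len n fun l hl => ?_
        rw [key l hl]
        exact (norm_add_le _ _).trans (add_le_add le_rfl (norm_sum_le _ _))
    _ ≤ x₀ + x₁ := by
        rw [avg_add', avg_sum]
        refine add_le_add (hlife n ξ e he he') (le_trans ?_ (hsum (n - 1)))
        refine Finset.sum_le_sum fun j hj => ?_
        have : j < n := by
          have := Finset.mem_range.1 hj
          omega
        exact node_bound Rm bd j n this (fun v _ => hbd v) ξ e he he'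

/-- **Mass accounting** (abstract): `m` after removals, `r` removed. -/
theorem mass_aux {m r : List Bool → ℝ} {m₀ : ℝ} (h0 : m [] + r [] ≤ m₀)
    (hs : ∀ v, (m (v ++ [false]) + r (v ++ [false]) + (m (v ++ [true]) + r (v ++ [true]))) / 2 ≤ m v) :
    ∀ n, avg n m + ∑ j ∈ Finset.range (n + 1), avg j r ≤ m₀
  | 0 => by simpa [avg] using h0
  | n + 1 => by
    have ih := mass_aux h0 hs n
    rw [Finset.sum_range_succ]
    have : avg (n + 1) m + avg (n + 1) r ≤ avg n m := by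
      rw [← avg_add', avg_snoc]
      exact avg_mono_len n fun v _ => hs v
    linarith

theorem mass_abs {m r : List Bool → ℝ} {m₀ : ℝ} (hm : ∀ v, 0 ≤ m v) (hr : ∀ v, 0 ≤ r v)
    (h0 : m [] + r [] ≤ m₀)
    (hs : ∀ v, (m (v ++ [false]) + r (v ++ [false]) + (m (v ++ [true]) + r (v ++ [true]))) / 2 ≤ m v)
    (n : ℕ) : ∑ j ∈ Finset.range n, avg j r ≤ m₀ := by
  have h1 := mass_aux h0 hs n
  rw [Finset.sum_range_succ] at h1
  have h2 : 0 ≤ avg n m := avg_nonneg_len n fun _ _ => hm _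
  have h3 : 0 ≤ avg n r := avg_nonneg_len n fun _ _ => hr _
  linarith

/-- the average of `‖f‖` at the node `v` -/
def ms (f : ℝ → ℂ) (α ℓ : ℝ) (v : List Bool) : ℝ := ca f (nd α ℓ v) (ln ℓ v)

theorem ca_nonneg (f : ℝ → ℂ) (a : ℝ) {lam : ℝ} (h : 0 < lam) : 0 ≤ ca f a lam :=
  div_nonneg (intervalIntegral.integral_nonneg (by linarith) fun _ _ => norm_nonneg _) h.le

theorem BM.ii {f : ℝ → ℂ} (h : BM f) (a b : ℝ) :
    IntervalIntegrable (fun y => ‖f y‖) volume a b := by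
  obtain ⟨hm, M, hM⟩ := h
  exact (famA_int hm hM a b).norm

theorem ms_mart {f : ℝ → ℂ} (h : BM f) (α : ℝ) {ℓ : ℝ} (hℓ : 0 < ℓ) (v : List Bool) :
    ms f α ℓ v = (ms f α ℓ (v ++ [false]) + ms f α ℓ (v ++ [true])) / 2 := by
  have hl := lowFamA_ln_pos hℓ v
  simp only [ms, ca, nd_snoc, ln_snoc, lowFamA_ch_false, lowFamA_ch_true]
  have e : nd α ℓ v + ln ℓ v / 2 + ln ℓ v / 2 = nd α ℓ v + ln ℓ v := by ring
  rw [e, ← intervalIntegral.integral_add_adjacent_intervals (b := nd α ℓ v + ln ℓ v / 2)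
    (h.ii _ _) (h.ii _ _)]
  field_simp

theorem ca_add_le {f f₁ f₂ : ℝ → ℂ} (h : BM f) (h₁ : BM f₁) (h₂ : BM f₂)
    (hn : ∀ y, ‖f₁ y‖ + ‖f₂ y‖ ≤ ‖f y‖) (a : ℝ) {lam : ℝ} (hl : 0 < lam) :
    ca f₁ a lam + ca f₂ a lam ≤ ca f a lam := by
  simp only [ca]
  rw [← add_div, ← intervalIntegral.integral_add (h₁.ii _ _) (h₂.ii _ _)]
  refine div_le_div_of_nonneg_right ?_ hl.le
  exact intervalIntegral.integral_mono_on (by linarith) ((h₁.ii _ _).add (h₂.ii _ _)) (h.ii _ _)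
    fun y _ => hn y

/-- **Mass accounting**: the removed masses add up to at most the mass of the top. -/
theorem mass {α ℓ : ℝ} (hℓ : 0 < ℓ) {F Rm : List Bool → ℝ → ℂ} {f₀ : ℝ → ℂ} (hf : BM f₀)
    (hF : ∀ v, BM (F v)) (hR : ∀ v, BM (Rm v)) (h0 : ∀ y, ‖F [] y‖ + ‖Rm [] y‖ ≤ ‖f₀ y‖)
    (hs : ∀ v c y, ‖F (v ++ [c]) y‖ + ‖Rm (v ++ [c]) y‖ ≤ ‖F v y‖) (n : ℕ) :
    ∑ j ∈ Finset.range n, avg j (fun v => ms (Rm v) α ℓ v) ≤ ca f₀ α ℓ := by
  refine mass_abs (m := fun v => ms (F v) α ℓ v) (fun v => ca_nonneg _ _ (lowFamA_ln_pos hℓ v))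
    (fun v => ca_nonneg _ _ (lowFamA_ln_pos hℓ v)) ?_ (fun v => ?_) n
  · simpa [ms, nd, ln] using ca_add_le hf (hF []) (hR []) h0 α hℓ
  · rw [ms_mart (hF v) α hℓ v]
    have h1 := ca_add_le (hF v) (hF _) (hR _) (hs v false) (nd α ℓ (v ++ [false]))
      (lowFamA_ln_pos hℓ (v ++ [false]))
    have h2 := ca_add_le (hF v) (hF _) (hR _) (hs v true) (nd α ℓ (v ++ [true]))
      (lowFamA_ln_pos hℓ (v ++ [true]))
    simp only [ms]
    linarith

end Crest.Agent.R100.Str
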