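import Crest.Agent.R100.Mask84
import Crest.Agent.R100.Birth
import Crest.Agent.R100.Str15

/-!
# Row 100 (helper84): the `life` input of the state machine from `LIFE`, for true cells `c`
and the symmetrised mask; `h = c / F`.
-/

set_option autoImplicit false

open MeasureTheory Set

noncomputable section

namespace Crest.Agent.R100.Life

open Crest.Agent.R100 Crest.Agent.R100.Low Crest.Agent.R100.Run Crest.Agent.R100.Birth

variable {Y ι : Type} [Fintype Y] [Fintype ι]

/-- no trigger at the node `[α, α+ℓ)` for the functions `h`, level `P`, bin bound `μ` -/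
def Qt (R P μ : ℝ) (h : Y → ℝ → ℝ) (α ℓ : ℝ) : Prop :=
  ∀ j : ℕ, (2 : ℝ) ^ j ≤ mm R ^ 3 → ∀ F : Finset ℤ,
    (∀ N ∈ F, P / 2 ^ j ≤ ∑ y, ‖cu (fun t => (h y t : ℂ)) (N * kap R / ℓ) α ℓ‖) →
      (F.card : ℝ) ≤ Real.exp (4 * (2 : ℝ) ^ ((j : ℝ) / 4) * (R / mm R)) / μ

theorem av_mono' {f g : ℝ → ℝ} (hf : Measurable f) (hg : Measurable g) {M : ℝ}
    (hf0 : ∀ t, |f t| ≤ M) (hg0 : ∀ t, |g t| ≤ M) (h : ∀ t, f t ≤ g t) (a : ℝ) {lam : ℝ}
    (hl : 0 < lam) : av f a lam ≤ av g a lam := by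
  unfold av
  exact div_le_div_of_nonneg_right (intervalIntegral.integral_mono_on (by linarith)
    (lowFamA_bdd hf.aestronglyMeasurable (M := M) hf0 _ _)
    (lowFamA_bdd hg.aestronglyMeasurable (M := M) hg0 _ _) fun y _ => h y) hl.le

theorem av_sub' {f g : ℝ → ℝ} (hf : Measurable f) (hg : Measurable g) {M : ℝ}
    (hf0 : ∀ t, |f t| ≤ M) (hg0 : ∀ t, |g t| ≤ M) (a lam : ℝ) :
    av (fun t => f t - g t) a lam = av f a lam - av g a lam := by
  unfold av
  rw [intervalIntegral.integral_sub (lowFamA_bdd hf.aestronglyMeasurable (M := M) hf0 _ _)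
    (lowFamA_bdd hg.aestronglyMeasurable (M := M) hg0 _ _), sub_div]

theorem av_two (f : ℝ → ℝ) (a lam : ℝ) : av (fun t => 2 * f t) a lam = 2 * av f a lam := by
  unfold av
  rw [intervalIntegral.integral_const_mul, mul_div_assoc]

/-- the data of one life from the true cells -/
theorem data_of_cells {R P μ θ M₀ : ℝ} (c : List Bool → Y → ℝ → ℝ) (α : ℝ) {ℓ : ℝ}
    (In : List Bool → Prop) (lam x : ι → ℝ) (t0 : Y → ℝ) (hℓ : 0 < ℓ) (hP : 0 < P) (hμ : 0 < μ)
    (meas : ∀ v y, Measurable (c v y)) (nn : ∀ v y t, 0 ≤ c v y t)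
    (dec : ∀ v b y t, c (v ++ [b]) y t ≤ c v y t) (sup : ∀ y t, c [] y t ≤ M₀)
    (hM₀ : M₀ ≤ Real.exp (3 * R) * P) (card : Real.log (Fintype.card Y) ≤ R / mm R ^ 40)
    (her : ∀ v k, In v → In (v.take k))
    (mass : ∀ v, In v → ∑ y, av (c v y) (nd α ℓ v) (ln ℓ v) ≤ P)
    (gap : ∀ v b, In (v ++ [b]) → c (v ++ [b]) = c v ∨
      ∑ y, av (c (v ++ [b]) y) (nd α ℓ (v ++ [b])) (ln ℓ (v ++ [b])) + θ * P ≤
        ∑ y, av (c v y) (nd α ℓ (v ++ [b])) (ln ℓ (v ++ [b])))
    (hθ : 2 / mm R ^ 30 ≤ θ) (h0 : ∀ i, 0 ≤ lam i) (h1 : ∑ i, lam i = 1)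
    (pure : ∀ v y t, c v y t ≠ 0 → 1 / 2 ≤ Fc lam x (t - t0 y))
    (bin : ∀ v, In v → ∀ a : ℝ,
      ∑ i, (if a ≤ x i ∧ x i ≤ a + 1 / ln ℓ v then lam i else 0) ≤ μ)
    (cnt : ∀ v, In v → Qt R (2 * P) μ (fun y t => c v y t / Fc lam x (t - t0 y)) (nd α ℓ v) (ln ℓ v)) :
    Data R (2 * P) μ (fun y v t => c v y t / Fc lam x (t - t0 y)) α ℓ In lam x := by
  have cle : ∀ v y t, c v y t ≤ M₀ := fun v y t => by
    induction v using List.reverseRecOn with
    | nil => exact sup y t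
    | append_singleton w b ih => exact (dec w b y t).trans ih
  have F1 := fun y t => Fc_le_one (Z := x) h0 h1 (t - t0 y)
  have hle : ∀ v y t, c v y t / Fc lam x (t - t0 y) ≤ 2 * c v y t := fun v y t => by
    by_cases h : c v y t = 0
    · simp [h]
    · have := pure v y t h
      rw [div_le_iff₀ (by linarith)]
      nlinarith [nn v y t]
  have hnn : ∀ v y t, 0 ≤ c v y t / Fc lam x (t - t0 y) := fun v y t => by
    by_cases h : c v y t = 0
    · simp [h]
    · exact div_nonneg (nn v y t) (by linarith [pure v y t h])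
  have hm : ∀ v y, Measurable fun t => c v y t / Fc lam x (t - t0 y) := fun v y =>
    (meas v y).div ((Fc_cont lam x).measurable.comp (measurable_id.sub_const _))
  have b1 : ∀ v y t, |c v y t / Fc lam x (t - t0 y)| ≤ 2 * M₀ := fun v y t => by
    rw [abs_of_nonneg (hnn v y t)]; linarith [hle v y t, cle v y t]
  have b2 : ∀ v y t, |c v y t| ≤ 2 * M₀ := fun v y t => by
    rw [abs_of_nonneg (nn v y t)]; linarith [nn v y t, cle v y t]
  refine
    { hl := hℓ, hP := by linarith, hμ := hμ, meas := fun y v => hm v y, nn := fun y v => hnn v y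
      dec := fun y v b t => by
        by_cases h4 : c v y t = 0
        · have h5 : c (v ++ [b]) y t = 0 := le_antisymm ((dec v b y t).trans h4.le) (nn _ y t)
          simp [h4, h5]
        · exact div_le_div_of_nonneg_right (dec v b y t) (by linarith [pure v y t h4])
      sup := fun y t => by linarith [hle [] y t, sup y t]
      card := card, her := her, mass := fun v hv => ?_, gap := fun v b hv => ?_
      lnn := h0, lone := h1, bin := bin
      cnt := fun v hv => cnt v hv }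
  · have := mass v hv
    refine le_trans (Finset.sum_le_sum fun y _ => ?_)
      (show ∑ y, 2 * av (c v y) (nd α ℓ v) (ln ℓ v) ≤ 2 * P by rw [← Finset.mul_sum]; linarith)
    rw [← av_two]
    exact av_mono' (hm v y) ((meas v y).const_mul 2) (b1 v y)
      (fun t => by rw [abs_of_nonneg (by linarith [nn v y t])]; linarith [cle v y t])
      (hle v y) _ (lowFamA_ln_pos hℓ v)
  · rcases gap v b hv with h | h
    · left
      intro y
      rw [h]
    · right
      have h2 : 2 * P / mm R ^ 30 ≤ θ * P := by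
        rw [mul_comm 2 P, mul_div_assoc, mul_comm θ P]
        exact mul_le_mul_of_nonneg_left hθ hP.le
      refine h2.trans (le_trans (b := ∑ y, (av (c v y) (nd α ℓ (v ++ [b])) (ln ℓ (v ++ [b])) -
        av (c (v ++ [b]) y) (nd α ℓ (v ++ [b])) (ln ℓ (v ++ [b]))))
        (by rw [Finset.sum_sub_distrib]; linarith) (Finset.sum_le_sum fun y _ => ?_))
      unfold ms
      rw [← av_sub' (meas v y) (meas _ y) (b2 v y) (b2 _ y),
        ← av_sub' (hm v y) (hm _ y) (b1 v y) (b1 _ y)]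
      refine av_mono' (M := 4 * M₀) ((meas v y).sub (meas _ y)) ((hm v y).sub (hm _ y))
        (fun t => (abs_sub _ _).trans (by linarith [b2 v y t, b2 (v ++ [b]) y t]))
        (fun t => (abs_sub _ _).trans (by linarith [b1 v y t, b1 (v ++ [b]) y t]))
        (fun t => ?_) _ (lowFamA_ln_pos hℓ _)
      simp only [Pi.sub_apply]
      rw [← sub_div]
      have h3 := dec v b y t
      by_cases h4 : c v y t = 0
      · have h5 : c (v ++ [b]) y t = 0 := le_antisymm (h3.trans h4.le) (nn _ y t)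
        simp [h4, h5]
      · have h5 := pure v y t h4
        rw [le_div_iff₀ (by linarith)]
        nlinarith [F1 y t]

/-- **The `life` input**: the cost of one life of the true cells. -/
theorem life84 (hL : LIFE) : ∃ C R₀ : ℝ, 0 ≤ C ∧ ∀ (R P μ θ M₀ : ℝ) (Y ι : Type) [Fintype Y]
    [Fintype ι] (c : List Bool → Y → ℝ → ℝ) (α ℓ : ℝ) (In : List Bool → Prop) (lam x : ι → ℝ)
    (t0 : Y → ℝ) (f : List Bool → ℝ → ℂ), R₀ ≤ R → 0 < ℓ → 0 < P → 0 < μ →
    (∀ v y, Measurable (c v y)) → (∀ v y t, 0 ≤ c v y t) →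
    (∀ v b y t, c (v ++ [b]) y t ≤ c v y t) → (∀ y t, c [] y t ≤ M₀) →
    M₀ ≤ Real.exp (3 * R) * P → Real.log (Fintype.card Y) ≤ R / mm R ^ 40 →
    (∀ v k, In v → In (v.take k)) →
    (∀ v, In v → ∑ y, av (c v y) (nd α ℓ v) (ln ℓ v) ≤ P) →
    (∀ v b, In (v ++ [b]) → c (v ++ [b]) = c v ∨
      ∑ y, av (c (v ++ [b]) y) (nd α ℓ (v ++ [b])) (ln ℓ (v ++ [b])) + θ * P ≤
        ∑ y, av (c v y) (nd α ℓ (v ++ [b])) (ln ℓ (v ++ [b]))) →
    2 / mm R ^ 30 ≤ θ → (∀ i, 0 ≤ lam i) → ∑ i, lam i = 1 → Sym lam x →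
    (∀ v y t, c v y t ≠ 0 → 1 / 2 ≤ Fc lam x (t - t0 y)) →
    (∀ v, In v → ∀ a : ℝ, ∑ i, (if a ≤ x i ∧ x i ≤ a + 1 / ln ℓ v then lam i else 0) ≤ μ) →
    (∀ v, In v → Qt R (2 * P) μ (fun y t => c v y t / Fc lam x (t - t0 y)) (nd α ℓ v) (ln ℓ v)) →
    (∀ v, In v → ∀ t, f v t = ((∑ y, c v y t : ℝ) : ℂ)) →
    ∀ (n : ℕ) (ξ : List Bool → ℝ) (e : List Bool → ℂ), Str.Mul e → (∀ v, e v ≠ 0 → In v) →
      avg n (fun l => ‖∑ k ∈ Finset.range (n - 1), tm e (U (f (l.take k)) α ℓ (ξ l)) l k‖) ≤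
        C * (R / mm R) * P := by
  classical
  obtain ⟨C, R₀, hL⟩ := bridge_LIFE hL
  refine ⟨2 * |C|, max R₀ 1, by positivity, fun R P μ θ M₀ Y ι _ _ c α ℓ In lam x t0 f hR hℓ hP hμ
    meas nn dec sup hM₀ card her mass gap hθ h0 h1 hS pure bin cnt hf n ξ e he heI => ?_⟩
  have hD := data_of_cells c α In lam x t0 hℓ hP hμ meas nn dec sup hM₀ card her mass gap hθ h0 h1
    pure bin cnt
  have h2 := hL R (2 * P) μ Y ι _ α ℓ In _ _ t0
    (fun v t => if In v then ∑ y, c v y t else 0) ((le_max_left _ _).trans hR) hD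
    (fun v hv t => by
      simp only [if_pos hv]
      push_cast
      refine Finset.sum_congr rfl fun y _ => ?_
      rw [hS]
      by_cases h : c v y t = 0
      · simp [h]
      · have h3 : Fc lam x (t - t0 y) ≠ 0 := by linarith [pure v y t h]
        rw [div_mul_cancel₀ _ (Complex.ofReal_ne_zero.2 h3)])
    (fun v hv t => by simp only [if_neg hv]) n ξ e he.1 he.2
  have hR1 : 1 ≤ R := (le_max_right _ _).trans hR
  have hm : 0 ≤ R / mm R := by
    refine div_nonneg (by linarith) (Real.log_nonneg ?_)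
    linarith [Real.log_nonneg hR1]
  refine le_trans (le_of_eq ?_) (h2.trans ?_)
  · refine avg_congr_len n fun l _ => ?_
    congr 1
    unfold wD
    rw [Finset.range_eq_Ico]
    refine Finset.sum_congr rfl fun k _ => ?_
    unfold tm tD
    by_cases hk : e (l.take k) = 0
    · simp [hk]
    · have hI := heI _ hk
      have : f (l.take k) = fun t => (((if In (l.take k) then ∑ y, c (l.take k) y t else 0) : ℝ) : ℂ) :=
        funext fun t => by rw [hf _ hI t, if_pos hI]
      rw [this]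
  · have := mul_le_mul_of_nonneg_right (le_abs_self C) (show 0 ≤ 2 * P * (R / mm R) by positivity)
    nlinarith

end Crest.Agent.R100.Life
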