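import Crest.Agent.R100.InstDefs
import Crest.Agent.R100.Life84

/-! # Row 100, STRUCT instance (helper92): the data of one life -/

set_option autoImplicit false

open MeasureTheory Set

noncomputable section

namespace Crest.Agent.R100.Inst

open Crest.Agent.R100 Crest.Agent.R100.Low Crest.Agent.R100.Str Crest.Agent.R100.Life

theorem h92_F (K : Cls) (τ : ℝ) : K.F τ = Birth.Fc K.lam K.Z τ := by
  unfold Cls.F Birth.Fc
  rw [Complex.re_sum]
  refine Finset.sum_congr rfl fun ω _ => ?_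
  rw [Complex.re_ofReal_mul, Birth.ex_re]

open Classical in
/-- the true cells -/
def h92c (K : Cls) (g : ℝ → ℝ) (S : Set ℝ) (y : K.Y) (t : ℝ) : ℝ :=
  if t ∈ S ∧ K.lab t = y then g t else 0

theorem h92_h (K : Cls) (g : ℝ → ℝ) (S : Set ℝ) (y : K.Y) :
    K.h g S y = fun t => h92c K g S y t / Birth.Fc K.lam K.Z (t - K.cen y) := by
  funext t
  unfold Cls.h h92c
  split_ifs
  · rw [h92_F]
  · simp

theorem h92c_meas {R : ℝ} {g : ℝ → ℝ} (hg : GG R g) (K : Cls)
    (hl : ∀ y, MeasurableSet {t | K.lab t = y}) {S : Set ℝ} (hS : MeasurableSet S) (y : K.Y) :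
    Measurable (h92c K g S y) := by
  unfold h92c
  exact Measurable.ite (hS.inter (hl y)) hg.meas measurable_const

theorem h92c_bd {R : ℝ} {g : ℝ → ℝ} (hg : GG R g) (K : Cls) (S : Set ℝ) (y : K.Y) (t : ℝ) :
    0 ≤ h92c K g S y t ∧ h92c K g S y t ≤ Real.exp R := by
  unfold h92c
  split_ifs
  · exact hg.bd t
  · exact ⟨le_rfl, (Real.exp_pos R).le⟩

theorem h92c_sum (g : ℝ → ℝ) (K : Cls) (S : Set ℝ) (t : ℝ) :
    ∑ y, h92c K g S y t = S.indicator g t := by
  classical
  unfold h92c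
  by_cases h : t ∈ S
  · simp [h]
  · simp [h]

theorem h92c_av {R : ℝ} {g : ℝ → ℝ} (hg : GG R g) (K : Cls)
    (hl : ∀ y, MeasurableSet {t | K.lab t = y}) {S : Set ℝ} (hS : MeasurableSet S) (a lam : ℝ) :
    ∑ y, av (h92c K g S y) a lam = ca (fnS g S) a lam := by
  unfold av ca
  rw [← Finset.sum_div, ← intervalIntegral.integral_finsetSum]
  · congr 2
    funext t
    rw [h92c_sum, norm_fnS hg]
  · intro y _
    exact lowFamA_bdd (h92c_meas hg K hl hS y).aestronglyMeasurable (M := Real.exp R)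
      (fun t => by
        rw [Real.norm_eq_abs, abs_of_nonneg (h92c_bd hg K S y t).1]; exact (h92c_bd hg K S y t).2)
      _ _

theorem h92_mm {R : ℝ} (hb : Big R) : 1000 * mm R ≤ R / mm R ^ 50 := by
  have h := hb.master
  have h1 := hb.one
  have h2 := Real.exp_pos (1000 * mm R)
  exact Real.exp_le_exp.1 (by nlinarith)

theorem data92 {R : ℝ} {g : ℝ → ℝ} (hb : Big R) (hg : GG R g) (K : Cls) (S₀ : Set ℝ) {α ℓ P : ℝ}
    {d : ℕ} (S : List Bool → Set ℝ) (hS : ∀ v, MeasurableSet (S v)) (In : List Bool → Prop)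
    (hℓ : 0 < ℓ) (hP : Real.exp (-(40 * mm R)) ≤ P) (hok : Ok R K S₀ ℓ d)
    (her : ∀ v k, In v → In (v.take k))
    (hIn : ∀ v, In v → v.length < d ∧ Quiet R g K (S v) (nd α ℓ v) (ln ℓ v) P ∧
      Str.ms (fnS g (S v)) α ℓ v ≤ P)
    (h0 : S [] ⊆ S₀) (hs : ∀ v c, S (v ++ [c]) ⊆ S v ∧ (S (v ++ [c]) = S v ∨
      Str.ms (fnS g (S (v ++ [c]))) α ℓ (v ++ [c]) + 2 / mm R ^ 30 * P ≤
        Str.ms (fnS g (S v)) α ℓ (v ++ [c]))) :
    Data R (2 * P) K.μ (fun y v => K.h g (S v) y) α ℓ In K.lam K.Z := by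
  have hP0 : 0 < P := (Real.exp_pos _).trans_le hP
  have hm4 := hb.m4
  have hR1 := hb.one
  have hm1 : 1 ≤ mm R := by linarith
  have hm0 : 0 < mm R := by linarith
  have hmR : 1000 * mm R ≤ R :=
    (h92_mm hb).trans (div_le_self (by linarith) (one_le_pow₀ hm1))
  have hsub : ∀ v, S v ⊆ S₀ := fun v => by
    induction v using List.reverseRecOn with
    | nil => exact h0
    | append_singleton w b ih => exact (hs w b).1.trans ih
  have e : (fun y v => K.h g (S v) y) =
      fun y v t => h92c K g (S v) y t / Birth.Fc K.lam K.Z (t - K.cen y) := by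
    funext y v; exact h92_h K g (S v) y
  rw [e]
  refine data_of_cells (θ := 2 / mm R ^ 30) (M₀ := Real.exp R) (fun v y => h92c K g (S v) y) α In
    K.lam K.Z K.cen hℓ hP0 hok.mu0 (fun v y => h92c_meas hg K hok.mlab (hS v) y)
    (fun v y t => (h92c_bd hg K _ y t).1) (fun v b y t => ?_) (fun y t => (h92c_bd hg K _ y t).2)
    ?_ ?_ her (fun v hv => ?_) (fun v b _ => ?_) le_rfl hok.lnn hok.lone (fun v y t h => ?_)
    (fun v hv a => ?_) (fun v hv => ?_)
  · unfold h92c
    by_cases h : t ∈ S (v ++ [b]) ∧ K.lab t = y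
    · rw [if_pos h, if_pos ⟨(hs v b).1 h.1, h.2⟩]
    · rw [if_neg h]
      split_ifs
      · exact (hg.bd t).1
      · exact le_rfl
  · calc Real.exp R ≤ Real.exp (3 * R) * Real.exp (-(40 * mm R)) := by
          rw [← Real.exp_add]; exact Real.exp_le_exp.2 (by linarith)
      _ ≤ _ := mul_le_mul_of_nonneg_left hP (Real.exp_pos _).le
  · have ha : 0 ≤ aa R K.μ := by
      unfold aa
      exact div_nonneg (by linarith [hok.mu1]) (by positivity)
    refine hok.card.trans ?_
    have h9 : (120 : ℝ) ≤ mm R ^ 9 := by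
      calc (120 : ℝ) ≤ mm R := by linarith
        _ = mm R ^ 1 := (pow_one _).symm
        _ ≤ _ := pow_le_pow_right₀ hm1 (by norm_num)
    calc R / mm R ^ 50 * (120 * mm R - aa R K.μ) ≤ R / mm R ^ 50 * (mm R ^ 9 * mm R) :=
          mul_le_mul_of_nonneg_left (by nlinarith) (by positivity)
      _ = R / mm R ^ 40 := by field_simp
  · rw [h92c_av hg K hok.mlab (hS v)]
    exact (hIn v hv).2.2
  · rcases (hs v b).2 with h | h
    · left; simp only [h]
    · right
      rw [h92c_av hg K hok.mlab (hS _), h92c_av hg K hok.mlab (hS _)]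
      exact h
  · unfold h92c at h
    by_cases h' : t ∈ S v ∧ K.lab t = y
    · have := hok.pure t (hsub v h'.1)
      rwa [h'.2, h92_F] at this
    · exact absurd (if_neg h') h
  · have := hok.bin v.length (hIn v hv).1 a
    have e2 : 1 / ln ℓ v = 2 ^ v.length / ℓ := by unfold ln; field_simp
    rw [e2]
    exact this
  · have := (hIn v hv).2.1
    unfold Quiet at this
    simp only [h92_h] at this
    exact this

end Crest.Agent.R100.Inst
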