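import Crest.Agent.R100.LifeDefs
import Crest.Agent.R100.LowFamA

/-!
# Row 100 (helper84): the exact mask identity; `LIFE` bounds the life part of the true function
-/

set_option autoImplicit false

open MeasureTheory Set

noncomputable section

namespace Crest.Agent.R100.Life

open Crest.Agent.R100 Crest.Agent.R100.Low Crest.Agent.R100.Run

variable {Y Ω : Type} [Fintype Y] [Fintype Ω]

theorem ex_add_left (ξ z t : ℝ) : ex (ξ + z) t = ex ξ t * ex z t := by
  unfold ex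
  rw [← Complex.exp_add]; congr 1; push_cast; ring

theorem ex_sub_right (z t c : ℝ) : ex z (t - c) = ex z (-c) * ex z t := by
  unfold ex
  rw [← Complex.exp_add]; congr 1; push_cast; ring

variable {R P μ : ℝ} {h : Y → List Bool → ℝ → ℝ} {α ℓ : ℝ} {A : List Bool → Prop} {lam Z : Ω → ℝ}

theorem Data.le_sup (hD : Data R P μ h α ℓ A lam Z) (y : Y) (v : List Bool) (t : ℝ) :
    h y v t ≤ Real.exp (3 * R) * P := by
  induction v using List.reverseRecOn with
  | nil => exact hD.sup y t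
  | append_singleton w c ih => exact (hD.dec y w c t).trans ih

/-- `Data` passes to hereditary subsets of the alive nodes -/
theorem Data.sub (hD : Data R P μ h α ℓ A lam Z) {A' : List Bool → Prop} (hA : ∀ v, A' v → A v)
    (her : ∀ v k, A' v → A' (v.take k)) : Data R P μ h α ℓ A' lam Z :=
  { hD with
    her := her
    mass := fun v hv => hD.mass v (hA v hv)
    gap := fun v c hv => hD.gap v c (hA _ hv)
    bin := fun v hv => hD.bin v (hA v hv)
    cnt := fun v hv => hD.cnt v (hA v hv) }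

/-- the exact mask identity for the coefficients -/
theorem U_mask (hD : Data R P μ h α ℓ A lam Z) (c : Y → ℝ) (v : List Bool) {f : ℝ → ℂ}
    (hf : ∀ t, f t = ∑ y, (h y v t : ℂ) * ∑ ω, (lam ω : ℂ) * ex (Z ω) (t - c y)) (ξ : ℝ)
    (u : List Bool) :
    U f α ℓ ξ u = ∑ ω, (lam ω : ℂ) * ∑ y, ex (Z ω) (-c y) * cf h α ℓ (ξ + Z ω) y v u := by
  have hi : ∀ (y : Y) (ζ a b : ℝ), IntervalIntegrable (fun t => (h y v t : ℂ) * ex ζ t) volume a b :=
    fun y ζ a b => lowFamA_int (f := fun t => (h y v t : ℂ))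
      (Complex.measurable_ofReal.comp (hD.meas y v)) (M := Real.exp (3 * R) * P)
      (fun t => by
        rw [Complex.norm_real, Real.norm_of_nonneg (hD.nn y v t)]; exact hD.le_sup y v t) ζ a b
  have e : ∀ t, f t * ex ξ t =
      ∑ ω, ∑ y, (lam ω : ℂ) * ex (Z ω) (-c y) * ((h y v t : ℂ) * ex (ξ + Z ω) t) := fun t => by
    rw [hf t, Finset.sum_comm, Finset.sum_mul]
    refine Finset.sum_congr rfl fun y _ => ?_
    rw [Finset.mul_sum, Finset.sum_mul]
    refine Finset.sum_congr rfl fun ω _ => ?_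
    rw [ex_add_left, ex_sub_right]; ring
  unfold cf U cu
  simp only [e]
  rw [intervalIntegral.integral_finsetSum fun ω _ => by
    simpa [Finset.sum_fn] using IntervalIntegrable.sum Finset.univ
      (f := fun y t => (lam ω : ℂ) * ex (Z ω) (-c y) * ((h y v t : ℂ) * ex (ξ + Z ω) t))
      fun y _ => (hi y _ _ _).const_mul _, Finset.sum_div]
  refine Finset.sum_congr rfl fun ω _ => ?_
  rw [intervalIntegral.integral_finsetSum fun y _ => (hi y _ _ _).const_mul _, Finset.sum_div,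
    Finset.mul_sum]
  refine Finset.sum_congr rfl fun y _ => ?_
  rw [intervalIntegral.integral_const_mul]
  ring

theorem wD_sum_mul (D : Ω → List Bool → ℂ) (a : Ω → ℂ) (l : List Bool) (s t : ℕ) :
    wD (fun v => ∑ ω, a ω * D ω v) l s t = ∑ ω, a ω * wD (D ω) l s t := by
  unfold wD tD
  simp only [Finset.mul_sum]
  rw [Finset.sum_comm]
  refine Finset.sum_congr rfl fun ω _ => Finset.sum_congr rfl fun k _ => ?_
  ring

/-- **Bridge**: the life part of the true function `H v = ∑ y, h y v * F y`,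
`F y t = ∑ ω, lam ω * ex (Z ω) (t - c y)`, for a hereditary `0/1` multiplier `e`. -/
theorem bridge (hD : Data R P μ h α ℓ A lam Z) (c : Y → ℝ) (H : List Bool → ℝ → ℝ)
    (hH : ∀ v, A v → ∀ t,
      (H v t : ℂ) = ∑ y, (h y v t : ℂ) * ∑ ω, (lam ω : ℂ) * ex (Z ω) (t - c y))
    (hH0 : ∀ v, ¬ A v → ∀ t, H v t = 0) {X : ℝ} (n : ℕ) (ξ : List Bool → ℝ)
    (hL : ∀ (A' : List Bool → Prop) (φ : Ω → Y → ℂ), Data R P μ h α ℓ A' lam Z →
      (∀ ω y, ‖φ ω y‖ ≤ 1) →
      ∑ ω, lam ω * avg n (fun l => ‖Wn h α ℓ A' (φ ω) (ξ l + Z ω) l 0 (n - 1)‖) ≤ X)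
    (e : List Bool → ℂ) (hind : ∀ v, e v = 0 ∨ e v = 1)
    (hher : ∀ v k, e v ≠ 0 → e (v.take k) ≠ 0) :
    avg n (fun l => ‖wD (fun v => e v * (U (fun t => (H v t : ℂ)) α ℓ (ξ l) (v ++ [false]) -
      U (fun t => (H v t : ℂ)) α ℓ (ξ l) v)) l 0 (n - 1)‖) ≤ X := by
  classical
  set A' : List Bool → Prop := fun v => A v ∧ e v ≠ 0 with hA'
  have hD' : Data R P μ h α ℓ A' lam Z :=
    hD.sub (fun v hv => hv.1) fun v k hv => ⟨hD.her v k hv.1, hher v k hv.2⟩
  refine le_trans ?_ (hL A' (fun ω y => ex (Z ω) (-c y)) hD'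
    fun ω y => (lowFamA_norm_ex _ _).le)
  simp only [← avg_mul_left]
  rw [← avg_sum]
  refine avg_mono n fun l => ?_
  have key : (fun v => e v * (U (fun t => (H v t : ℂ)) α ℓ (ξ l) (v ++ [false]) -
      U (fun t => (H v t : ℂ)) α ℓ (ξ l) v)) = fun v => ∑ ω, (lam ω : ℂ) *
        (if A' v then ∑ y, ex (Z ω) (-c y) * dd h α ℓ (ξ l + Z ω) y v else 0) := by
    funext v
    by_cases hv : A' v
    · have he : e v = 1 := (hind v).resolve_left hv.2
      simp only [if_pos hv]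
      rw [he, one_mul, U_mask hD c v (hH v hv.1), U_mask hD c v (hH v hv.1),
        ← Finset.sum_sub_distrib]
      refine Finset.sum_congr rfl fun ω _ => ?_
      rw [← mul_sub, ← Finset.sum_sub_distrib]
      congr 1
      refine Finset.sum_congr rfl fun y _ => ?_
      unfold dd; ring
    · simp only [if_neg hv, mul_zero, Finset.sum_const_zero]
      by_cases hA : A v
      · have he : e v = 0 := by
          by_contra h0
          exact hv ⟨hA, h0⟩
        rw [he, zero_mul]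
      · have : (fun t => (H v t : ℂ)) = fun _ => 0 := funext fun t => by simp [hH0 v hA t]
        rw [this]
        simp [U, cu]
  rw [key, wD_sum_mul]
  refine (norm_sum_le _ _).trans (le_of_eq (Finset.sum_congr rfl fun ω _ => ?_))
  rw [norm_mul, Complex.norm_real, Real.norm_of_nonneg (hD.lnn ω)]
  unfold Wn
  congr!

/-- the same with `LIFE` as the hypothesis -/
theorem bridge_LIFE (hL : LIFE) : ∃ C R₀ : ℝ, ∀ (R P μ : ℝ) (Y Ω : Type) [Fintype Y] [Fintype Ω]
    (h : Y → List Bool → ℝ → ℝ) (α ℓ : ℝ) (A : List Bool → Prop) (lam Z : Ω → ℝ) (c : Y → ℝ)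
    (H : List Bool → ℝ → ℝ), R₀ ≤ R → Data R P μ h α ℓ A lam Z →
    (∀ v, A v → ∀ t, (H v t : ℂ) = ∑ y, (h y v t : ℂ) * ∑ ω, (lam ω : ℂ) * ex (Z ω) (t - c y)) →
    (∀ v, ¬ A v → ∀ t, H v t = 0) → ∀ (n : ℕ) (ξ : List Bool → ℝ) (e : List Bool → ℂ),
    (∀ v, e v = 0 ∨ e v = 1) → (∀ v k, e v ≠ 0 → e (v.take k) ≠ 0) →
    avg n (fun l => ‖wD (fun v => e v * (U (fun t => (H v t : ℂ)) α ℓ (ξ l) (v ++ [false]) -
      U (fun t => (H v t : ℂ)) α ℓ (ξ l) v)) l 0 (n - 1)‖) ≤ C * P * (R / mm R) := by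
  obtain ⟨C, R₀, hL⟩ := hL
  exact ⟨C, R₀, fun R P μ Y Ω _ _ h α ℓ A lam Z c H hR hD hH hH0 n ξ e h1 h2 =>
    bridge hD c H hH hH0 n ξ
      (fun A' φ hD' hφ => hL R P μ Y Ω h α ℓ A' lam Z φ n ξ hR hD' hφ) e h1 h2⟩

end Crest.Agent.R100.Life
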