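import Crest.Agent.R100.InstDefs
import Crest.Agent.R100.InstNum
import Crest.Agent.R100.Mask84
import Crest.Agent.R100.InstL92

/-! # Row 100, STRUCT instance: one life -/

set_option autoImplicit false

open MeasureTheory Set

noncomputable section

namespace Crest.Agent.R100.Inst

open Crest.Agent.R100 Crest.Agent.R100.Low Crest.Agent.R100.Str Crest.Agent.R100.Life

/-- `Data R (2P) K.μ (fun y v => K.h g (S v) y) α ℓ In K.lam K.Z`; `g ≤ h ≤ 2 g` on cells -/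
theorem data_st {R : ℝ} {g : ℝ → ℝ} (hb : Big R) (hg : GG R g) (K : Cls) (S₀ : Set ℝ) {α ℓ P : ℝ}
    {d : ℕ} (S : List Bool → Set ℝ) (hS : ∀ v, MeasurableSet (S v)) (In : List Bool → Prop)
    (hℓ : 0 < ℓ) (hP : Real.exp (-(40 * mm R)) ≤ P) (hok : Ok R K S₀ ℓ d)
    (her : ∀ v k, In v → In (v.take k))
    (hIn : ∀ v, In v → v.length < d ∧ Quiet R g K (S v) (nd α ℓ v) (ln ℓ v) P ∧
      Str.ms (fnS g (S v)) α ℓ v ≤ P)
    (h0 : S [] ⊆ S₀) (hs : ∀ v c, S (v ++ [c]) ⊆ S v ∧ (S (v ++ [c]) = S v ∨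
      Str.ms (fnS g (S (v ++ [c]))) α ℓ (v ++ [c]) + 2 / mm R ^ 30 * P ≤
        Str.ms (fnS g (S v)) α ℓ (v ++ [c]))) :
    Data R (2 * P) K.μ (fun y v => K.h g (S v) y) α ℓ In K.lam K.Z :=
  data92 hb hg K S₀ S hS In hℓ hP hok her hIn h0 hs

/-- the exact identity -/
theorem mask_id {g : ℝ → ℝ} {K : Cls} {S₀ S : Set ℝ} {ℓ : ℝ} {d : ℕ} (hok : Ok0 K S₀ ℓ d)
    (hS : S ⊆ S₀) (t : ℝ) :
    fnS g S t = ∑ y, (K.h g S y t : ℂ) * ∑ ω, (K.lam ω : ℂ) * ex (K.Z ω) (t - K.cen y) := by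
  classical
  rw [Finset.sum_eq_single (K.lab t) (fun y _ hy => by simp [Cls.h, Ne.symm hy])
    (fun h => absurd (Finset.mem_univ _) h), hok.real]
  by_cases ht : t ∈ S
  · have h3 : K.F (t - K.cen (K.lab t)) ≠ 0 := by linarith [hok.pure t (hS ht)]
    simp only [fnS, Cls.h, ht, and_self, if_true, indicator_of_mem]
    push_cast
    rw [div_mul_cancel₀ _ (Complex.ofReal_ne_zero.2 h3)]
  · simp [fnS, Cls.h, ht]

/-- `bridge_LIFE` with `H v = if In v then (S v).indicator g else 0` -/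
theorem life_st (hL : LIFE) : ∃ C R₀ : ℝ, 1 ≤ C ∧ ∀ (R : ℝ) (g : ℝ → ℝ) (K : Cls) (S₀ : Set ℝ)
    (α ℓ P : ℝ) (d : ℕ) (S : List Bool → Set ℝ) (In : List Bool → Prop), R₀ ≤ R → Big R → GG R g →
    (∀ v, MeasurableSet (S v)) → 0 < ℓ → Real.exp (-(40 * mm R)) ≤ P → Ok R K S₀ ℓ d →
    (∀ v k, In v → In (v.take k)) →
    (∀ v, In v → v.length < d ∧ Quiet R g K (S v) (nd α ℓ v) (ln ℓ v) P ∧
      Str.ms (fnS g (S v)) α ℓ v ≤ P) →
    S [] ⊆ S₀ → (∀ v c, S (v ++ [c]) ⊆ S v ∧ (S (v ++ [c]) = S v ∨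
      Str.ms (fnS g (S (v ++ [c]))) α ℓ (v ++ [c]) + 2 / mm R ^ 30 * P ≤
        Str.ms (fnS g (S v)) α ℓ (v ++ [c]))) →
    ∀ (n : ℕ) (ξ : List Bool → ℝ) (e : List Bool → ℂ), Mul e → (∀ v, e v ≠ 0 → In v) →
      avg n (fun l => ‖∑ k ∈ Finset.range (n - 1),
        tm e (U (fnS g (S (l.take k))) α ℓ (ξ l)) l k‖) ≤ 2 * C * (R / mm R) * P := by
  classical
  obtain ⟨C, R₀, hL⟩ := bridge_LIFE hL
  refine ⟨max C 1, R₀, le_max_right _ _, fun R g K S₀ α ℓ P d S In hR hb hg hS hℓ hP hok her hIn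
    h0 hs n ξ e he heI => ?_⟩
  have hD := data_st hb hg K S₀ S hS In hℓ hP hok her hIn h0 hs
  have hsub : ∀ v, S v ⊆ S₀ := fun v => by
    induction v using List.reverseRecOn with
    | nil => exact h0
    | append_singleton v c ih => exact (hs v c).1.trans ih
  have h2 := hL R (2 * P) K.μ K.Y K.Ω _ α ℓ In _ _ K.cen
    (fun v t => if In v then (S v).indicator g t else 0) hR hD
    (fun v hv t => by
      simp only [if_pos hv]
      exact mask_id hok.toOk0 (hsub v) t)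
    (fun v hv t => by simp only [if_neg hv]) n ξ e he.1 he.2
  have hP0 : 0 < P := (Real.exp_pos _).trans_le hP
  have hm : 0 ≤ R / mm R := div_nonneg (by linarith [hb.one]) (by linarith [hb.m4])
  refine le_trans (le_of_eq ?_) (h2.trans ?_)
  · refine avg_congr_len n fun l _ => ?_
    congr 1
    unfold Run.wD
    rw [Finset.range_eq_Ico]
    refine Finset.sum_congr rfl fun k _ => ?_
    unfold tm Run.tD
    by_cases hk : e (l.take k) = 0
    · simp [hk]
    · have hI := heI _ hk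
      have : fnS g (S (l.take k)) = fun t =>
          (((if In (l.take k) then (S (l.take k)).indicator g t else 0) : ℝ) : ℂ) :=
        funext fun t => by rw [if_pos hI]; rfl
      rw [this]
  · have := mul_le_mul_of_nonneg_right (le_max_left C 1)
      (show 0 ≤ 2 * P * (R / mm R) by positivity)
    nlinarith

end Crest.Agent.R100.Inst
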