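import Crest.Agent.R100.InstBig
import Crest.Agent.R100.InstCrude
import Crest.Agent.R100.InstLife
import Crest.Agent.R100.InstCapt
import Crest.Agent.R100.InstBirth
import Crest.Agent.R100.MlNorm

/-! # Row 100, STRUCT instance (helper15): assembly, `LIFE → MLt` -/

set_option autoImplicit false

open MeasureTheory Set

noncomputable section

namespace Crest.Agent.R100.Inst

open Crest.Agent.R100 Crest.Agent.R100.Low Crest.Agent.R100.Str Crest.Agent.R100.Life

theorem fnS_split (g : ℝ → ℝ) {S T : Set ℝ} (h : T ⊆ S) : fnS g S = fnS g (S \ T) + fnS g T := by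
  funext t
  by_cases h1 : t ∈ T
  · simp [fnS, h1, h h1]
  · by_cases h2 : t ∈ S <;> simp [fnS, h1, h2]

theorem fnS_norm_split (g : ℝ → ℝ) {S T : Set ℝ} (h : T ⊆ S) (t : ℝ) :
    ‖fnS g (S \ T) t‖ + ‖fnS g T t‖ ≤ ‖fnS g S t‖ := by
  by_cases h1 : t ∈ T
  · simp [fnS, h1, h h1]
  · by_cases h2 : t ∈ S <;> simp [fnS, h1, h2]

theorem mm_pos {R : ℝ} (hb : Big R) : 0 < mm R := lt_of_lt_of_le (by norm_num) hb.m4

theorem cap_st {R B ε C : ℝ} {g : ℝ → ℝ} (hb : Big R) (hg : GG R g) (hB : 1 ≤ B)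
    (hB' : B ≤ 16 * (1 + Real.log R) ^ 2) (hε : 0 < ε) (hC : 1 ≤ C) (s : Stt) (α ℓ : ℝ) (d : ℕ)
    (P : ℝ) (hℓ : 0 < ℓ) (hP : 0 < P) (hok : Ok R s.K s.S ℓ (d + 1)) (hc : ca (fnS g s.S) α ℓ ≤ P)
    (hA : rk B (aa R s.K.μ) P ≤ 160 * mm R) (hq : ¬ Quiet R g s.K s.S α ℓ P) :
    ∃ (s' b : Stt) (db : ℕ), (s'.K = s.K ∧ s'.S ⊆ s.S) ∧ Ok R s'.K s'.S ℓ (d + 1) ∧
      aa R s'.K.μ = aa R s.K.μ ∧ rho ε s'.S α ℓ (d + 1) ≤ rho ε s.S α ℓ (d + 1) ∧
      fnS g s.S = fnS g s'.S + fnS g b.S ∧ (∀ y, ‖fnS g s'.S y‖ + ‖fnS g b.S y‖ ≤ ‖fnS g s.S y‖) ∧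
      2 / mm R ^ 30 * P ≤ ca (fnS g b.S) α ℓ ∧ Ok R b.K b.S ℓ db ∧
      rk B (aa R b.K.μ) (ca (fnS g b.S) α ℓ) ≤ rk B (aa R s.K.μ) P - 2 ∧
      60000 * R * B * rho ε b.S α ℓ db ≤ 2 * C * (R / mm R) * ca (fnS g b.S) α ℓ := by
  have ha0 := aa_nn hb hok.mu1
  have hP' := num_P hb hB ha0 hP hA
  have hm0 := mm_pos hb
  obtain ⟨j, ι, _, E, z, m, y, Bs, hj, hm, hpc, hcap⟩ := capt hb hg s.mS α hℓ hok hP' hc hq
  have hθ := (num_theta hb hP hj).trans hcap
  have hM : 0 < Mn R s.K.μ j := mul_pos (Real.exp_pos _) hok.mu0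
  have hmass := mass_birth hb hg s.mS hok.mlab α hℓ hpc
  have hp : 0 < ca (fnS g (capS s.K s.S α ℓ Bs)) α ℓ := lt_of_lt_of_le (by positivity) hθ
  have hne : 0 < Fintype.card s.K.Y * m := by
    rcases Nat.eq_zero_or_pos (Fintype.card s.K.Y * m) with h | h
    · have h' : (Fintype.card s.K.Y : ℝ) * m = 0 := by exact_mod_cast h
      rw [h', zero_mul] at hmass
      linarith
    · exact h
  have hmpos : 0 < m := Nat.pos_of_mul_pos_left hne
  have hYpos : 0 < Fintype.card s.K.Y := Nat.pos_of_mul_pos_right hne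
  obtain ⟨Kb, db, k1, k2, k3, k4⟩ := birth hb hε hM s.S hok.mlab α hℓ hmpos hpc
  obtain ⟨n1, n2⟩ := num_aa hb hok.mu0 j
  have hj0 : (0 : ℝ) ≤ j := Nat.cast_nonneg j
  obtain ⟨c1, c2⟩ := num_card (μ' := mun R (Mn R s.K.μ j)) hb hm hmpos hYpos hok.card
    (by linarith) ha0
  have hp' : 2 / mm R ^ 30 * Real.exp (-(40 * mm R)) ≤ ca (fnS g (capS s.K s.S α ℓ Bs)) α ℓ :=
    le_trans (mul_le_mul_of_nonneg_left hP' (by positivity)) hθ
  have hsub : capS s.K s.S α ℓ Bs ⊆ s.S := fun t ht => ht.1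
  have hmeas := capS_meas s.mS hok.mlab α ℓ hpc.meas
  refine ⟨⟨s.K, s.S \ capS s.K s.S α ℓ Bs, s.mS.diff hmeas⟩, ⟨Kb, capS s.K s.S α ℓ Bs, hmeas⟩, db,
    ⟨rfl, sdiff_subset⟩, hok.sub sdiff_subset, rfl, rho_mono ε sdiff_subset α ℓ _, fnS_split g hsub,
    fnS_norm_split g hsub, hθ, ⟨k3, ?_, ?_, ?_⟩, ?_, ?_⟩
  · rw [k2]; exact n1
  · rw [k2]; exact num_mu hb hM c2 hp' hmass
  · rw [k1, k2]; exact c1
  · simp only [k2]; exact num_rk (by linarith) hP j hcap n2
  · have := num_rho hb hB hB' c2 hp' k4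
    have h1 : 0 ≤ (C - 1) * (2 * (R / mm R) * ca (fnS g (capS s.K s.S α ℓ Bs)) α ℓ) :=
      mul_nonneg (by linarith) (by have := hb.one; positivity)
    simp only
    linarith

/-- the root class -/
def K₀ : Cls where
  Y := Unit
  fY := inferInstance
  Ω := Unit
  fΩ := inferInstance
  lab := fun _ => ()
  cen := fun _ => 0
  lam := fun _ => 1
  Z := fun _ => 0
  μ := 1

theorem K₀_sum (τ : ℝ) : ∑ ω, (K₀.lam ω : ℂ) * ex (K₀.Z ω) τ = 1 := by
  change ∑ _ω : Unit, ((1 : ℝ) : ℂ) * ex 0 τ = 1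
  simp [ex]

theorem ok_root {R : ℝ} (hb : Big R) (ha : aa R 1 = 120 * mm R) (ℓ : ℝ) (d : ℕ) :
    Ok R K₀ univ ℓ d := by
  have hF : ∀ τ, K₀.F τ = 1 := fun τ => by rw [Cls.F, K₀_sum]; simp
  refine ⟨⟨fun y => ?_, fun _ => zero_le_one, ?_, fun τ => by rw [K₀_sum, hF]; simp,
    fun t _ => by rw [hF]; norm_num, fun k _ a => ?_⟩, one_pos, ?_, ?_⟩
  · have : {t : ℝ | K₀.lab t = y} = univ := by ext t; simp only [mem_ofPred_eq, mem_univ, iff_true]; rfl
    rw [this]; exact MeasurableSet.univ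
  · change ∑ _ω : Unit, (1 : ℝ) = 1
    simp
  · change (∑ _ω : Unit, if a ≤ 0 ∧ 0 ≤ a + 2 ^ k / ℓ then (1 : ℝ) else 0) ≤ 1
    simp only [Finset.univ_unique, Finset.sum_singleton]
    split_ifs <;> norm_num
  · change -(3 * R) ≤ Real.log 1
    have := hb.one
    simp; linarith
  · change Real.log (Fintype.card Unit) ≤ R / mm R ^ 50 * (120 * mm R - aa R 1)
    simp [ha]

theorem mlt_of_life (hL : LIFE) : MLt := by
  classical
  obtain ⟨C, R₁, hC, hlife⟩ := life_st hL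
  obtain ⟨R₂, hbig⟩ := big_exists
  refine ⟨322 * C, max R₁ R₂, fun R B g n α ℓ ξ hR hR₀ hB hB' hm h0 hℓ hca => ?_⟩
  have hb := hbig R ((le_max_right _ _).trans hR₀)
  have hg : GG R g := ⟨hm, h0⟩
  have hm0 := mm_pos hb
  have hε : 0 < ℓ / 2 ^ n := by positivity
  have hgu : fnS g univ = fun t => (g t : ℂ) := by funext t; simp [fnS]
  let S : Sys Stt (fun t => (g t : ℂ)) B (ℓ / 2 ^ n) (2 * C * (R / mm R)) (60000 * R * B)
      (2 / mm R ^ 30) (160 * mm R) :=
    { fn := fun s => fnS g s.S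
      ok := fun s _ ℓ d => Ok R s.K s.S ℓ d
      a := fun s => aa R s.K.μ
      rho := fun s α ℓ' d => rho (ℓ / 2 ^ n) s.S α ℓ' d
      quiet := fun s α ℓ P => Quiet R g s.K s.S α ℓ P
      sub := fun s s' => s'.K = s.K ∧ s'.S ⊆ s.S
      hB := by linarith
      hCd := by positivity
      hCr := by positivity
      hθ := by positivity
      bmg := hgu ▸ bm_fnS hg MeasurableSet.univ
      bm := fun s => bm_fnS hg s.mS
      le := fun s y => by
        by_cases h : y ∈ s.S <;> simp [fnS, h]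
      sub_refl := fun s => ⟨rfl, le_rfl⟩
      sub_trans := fun s s' s'' h h' => ⟨h'.1.trans h.1, h'.2.trans h.2⟩
      ok_ch := fun s α ℓ d c _ h => h.ch
      a_nn := fun s α ℓ d _ h => aa_nn hb h.mu1
      rho_nn := fun s α ℓ d => rho_nn _ _ _ _ _
      rho_mart := fun s α ℓ d _ => (rho_mart _ _ _ _ _).le
      crude := fun s α ℓ hℓ _ => crude_st hR hg hB s.mS α hℓ
      cap := fun s α ℓ d P hℓ hP _ hok hc hA hq =>
        cap_st hb hg hB hB' hε hC s α ℓ d P hℓ hP hok hc hA hq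
      life := fun s₀ α ℓ d P st In hℓ hP _ hok _ hA her hIn _ h0 hs n ξ e he he' => by
        have hK : ∀ v, (st v).K = s₀.K := by
          intro v
          induction v using List.reverseRecOn with
          | nil => exact h0.1
          | append_singleton v c ih => exact (hs v c).1.1.trans ih
        refine hlife R g s₀.K s₀.S α ℓ P d (fun v => (st v).S) In ((le_max_left _ _).trans hR₀) hb hg
          (fun v => (st v).mS) hℓ (num_P hb hB (aa_nn hb hok.mu1) hP hA) hok her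
          (fun v hv => ⟨(hIn v hv).1, hK v ▸ (hIn v hv).2.2.1, (hIn v hv).2.2.2⟩) h0.2
          (fun v c => ⟨(hs v c).1.2, (hs v c).2.imp (fun h => by rw [h]) fun h => h.2⟩) n ξ e he he' }
  obtain ⟨r1, r2⟩ := num_root hb hB hB'
  have main := S.main ⟨K₀, univ, MeasurableSet.univ⟩ α ℓ (n + 1) 1 hℓ one_pos (by linarith)
    (ok_root hb r1 ℓ _) (by simpa only [S, hgu] using hca) r2
  have hrho : rho (ℓ / 2 ^ n) univ α ℓ (n + 1) = 0 :=
    rho_short (by rw [pow_succ, ← div_div]; linarith) _ _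
  simp only [S, hgu, hrho, mul_zero, add_zero] at main
  have h1 := main n ξ (fun v => if v.length ≤ n then eB (fun t => (g t : ℂ)) B α ℓ v else 0)
    ⟨fun v => by simp only [eB]; split_ifs <;> simp, fun v k hv => by
      have h1 : v.length ≤ n := by by_contra h; simp [h] at hv
      have h2 : (v.take k).length ≤ n := by simp; omega
      simp only [h1, h2, if_true] at hv ⊢
      have h3 := eB_alive _ _ _ _ _ hv
      have h4 : AliveB (fun t => (g t : ℂ)) B α ℓ (v.take k) := fun i hi => by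
        have hi' : i ≤ k ∧ i ≤ v.length := by simpa using hi
        rw [List.take_take, min_eq_left hi'.1]
        exact h3 i hi'.2
      simp [eB, h4]⟩
    (fun v hv k hk => by
      have h1 : v.length ≤ n := by by_contra h; simp [h] at hv
      simp only [h1, if_true] at hv
      refine ⟨eB_alive _ _ _ _ _ hv k hk, ?_⟩
      unfold ln
      refine div_le_div_of_nonneg_left hℓ.le (by positivity) (pow_le_pow_right₀ (by norm_num) ?_)
      simp; omega)
  refine le_trans (le_of_eq ?_) (h1.trans ?_)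
  · refine avg_congr_len n fun l hl => ?_
    congr 1
    refine Finset.sum_congr rfl fun k _ => ?_
    have : (l.take k).length ≤ n := by simp; omega
    simp only [tm, this, if_true]
  · have hc0 := ca_nonneg (fun t => (g t : ℂ)) α hℓ
    have hr0 : 0 ≤ rk B (aa R 1) 1 := rk_nonneg one_pos (by linarith) (by rw [r1]; positivity)
    have e1 : ca (fun t => (g t : ℂ)) α ℓ * rk B (aa R 1) 1 ≤ 160 * mm R :=
      (mul_le_of_le_one_left hr0 hca).trans r2
    have hm1 : 1 ≤ mm R := le_trans (by norm_num) hb.m4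
    have e2 : 1 + ca (fun t => (g t : ℂ)) α ℓ * rk B (aa R 1) 1 ≤ 161 * mm R := by linarith
    calc _ ≤ 2 * C * (R / mm R) * (161 * mm R) :=
          mul_le_mul_of_nonneg_left e2 (by positivity)
      _ = 322 * C * R := by field_simp; ring

end Crest.Agent.R100.Inst
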