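import Crest.Agent.R100.InstBig
import Crest.Agent.R100.InstBirth
import Crest.Agent.R100.InstCapt
import Crest.Agent.R100.InstLife
import Crest.Agent.R100.MlNorm

/-! # Row 100, STRUCT instance: the assembly (helper51) -/

set_option autoImplicit false

open MeasureTheory Set

noncomputable section

namespace Crest.Agent.R100.I51

open Crest.Agent.R100 Crest.Agent.R100.Low Crest.Agent.R100.Str Crest.Agent.R100.Life
  Crest.Agent.R100.Inst

/-- the statement of one life for fixed `R`, `g` -/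
def LifeAt (C R : ℝ) (g : ℝ → ℝ) : Prop :=
  ∀ (K : Cls) (S₀ : Set ℝ) (α ℓ P : ℝ) (d : ℕ) (S : List Bool → Set ℝ) (In : List Bool → Prop),
    (∀ v, MeasurableSet (S v)) → 0 < ℓ → Real.exp (-(40 * mm R)) ≤ P → Ok R K S₀ ℓ d →
    (∀ v k, In v → In (v.take k)) →
    (∀ v, In v → v.length < d ∧ Quiet R g K (S v) (nd α ℓ v) (ln ℓ v) P ∧
      Str.ms (fnS g (S v)) α ℓ v ≤ P) →
    S [] ⊆ S₀ → (∀ v c, S (v ++ [c]) ⊆ S v ∧ (S (v ++ [c]) = S v ∨
      Str.ms (fnS g (S (v ++ [c]))) α ℓ (v ++ [c]) + 2 / mm R ^ 30 * P ≤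
        Str.ms (fnS g (S v)) α ℓ (v ++ [c]))) →
    ∀ (n : ℕ) (ξ : List Bool → ℝ) (e : List Bool → ℂ), Mul e → (∀ v, e v ≠ 0 → In v) →
      avg n (fun l => ‖∑ k ∈ Finset.range (n - 1),
        tm e (U (fnS g (S (l.take k))) α ℓ (ξ l)) l k‖) ≤ 2 * C * (R / mm R) * P

theorem cap51 {R B ε C : ℝ} {g : ℝ → ℝ} (hb : Big R) (hg : GG R g) (hB : 1 ≤ B)
    (hB' : B ≤ 16 * (1 + Real.log R) ^ 2) (hε : 0 < ε) (hC : 1 ≤ C) (s : Stt) (α ℓ : ℝ) (d : ℕ)
    (P : ℝ) (hℓ : 0 < ℓ) (hP : 0 < P) (hok : Ok R s.K s.S ℓ (d + 1))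
    (hc : ca (fnS g s.S) α ℓ ≤ P) (hA : rk B (Inst.aa R s.K.μ) P ≤ 160 * mm R)
    (hq : ¬ Quiet R g s.K s.S α ℓ P) :
    ∃ (s' b : Stt) (db : ℕ), (s'.K = s.K ∧ s'.S ⊆ s.S) ∧ Ok R s'.K s'.S ℓ (d + 1) ∧
      Inst.aa R s'.K.μ = Inst.aa R s.K.μ ∧ rho ε s'.S α ℓ (d + 1) ≤ rho ε s.S α ℓ (d + 1) ∧
      fnS g s.S = fnS g s'.S + fnS g b.S ∧
      (∀ y, ‖fnS g s'.S y‖ + ‖fnS g b.S y‖ ≤ ‖fnS g s.S y‖) ∧
      2 / mm R ^ 30 * P ≤ ca (fnS g b.S) α ℓ ∧ Ok R b.K b.S ℓ db ∧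
      rk B (Inst.aa R b.K.μ) (ca (fnS g b.S) α ℓ) ≤ rk B (Inst.aa R s.K.μ) P - 2 ∧
      60000 * R * B * rho ε b.S α ℓ db ≤ 2 * C * (R / mm R) * ca (fnS g b.S) α ℓ := by
  have ha0 := aa_nn hb hok.mu1
  have hPe := num_P hb hB ha0 hP hA
  obtain ⟨j, ι, _, E, z, m, y, Bs, hj, hm, hpc, hp⟩ := capt hb hg s.mS α hℓ hok hPe hc hq
  have hmb := mass_birth hb hg s.mS hok.mlab α hℓ hpc
  have hmS := capS_meas s.mS hok.mlab α ℓ hpc.meas
  set T := capS s.K s.S α ℓ Bs with hT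
  set p := ca (fnS g T) α ℓ with hpe
  have hm4 := hb.m4
  have hm0 : 0 < mm R := by linarith
  have hR0 : 0 < R := by linarith [hb.one]
  have hp0 : 0 < p := lt_of_lt_of_le (by positivity) hp
  have hmpos : 0 < m := by
    rcases Nat.eq_zero_or_pos m with h | h
    · subst h
      simp only [Nat.cast_zero, mul_zero, zero_mul] at hmb
      linarith
    · exact h
  have hY : 0 < Fintype.card s.K.Y := by
    rcases Nat.eq_zero_or_pos (Fintype.card s.K.Y) with h | h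
    · rw [h] at hmb
      simp only [Nat.cast_zero, zero_mul] at hmb
      linarith
    · exact h
  have hM : 0 < Mn R s.K.μ j := mul_pos (Real.exp_pos _) hok.mu0
  obtain ⟨Kb, db, h1, h2, h3, h4⟩ := birth hb hε hM s.S hok.mlab α hℓ hmpos hpc
  obtain ⟨n1, n2⟩ := num_aa hb hok.mu0 j
  have hθ := (num_theta hb hP hj).trans hp
  have hj0 : (0 : ℝ) ≤ j := Nat.cast_nonneg j
  obtain ⟨c1, c2⟩ := num_card (μ' := mun R (Mn R s.K.μ j)) hb hm hmpos hY hok.card
    (by linarith) ha0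
  have hpl : 2 / mm R ^ 30 * Real.exp (-(40 * mm R)) ≤ p :=
    (mul_le_mul_of_nonneg_left hPe (by positivity)).trans hθ
  have hsub : T ⊆ s.S := fun t ht => ht.1
  refine ⟨⟨s.K, s.S \ T, s.mS.diff hmS⟩, ⟨Kb, T, hmS⟩, db, ⟨rfl, fun t ht => ht.1⟩,
    hok.sub (fun t ht => ht.1), rfl, rho_mono ε (fun t ht => ht.1) α ℓ _, ?_, fun t => ?_, hθ,
    ⟨h3, by rw [h2]; exact n1, by rw [h2]; exact num_mu hb hM c2 hpl hmb,
      by rw [h1, h2]; exact c1⟩, ?_, ?_⟩
  · funext t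
    by_cases h : t ∈ T
    · simp [fnS, h, hsub h]
    · by_cases h' : t ∈ s.S <;> simp [fnS, h, h']
  · rw [norm_fnS hg, norm_fnS hg, norm_fnS hg]
    by_cases h : t ∈ T
    · simp [h, hsub h]
    · by_cases h' : t ∈ s.S <;> simp [h, h']
  · show rk B (Inst.aa R Kb.μ) p ≤ _
    rw [h2]
    exact num_rk (by linarith) hP j hp n2
  · show 60000 * R * B * rho ε T α ℓ db ≤ 2 * C * (R / mm R) * p
    refine (num_rho hb hB hB' c2 hpl h4).trans ?_
    have : 0 ≤ (R / mm R) * p := by positivity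
    nlinarith

/-- the system -/
def sys {R B ε C : ℝ} {g : ℝ → ℝ} (hb : Big R) (hg : GG R g) (hB : 1 ≤ B)
    (hB' : B ≤ 16 * (1 + Real.log R) ^ 2) (hε : 0 < ε) (hC : 1 ≤ C) (hL : LifeAt C R g) :
    Sys Stt (fun t => (g t : ℂ)) B ε (2 * C * (R / mm R)) (60000 * R * B) (2 / mm R ^ 30)
      (160 * mm R) where
  fn s := fnS g s.S
  ok s _ ℓ d := Ok R s.K s.S ℓ d
  a s := Inst.aa R s.K.μ
  rho s α ℓ d := rho ε s.S α ℓ d
  quiet s α ℓ P := Quiet R g s.K s.S α ℓ P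
  sub s s' := s'.K = s.K ∧ s'.S ⊆ s.S
  hB := by linarith
  hCd := by
    have := hb.m4
    have := hb.one
    have : 0 < mm R := by linarith
    positivity
  hCr := by
    have := hb.one
    positivity
  hθ := by
    have := hb.m4
    have : 0 < mm R := by linarith
    positivity
  bmg := ⟨Complex.measurable_ofReal.comp hg.meas, Real.exp R, fun y => by
    rw [Complex.norm_real, Real.norm_eq_abs, abs_of_nonneg (hg.bd y).1]; exact (hg.bd y).2⟩
  bm s := bm_fnS hg s.mS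
  le s y := by
    rw [norm_fnS hg, Complex.norm_real, Real.norm_eq_abs, abs_of_nonneg (hg.bd y).1]
    by_cases h : y ∈ s.S
    · simp [h]
    · simp [h, (hg.bd y).1]
  sub_refl s := ⟨rfl, Subset.rfl⟩
  sub_trans s s' s'' h h' := ⟨h'.1.trans h.1, h'.2.trans h.2⟩
  ok_ch s α ℓ d c _ h := h.ch
  a_nn s α ℓ d _ h := aa_nn hb h.mu1
  rho_nn s α ℓ d := rho_nn ε s.S α ℓ d
  rho_mart s α ℓ d _ := (rho_mart ε s.S α ℓ d).le
  crude s α ℓ hℓ _ := crude_st hb.one hg hB s.mS α hℓ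
  cap s α ℓ d P hℓ hP _ hok hc hA hq := cap51 hb hg hB hB' hε hC s α ℓ d P hℓ hP hok hc hA hq
  life s₀ α ℓ d P st In hℓ hP _ hok _ hA her hIn _ h0 hs n ξ e he heI := by
    have hK : ∀ v, (st v).K = s₀.K := fun v => by
      induction v using List.reverseRecOn with
      | nil => exact h0.1
      | append_singleton w c ih => exact (hs w c).1.1.trans ih
    refine hL s₀.K s₀.S α ℓ P d (fun v => (st v).S) In (fun v => (st v).mS) hℓ
      (num_P hb hB (aa_nn hb hok.mu1) hP hA) hok her (fun v hv => ?_) h0.2 (fun v c => ?_)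
      n ξ e he heI
    · obtain ⟨h1, _, h3, h4⟩ := hIn v hv
      exact ⟨h1, hK v ▸ h3, h4⟩
    · obtain ⟨h1, h2⟩ := hs v c
      refine ⟨h1.2, ?_⟩
      rcases h2 with h2 | h2
      · left; rw [h2]
      · right; exact h2.2

/-- the root class -/
def K0 : Cls where
  Y := Unit
  fY := inferInstance
  Ω := Unit
  fΩ := inferInstance
  lab _ := ()
  cen _ := 0
  lam _ := 1
  Z _ := 0
  μ := 1

theorem K0_sum (τ : ℝ) : ∑ ω, (K0.lam ω : ℂ) * ex (K0.Z ω) τ = 1 := by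
  show ∑ _ω : Unit, ((1 : ℝ) : ℂ) * ex 0 τ = 1
  simp [ex]

theorem K0_F (τ : ℝ) : K0.F τ = 1 := by
  unfold Cls.F
  rw [K0_sum]; simp

theorem K0_ok {R : ℝ} (hb : Big R) (ha : Inst.aa R 1 = 120 * mm R) (ℓ : ℝ) (d : ℕ) :
    Ok R K0 univ ℓ d where
  mlab y := by
    have : {t : ℝ | K0.lab t = y} = univ := by
      ext t; simp only [mem_setOf_eq, mem_univ, iff_true]; rfl
    rw [this]; exact MeasurableSet.univ
  lnn _ := zero_le_one
  lone := by
    show ∑ _ω : Unit, (1 : ℝ) = 1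
    simp
  real τ := by rw [K0_sum, K0_F]; simp
  pure t _ := by rw [K0_F]; norm_num
  bin k _ a := by
    show ∑ _ω : Unit, (if a ≤ 0 ∧ (0 : ℝ) ≤ a + 2 ^ k / ℓ then (1 : ℝ) else 0) ≤ 1
    split_ifs <;> simp
  mu0 := zero_lt_one
  mu1 := by
    show -(3 * R) ≤ Real.log 1
    rw [Real.log_one]; linarith [hb.one]
  card := by
    show Real.log (Fintype.card Unit) ≤ R / mm R ^ 50 * (120 * mm R - Inst.aa R 1)
    rw [ha]; simp

theorem mlt_of_life (hL : LIFE) : MLt := by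
  classical
  obtain ⟨C, R₀, hC, hl⟩ := life_st hL
  obtain ⟨R₁, hbig⟩ := big_exists
  refine ⟨2 * C * 161, max R₀ R₁, fun R B g n α ℓ ξ hR hR₀ hB hB' hgm hg0 hℓ hc => ?_⟩
  have hb := hbig R ((le_max_right _ _).trans hR₀)
  have hg : GG R g := ⟨hgm, hg0⟩
  have hε : 0 < ℓ / 2 ^ n := by positivity
  have hLa : LifeAt C R g := fun K S₀ α ℓ P d S In h1 h2 h3 h4 h5 h6 h7 h8 =>
    hl R g K S₀ α ℓ P d S In ((le_max_left _ _).trans hR₀) hb hg h1 h2 h3 h4 h5 h6 h7 h8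
  obtain ⟨r1, r2⟩ := num_root hb hB hB'
  have hfn : fnS g univ = fun t => (g t : ℂ) := by funext t; simp [fnS]
  have H := (sys hb hg hB hB' hε hC hLa).main ⟨K0, univ, MeasurableSet.univ⟩ α ℓ (n + 1) 1 hℓ
    one_pos (by linarith) (K0_ok hb r1 ℓ _) (by show ca (fnS g univ) α ℓ ≤ 1; rwa [hfn]) r2
  change CB (fun t => (g t : ℂ)) B (ℓ / 2 ^ n) (fnS g univ) α ℓ
    (2 * C * (R / mm R) * (1 + ca (fnS g univ) α ℓ * rk B (Inst.aa R 1) 1) +
      60000 * R * B * rho (ℓ / 2 ^ n) univ α ℓ (n + 1)) at H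
  rw [rho_short (div_lt_div_of_pos_left hℓ (by positivity)
    (pow_lt_pow_right₀ (by norm_num) (Nat.lt_succ_self n))), hfn] at H
  set f : ℝ → ℂ := fun t => (g t : ℂ) with hf
  have H2 := H n ξ (fun v => if AliveB f B α ℓ v ∧ v.length ≤ n then 1 else 0)
    ⟨fun v => by
      by_cases h : AliveB f B α ℓ v ∧ v.length ≤ n
      · exact Or.inr (if_pos h)
      · exact Or.inl (if_neg h), fun v k hv => by
      have h1 : AliveB f B α ℓ v ∧ v.length ≤ n := by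
        by_contra h; exact hv (if_neg h)
      have h2 : AliveB f B α ℓ (v.take k) ∧ (v.take k).length ≤ n := by
        refine ⟨fun i hi => ?_, (List.length_take_le' k v).trans h1.2⟩
        rw [List.take_take]
        exact h1.1 _ ((min_le_left _ _).trans (hi.trans (List.length_take_le' k v)))
      show (if _ then (1 : ℂ) else 0) ≠ 0
      rw [if_pos h2]; exact one_ne_zero⟩
    (fun v hv k hk => by
      have h1 : AliveB f B α ℓ v ∧ v.length ≤ n := by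
        by_contra h; exact hv (if_neg h)
      refine ⟨h1.1 k hk, ?_⟩
      unfold ln
      exact div_le_div_of_nonneg_left hℓ.le (by positivity)
        (pow_le_pow_right₀ (by norm_num) ((List.length_take_le' k v).trans h1.2)))
  refine le_trans (le_of_eq ?_) (H2.trans ?_)
  · refine avg_congr_len n fun l hl => ?_
    congr 1
    unfold Low.win
    refine Finset.sum_congr rfl fun k _ => ?_
    have : (l.take k).length ≤ n := (List.length_take_le' k l).trans hl.le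
    simp only [tm, eB, this, and_true]
  · have hm4 := hb.m4
    have hm0 : 0 < mm R := by linarith
    have h0 := ca_nonneg f α hℓ
    have h1 : 0 ≤ rk B (Inst.aa R 1) 1 := rk_nonneg one_pos (by linarith) (by rw [r1]; positivity)
    have h2 : ca f α ℓ * rk B (Inst.aa R 1) 1 ≤ 160 * mm R := by nlinarith
    have h3 : 1 + ca f α ℓ * rk B (Inst.aa R 1) 1 ≤ 161 * mm R := by linarith
    have h4 : 0 ≤ 2 * C * (R / mm R) := by positivity
    calc _ = 2 * C * (R / mm R) * (1 + ca f α ℓ * rk B (Inst.aa R 1) 1) := by ring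
      _ ≤ 2 * C * (R / mm R) * (161 * mm R) := mul_le_mul_of_nonneg_left h3 h4
      _ = _ := by field_simp

end Crest.Agent.R100.I51
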