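import Crest.Agent.R100.LifeDefs

/-! # Row 100 (helper68): asymptotics of `mm` -/

set_option autoImplicit false

open Filter

noncomputable section

namespace Crest.Agent.R100.MmN

open Crest.Agent.R100.Life

theorem exp_mm {R : ℝ} (hR : 1 ≤ R) : Real.exp (mm R) = 2 + Real.log R := by
  have := Real.log_nonneg hR
  unfold mm
  rw [Real.exp_log (by linarith)]

theorem mm_tendsto : Tendsto mm atTop atTop :=
  Real.tendsto_log_atTop.comp (tendsto_atTop_add_const_left _ _ Real.tendsto_log_atTop)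

theorem ev_mm (K : ℝ) : ∀ᶠ R in atTop, K ≤ mm R := mm_tendsto.eventually_ge_atTop K

/-- `C x ^ k ≤ exp (c x)` for large `x` -/
theorem ev_pow_exp (C : ℝ) (k : ℕ) {c : ℝ} (hc : 0 < c) :
    ∀ᶠ x in atTop, C * x ^ k ≤ Real.exp (c * x) := by
  have h := (tendsto_exp_mul_div_rpow_atTop (k : ℝ) c hc).eventually_ge_atTop (|C|)
  filter_upwards [h, eventually_gt_atTop 0] with x h1 h2
  rw [Real.rpow_natCast, le_div_iff₀ (by positivity)] at h1
  exact (mul_le_mul_of_nonneg_right (le_abs_self C) (by positivity)).trans h1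

/-- `C m ^ k ≤ log R` for large `R` -/
theorem ev_pow_le_log (C : ℝ) (k : ℕ) : ∀ᶠ R in atTop, C * mm R ^ k ≤ Real.log R := by
  filter_upwards [mm_tendsto.eventually (ev_pow_exp (C + 2) k (c := 1) one_pos), ev_mm 1,
    eventually_ge_atTop 1] with R h1 h2 h3
  rw [one_mul, exp_mm h3] at h1
  have : 1 ≤ mm R ^ k := one_le_pow₀ h2
  nlinarith

/-- `C (log R) ^ k ≤ R ^ c` for large `R`, written with `exp` -/
theorem ev_logpow (C : ℝ) (k : ℕ) {c : ℝ} (hc : 0 < c) :
    ∀ᶠ R in atTop, C * Real.log R ^ k ≤ Real.exp (c * Real.log R) :=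
  Real.tendsto_log_atTop.eventually (ev_pow_exp C k hc)

theorem ev_logpow_le (C : ℝ) (k : ℕ) : ∀ᶠ R in atTop, C * Real.log R ^ k ≤ R := by
  filter_upwards [ev_logpow C k one_pos, eventually_gt_atTop 0] with R h1 h2
  rwa [one_mul, Real.exp_log h2] at h1

theorem mm_le_log : ∀ᶠ R in atTop, mm R ≤ Real.log R := by
  filter_upwards [ev_pow_le_log 1 1] with R h
  simpa using h

/-- `C m ^ a (log R) ^ b ≤ R` for large `R` -/
theorem ev_mm_log_le (C : ℝ) (a b : ℕ) :
    ∀ᶠ R in atTop, C * mm R ^ a * Real.log R ^ b ≤ R := by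
  filter_upwards [ev_logpow_le (|C|) (a + b), mm_le_log, ev_mm 0] with R h1 h2 h3
  have h4 : mm R ^ a ≤ Real.log R ^ a := pow_le_pow_left₀ h3 h2 a
  have h5 : 0 ≤ Real.log R ^ b := pow_nonneg (h3.trans h2) b
  calc C * mm R ^ a * Real.log R ^ b ≤ |C| * Real.log R ^ a * Real.log R ^ b := by
        refine mul_le_mul_of_nonneg_right ?_ h5
        exact (mul_le_mul_of_nonneg_right (le_abs_self C) (pow_nonneg h3 a)).trans
          (mul_le_mul_of_nonneg_left h4 (abs_nonneg C))
    _ = |C| * Real.log R ^ (a + b) := by rw [pow_add]; ring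
    _ ≤ R := h1

/-- `C m ^ a log R ≤ R / m ^ b` for large `R` -/
theorem ev_le_div (C : ℝ) (a b c : ℕ) :
    ∀ᶠ R in atTop, C * mm R ^ a * Real.log R ^ c ≤ R / mm R ^ b := by
  filter_upwards [ev_mm_log_le C (a + b) c, ev_mm 1] with R h1 h2
  rw [le_div_iff₀ (by positivity)]
  calc _ = C * mm R ^ (a + b) * Real.log R ^ c := by rw [pow_add]; ring
    _ ≤ R := h1

/-- `C R ^ a m ^ b exp (K m) ≤ exp (c R / m ^ d)` for large `R` -/
theorem ev_poly_le_exp (C K : ℝ) (a b d : ℕ) {c : ℝ} (hc : 0 < c) :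
    ∀ᶠ R in atTop, C * R ^ a * mm R ^ b * Real.exp (K * mm R) ≤
      Real.exp (c * (R / mm R ^ d)) := by
  filter_upwards [ev_le_div ((|C| + a + b + |K|) / c) 0 d 1, mm_le_log, ev_mm 1,
    eventually_gt_atTop 0] with R h1 h2 h3 h4
  have hL : 1 ≤ Real.log R := h3.trans h2
  have e1 : C ≤ Real.exp (|C| * Real.log R) := by
    have := Real.add_one_le_exp (|C| * Real.log R)
    have h := le_abs_self C
    have h' := abs_nonneg C
    nlinarith
  have e2 : R ^ a = Real.exp (a * Real.log R) := by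
    rw [Real.exp_nat_mul, Real.exp_log h4]
  have e3 : mm R ^ b ≤ Real.exp (b * Real.log R) := by
    rw [Real.exp_nat_mul]
    refine pow_le_pow_left₀ (by linarith) ?_ b
    have := Real.add_one_le_exp (Real.log R)
    linarith
  have e4 : Real.exp (K * mm R) ≤ Real.exp (|K| * Real.log R) :=
    Real.exp_le_exp.2 ((mul_le_mul_of_nonneg_right (le_abs_self K) (by linarith)).trans
      (mul_le_mul_of_nonneg_left h2 (abs_nonneg K)))
  have e5 : (|C| + a + b + |K|) * Real.log R ≤ c * (R / mm R ^ d) := by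
    simp only [pow_zero, mul_one, pow_one] at h1
    rw [div_mul_eq_mul_div, div_le_iff₀ hc] at h1
    linarith
  calc C * R ^ a * mm R ^ b * Real.exp (K * mm R)
      ≤ Real.exp (|C| * Real.log R) * Real.exp (a * Real.log R) * Real.exp (b * Real.log R) *
          Real.exp (|K| * Real.log R) := by
        rw [← e2]
        have hR : 0 ≤ R ^ a := by positivity
        have hm : 0 ≤ mm R ^ b := by positivity
        gcongr
    _ = Real.exp ((|C| + a + b + |K|) * Real.log R) := by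
        rw [← Real.exp_add, ← Real.exp_add, ← Real.exp_add]; congr 1; ring
    _ ≤ _ := Real.exp_le_exp.2 e5

/-- the parameter `w` of AD for `R' = c R` -/
theorem ev_w {c : ℝ} (hc : 1 ≤ c) (C : ℝ) (k : ℕ) : ∀ᶠ R in atTop, ∃ w : ℝ,
    10 ^ 9 ≤ w ∧ c * R = Real.exp (w ^ 100) ∧ C * mm R ^ k ≤ w := by
  filter_upwards [ev_pow_le_log ((|C| + 10 ^ 9) ^ 100) (k * 100), ev_mm 1,
    eventually_ge_atTop 1] with R h1 h2 h3
  have hcR : 1 ≤ c * R := by nlinarith
  have hL : Real.log R ≤ Real.log (c * R) := Real.log_le_log (by linarith) (by nlinarith)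
  have hL0 : 0 ≤ Real.log (c * R) := Real.log_nonneg hcR
  set w : ℝ := Real.log (c * R) ^ ((100 : ℕ) : ℝ)⁻¹ with hw
  have hw0 : 0 ≤ w := Real.rpow_nonneg hL0 _
  have hw1 : w ^ 100 = Real.log (c * R) := Real.rpow_inv_natCast_pow hL0 (by norm_num)
  have hm : 1 ≤ mm R ^ k := one_le_pow₀ h2
  have hC := abs_nonneg C
  have key : (|C| + 10 ^ 9) * mm R ^ k ≤ w := by
    refine le_of_pow_le_pow_left₀ (n := 100) (by norm_num) hw0 ?_
    rw [hw1, mul_pow, ← pow_mul]
    exact h1.trans hL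
  refine ⟨w, by nlinarith, by rw [hw1, Real.exp_log (by linarith)], ?_⟩
  have := le_abs_self C
  nlinarith

end Crest.Agent.R100.MmN
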