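import Crest.Agent.R100.InstDefs
import Crest.Agent.R100.MmNum

/-! # Row 100, STRUCT instance: large R -/

set_option autoImplicit false

open MeasureTheory Set

noncomputable section

namespace Crest.Agent.R100.Inst

open Crest.Agent.R100 Crest.Agent.R100.Low Crest.Agent.R100.Str Crest.Agent.R100.Life

theorem big_exists : ∃ R₀ : ℝ, ∀ R, R₀ ≤ R → Big R := by
  refine Filter.eventually_atTop.1 ?_
  filter_upwards [Filter.eventually_ge_atTop 1, MmN.ev_mm (10 ^ 4),
    MmN.ev_poly_le_exp 1 1000 1 0 50 one_pos, MmN.ev_w (c := 5) (by norm_num) 3200 50]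
    with R h1 h2 h3 h4
  obtain ⟨w, w1, w2, w3⟩ := h4
  have hm : 1 ≤ mm R := by linarith
  have a1 : mm R ^ 24 ≤ mm R ^ 50 := pow_le_pow_right₀ hm (by norm_num)
  have a2 : w ≤ w ^ 12 := le_self_pow₀ (by linarith) (by norm_num)
  have a3 : 0 ≤ mm R ^ 50 := by positivity
  exact ⟨h1, h2, by simpa using h3, w, w1, w2, by linarith, by linarith⟩

end Crest.Agent.R100.Inst
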