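import Crest.Agent.R100.InstCrude
import Crest.Agent.R100.DeathRho

/-! # Row 100, STRUCT instance: the new class (helper12) -/

set_option autoImplicit false

open MeasureTheory Set

noncomputable section

namespace Crest.Agent.R100.Inst

open Crest.Agent.R100 Crest.Agent.R100.Low Crest.Agent.R100.Str Crest.Agent.R100.Life

theorem kap_small12 {R : ℝ} (hb : Big R) : 0 < kap R ∧ kap R ≤ 1 / 100 := by
  have h1 : (10 : ℝ) ^ 4 ≤ mm R := hb.m4
  have h2 : (1 : ℝ) ≤ mm R := le_trans (by norm_num) h1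
  have h3 : mm R ≤ mm R ^ 70 := le_self_pow₀ h2 (by norm_num)
  unfold kap
  refine ⟨by positivity, ?_⟩
  rw [inv_eq_one_div]
  exact one_div_le_one_div_of_le (by norm_num) (by linarith)

open Classical in
/-- the index of the piece -/
def pidx {Y : Type} {m : ℕ} (hm : 0 < m) (Bs : Y → Fin m → Set ℝ) (A : Y) (t : ℝ) : Fin m :=
  if h : ∃ k, t ∈ Bs A k then h.choose else ⟨0, hm⟩

theorem pidx_mem {Y : Type} {m : ℕ} (hm : 0 < m) {Bs : Y → Fin m → Set ℝ} {A : Y} {t : ℝ}
    (h : ∃ k, t ∈ Bs A k) : t ∈ Bs A (pidx hm Bs A t) := by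
  unfold pidx
  rw [dif_pos h]
  exact h.choose_spec

theorem pidx_meas {Y : Type} {m : ℕ} (hm : 0 < m) {Bs : Y → Fin m → Set ℝ}
    (h1 : ∀ A k, MeasurableSet (Bs A k)) (h2 : ∀ A k k', k ≠ k' → Disjoint (Bs A k) (Bs A k'))
    (A : Y) (k : Fin m) : MeasurableSet {t | pidx hm Bs A t = k} := by
  have e : {t | pidx hm Bs A t = k} =
      Bs A k ∪ ((⋃ k', Bs A k')ᶜ ∩ {_t | (⟨0, hm⟩ : Fin m) = k}) := by
    ext t
    simp only [mem_setOf_eq, mem_union, mem_inter_iff, mem_compl_iff, mem_iUnion]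
    by_cases h : ∃ k, t ∈ Bs A k
    · have h3 := pidx_mem hm h
      constructor
      · rintro rfl
        exact Or.inl h3
      · rintro (h4 | h4)
        · by_contra h5
          exact Set.disjoint_left.1 (h2 A _ _ h5) h3 h4
        · exact absurd h h4.1
    · have h3 : pidx hm Bs A t = ⟨0, hm⟩ := by unfold pidx; rw [dif_neg h]
      rw [h3]
      constructor
      · intro h4
        exact Or.inr ⟨h, h4⟩
      · rintro (h4 | h4)
        · exact absurd ⟨k, h4⟩ h
        · exact h4.2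
  rw [e]
  exact (h1 A k).union ((MeasurableSet.iUnion (h1 A)).compl.inter (MeasurableSet.const _))

theorem birth12 {R ε M : ℝ} (hb : Big R) (hε : 0 < ε) (hM : 0 < M) {K : Cls} (S : Set ℝ)
    (hl : ∀ y, MeasurableSet {t | K.lab t = y}) (α : ℝ) {ℓ : ℝ} (hℓ : 0 < ℓ) {ι : Type} [Fintype ι]
    {E : ι → ℝ} {z : ι → ℤ} {m : ℕ} (hm : 0 < m) {y : K.Y → Fin m → ℝ} {Bs : K.Y → Fin m → Set ℝ}
    (h : Pieces R K ℓ M E z y Bs) :
    ∃ (Kb : Cls) (db : ℕ), Fintype.card Kb.Y = Fintype.card K.Y * m ∧ Kb.μ = mun R M ∧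
      Ok0 Kb (capS K S α ℓ Bs) ℓ db ∧ rho ε (capS K S α ℓ Bs) α ℓ db ≤
        Fintype.card K.Y * m * (4 * (1 + 2 * Real.pi / kap R) / Real.exp (R / mm R)) := by
  classical
  obtain ⟨hκ, hκ1⟩ := kap_small12 hb
  obtain ⟨d, inf, lam0, g0, g1, g2, g3, g4⟩ := Death.death_depth_inf h.nn h.one z
    (h := kap R / ℓ) (by positivity) hM (fun j => by convert h.atom j) α hℓ
    (Real.exp_pos (R / mm R)) hκ (η := 1 / 100) (by norm_num) (by linarith)
  let Kb : Cls :=
    { Y := K.Y × Fin m, fY := inferInstance, Ω := ι × ι, fΩ := inferInstance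
      lab := fun t => (K.lab t, pidx hm Bs (K.lab t) t), cen := fun p => y p.1 p.2
      lam := fun p => lam0 p.1 * lam0 p.2
      Z := fun p => kap R / ℓ * z p.1 - kap R / ℓ * z p.2, μ := mun R M }
  have hhat : ∀ τ, ∑ ω : Kb.Ω, (Kb.lam ω : ℂ) * ex (Kb.Z ω) τ =
      ((‖∑ i, (lam0 i : ℂ) * ex (kap R / ℓ * z i) τ‖ ^ 2 : ℝ) : ℂ) :=
    fun τ => Death.hat_symm lam0 (fun i => kap R / ℓ * z i) τ
  have hF : ∀ τ, Kb.F τ = ‖∑ i, (lam0 i : ℂ) * ex (kap R / ℓ * z i) τ‖ ^ 2 := fun τ => by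
    unfold Cls.F
    rw [hhat, Complex.ofReal_re]
  have hok : ∀ db : ℕ, (∀ k, k < db → inf ∨ k < d) → Ok0 Kb (capS K S α ℓ Bs) ℓ db := by
    intro db hdb
    refine ⟨fun p => ?_, fun ω => mul_nonneg (g0 _) (g0 _), ?_, fun τ => by rw [hhat, hF],
      fun t ht => ?_, fun k hk a => ?_⟩
    · have e : {t | Kb.lab t = p} = {t | K.lab t = p.1} ∩ {t | pidx hm Bs p.1 t = p.2} := by
        ext t
        simp only [mem_setOf_eq, mem_inter_iff, Kb]
        constructor
        · rintro rfl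
          exact ⟨rfl, rfl⟩
        · rintro ⟨h1, h2⟩
          rw [h1, h2]
      rw [e]
      exact (hl _).inter (pidx_meas hm h.meas h.disj _ _)
    · show ∑ p : ι × ι, lam0 p.1 * lam0 p.2 = 1
      rw [Fintype.sum_prod_type, ← Finset.sum_mul_sum, g1, one_mul]
    · rw [hF]
      have h1 := h.pure _ _ t (pidx_mem hm ht.2.2)
      have hc : (0 : ℝ) < 1 - 2 * (1 / 100 + kap R) := by linarith
      have h2 := Death.pure_dom h.one g1 hc g2
        (fun i => ex (kap R / ℓ * z i) (t - y (K.lab t) (pidx hm Bs (K.lab t) t)))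
        (fun i => (P46.norm_ex _ _).le) (η := 1 / 100) (by linarith)
      have h3 : 1 / 100 / (1 - 2 * (1 / 100 + kap R)) ≤ 1 / 10 := by
        rw [div_le_iff₀ hc]; linarith
      show 1 / 2 ≤ ‖∑ i, (lam0 i : ℂ) *
        ex (kap R / ℓ * z i) (t - y (K.lab t) (pidx hm Bs (K.lab t) t))‖ ^ 2
      nlinarith
    · refine Death.im_symm (x := fun i => kap R / ℓ * z i) g0 g1 (fun a => ?_) a
      have h1 := g3 k (hdb k hk) a (1 / kap R) (by positivity)
      have e : 1 / kap R * (kap R * 2 ^ k / ℓ) = 2 ^ k / ℓ := by field_simp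
      rw [e] at h1
      exact h1
  have hcard : Fintype.card Kb.Y = Fintype.card K.Y * m := by
    show Fintype.card (K.Y × Fin m) = _
    rw [Fintype.card_prod, Fintype.card_fin]
  by_cases hi : inf
  · obtain ⟨db, hdb⟩ := pow_unbounded_of_one_lt (ℓ / ε) (show (1 : ℝ) < 2 by norm_num)
    refine ⟨Kb, db, hcard, rfl, hok db fun _ _ => Or.inl hi, ?_⟩
    rw [rho_short (by rw [div_lt_iff₀ hε] at hdb; rw [div_lt_iff₀ (by positivity)]; linarith)]
    positivity
  · refine ⟨Kb, d, hcard, rfl, hok d fun _ hk => Or.inr hk, ?_⟩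
    have h1 := Death.rhoF_birth (Finset.univ : Finset (K.Y × Fin m)) (fun p => y p.1 p.2)
      (f := (capS K S α ℓ Bs).indicator 1) E (fun i => kap R / ℓ * z i) (η := 1 / 100) (d := d) hℓ
      (fun t _ ht => by
        have h2 : t ∈ capS K S α ℓ Bs := by
          by_contra h3
          exact ht (indicator_of_notMem h3 _)
        obtain ⟨k, hk⟩ := h2.2.2
        exact ⟨(K.lab t, k), Finset.mem_univ _, by linarith [h.pure _ _ t hk]⟩) (g4 hi)
    have e : kap R / ℓ * ℓ = kap R := by field_simp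
    rw [e, Finset.card_univ, Fintype.card_prod, Fintype.card_fin, Nat.cast_mul] at h1
    refine le_trans (avg_mono_len d fun v _ => ?_) h1
    split_ifs with h2 h3
    · exact le_rfl
    · obtain ⟨-, t, ht, ht'⟩ := h2
      exact absurd ⟨t, ht', by rw [indicator_of_mem ht]; exact one_ne_zero⟩ h3
    · norm_num
    · exact le_rfl

end Crest.Agent.R100.Inst
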