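import Crest.Agent.R100.InstDefs
import Crest.Agent.R100.InstNum
import Crest.Agent.R100.AdPlusC
import Crest.Agent.R100.LowFamA

/-! # Row 100, STRUCT instance: a trigger gives pieces (helper60, hedge) -/

set_option autoImplicit false

open MeasureTheory Set

noncomputable section

namespace Crest.Agent.R100.Inst

open Crest.Agent.R100 Crest.Agent.R100.Low Crest.Agent.R100.Str Crest.Agent.R100.Life

theorem c60_F_meas (K : Cls) : Measurable K.F := by
  have : Continuous K.F := by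
    unfold Cls.F ex
    fun_prop
  exact this.measurable

theorem c60_h_meas {g : ℝ → ℝ} (hg : Measurable g) {K : Cls} {S : Set ℝ} (hS : MeasurableSet S)
    (hl : ∀ y, MeasurableSet {t | K.lab t = y}) (y : K.Y) : Measurable (K.h g S y) := by
  unfold Cls.h
  refine Measurable.ite (hS.inter (hl y)) (hg.div ?_) measurable_const
  exact (c60_F_meas K).comp (measurable_id.sub_const _)

theorem c60_h_bd {g : ℝ → ℝ} (hg : ∀ t, 0 ≤ g t) {K : Cls} {S : Set ℝ}
    (hp : ∀ t ∈ S, 1 / 2 ≤ K.F (t - K.cen (K.lab t))) (y : K.Y) (t : ℝ) :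
    0 ≤ K.h g S y t ∧ K.h g S y t ≤ 2 * g t := by
  unfold Cls.h
  have h0 := hg t
  split_ifs with h
  · have h1 := hp t h.1
    rw [h.2] at h1
    refine ⟨div_nonneg h0 (by linarith), ?_⟩
    rw [div_le_iff₀ (by linarith)]
    nlinarith
  · exact ⟨le_rfl, by linarith⟩

theorem c60_h_zero {g : ℝ → ℝ} {K : Cls} {S : Set ℝ} {y : K.Y} {t : ℝ}
    (h : ¬ (t ∈ S ∧ K.lab t = y)) : K.h g S y t = 0 := by
  unfold Cls.h
  rw [if_neg h]

theorem c60_sum_le {g : ℝ → ℝ} (hg : ∀ t, 0 ≤ g t) {K : Cls} {S : Set ℝ}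
    (hp : ∀ t ∈ S, 1 / 2 ≤ K.F (t - K.cen (K.lab t))) (t : ℝ) :
    ∑ y, K.h g S y t ≤ 2 * S.indicator g t := by
  by_cases h : t ∈ S
  · rw [Finset.sum_eq_single (K.lab t) (fun y _ hy => c60_h_zero fun h' => hy h'.2.symm)
      (fun h' => absurd (Finset.mem_univ _) h'), Set.indicator_of_mem h]
    exact (c60_h_bd hg hp _ t).2
  · rw [Finset.sum_eq_zero (fun y _ => c60_h_zero fun h' => h h'.1), Set.indicator_of_notMem h]
    simp

theorem c60_cap_le {g : ℝ → ℝ} (hg : ∀ t, 0 ≤ g t) {K : Cls} {S : Set ℝ}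
    (hp : ∀ t ∈ S, 1 / 2 ≤ K.F (t - K.cen (K.lab t))) {α ℓ : ℝ} {m : ℕ}
    {Bs : K.Y → Fin m → Set ℝ} (hd : ∀ A k k', k ≠ k' → Disjoint (Bs A k) (Bs A k')) {t : ℝ}
    (ht : t ∈ Ioc α (α + ℓ)) :
    ∑ y, ∑ k, (Bs y k).indicator (K.h g S y) t ≤ 2 * (capS K S α ℓ Bs).indicator g t := by
  by_cases h : t ∈ capS K S α ℓ Bs
  · obtain ⟨h1, _, k, hk⟩ := id h
    rw [Set.indicator_of_mem h, Finset.sum_eq_single (K.lab t) (fun y _ hy => ?_)
      (fun h' => absurd (Finset.mem_univ _) h'), Finset.sum_eq_single k (fun k' _ hk' => ?_)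
      (fun h' => absurd (Finset.mem_univ _) h'), Set.indicator_of_mem hk]
    · exact (c60_h_bd hg hp _ t).2
    · exact Set.indicator_of_notMem (fun h' => Set.disjoint_left.1 (hd _ k' k hk') h' hk) _
    · refine Finset.sum_eq_zero fun k' _ => ?_
      rw [Set.indicator_apply_eq_zero]
      exact fun _ => c60_h_zero fun h' => hy h'.2.symm
  · rw [Set.indicator_of_notMem h, mul_zero]
    refine le_of_eq (Finset.sum_eq_zero fun y _ => Finset.sum_eq_zero fun k _ => ?_)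
    rw [Set.indicator_apply_eq_zero]
    refine fun hk => c60_h_zero fun h' => h ⟨h'.1, ht, k, ?_⟩
    rw [h'.2]; exact hk

/-- the measure with density `f` on the node -/
def c60_nu (f : ℝ → ℝ) (α ℓ : ℝ) : Measure ℝ :=
  (volume.restrict (Ioc α (α + ℓ))).withDensity fun t => ENNReal.ofReal (f t)

theorem c60_nu_le {f : ℝ → ℝ} {c : ℝ} (hc : ∀ t, f t ≤ c) (α ℓ : ℝ) :
    c60_nu f α ℓ ≤ ENNReal.ofReal c • volume.restrict (Ioc α (α + ℓ)) := by
  unfold c60_nu
  rw [← withDensity_const]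
  exact withDensity_mono (Filter.Eventually.of_forall fun t => ENNReal.ofReal_le_ofReal (hc t))

theorem c60_nu_fin {f : ℝ → ℝ} {c : ℝ} (hc : ∀ t, f t ≤ c) (α ℓ : ℝ) :
    IsFiniteMeasure (c60_nu f α ℓ) := by
  refine ⟨lt_of_le_of_lt (c60_nu_le hc α ℓ univ) ?_⟩
  rw [Measure.smul_apply, smul_eq_mul, Measure.restrict_apply_univ]
  exact ENNReal.mul_lt_top ENNReal.ofReal_lt_top measure_Ioc_lt_top

theorem c60_nu_int {E : Type} [NormedAddCommGroup E] [NormedSpace ℝ E] {f : ℝ → ℝ}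
    (hf : Measurable f) (h0 : ∀ t, 0 ≤ f t) (α ℓ : ℝ) (u : ℝ → E) :
    ∫ t, u t ∂(c60_nu f α ℓ) = ∫ t in Ioc α (α + ℓ), f t • u t := by
  unfold c60_nu
  rw [integral_withDensity_eq_integral_toReal_smul hf.ennreal_ofReal
    (Filter.Eventually.of_forall fun t => ENNReal.ofReal_lt_top)]
  simp only [ENNReal.toReal_ofReal (h0 _)]

theorem c60_nu_real {f : ℝ → ℝ} (hf : Measurable f) (h0 : ∀ t, 0 ≤ f t) (α ℓ : ℝ) {B : Set ℝ}
    (hB : MeasurableSet B) :
    (c60_nu f α ℓ).real B = ∫ t in Ioc α (α + ℓ), B.indicator f t := by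
  rw [← integral_indicator_one hB, c60_nu_int hf h0]
  refine integral_congr_ae (Filter.Eventually.of_forall fun t => ?_)
  by_cases h : t ∈ B <;> simp [h]

theorem c60_nu_ex {f : ℝ → ℝ} (hf : Measurable f) (h0 : ∀ t, 0 ≤ f t) (α : ℝ) {ℓ : ℝ}
    (hℓ : 0 < ℓ) (ξ : ℝ) :
    ‖∫ t, ex ξ t ∂(c60_nu f α ℓ)‖ = ℓ * ‖cu (fun t => (f t : ℂ)) ξ α ℓ‖ := by
  rw [c60_nu_int hf h0]
  unfold cu
  rw [intervalIntegral.integral_of_le (by linarith), norm_div, Complex.norm_real,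
    Real.norm_of_nonneg hℓ.le, mul_div_cancel₀ _ hℓ.ne']
  simp only [Complex.real_smul]

theorem c60_intOn {f : ℝ → ℝ} (hf : Measurable f) {c : ℝ} (h : ∀ t, 0 ≤ f t ∧ f t ≤ c) (a b : ℝ) :
    Integrable f (volume.restrict (Ioc a b)) :=
  Measure.integrableOn_of_bounded (M := c) measure_Ioc_lt_top.ne hf.aestronglyMeasurable
    (Filter.Eventually.of_forall fun t => by rw [Real.norm_of_nonneg (h t).1]; exact (h t).2)

theorem c60_ind_bd {f : ℝ → ℝ} {c : ℝ} (h : ∀ t, 0 ≤ f t ∧ f t ≤ c) (B : Set ℝ) (t : ℝ) :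
    0 ≤ B.indicator f t ∧ B.indicator f t ≤ c := by
  by_cases ht : t ∈ B
  · rw [Set.indicator_of_mem ht]; exact h t
  · rw [Set.indicator_of_notMem ht]; exact ⟨le_rfl, (h t).1.trans (h t).2⟩

theorem c60_ca {R : ℝ} {g : ℝ → ℝ} (hg : GG R g) (S : Set ℝ) (α : ℝ) {ℓ : ℝ} (hℓ : 0 < ℓ) :
    ∫ t in Ioc α (α + ℓ), S.indicator g t = ℓ * ca (fnS g S) α ℓ := by
  unfold ca
  rw [intervalIntegral.integral_of_le (by linarith), mul_div_cancel₀ _ hℓ.ne']
  simp only [norm_fnS hg]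

theorem c60_num_del {R : ℝ} (hb : Big R) {j : ℕ} (hj : (2 : ℝ) ^ j ≤ mm R ^ 3) :
    4 * (2 : ℝ) ^ ((j : ℝ) / 4) * (R / mm R) ≤ 2 / 5 * R := by
  have hm := hb.m4
  have h1 := hb.one
  have hm0 : 0 < mm R := by linarith
  have e : ((2 : ℝ) ^ ((j : ℝ) / 4)) ^ 4 = 2 ^ j := by
    rw [← Real.rpow_natCast, ← Real.rpow_mul (by norm_num), ← Real.rpow_natCast]
    congr 1; push_cast; ring
  have h2 : (2 : ℝ) ^ ((j : ℝ) / 4) ≤ mm R / 10 := by
    refine le_of_pow_le_pow_left₀ (n := 4) (by norm_num) (by positivity) ?_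
    rw [e]
    refine hj.trans ?_
    have : (mm R / 10) ^ 4 = mm R ^ 3 * (mm R / 10 ^ 4) := by ring
    rw [this]
    refine le_mul_of_one_le_right (by positivity) ?_
    rw [le_div_iff₀ (by norm_num)]; linarith
  calc 4 * (2 : ℝ) ^ ((j : ℝ) / 4) * (R / mm R) ≤ 4 * (mm R / 10) * (R / mm R) := by
        have : 0 ≤ R / mm R := by positivity
        gcongr
    _ = 2 / 5 * R := by field_simp; ring

theorem c60_num_V {R P s Q ℓ N : ℝ} (hb : Big R) (hℓ : 0 < ℓ) (hP : Real.exp (-(40 * mm R)) ≤ P)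
    (hs : (mm R ^ 3)⁻¹ ≤ s) (hQ : s * (2 * (ℓ * P)) ≤ Q) (hN : N ≤ Real.exp R) :
    16 * Real.pi * N * (2 * Real.exp R) ≤ s ^ 2 * Q * (kap R / ℓ) * Real.exp (5 * R) := by
  have hm := hb.m4
  have h1 := hb.one
  have hm0 : 0 < mm R := by linarith
  have hs0 : 0 < s := lt_of_lt_of_le (by positivity) hs
  have hP0 : 0 < P := lt_of_lt_of_le (Real.exp_pos _) hP
  have hk : 0 < kap R := by unfold kap; positivity
  have e1 : mm R ≤ Real.exp (mm R) := by linarith [Real.add_one_le_exp (mm R)]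
  have e2 : 64 * mm R ^ 79 * Real.exp (40 * mm R) ≤ Real.exp (3 * R) := by
    have a1 : mm R ^ 79 ≤ Real.exp (mm R) ^ 79 := pow_le_pow_left₀ hm0.le e1 _
    rw [← Real.exp_nat_mul] at a1
    have a2 : 64 * mm R ^ 79 * Real.exp (40 * mm R) ≤
        Real.exp (mm R) * Real.exp ((79 : ℕ) * mm R) * Real.exp (40 * mm R) := by
      gcongr; linarith
    rw [← Real.exp_add, ← Real.exp_add] at a2
    have a3 : Real.exp (mm R + (79 : ℕ) * mm R + 40 * mm R) ≤ Real.exp (1000 * mm R) :=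
      Real.exp_le_exp.2 (by push_cast; linarith)
    have a4 : Real.exp (1000 * mm R) ≤ R * Real.exp (1000 * mm R) :=
      le_mul_of_one_le_left (Real.exp_pos _).le h1
    have a5 : R / mm R ^ 50 ≤ 3 * R := by
      have : R / mm R ^ 50 ≤ R := div_le_self (by linarith) (one_le_pow₀ (by linarith))
      linarith
    exact a2.trans (a3.trans (a4.trans (hb.master.trans (Real.exp_le_exp.2 a5))))
  have e3 : 16 * Real.pi * N * (2 * Real.exp R) ≤ 128 * Real.exp (2 * R) := by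
    have : Real.exp (2 * R) = Real.exp R * Real.exp R := by rw [← Real.exp_add]; congr 1; ring
    rw [this]
    have p4 := Real.pi_le_four
    have p0 := Real.pi_pos
    have x0 := Real.exp_pos R
    have : Real.pi * N ≤ 4 * Real.exp R :=
      (mul_le_mul_of_nonneg_left hN p0.le).trans (mul_le_mul_of_nonneg_right p4 x0.le)
    nlinarith
  have e4 : ((mm R ^ 3)⁻¹) ^ 2 * ((mm R ^ 3)⁻¹ * (2 * (ℓ * Real.exp (-(40 * mm R))))) *
      (kap R / ℓ) * Real.exp (5 * R) ≤ s ^ 2 * Q * (kap R / ℓ) * Real.exp (5 * R) := by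
    have : (mm R ^ 3)⁻¹ * (2 * (ℓ * Real.exp (-(40 * mm R)))) ≤ Q := by
      refine le_trans ?_ hQ
      gcongr
    gcongr
  refine e3.trans (le_trans ?_ e4)
  have e5 : ((mm R ^ 3)⁻¹) ^ 2 * ((mm R ^ 3)⁻¹ * (2 * (ℓ * Real.exp (-(40 * mm R))))) *
      (kap R / ℓ) * Real.exp (5 * R) = 128 * Real.exp (2 * R) *
        (Real.exp (3 * R) / (64 * mm R ^ 79 * Real.exp (40 * mm R))) := by
    have : Real.exp (5 * R) = Real.exp (2 * R) * Real.exp (3 * R) := by
      rw [← Real.exp_add]; congr 1; ring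
    rw [this, Real.exp_neg]
    unfold kap
    field_simp
    ring
  rw [e5]
  refine le_mul_of_one_le_right (by positivity) ?_
  rw [le_div_iff₀ (by positivity), one_mul]
  exact e2

theorem capt60 {R : ℝ} {g : ℝ → ℝ} (hb : Big R) (hg : GG R g) {K : Cls} {S : Set ℝ}
    (hS : MeasurableSet S) (α : ℝ) {ℓ P : ℝ} {d : ℕ} (hℓ : 0 < ℓ) (hok : Ok R K S ℓ d)
    (hP : Real.exp (-(40 * mm R)) ≤ P) (hc : ca (fnS g S) α ℓ ≤ P) (hq : ¬ Quiet R g K S α ℓ P) :
    ∃ (j : ℕ) (ι : Type) (_ : Fintype ι) (E : ι → ℝ) (z : ι → ℤ) (m : ℕ) (y : K.Y → Fin m → ℝ)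
      (Bs : K.Y → Fin m → Set ℝ), (2 : ℝ) ^ j ≤ mm R ^ 3 ∧ (m : ℝ) ≤ Real.exp (R / mm R ^ 50) ∧
      Pieces R K ℓ (Mn R K.μ j) E z y Bs ∧ P / (4 * 8 ^ j) ≤ ca (fnS g (capS K S α ℓ Bs)) α ℓ := by
  classical
  unfold Quiet at hq
  push Not at hq
  obtain ⟨j, hj, F, hF, hcard⟩ := hq
  have hm := hb.m4
  have h1 := hb.one
  have hm0 : 0 < mm R := by linarith
  have hP0 : 0 < P := lt_of_lt_of_le (Real.exp_pos _) hP
  have hμ := hok.mu0
  have hg0 : ∀ t, 0 ≤ g t := fun t => (hg.bd t).1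
  set δ := 4 * (2 : ℝ) ^ ((j : ℝ) / 4) * (R / mm R) with hδ
  set T := Real.exp δ / K.μ with hT
  have hT0 : 0 < T := by positivity
  obtain ⟨F', hF', hc'⟩ := Finset.exists_subset_card_eq (s := F) (n := ⌊T⌋₊ + 1)
    (Nat.succ_le_of_lt ((Nat.floor_lt hT0.le).2 hcard))
  have hN : (Fintype.card F' : ℝ) = (⌊T⌋₊ : ℝ) + 1 := by
    rw [Fintype.card_coe, hc']; push_cast; ring
  have hTN : T < Fintype.card F' := by rw [hN]; exact Nat.lt_floor_add_one T
  have hN0 : (0 : ℝ) < Fintype.card F' := hT0.trans hTN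
  have hmeas := fun y => c60_h_meas hg.meas hS hok.mlab y
  have hbd : ∀ y t, 0 ≤ K.h g S y t ∧ K.h g S y t ≤ 2 * Real.exp R := fun y t =>
    ⟨(c60_h_bd hg0 hok.pure y t).1, (c60_h_bd hg0 hok.pure y t).2.trans (by
      linarith [(hg.bd t).2])⟩
  set ν : K.Y → Measure ℝ := fun y => c60_nu (K.h g S y) α ℓ with hν
  have : ∀ y, IsFiniteMeasure (ν y) := fun y => c60_nu_fin (fun t => (hbd y t).2) α ℓ
  set Q := ∑ y, (ν y).real univ with hQ
  have hQ2 : Q ≤ 2 * (ℓ * P) := by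
    have a1 : Q = ∫ t in Ioc α (α + ℓ), ∑ y, K.h g S y t := by
      rw [integral_finsetSum _ fun y _ => c60_intOn (hmeas y) (hbd y) _ _]
      refine Finset.sum_congr rfl fun y _ => ?_
      rw [c60_nu_real (hmeas y) (fun t => (hbd y t).1) α ℓ MeasurableSet.univ, Set.indicator_univ]
    have a2 : ∫ t in Ioc α (α + ℓ), ∑ y, K.h g S y t ≤
        ∫ t in Ioc α (α + ℓ), 2 * S.indicator g t :=
      integral_mono (integrable_finsetSum _ fun y _ => c60_intOn (hmeas y) (hbd y) _ _)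
        ((c60_intOn (hg.meas.indicator hS) (c60_ind_bd hg.bd S) _ _).const_mul 2)
        (c60_sum_le hg0 hok.pure)
    rw [integral_const_mul, c60_ca hg S α hℓ] at a2
    have a3 := mul_le_mul_of_nonneg_left hc hℓ.le
    linarith
  set s : ℝ := (2 ^ j)⁻¹ with hs
  have hs0 : 0 < s := by positivity
  have hs1 : s ≤ 1 := inv_le_one_of_one_le₀ (one_le_pow₀ (by norm_num))
  have hsm : (mm R ^ 3)⁻¹ ≤ s := inv_anti₀ (by positivity) hj
  have hlow : ∀ n : F', s * (2 * (ℓ * P)) ≤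
      ∑ y, ‖∫ t, ex (kap R / ℓ * ((n.1 : ℤ) : ℝ)) t ∂ν y‖ := fun n => by
    have a1 := hF n.1 (hF' n.2)
    have a2 : ∀ y, ‖∫ t, ex (kap R / ℓ * ((n.1 : ℤ) : ℝ)) t ∂ν y‖ =
        ℓ * ‖cu (fun t => (K.h g S y t : ℂ)) (n.1 * kap R / ℓ) α ℓ‖ := fun y => by
      rw [c60_nu_ex (hmeas y) (fun t => (hbd y t).1) α hℓ]
      congr 3; ring
    simp only [a2]
    rw [← Finset.mul_sum]
    calc s * (2 * (ℓ * P)) = ℓ * (2 * P / 2 ^ j) := by rw [hs]; ring
      _ ≤ _ := mul_le_mul_of_nonneg_left a1 hℓ.le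
  have hne : Nonempty F' := Fintype.card_pos_iff.1 (by exact_mod_cast hN0)
  have hQ1 : s * (2 * (ℓ * P)) ≤ Q := by
    obtain ⟨n⟩ := hne
    refine (hlow n).trans (Finset.sum_le_sum fun y _ => ?_)
    have := norm_integral_le_of_norm_le_const (μ := ν y)
      (f := fun t => ex (kap R / ℓ * ((n.1 : ℤ) : ℝ)) t) (C := 1)
      (Filter.Eventually.of_forall fun t => (lowFamA_norm_ex _ t).le)
    rwa [one_mul] at this
  have hQ0 : 0 < Q := lt_of_lt_of_le (by positivity) hQ1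
  obtain ⟨w, hw, hR, hw1, hw2⟩ := hb.ad
  have w0 : 0 < w := lt_of_lt_of_le (by norm_num) hw
  have hk : 0 < kap R := by unfold kap; positivity
  have hk1 : kap R ≤ 1 := inv_le_one_of_one_le₀ (one_le_pow₀ (by linarith))
  have hεs : 32 * (1 / w) ≤ s ^ 8 := by
    have a1 : ((mm R ^ 3)⁻¹) ^ 8 ≤ s ^ 8 := pow_le_pow_left₀ (by positivity) hsm 8
    refine le_trans ?_ a1
    rw [inv_pow, ← pow_mul, mul_one_div, div_le_iff₀ w0, inv_mul_eq_div,
      le_div_iff₀ (by positivity)]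
    have : 0 < mm R ^ 24 := by positivity
    norm_num
    linarith
  have hι : Real.log (Fintype.card F') ≤ 5 * R := by
    rw [Real.log_le_iff_le_exp hN0, hN]
    have a1 : (⌊T⌋₊ : ℝ) ≤ T := Nat.floor_le hT0.le
    have a2 : T ≤ Real.exp (17 / 5 * R) := by
      have : T = Real.exp (δ - Real.log K.μ) := by rw [Real.exp_sub, Real.exp_log hμ]
      rw [this]
      have := c60_num_del hb hj
      exact Real.exp_le_exp.2 (by linarith [hok.mu1])
    have a3 : Real.exp (5 * R) = Real.exp (17 / 5 * R) * Real.exp (8 / 5 * R) := by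
      rw [← Real.exp_add]; congr 1; ring
    have a4 : 2 ≤ Real.exp (8 / 5 * R) := by linarith [Real.add_one_le_exp (8 / 5 * R)]
    have a5 : 1 ≤ Real.exp (17 / 5 * R) := Real.one_le_exp (by linarith)
    rw [a3]
    nlinarith
  have hY : (Fintype.card K.Y : ℝ) ≤ Real.exp R := by
    rcases Nat.eq_zero_or_pos (Fintype.card K.Y) with h0 | h0
    · rw [h0]; push_cast; exact (Real.exp_pos _).le
    rw [← Real.log_le_iff_le_exp (by exact_mod_cast h0)]
    refine hok.card.trans ?_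
    have a1 := aa_nn hb hok.mu1
    have a2 : 120 * mm R ≤ mm R ^ 50 := by
      have : mm R ^ 2 ≤ mm R ^ 50 := pow_le_pow_right₀ (by linarith) (by norm_num)
      nlinarith
    calc R / mm R ^ 50 * (120 * mm R - aa R K.μ) ≤ R / mm R ^ 50 * mm R ^ 50 :=
          mul_le_mul_of_nonneg_left (by linarith) (by positivity)
      _ = R := by field_simp
  obtain ⟨E, m, y, B, hE, hEb, hmb, hBm, hBd, hBp, hcap⟩ :=
    Crest.Agent.R100.AdP.ad_line (θ := kap R / ℓ) (α := α) (ℓ := ℓ) (c := 2 * Real.exp R) (s := s) (w := w)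
      (R := 5 * R) (ε := 1 / w) (by positivity)
      (by rw [div_mul_cancel₀ _ hℓ.ne']; linarith [Real.pi_gt_three]) (by positivity) ν
      (fun y => c60_nu_le (fun t => (hbd y t).2) α ℓ) hQ0 (fun n : F' => n.1) hs0 hs1
      (fun n => (mul_le_mul_of_nonneg_left hQ2 hs0.le).trans (hlow n)) hw hR le_rfl hεs hι
      (c60_num_V hb hℓ hP hsm hQ1 hY) (D := fun _ => (Fintype.card F' : ℝ)⁻¹)
      ⟨fun _ => by positivity, by
        rw [Finset.sum_const, Finset.card_univ, nsmul_eq_mul, mul_inv_cancel₀ hN0.ne']⟩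
  have hK : Real.exp (3 * (5 * R) / w ^ 12) ≤ Real.exp (R / mm R ^ 50) := by
    refine Real.exp_le_exp.2 ?_
    rw [div_le_div_iff₀ (by positivity) (by positivity)]
    nlinarith
  have hMn : ∀ n, E n ≤ Mn R K.μ j := fun n => by
    refine (hEb n).trans ?_
    have : Mn R K.μ j = Real.exp (R / mm R ^ 50) * T⁻¹ := by
      unfold Mn
      rw [Real.exp_sub, hT, ← hδ]
      field_simp
    rw [this]
    exact mul_le_mul hK (inv_anti₀ hT0 hTN.le) (by positivity) (by positivity)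
  refine ⟨j, F', inferInstance, E, fun n => n.1, m, y, B, hj, hmb.trans hK,
    ⟨hE.nn, hE.one, fun N => ?_, hBm, hBd, fun A k t ht => ?_⟩, ?_⟩
  · by_cases hx : ∃ i : F', i.1 = N
    · obtain ⟨i, hi⟩ := hx
      rw [Finset.sum_eq_single_of_mem i (by simp [hi]) fun b hb' hbi => ?_]
      · exact hMn i
      · exact absurd (Subtype.ext ((Finset.mem_filter.1 hb').2.trans hi.symm)) hbi
    · rw [Finset.sum_eq_zero fun b hb' => absurd ⟨b, (Finset.mem_filter.1 hb').2⟩ hx]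
      unfold Mn; positivity
  · have a1 := hBp A k t ht
    have a2 : 4 * (1 / w) ≤ 1 / 100 := by
      rw [mul_one_div, div_le_iff₀ w0]; linarith
    refine le_of_pow_le_pow_left₀ (n := 2) (by norm_num) (norm_nonneg _) ?_
    linarith
  · have hcm := capS_meas hS hok.mlab α ℓ hBm
    have hi : ∀ y k, Integrable ((B y k).indicator (K.h g S y)) (volume.restrict (Ioc α (α + ℓ))) :=
      fun y k => c60_intOn ((hmeas y).indicator (hBm y k)) (c60_ind_bd (hbd y) _) _ _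
    have a1 : ∑ y, ∑ k, (ν y).real (B y k) =
        ∫ t in Ioc α (α + ℓ), ∑ y, ∑ k, (B y k).indicator (K.h g S y) t := by
      rw [integral_finsetSum _ fun y _ => integrable_finsetSum _ fun k _ => hi y k]
      refine Finset.sum_congr rfl fun y _ => ?_
      rw [integral_finsetSum _ fun k _ => hi y k]
      exact Finset.sum_congr rfl fun k _ =>
        c60_nu_real (hmeas y) (fun t => (hbd y t).1) α ℓ (hBm y k)
    have a2 : ∫ t in Ioc α (α + ℓ), ∑ y, ∑ k, (B y k).indicator (K.h g S y) t ≤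
        ∫ t in Ioc α (α + ℓ), 2 * (capS K S α ℓ B).indicator g t :=
      setIntegral_mono_on
        (integrable_finsetSum _ fun y _ => integrable_finsetSum _ fun k _ => hi y k)
        ((c60_intOn (hg.meas.indicator hcm) (c60_ind_bd hg.bd _) _ _).const_mul 2)
        measurableSet_Ioc fun t ht => c60_cap_le hg0 hok.pure hBd ht
    rw [integral_const_mul, c60_ca hg _ α hℓ] at a2
    have a3 : s ^ 2 / 4 * (s * (2 * (ℓ * P))) ≤ s ^ 2 / 4 * Q :=
      mul_le_mul_of_nonneg_left hQ1 (by positivity)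
    have a4 : s ^ 2 / 4 * (s * (2 * (ℓ * P))) = 2 * (ℓ * (P / (4 * 8 ^ j))) := by
      have : (8 : ℝ) ^ j = (2 ^ j) ^ 3 := by rw [← pow_mul, mul_comm, pow_mul]; norm_num
      rw [this, hs]; field_simp
    have a5 : ℓ * (P / (4 * 8 ^ j)) ≤ ℓ * ca (fnS g (capS K S α ℓ B)) α ℓ := by linarith
    exact le_of_mul_le_mul_left a5 hℓ

end Crest.Agent.R100.Inst
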