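import Crest.Agent.R100.Ind15
import Crest.Agent.R100.LifeDefs
import Crest.Agent.R100.Death

/-!
# Row 100, STRUCT instance (helper15): definitions
A class is a labelling `lab` of the line by cells with centres `cen` and a symmetric mask
`(lam, Z)`; a state is a class together with the current population `S`.
-/

set_option autoImplicit false

open MeasureTheory Set

noncomputable section

namespace Crest.Agent.R100.Inst

open Crest.Agent.R100 Crest.Agent.R100.Low Crest.Agent.R100.Str Crest.Agent.R100.Life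

/-- the numerical facts about large `R` -/
structure Big (R : ℝ) : Prop where
  one : 1 ≤ R
  m4 : 10 ^ 4 ≤ mm R
  master : R * Real.exp (1000 * mm R) ≤ Real.exp (R / mm R ^ 50)
  ad : ∃ w : ℝ, 10 ^ 9 ≤ w ∧ 5 * R = Real.exp (w ^ 100) ∧ 3200 * mm R ^ 24 ≤ w ∧
    15 * mm R ^ 50 ≤ w ^ 12

/-- the function -/
structure GG (R : ℝ) (g : ℝ → ℝ) : Prop where
  meas : Measurable g
  bd : ∀ y, 0 ≤ g y ∧ g y ≤ Real.exp R

structure Cls where
  Y : Type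
  fY : Fintype Y
  Ω : Type
  fΩ : Fintype Ω
  lab : ℝ → Y
  cen : Y → ℝ
  lam : Ω → ℝ
  Z : Ω → ℝ
  μ : ℝ

instance (K : Cls) : Fintype K.Y := K.fY
instance (K : Cls) : Fintype K.Ω := K.fΩ

/-- the transform of the mask -/
def Cls.F (K : Cls) (τ : ℝ) : ℝ := (∑ ω, (K.lam ω : ℂ) * ex (K.Z ω) τ).re

open Classical in
/-- the cell functions `g 1_{S ∩ cell} / F` -/
def Cls.h (K : Cls) (g : ℝ → ℝ) (S : Set ℝ) (y : K.Y) (t : ℝ) : ℝ :=
  if t ∈ S ∧ K.lab t = y then g t / K.F (t - K.cen y) else 0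

structure Stt where
  K : Cls
  S : Set ℝ
  mS : MeasurableSet S

/-- the population function -/
def fnS (g : ℝ → ℝ) (S : Set ℝ) (t : ℝ) : ℂ := ((S.indicator g t : ℝ) : ℂ)

/-- the mask part of the rank -/
def aa (R μ : ℝ) : ℝ := 40 * (3 * R + Real.log μ) / (R / mm R)

/-- analytic validity -/
structure Ok0 (K : Cls) (S : Set ℝ) (ℓ : ℝ) (d : ℕ) : Prop where
  mlab : ∀ y, MeasurableSet {t | K.lab t = y}
  lnn : ∀ ω, 0 ≤ K.lam ω
  lone : ∑ ω, K.lam ω = 1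
  real : ∀ τ, ∑ ω, (K.lam ω : ℂ) * ex (K.Z ω) τ = (K.F τ : ℂ)
  pure : ∀ t ∈ S, 1 / 2 ≤ K.F (t - K.cen (K.lab t))
  bin : ∀ k, k < d → ∀ a, Death.im K.lam K.Z a (2 ^ k / ℓ) ≤ K.μ

/-- validity -/
structure Ok (R : ℝ) (K : Cls) (S : Set ℝ) (ℓ : ℝ) (d : ℕ) : Prop extends Ok0 K S ℓ d where
  mu0 : 0 < K.μ
  mu1 : -(3 * R) ≤ Real.log K.μ
  card : Real.log (Fintype.card K.Y) ≤ R / mm R ^ 50 * (120 * mm R - aa R K.μ)

/-- no trigger at `[α, α+ℓ)` for the level `P` -/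
def Quiet (R : ℝ) (g : ℝ → ℝ) (K : Cls) (S : Set ℝ) (α ℓ P : ℝ) : Prop :=
  ∀ j : ℕ, (2 : ℝ) ^ j ≤ mm R ^ 3 → ∀ F : Finset ℤ,
    (∀ N ∈ F, 2 * P / 2 ^ j ≤ ∑ y, ‖cu (fun t => (K.h g S y t : ℂ)) (N * kap R / ℓ) α ℓ‖) →
      (F.card : ℝ) ≤ Real.exp (4 * (2 : ℝ) ^ ((j : ℝ) / 4) * (R / mm R)) / K.μ

open Classical in
/-- the measure of the death nodes -/
def rho (ε : ℝ) (S : Set ℝ) (α ℓ : ℝ) (d : ℕ) : ℝ :=
  avg d fun v => if ε ≤ ln ℓ v ∧ ∃ t ∈ S, t ∈ Icc (nd α ℓ v) (nd α ℓ v + ln ℓ v) then 1 else 0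

/-- the captured set -/
def capS (K : Cls) (S : Set ℝ) (α ℓ : ℝ) {m : ℕ} (Bs : K.Y → Fin m → Set ℝ) : Set ℝ :=
  {t | t ∈ S ∧ t ∈ Ioc α (α + ℓ) ∧ ∃ k, t ∈ Bs (K.lab t) k}

/-- the output of strong approximate duality at a node: a law `E` on the lattice with atoms at
most `M`, and pure pieces -/
structure Pieces (R : ℝ) (K : Cls) (ℓ M : ℝ) {ι : Type} [Fintype ι] (E : ι → ℝ) (z : ι → ℤ) {m : ℕ}
    (y : K.Y → Fin m → ℝ) (Bs : K.Y → Fin m → Set ℝ) : Prop where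
  nn : ∀ i, 0 ≤ E i
  one : ∑ i, E i = 1
  atom : ∀ N : ℤ, ∑ i with z i = N, E i ≤ M
  meas : ∀ A k, MeasurableSet (Bs A k)
  disj : ∀ A k k', k ≠ k' → Disjoint (Bs A k) (Bs A k')
  pure : ∀ A k, ∀ t ∈ Bs A k,
    99 / 100 ≤ ‖∑ i, (E i : ℂ) * ex (kap R / ℓ * z i) (t - y A k)‖

/-- the atom bound after a trigger of index `j` -/
def Mn (R μ : ℝ) (j : ℕ) : ℝ :=
  Real.exp (R / mm R ^ 50 - 4 * (2 : ℝ) ^ ((j : ℝ) / 4) * (R / mm R)) * μ

/-- the bin bound of the new class -/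
def mun (R M : ℝ) : ℝ := (1 / kap R + 2) * (2 * (M * Real.exp (R / mm R)))

theorem bm_fnS {R : ℝ} {g : ℝ → ℝ} (hg : GG R g) {S : Set ℝ} (hS : MeasurableSet S) :
    BM (fnS g S) := by
  refine ⟨Complex.measurable_ofReal.comp (hg.meas.indicator hS), Real.exp R, fun y => ?_⟩
  have := hg.bd y
  by_cases h : y ∈ S
  · simp [fnS, h, abs_of_nonneg this.1, this.2]
  · simp [fnS, h, (Real.exp_pos R).le]

theorem norm_fnS {R : ℝ} {g : ℝ → ℝ} (hg : GG R g) (S : Set ℝ) (y : ℝ) :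
    ‖fnS g S y‖ = S.indicator g y := by
  have := hg.bd y
  by_cases h : y ∈ S <;> simp [fnS, h, abs_of_nonneg this.1]

theorem capS_meas {K : Cls} {S : Set ℝ} (hS : MeasurableSet S)
    (hl : ∀ y, MeasurableSet {t | K.lab t = y}) (α ℓ : ℝ) {m : ℕ} {Bs : K.Y → Fin m → Set ℝ}
    (hB : ∀ A k, MeasurableSet (Bs A k)) : MeasurableSet (capS K S α ℓ Bs) := by
  have : capS K S α ℓ Bs = S ∩ (Ioc α (α + ℓ) ∩ ⋃ y, ⋃ k, ({t | K.lab t = y} ∩ Bs y k)) := by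
    ext t; simp [capS]; tauto
  rw [this]
  exact hS.inter (measurableSet_Ioc.inter (MeasurableSet.iUnion fun y =>
    MeasurableSet.iUnion fun k => (hl y).inter (hB y k)))

end Crest.Agent.R100.Inst
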