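import Crest.Agent.R100.InstDefs
import Crest.Agent.R100.Life84

/-! # Row 100, STRUCT instance: one life (helper84) -/

set_option autoImplicit false

open MeasureTheory Set

noncomputable section

namespace Crest.Agent.R100.Inst84

open Crest.Agent.R100 Crest.Agent.R100.Low Crest.Agent.R100.Str Crest.Agent.R100.Life
  Crest.Agent.R100.Inst Crest.Agent.R100.Birth

theorem F_eq (K : Cls) (τ : ℝ) : K.F τ = Fc K.lam K.Z τ := by
  unfold Cls.F Fc
  rw [Complex.re_sum]
  refine Finset.sum_congr rfl fun ω _ => ?_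
  rw [Complex.re_ofReal_mul, ex_re]

open Classical in
/-- the true cells -/
def cc (K : Cls) (g : ℝ → ℝ) (S : Set ℝ) (y : K.Y) (t : ℝ) : ℝ :=
  if t ∈ S ∧ K.lab t = y then g t else 0

theorem h_eq (K : Cls) (g : ℝ → ℝ) (S : Set ℝ) (y : K.Y) :
    K.h g S y = fun t => cc K g S y t / Fc K.lam K.Z (t - K.cen y) := by
  funext t
  unfold Cls.h cc
  split_ifs
  · rw [F_eq]
  · simp

theorem sum_cc (K : Cls) (g : ℝ → ℝ) (S : Set ℝ) (t : ℝ) :
    ∑ y, cc K g S y t = S.indicator g t := by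
  classical
  unfold cc
  by_cases h : t ∈ S
  · simp [h]
  · simp [h]

theorem cc_meas {R : ℝ} {g : ℝ → ℝ} (hg : GG R g) (K : Cls)
    (hl : ∀ y, MeasurableSet {t | K.lab t = y}) {S : Set ℝ} (hS : MeasurableSet S) (y : K.Y) :
    Measurable (cc K g S y) :=
  Measurable.ite (hS.inter (hl y)) hg.meas measurable_const

theorem cc_bd {R : ℝ} {g : ℝ → ℝ} (hg : GG R g) (K : Cls) (S : Set ℝ) (y : K.Y) (t : ℝ) :
    0 ≤ cc K g S y t ∧ cc K g S y t ≤ Real.exp R := by
  unfold cc
  split_ifs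
  · exact hg.bd t
  · exact ⟨le_rfl, (Real.exp_pos R).le⟩

theorem sum_av {R : ℝ} {g : ℝ → ℝ} (hg : GG R g) (K : Cls)
    (hl : ∀ y, MeasurableSet {t | K.lab t = y}) {S : Set ℝ} (hS : MeasurableSet S) (a lam : ℝ) :
    ∑ y, av (cc K g S y) a lam = ca (fnS g S) a lam := by
  unfold av ca
  rw [← Finset.sum_div, ← intervalIntegral.integral_finsetSum fun y _ =>
    lowFamA_bdd (cc_meas hg K hl hS y).aestronglyMeasurable (M := Real.exp R)
      (fun t => by
        rw [Real.norm_of_nonneg (cc_bd hg K S y t).1]; exact (cc_bd hg K S y t).2) _ _]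
  simp only [sum_cc, norm_fnS hg]

theorem big_m {R : ℝ} (hb : Big R) : 1000 * mm R ≤ R := by
  have h1 := hb.one
  have h4 := hb.m4
  have h2 : R / mm R ^ 50 ≤ R :=
    div_le_self (by linarith) (one_le_pow₀ (by linarith))
  have h3 : Real.exp (1000 * mm R) ≤ R * Real.exp (1000 * mm R) :=
    le_mul_of_one_le_left (Real.exp_pos _).le h1
  exact (Real.exp_le_exp.1 (h3.trans hb.master)).trans h2

theorem life_st (hL : LIFE) : ∃ C R₀ : ℝ, 1 ≤ C ∧ ∀ (R : ℝ) (g : ℝ → ℝ) (K : Cls) (S₀ : Set ℝ)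
    (α ℓ P : ℝ) (d : ℕ) (S : List Bool → Set ℝ) (In : List Bool → Prop), R₀ ≤ R → Big R → GG R g →
    (∀ v, MeasurableSet (S v)) → 0 < ℓ → Real.exp (-(40 * mm R)) ≤ P → Ok R K S₀ ℓ d →
    (∀ v k, In v → In (v.take k)) →
    (∀ v, In v → v.length < d ∧ Quiet R g K (S v) (nd α ℓ v) (ln ℓ v) P ∧
      Str.ms (fnS g (S v)) α ℓ v ≤ P) →
    S [] ⊆ S₀ → (∀ v c, S (v ++ [c]) ⊆ S v ∧ (S (v ++ [c]) = S v ∨
      Str.ms (fnS g (S (v ++ [c]))) α ℓ (v ++ [c]) + 2 / mm R ^ 30 * P ≤
        Str.ms (fnS g (S v)) α ℓ (v ++ [c]))) →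
    ∀ (n : ℕ) (ξ : List Bool → ℝ) (e : List Bool → ℂ), Mul e → (∀ v, e v ≠ 0 → In v) →
      avg n (fun l => ‖∑ k ∈ Finset.range (n - 1),
        tm e (U (fnS g (S (l.take k))) α ℓ (ξ l)) l k‖) ≤ 2 * C * (R / mm R) * P := by
  obtain ⟨C, R₀, hC, h⟩ := life84 hL
  refine ⟨C + 1, R₀, by linarith, fun R g K S₀ α ℓ P d S In hR hb hg hS hℓ hP hok her hIn h0 hs
    n ξ e he heI => ?_⟩
  have hP0 : 0 < P := (Real.exp_pos _).trans_le hP
  have h1 := hb.one
  have h4 := hb.m4
  have hm0 : 0 < mm R := by linarith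
  have hsub : ∀ v, S v ⊆ S₀ := fun v => by
    induction v using List.reverseRecOn with
    | nil => exact h0
    | append_singleton w b ih => exact (hs w b).1.trans ih
  have key := h R P K.μ (2 / mm R ^ 30) (Real.exp R) K.Y K.Ω (fun v => cc K g (S v)) α ℓ In K.lam
    K.Z K.cen (fun v => fnS g (S v)) hR hℓ hP0 hok.mu0
    (fun v y => cc_meas hg K hok.mlab (hS v) y) (fun v y t => (cc_bd hg K _ y t).1)
    (fun v b y t => by
      have := (hg.bd t).1
      unfold cc
      split_ifs with h2 h3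
      · exact le_rfl
      · exact absurd ⟨(hs v b).1 h2.1, h2.2⟩ h3
      · exact this
      · exact le_rfl)
    (fun y t => (cc_bd hg K _ y t).2)
    (by
      refine le_trans ?_ (mul_le_mul_of_nonneg_left hP (Real.exp_pos _).le)
      rw [← Real.exp_add]
      exact Real.exp_le_exp.2 (by linarith [big_m hb]))
    (by
      refine hok.card.trans ?_
      have ha : 0 ≤ Inst.aa R K.μ :=
        div_nonneg (by linarith [hok.mu1]) (div_nonneg (by linarith) hm0.le)
      have h5 : 120 * mm R ≤ mm R ^ 10 := by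
        have h6 : mm R ^ 2 ≤ mm R ^ 10 := pow_le_pow_right₀ (by linarith) (by norm_num)
        nlinarith
      calc R / mm R ^ 50 * (120 * mm R - Inst.aa R K.μ) ≤ R / mm R ^ 50 * mm R ^ 10 :=
            mul_le_mul_of_nonneg_left (by linarith) (by positivity)
        _ = _ := by field_simp)
    her
    (fun v hv => by rw [sum_av hg K hok.mlab (hS v)]; exact (hIn v hv).2.2)
    (fun v b _ => by
      rcases (hs v b).2 with h2 | h2
      · left; rw [h2]
      · right
        rw [sum_av hg K hok.mlab (hS v), sum_av hg K hok.mlab (hS _)]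
        exact h2)
    le_rfl hok.lnn hok.lone (fun τ => by rw [hok.real τ, F_eq])
    (fun v y t ht => by
      have h2 : t ∈ S v ∧ K.lab t = y := by
        by_contra h3
        exact ht (if_neg h3)
      have h3 := hok.pure t (hsub v h2.1)
      rwa [h2.2, F_eq] at h3)
    (fun v hv a => by
      have h2 := hok.bin v.length (hIn v hv).1 a
      have e : (2 : ℝ) ^ v.length / ℓ = 1 / ln ℓ v := by
        unfold ln; field_simp
      rw [e] at h2
      unfold Death.im at h2
      convert h2)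
    (fun v hv => by
      have h2 := (hIn v hv).2.1
      unfold Quiet at h2
      simp only [h_eq] at h2
      exact h2)
    (fun v _ t => by rw [sum_cc]; rfl) n ξ e he heI
  refine key.trans ?_
  have : 0 ≤ R / mm R * P := by positivity
  nlinarith

end Crest.Agent.R100.Inst84
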