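import Crest.Agent.R100.InstDefs

/-! # Row 100, STRUCT instance: numerics B (hedge, helper44) -/

set_option autoImplicit false

open MeasureTheory Set

noncomputable section

namespace Crest.Agent.R100.Inst.H44

open Crest.Agent.R100 Crest.Agent.R100.Low Crest.Agent.R100.Str Crest.Agent.R100.Life
open Crest.Agent.R100.Inst

theorem pw_le {m : ℝ} (hm : 0 ≤ m) (k : ℕ) : m ^ k ≤ Real.exp (k * m) := by
  rw [Real.exp_nat_mul]
  exact pow_le_pow_left₀ hm (by linarith [Real.add_one_le_exp m]) k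

theorem small {R : ℝ} (hb : Big R) {c : ℝ} (hc : c ≤ 10 ^ 8) (k : ℕ) (hk : k ≤ 200) {a : ℝ}
    (ha : a ≤ 200) : c * mm R ^ k * Real.exp (a * mm R) ≤ Real.exp (R / mm R ^ 50) := by
  have m4 := hb.m4
  have m0 : 0 ≤ mm R := le_trans (by norm_num) m4
  have h1 : c ≤ Real.exp (2 * mm R) := by
    have h := pw_le m0 2
    have : (10 : ℝ) ^ 8 ≤ mm R ^ 2 := by nlinarith
    push_cast at h
    linarith
  have h2 : mm R ^ k ≤ Real.exp (200 * mm R) := by
    refine (pw_le m0 k).trans (Real.exp_le_exp.2 ?_)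
    have : (k : ℝ) ≤ 200 := by exact_mod_cast hk
    nlinarith
  have h3 : Real.exp (a * mm R) ≤ Real.exp (200 * mm R) := Real.exp_le_exp.2 (by nlinarith)
  calc c * mm R ^ k * Real.exp (a * mm R)
      ≤ Real.exp (2 * mm R) * Real.exp (200 * mm R) * Real.exp (200 * mm R) := by
        refine mul_le_mul (mul_le_mul h1 h2 (by positivity) (by positivity)) h3 (by positivity)
          (by positivity)
    _ = Real.exp (402 * mm R) := by rw [← Real.exp_add, ← Real.exp_add]; ring_nf
    _ ≤ Real.exp (1000 * mm R) := Real.exp_le_exp.2 (by nlinarith)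
    _ ≤ R * Real.exp (1000 * mm R) := le_mul_of_one_le_left (by positivity) hb.one
    _ ≤ _ := hb.master

theorem div_le {R : ℝ} (hb : Big R) {k : ℕ} (hk : 2 ≤ k) : R / mm R ^ k ≤ R / mm R / 2 := by
  have m4 := hb.m4
  have m1 : 1 ≤ mm R := le_trans (by norm_num) m4
  have R0 : 0 < R := lt_of_lt_of_le one_pos hb.one
  rw [div_div]
  refine div_le_div_of_nonneg_left R0.le (by positivity) ?_
  have : mm R ^ 2 ≤ mm R ^ k := pow_le_pow_right₀ m1 hk
  nlinarith

theorem num_aa {R μ : ℝ} (hb : Big R) (hμ : 0 < μ) (j : ℕ) :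
    0 < mun R (Mn R μ j) ∧ aa R (mun R (Mn R μ j)) ≤ aa R μ - (12 * j + 10) := by
  have m4 := hb.m4
  have m1 : 1 ≤ mm R := le_trans (by norm_num) m4
  have m0 : 0 < mm R := lt_of_lt_of_le one_pos m1
  have R0 : 0 < R := lt_of_lt_of_le one_pos hb.one
  have D0 : 0 < R / mm R := by positivity
  have hk : 1 / kap R = mm R ^ 70 := by simp [kap]
  have hpos : 0 < mun R (Mn R μ j) := by
    unfold mun Mn; rw [hk]; positivity
  refine ⟨hpos, ?_⟩
  have h70 : 1 ≤ mm R ^ 70 := one_le_pow₀ m1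
  have h1 : (mm R ^ 70 + 2) * 2 ≤ Real.exp (R / mm R ^ 50) := by
    have := small hb (c := 6) (by norm_num) 70 (by norm_num) (a := 0) (by norm_num)
    simp only [zero_mul, Real.exp_zero, mul_one] at this
    linarith
  have h2 : mun R (Mn R μ j) ≤ Real.exp (R / mm R ^ 50 + (R / mm R ^ 50 -
      4 * (2 : ℝ) ^ ((j : ℝ) / 4) * (R / mm R)) + Real.log μ + R / mm R) := by
    unfold mun Mn
    rw [hk, Real.exp_add, Real.exp_add, Real.exp_add, Real.exp_log hμ]
    have : 0 ≤ Real.exp (R / mm R ^ 50 - 4 * (2 : ℝ) ^ ((j : ℝ) / 4) * (R / mm R)) * μ *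
      Real.exp (R / mm R) := by positivity
    nlinarith [mul_le_mul_of_nonneg_right h1 this]
  have h3 := (Real.log_le_iff_le_exp hpos).2 h2
  have h4 := div_le hb (k := 50) (by norm_num)
  have h5 : 1 + (j : ℝ) / 4 * (69 / 100) ≤ (2 : ℝ) ^ ((j : ℝ) / 4) := by
    rw [Real.rpow_def_of_pos (by norm_num)]
    have h := Real.add_one_le_exp (Real.log 2 * ((j : ℝ) / 4))
    have hl := Real.log_two_gt_d9
    have hj : (0 : ℝ) ≤ (j : ℝ) / 4 := by positivity
    nlinarith
  unfold aa
  rw [le_sub_iff_add_le, div_add' _ _ _ D0.ne', div_le_div_iff_of_pos_right D0]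
  have hj : (0 : ℝ) ≤ j := by positivity
  nlinarith [mul_le_mul_of_nonneg_right h5 D0.le, mul_nonneg hj D0.le]

theorem num_mu {R M N p : ℝ} (hb : Big R) (hM : 0 < M) (hN : N ≤ Real.exp (R / mm R ^ 40))
    (hp : 2 / mm R ^ 30 * Real.exp (-(40 * mm R)) ≤ p)
    (h : p ≤ N * (Real.exp R * (2 * (1 + 2 * Real.pi / kap R) * M))) :
    -(3 * R) ≤ Real.log (mun R M) := by
  have m4 := hb.m4
  have m1 : 1 ≤ mm R := le_trans (by norm_num) m4
  have m0 : 0 < mm R := lt_of_lt_of_le one_pos m1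
  have R0 : 0 < R := lt_of_lt_of_le one_pos hb.one
  have D0 : 0 < R / mm R := by positivity
  have hk : 1 / kap R = mm R ^ 70 := by simp [kap]
  have hk' : 2 * Real.pi / kap R = 2 * Real.pi * mm R ^ 70 := by simp [kap]
  have hpos : 0 < mun R M := by unfold mun; rw [hk]; positivity
  rw [Real.le_log_iff_exp_le hpos]
  have h70 : 1 ≤ mm R ^ 70 := one_le_pow₀ m1
  have hpi := Real.pi_lt_d2
  have hpi0 := Real.pi_pos
  have hDR : R / mm R ≤ R := div_le_self R0.le m1
  have hN' : N ≤ Real.exp R :=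
    hN.trans (Real.exp_le_exp.2 (by linarith [div_le hb (k := 40) (by norm_num)]))
  have h1 : 2 * (1 + 2 * Real.pi / kap R) * M ≤ 7 * mun R M := by
    unfold mun
    rw [hk, hk']
    have he : 1 ≤ Real.exp (R / mm R) := Real.one_le_exp D0.le
    have h2 : 1 + 2 * Real.pi * mm R ^ 70 ≤ 7 * (mm R ^ 70 + 2) := by nlinarith
    have h3 : M ≤ M * Real.exp (R / mm R) := le_mul_of_one_le_right hM.le he
    calc 2 * (1 + 2 * Real.pi * mm R ^ 70) * M ≤ 2 * (7 * (mm R ^ 70 + 2)) * (M * Real.exp (R / mm R)) := by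
          gcongr
      _ = _ := by ring
  have h2 : p ≤ Real.exp R * (Real.exp R * (7 * mun R M)) := by
    refine h.trans ?_
    have h0 : 0 ≤ Real.exp R * (2 * (1 + 2 * Real.pi / kap R) * M) := by rw [hk']; positivity
    calc N * (Real.exp R * (2 * (1 + 2 * Real.pi / kap R) * M))
        ≤ Real.exp R * (Real.exp R * (2 * (1 + 2 * Real.pi / kap R) * M)) :=
          mul_le_mul_of_nonneg_right hN' h0
      _ ≤ _ := by gcongr
  have h3 : 7 * mm R ^ 30 * Real.exp (40 * mm R) ≤ Real.exp R :=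
    (small hb (c := 7) (by norm_num) 30 (by norm_num) (a := 40) (by norm_num)).trans
      (Real.exp_le_exp.2 (by linarith [div_le hb (k := 50) (by norm_num)]))
  have h4 : 1 ≤ mm R ^ 30 * Real.exp (40 * mm R) * p := by
    have h5 : mm R ^ 30 * Real.exp (40 * mm R) * (2 / mm R ^ 30 * Real.exp (-(40 * mm R))) = 2 := by
      rw [Real.exp_neg]; field_simp
    have := mul_le_mul_of_nonneg_left hp (show 0 ≤ mm R ^ 30 * Real.exp (40 * mm R) by positivity)
    linarith
  have h6 : 1 ≤ Real.exp R * (Real.exp R * (Real.exp R * mun R M)) := by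
    calc 1 ≤ mm R ^ 30 * Real.exp (40 * mm R) * p := h4
      _ ≤ mm R ^ 30 * Real.exp (40 * mm R) * (Real.exp R * (Real.exp R * (7 * mun R M))) := by gcongr
      _ = (7 * mm R ^ 30 * Real.exp (40 * mm R)) * (Real.exp R * (Real.exp R * mun R M)) := by ring
      _ ≤ _ := by gcongr
  have h7 : Real.exp (-(3 * R)) * (Real.exp R * (Real.exp R * Real.exp R)) = 1 := by
    rw [← Real.exp_add, ← Real.exp_add, ← Real.exp_add]; ring_nf; simp
  calc Real.exp (-(3 * R)) = Real.exp (-(3 * R)) * 1 := by ring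
    _ ≤ Real.exp (-(3 * R)) * (Real.exp R * (Real.exp R * (Real.exp R * mun R M))) := by gcongr
    _ = Real.exp (-(3 * R)) * (Real.exp R * (Real.exp R * Real.exp R)) * mun R M := by ring
    _ = mun R M := by rw [h7, one_mul]

theorem num_rho {R B N p r : ℝ} (hb : Big R) (hB : 1 ≤ B) (hB' : B ≤ 16 * (1 + Real.log R) ^ 2)
    (hN : N ≤ Real.exp (R / mm R ^ 40)) (hp : 2 / mm R ^ 30 * Real.exp (-(40 * mm R)) ≤ p)
    (hr : r ≤ N * (4 * (1 + 2 * Real.pi / kap R) / Real.exp (R / mm R))) :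
    60000 * R * B * r ≤ 2 * (R / mm R) * p := by
  have m4 := hb.m4
  have m1 : 1 ≤ mm R := le_trans (by norm_num) m4
  have m0 : 0 < mm R := lt_of_lt_of_le one_pos m1
  have R0 : 0 < R := lt_of_lt_of_le one_pos hb.one
  have D0 : 0 < R / mm R := by positivity
  have hk' : 2 * Real.pi / kap R = 2 * Real.pi * mm R ^ 70 := by simp [kap]
  have h70 : 1 ≤ mm R ^ 70 := one_le_pow₀ m1
  have hpi := Real.pi_lt_d2
  have hpi0 := Real.pi_pos
  have hl : 0 ≤ Real.log R := Real.log_nonneg hb.one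
  have he : Real.exp (mm R) = 2 + Real.log R := by
    unfold mm; exact Real.exp_log (by linarith)
  have hB2 : B ≤ 16 * Real.exp (2 * mm R) := by
    have : Real.exp (2 * mm R) = (2 + Real.log R) ^ 2 := by
      rw [← he, ← Real.exp_nat_mul]; norm_num
    rw [this]; nlinarith
  have h1 : r ≤ Real.exp (R / mm R ^ 40) * (32 * mm R ^ 70 / Real.exp (R / mm R)) := by
    refine hr.trans ?_
    rw [hk']
    have h2 : 4 * (1 + 2 * Real.pi * mm R ^ 70) ≤ 32 * mm R ^ 70 := by nlinarith
    calc N * (4 * (1 + 2 * Real.pi * mm R ^ 70) / Real.exp (R / mm R))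
        ≤ Real.exp (R / mm R ^ 40) * (4 * (1 + 2 * Real.pi * mm R ^ 70) / Real.exp (R / mm R)) :=
          mul_le_mul_of_nonneg_right hN (by positivity)
      _ ≤ _ := by gcongr
  have h3 := small hb (c := 60000 * 16 * 32) (by norm_num) 101 (by norm_num) (a := 42) (by norm_num)
  have h4 : Real.exp (R / mm R ^ 50) * Real.exp (R / mm R ^ 40) ≤ Real.exp (R / mm R) := by
    rw [← Real.exp_add]
    exact Real.exp_le_exp.2 (by
      linarith [div_le hb (k := 50) (by norm_num), div_le hb (k := 40) (by norm_num)])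
  have h5 : Real.exp (42 * mm R) = Real.exp (2 * mm R) * Real.exp (40 * mm R) := by
    rw [← Real.exp_add]; ring_nf
  have E0 := Real.exp_pos (R / mm R)
  have E1 := Real.exp_pos (40 * mm R)
  calc 60000 * R * B * r
      ≤ 60000 * R * B * (Real.exp (R / mm R ^ 40) * (32 * mm R ^ 70 / Real.exp (R / mm R))) := by
        gcongr
    _ ≤ 60000 * R * (16 * Real.exp (2 * mm R)) *
        (Real.exp (R / mm R ^ 40) * (32 * mm R ^ 70 / Real.exp (R / mm R))) := by gcongr
    _ = (60000 * 16 * 32 * mm R ^ 101 * Real.exp (42 * mm R)) * Real.exp (R / mm R ^ 40) /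
        Real.exp (R / mm R) * (R / mm R * (1 / mm R ^ 30 * Real.exp (-(40 * mm R)))) := by
        rw [h5, Real.exp_neg]; field_simp
    _ ≤ 1 * (R / mm R * (1 / mm R ^ 30 * Real.exp (-(40 * mm R)))) := by
        refine mul_le_mul_of_nonneg_right ?_ (by positivity)
        rw [div_le_one E0]
        exact le_trans (mul_le_mul_of_nonneg_right h3 (by positivity)) h4
    _ ≤ 2 * (R / mm R) * p := by
        have h6 : 1 / mm R ^ 30 * Real.exp (-(40 * mm R)) ≤ 2 * p := by
          have h7 : 0 ≤ 1 / mm R ^ 30 * Real.exp (-(40 * mm R)) := by positivity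
          have h8 : 2 / mm R ^ 30 * Real.exp (-(40 * mm R)) =
            2 * (1 / mm R ^ 30 * Real.exp (-(40 * mm R))) := by ring
          linarith
        nlinarith [mul_le_mul_of_nonneg_left h6 D0.le]

end Crest.Agent.R100.Inst.H44
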