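import Crest.Agent.R100.InstDefs

/-! # Row 100, STRUCT instance: numerics (hedge) -/

set_option autoImplicit false

open MeasureTheory Set Filter

noncomputable section

namespace Crest.Agent.R100.Inst.H31

open Crest.Agent.R100 Crest.Agent.R100.Low Crest.Agent.R100.Str Crest.Agent.R100.Life
  Crest.Agent.R100.Inst

theorem ev_pow (C : ℝ) (n : ℕ) : ∀ᶠ x : ℝ in atTop, C * x ^ n ≤ Real.exp x := by
  have h := Real.tendsto_exp_div_pow_atTop n
  filter_upwards [h.eventually_ge_atTop C, eventually_gt_atTop 0] with x hx h0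
  rwa [le_div_iff₀ (by positivity)] at hx

theorem big_exists : ∃ R₀ : ℝ, ∀ R, R₀ ≤ R → Big R := by
  have tL : Tendsto Real.log atTop atTop := Real.tendsto_log_atTop
  have tm : Tendsto mm atTop atTop :=
    tL.comp (tendsto_atTop_add_const_left _ 2 tL)
  have E : ∀ᶠ R : ℝ in atTop, Big R := by
    filter_upwards [eventually_ge_atTop 1, tm.eventually_ge_atTop (10 ^ 4),
      tL.eventually_ge_atTop 2, tL.eventually (ev_pow (2001 * 2 ^ 50) 51),
      tm.eventually (ev_pow (2 * 3200 ^ 100) 2400)] with R h1 h2 h3 h4 h5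
    have R0 : 0 < R := by linarith
    have m1 : 1 ≤ mm R := le_trans (by norm_num) h2
    have e2 : Real.exp (mm R) = 2 + Real.log R := Real.exp_log (by linarith)
    have mL : mm R ≤ 2 * Real.log R := by linarith [Real.add_one_le_exp (mm R)]
    rw [Real.exp_log R0] at h4
    refine ⟨h1, h2, ?_, ?_⟩
    · have : Real.log R + 1000 * mm R ≤ R / mm R ^ 50 := by
        rw [le_div_iff₀ (by positivity)]
        calc (Real.log R + 1000 * mm R) * mm R ^ 50
            ≤ (2001 * Real.log R) * (2 * Real.log R) ^ 50 := by gcongr; linarith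
          _ = 2001 * 2 ^ 50 * Real.log R ^ 51 := by ring
          _ ≤ R := h4
      calc R * Real.exp (1000 * mm R) = Real.exp (Real.log R + 1000 * mm R) := by
            rw [Real.exp_add, Real.exp_log R0]
        _ ≤ _ := Real.exp_le_exp.2 this
    · have hu : Real.log R ≤ Real.log (5 * R) := Real.log_le_log R0 (by linarith)
      have hu0 : 0 ≤ Real.log (5 * R) := by linarith
      obtain ⟨w, w0, hw⟩ : ∃ w : ℝ, 0 ≤ w ∧ w ^ 100 = Real.log (5 * R) :=
        ⟨Real.log (5 * R) ^ ((100 : ℕ) : ℝ)⁻¹, by positivity,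
          Real.rpow_inv_natCast_pow hu0 (by norm_num)⟩
      have a1 : 3200 * mm R ^ 24 ≤ w := by
        refine le_of_pow_le_pow_left₀ (n := 100) (by norm_num) w0 ?_
        rw [hw, mul_pow, ← pow_mul]
        rw [e2, mul_assoc] at h5
        generalize (3200 : ℝ) ^ 100 * mm R ^ (24 * 100) = T at *
        linarith
      have a2 : mm R ≤ mm R ^ 24 := le_self_pow₀ m1 (by norm_num)
      have a3 : (10 ^ 4) ^ 2 ≤ mm R ^ 24 :=
        (pow_le_pow_left₀ (by norm_num) h2 2).trans (pow_le_pow_right₀ m1 (by norm_num))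
      have w1 : 1 ≤ w := by linarith
      refine ⟨w, by linarith, by rw [hw, Real.exp_log (by linarith)], a1, ?_⟩
      calc 15 * mm R ^ 50 ≤ 3200 ^ 3 * mm R ^ 72 := by
            gcongr
            · norm_num
            · norm_num
        _ = (3200 * mm R ^ 24) ^ 3 := by ring
        _ ≤ w ^ 3 := by gcongr
        _ ≤ w ^ 12 := pow_le_pow_right₀ w1 (by norm_num)
  exact eventually_atTop.1 E

theorem key {R : ℝ} (hb : Big R) : 1000 * mm R ≤ R / mm R ^ 50 := by
  have h := hb.master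
  have : Real.exp (1000 * mm R) ≤ R * Real.exp (1000 * mm R) :=
    le_mul_of_one_le_left (Real.exp_pos _).le hb.one
  exact Real.exp_le_exp.1 (this.trans h)

theorem pw {x : ℝ} (hx : 0 ≤ x) (n : ℕ) : x ^ n ≤ Real.exp (n * x) := by
  rw [Real.exp_nat_mul]
  exact pow_le_pow_left₀ hx (by linarith [Real.add_one_le_exp x]) n

theorem num_aa {R μ : ℝ} (hb : Big R) (hμ : 0 < μ) (j : ℕ) :
    0 < mun R (Mn R μ j) ∧ aa R (mun R (Mn R μ j)) ≤ aa R μ - (12 * j + 10) := by
  have m4 := hb.m4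
  have m1 : 1 ≤ mm R := le_trans (by norm_num) m4
  have R0 : 0 < R := lt_of_lt_of_le one_pos hb.one
  have k := key hb
  have T0 : 0 < R / mm R := by positivity
  have hk : 1 / kap R = mm R ^ 70 := by simp [kap]
  have p0 : 0 < mun R (Mn R μ j) := by unfold mun Mn; rw [hk]; positivity
  refine ⟨p0, ?_⟩
  have h1 : (mm R ^ 70 + 2) * 2 ≤ Real.exp (72 * mm R) := by
    have a1 : 1 ≤ mm R ^ 70 := one_le_pow₀ m1
    have a2 : mm R ^ 72 ≤ Real.exp (72 * mm R) := by
      simpa using pw (by linarith : 0 ≤ mm R) 72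
    have a3 : 6 ≤ mm R ^ 2 := by nlinarith
    calc (mm R ^ 70 + 2) * 2 ≤ mm R ^ 70 * 6 := by linarith
      _ ≤ mm R ^ 70 * mm R ^ 2 := by gcongr
      _ = mm R ^ 72 := by ring
      _ ≤ _ := a2
  have h2 : Real.log (mun R (Mn R μ j)) ≤ 72 * mm R + (R / mm R ^ 50 -
      4 * (2 : ℝ) ^ ((j : ℝ) / 4) * (R / mm R)) + Real.log μ + R / mm R := by
    rw [Real.log_le_iff_le_exp p0, Real.exp_add, Real.exp_add, Real.exp_add, Real.exp_log hμ]
    unfold mun Mn
    rw [hk]
    calc _ = (mm R ^ 70 + 2) * 2 * (Real.exp (R / mm R ^ 50 -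
      4 * (2 : ℝ) ^ ((j : ℝ) / 4) * (R / mm R)) * μ * Real.exp (R / mm R)) := by ring
      _ ≤ Real.exp (72 * mm R) * (Real.exp (R / mm R ^ 50 -
      4 * (2 : ℝ) ^ ((j : ℝ) / 4) * (R / mm R)) * μ * Real.exp (R / mm R)) := by gcongr
      _ = _ := by ring
  have h3 : R / mm R ^ 50 ≤ R / mm R :=
    div_le_div_of_nonneg_left R0.le (by linarith) (le_self_pow₀ m1 (by norm_num))
  have h4 : 1 + (j : ℝ) / 8 ≤ (2 : ℝ) ^ ((j : ℝ) / 4) := by
    rw [Real.rpow_def_of_pos (by norm_num)]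
    have l2 : 1 / 2 ≤ Real.log 2 := by linarith [Real.log_two_gt_d9]
    have j0 : (0 : ℝ) ≤ j := j.cast_nonneg
    nlinarith [Real.add_one_le_exp (Real.log 2 * ((j : ℝ) / 4))]
  unfold aa
  rw [le_sub_iff_add_le, div_add' _ _ _ T0.ne', div_le_div_iff_of_pos_right T0]
  have h5 := mul_le_mul_of_nonneg_right h4 T0.le
  have j0 : (0 : ℝ) ≤ j * (R / mm R) := by positivity
  nlinarith

theorem two_pi {R : ℝ} (hb : Big R) : 1 + 2 * Real.pi / kap R ≤ mm R ^ 71 := by
  have m4 := hb.m4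
  have m1 : 1 ≤ mm R := le_trans (by norm_num) m4
  have a1 : 1 ≤ mm R ^ 70 := one_le_pow₀ m1
  have e : 2 * Real.pi / kap R = 2 * Real.pi * mm R ^ 70 := by simp [kap, div_eq_mul_inv]
  rw [e, pow_succ (mm R) 70]
  nlinarith [Real.pi_le_four, mul_le_mul_of_nonneg_left m4 (by linarith : 0 ≤ mm R ^ 70)]

theorem num_mu {R M N p : ℝ} (hb : Big R) (hM : 0 < M) (hN : N ≤ Real.exp (R / mm R ^ 40))
    (hp : 2 / mm R ^ 30 * Real.exp (-(40 * mm R)) ≤ p)
    (h : p ≤ N * (Real.exp R * (2 * (1 + 2 * Real.pi / kap R) * M))) :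
    -(3 * R) ≤ Real.log (mun R M) := by
  have m4 := hb.m4
  have m1 : 1 ≤ mm R := le_trans (by norm_num) m4
  have m0 : 0 < mm R := by linarith
  have R0 : 0 < R := lt_of_lt_of_le one_pos hb.one
  have k := key hb
  have hk : 1 / kap R = mm R ^ 70 := by simp [kap]
  have k0 : 0 < kap R := by unfold kap; positivity
  have h1 : M ≤ mun R M := by
    unfold mun
    rw [hk]
    have a1 : 1 ≤ Real.exp (R / mm R) := Real.one_le_exp (by positivity)
    have a2 : M ≤ M * Real.exp (R / mm R) := le_mul_of_one_le_right hM.le a1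
    have a3 : 0 ≤ mm R ^ 70 * (2 * (M * Real.exp (R / mm R))) := by positivity
    nlinarith
  have h2 : R / mm R ^ 40 ≤ R := div_le_self R0.le (one_le_pow₀ m1)
  have h3 : R / mm R ^ 50 ≤ R := div_le_self R0.le (one_le_pow₀ m1)
  have h4 : p ≤ Real.exp R * (Real.exp R * (2 * mm R ^ 71 * M)) := by
    refine h.trans ((mul_le_mul_of_nonneg_right (hN.trans (Real.exp_le_exp.2 h2))
      (by have := Real.pi_pos; positivity)).trans ?_)
    gcongr
    exact two_pi hb
  have h5 : Real.exp (-(40 * mm R)) ≤ Real.exp R * Real.exp R * mm R ^ 101 * M := by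
    have := hp.trans h4
    rw [div_mul_eq_mul_div, div_le_iff₀ (by positivity)] at this
    calc _ ≤ Real.exp R * (Real.exp R * (2 * mm R ^ 71 * M)) * mm R ^ 30 / 2 := by linarith
      _ = _ := by ring
  have h6 : mm R ^ 101 ≤ Real.exp (101 * mm R) := by simpa using pw m0.le 101
  rw [Real.le_log_iff_exp_le (hM.trans_le h1)]
  refine le_trans ?_ h1
  have h7 : Real.exp (-(40 * mm R)) ≤ Real.exp (R + R + 101 * mm R) * M := by
    rw [Real.exp_add, Real.exp_add]
    exact h5.trans (by gcongr)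
  rw [← div_le_iff₀' (Real.exp_pos _), ← Real.exp_sub] at h7
  exact (Real.exp_le_exp.2 (by linarith)).trans h7

theorem num_rho {R B N p r : ℝ} (hb : Big R) (hB : 1 ≤ B) (hB' : B ≤ 16 * (1 + Real.log R) ^ 2)
    (hN : N ≤ Real.exp (R / mm R ^ 40)) (hp : 2 / mm R ^ 30 * Real.exp (-(40 * mm R)) ≤ p)
    (hr : r ≤ N * (4 * (1 + 2 * Real.pi / kap R) / Real.exp (R / mm R))) :
    60000 * R * B * r ≤ 2 * (R / mm R) * p := by
  have m4 := hb.m4
  have m1 : 1 ≤ mm R := le_trans (by norm_num) m4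
  have m0 : 0 < mm R := by linarith
  have R0 : 0 < R := lt_of_lt_of_le one_pos hb.one
  have k := key hb
  have k0 : 0 < kap R := by unfold kap; positivity
  have lR : 0 ≤ Real.log R := Real.log_nonneg hb.one
  have e2 : Real.exp (mm R) = 2 + Real.log R := Real.exp_log (by linarith)
  have b1 : B ≤ 16 * Real.exp (2 * mm R) := by
    rw [two_mul, Real.exp_add, e2]; nlinarith
  have r1 : r ≤ Real.exp (R / mm R ^ 40) * (4 * mm R ^ 71 / Real.exp (R / mm R)) := by
    refine hr.trans ((mul_le_mul_of_nonneg_right hN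
      (by have := Real.pi_pos; positivity)).trans ?_)
    gcongr
    exact two_pi hb
  have d1 : R / mm R ^ 50 ≤ R / mm R ^ 2 :=
    div_le_div_of_nonneg_left R0.le (by positivity) (pow_le_pow_right₀ m1 (by norm_num))
  have d2 : R / mm R ^ 40 ≤ R / mm R ^ 2 :=
    div_le_div_of_nonneg_left R0.le (by positivity) (pow_le_pow_right₀ m1 (by norm_num))
  have d3 : 2 * (R / mm R ^ 2) ≤ R / mm R := by
    rw [← mul_div_assoc, div_le_div_iff₀ (by positivity) m0]
    nlinarith [mul_pos R0 m0]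
  have p1 : 960000 * mm R ^ 102 ≤ Real.exp (104 * mm R) := by
    have a2 : mm R ^ 104 ≤ Real.exp (104 * mm R) := by simpa using pw m0.le 104
    calc 960000 * mm R ^ 102 ≤ mm R ^ 2 * mm R ^ 102 := by gcongr; nlinarith
      _ = mm R ^ 104 := by ring
      _ ≤ _ := a2
  have p2 : Real.exp (104 * mm R) * Real.exp (2 * mm R) * Real.exp (R / mm R ^ 40) ≤
      Real.exp (-(40 * mm R)) * Real.exp (R / mm R) := by
    rw [← Real.exp_add, ← Real.exp_add, ← Real.exp_add]
    exact Real.exp_le_exp.2 (by linarith)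
  have E0 := Real.exp_pos (R / mm R)
  calc 60000 * R * B * r
      ≤ 60000 * R * B * (Real.exp (R / mm R ^ 40) * (4 * mm R ^ 71 / Real.exp (R / mm R))) := by
        gcongr
    _ ≤ 60000 * R * (16 * Real.exp (2 * mm R)) *
        (Real.exp (R / mm R ^ 40) * (4 * mm R ^ 71 / Real.exp (R / mm R))) := by gcongr
    _ = 4 * R / mm R ^ 31 / Real.exp (R / mm R) *
        (960000 * mm R ^ 102 * Real.exp (2 * mm R) * Real.exp (R / mm R ^ 40)) := by
        field_simp; ring
    _ ≤ 4 * R / mm R ^ 31 / Real.exp (R / mm R) *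
        (Real.exp (-(40 * mm R)) * Real.exp (R / mm R)) := by
        refine mul_le_mul_of_nonneg_left (le_trans ?_ p2) (by positivity)
        gcongr
    _ = 2 * (R / mm R) * (2 / mm R ^ 30 * Real.exp (-(40 * mm R))) := by field_simp; ring
    _ ≤ _ := by gcongr

end Crest.Agent.R100.Inst.H31
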