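import Crest.Agent.R100.OutStage

/-!
# Row 100, LOW part and martingale tools (helper59): definitions and path averages
Nodes of the dyadic tree are lists `v`; the children are `v ++ [false]`, `v ++ [true]`;
the node of depth `k` on the path `l` is `l.take k`.
-/

set_option autoImplicit false

open MeasureTheory Set

noncomputable section

namespace Crest.Agent.R100.Low

open Crest.Agent.R100

/-- left end of the node `u` of the tree with top `[α, α+ℓ)` -/
def nd : ℝ → ℝ → List Bool → ℝ
  | α, _, [] => α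
  | α, ℓ, c :: u => nd (ch c α ℓ) (ℓ / 2) u

/-- length of the node `u` -/
def ln (ℓ : ℝ) (u : List Bool) : ℝ := ℓ / 2 ^ u.length

/-- average of `f e^{-iξ·}` over `[a, a+lam)` -/
def cu (f : ℝ → ℂ) (ξ a lam : ℝ) : ℂ := (∫ y in a..a + lam, f y * ex ξ y) / lam

/-- average of `‖f‖` over `[a, a+lam)` -/
def ca (f : ℝ → ℂ) (a lam : ℝ) : ℝ := (∫ y in a..a + lam, ‖f y‖) / lam

/-- the Fourier coefficient at the node `u` -/
def U (f : ℝ → ℂ) (α ℓ ξ : ℝ) (u : List Bool) : ℂ := cu f ξ (nd α ℓ u) (ln ℓ u)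

/-- all averages of `‖f‖` at `u` and above are at most `1` -/
def Alive (f : ℝ → ℂ) (α ℓ : ℝ) (u : List Bool) : Prop :=
  ∀ k, k ≤ u.length → ca f (nd α ℓ (u.take k)) (ln ℓ (u.take k)) ≤ 1

/-- a complex martingale on the tree -/
def Mart (u : List Bool → ℂ) : Prop := ∀ v, u v = (u (v ++ [false]) + u (v ++ [true])) / 2

/-- a real martingale on the tree -/
def MartR (u : List Bool → ℝ) : Prop := ∀ v, u v = (u (v ++ [false]) + u (v ++ [true])) / 2

/-- the term of depth `k` of the shift of the martingale `u` with predictable multiplier `e` -/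
def tm (e u : List Bool → ℂ) (l : List Bool) (k : ℕ) : ℂ :=
  (sig (l.getD k false) (l.getD (k + 1) false) : ℂ) *
    (e (l.take k) * (u (l.take k ++ [false]) - u (l.take k)))

/-- the window sum -/
def win (e u : List Bool → ℂ) (l : List Bool) (s t : ℕ) : ℂ := ∑ k ∈ Finset.Ico s t, tm e u l k

/-- the COUNT property: at most `4 e^R / d²` tops on an average path -/
def Count (V : ℝ → List Bool → ℂ) (A : List Bool → Prop) (ℓ R : ℝ) : Prop :=
  ∀ (d : ℝ) (n : ℕ), 0 < d → d ≤ 1 → ∃ new : List Bool → Finset ℝ,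
    avg n (fun l => ∑ k ∈ Finset.range (n + 1), ((new (l.take k)).card : ℝ)) ≤
        4 * Real.exp R / d ^ 2 ∧
      ∀ (v : List Bool) (ξ : ℝ), v.length ≤ n → A v → d ≤ ‖V ξ v‖ →
        ∃ k, k ≤ v.length ∧ ∃ β ∈ new (v.take k), |ξ - β| * ℓ ≤ 16 * Real.exp R / d ^ 2 * 2 ^ v.length

/-- an abstract family of "Fourier coefficient" martingales -/
structure Fam (V : ℝ → List Bool → ℂ) (A : List Bool → Prop) (ℓ R : ℝ) : Prop where
  mart : ∀ ξ, Mart (V ξ)
  her : ∀ v k, A v → A (v.take k)
  bd : ∀ ξ v, A v → ‖V ξ v‖ ≤ 1 ∧ ∀ c, ‖V ξ (v ++ [c])‖ ≤ 2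
  lip : ∀ (ξ β : ℝ) (l : List Bool), ∃ ω : ℂ, ‖ω‖ = 1 ∧ ∀ k, k ≤ l.length → A (l.take k) →
    ‖V ξ (l.take k) - ω * V β (l.take k)‖ ≤ |ξ - β| * ℓ / 2 ^ k ∧
      ‖V ξ (l.take k ++ [false]) - ω * V β (l.take k ++ [false])‖ ≤ 2 * (|ξ - β| * ℓ / 2 ^ k)
  count : Count V A ℓ R

/-- the entropy consumed by the nonnegative martingale `F` up to depth `n` -/
def Ent (F : List Bool → ℝ) (n : ℕ) : ℝ :=
  avg n (fun l => F l * Real.log (F l)) - F [] * Real.log (F [])

theorem avg_mono_len : ∀ (n : ℕ) {F F' : List Bool → ℝ},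
    (∀ l, l.length = n → F l ≤ F' l) → avg n F ≤ avg n F'
  | 0, _, _, h => h [] rfl
  | n + 1, F, F', h => by
    have h1 := avg_mono_len n (F := fun l => F (false :: l)) (F' := fun l => F' (false :: l))
      (fun l hl => h _ (by simp [hl]))
    have h2 := avg_mono_len n (F := fun l => F (true :: l)) (F' := fun l => F' (true :: l))
      (fun l hl => h _ (by simp [hl]))
    simp only [avg]; linarith

theorem avg_congr_len (n : ℕ) {F F' : List Bool → ℝ} (h : ∀ l, l.length = n → F l = F' l) :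
    avg n F = avg n F' :=
  le_antisymm (avg_mono_len n fun l hl => (h l hl).le) (avg_mono_len n fun l hl => (h l hl).ge)

theorem avg_const : ∀ (n : ℕ) (a : ℝ), avg n (fun _ => a) = a
  | 0, _ => rfl
  | n + 1, a => by simp only [avg, avg_const n a]; ring

theorem avg_mul_left : ∀ (n : ℕ) (a : ℝ) (F : List Bool → ℝ),
    avg n (fun l => a * F l) = a * avg n F
  | 0, _, _ => rfl
  | n + 1, a, F => by
    simp only [avg, avg_mul_left n a (fun l => F (false :: l)),
      avg_mul_left n a (fun l => F (true :: l))]; ring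

theorem avg_add' (n : ℕ) (F F' : List Bool → ℝ) :
    avg n (fun l => F l + F' l) = avg n F + avg n F' := avg_add n F F'

theorem avg_sub (n : ℕ) (F F' : List Bool → ℝ) :
    avg n (fun l => F l - F' l) = avg n F - avg n F' := by
  have h := avg_add' n F (fun l => (-1) * F' l)
  rw [avg_mul_left] at h
  simp only [neg_mul, one_mul, ← sub_eq_add_neg] at h
  exact h

theorem avg_sum {ι : Type*} (n : ℕ) (s : Finset ι) (F : ι → List Bool → ℝ) :
    avg n (fun l => ∑ i ∈ s, F i l) = ∑ i ∈ s, avg n (F i) := by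
  classical
  induction s using Finset.induction_on with
  | empty => simp [avg_const]
  | insert i s hi ih =>
    simp only [Finset.sum_insert hi]
    rw [avg_add', ih]

theorem avg_nonneg_len (n : ℕ) {F : List Bool → ℝ} (h : ∀ l, l.length = n → 0 ≤ F l) :
    0 ≤ avg n F := by
  have := avg_mono_len n (F := fun _ => 0) h
  rwa [avg_const] at this

theorem avg_split : ∀ (k m : ℕ) (F : List Bool → ℝ),
    avg (k + m) F = avg k (fun v => avg m (fun w => F (v ++ w)))
  | 0, m, F => by simp [avg]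
  | k + 1, m, F => by
    have : k + 1 + m = (k + m) + 1 := by ring
    rw [this]
    simp only [avg, avg_split k m, List.cons_append]

/-- the last digit -/
theorem avg_snoc (n : ℕ) (F : List Bool → ℝ) :
    avg (n + 1) F = avg n (fun v => (F (v ++ [false]) + F (v ++ [true])) / 2) := by
  rw [avg_split n 1]; simp [avg]

/-- a function of the node of depth `k` -/
theorem avg_take {k n : ℕ} (h : k ≤ n) (F : List Bool → ℝ) :
    avg n (fun l => F (l.take k)) = avg k F := by
  obtain ⟨m, rfl⟩ := Nat.exists_eq_add_of_le h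
  rw [avg_split]
  refine avg_congr_len k fun v hv => ?_
  have : ∀ w : List Bool, (v ++ w).take k = v := fun w => by
    rw [← hv]; simp
  simp only [this, avg_const]

/-- Jensen -/
theorem avg_le_log (n : ℕ) (F : List Bool → ℝ) {B : ℝ} (hB : 0 < B)
    (h : avg n (fun l => Real.exp (F l)) ≤ B) : avg n F ≤ Real.log B := by
  have h1 : avg n F ≤ avg n (fun l => B⁻¹ * Real.exp (F l) + (Real.log B - 1)) := by
    refine avg_mono_len n fun l _ => ?_
    have := Real.add_one_le_exp (F l - Real.log B)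
    rw [Real.exp_sub, Real.exp_log hB] at this
    rw [inv_mul_eq_div]; linarith
  rw [avg_add', avg_mul_left, avg_const] at h1
  have : B⁻¹ * avg n (fun l => Real.exp (F l)) ≤ 1 := by
    rw [inv_mul_le_iff₀ hB]; linarith
  linarith

end Crest.Agent.R100.Low
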