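import Crest.Agent.R100.Unc5
import Crest.Agent.R100.LowDefs
import Crest.Agent.R100.OutPath

/-! # Row 100, Lemma P for real frequencies: heavy bins and the birth bound (helper5) -/

set_option autoImplicit false

noncomputable section

namespace Crest.Agent.R100.P5

open Finset MeasureTheory Crest.Agent.R100.Ent Real Crest.Agent.R100.Low

variable {Ω S : Type*} [Fintype Ω]

theorem normsq (a : Ω → ℝ) (k : Ω → ℤ) (β : Ω → ℝ) (θ : ℝ) :
    ‖∑ ω, (a ω : ℂ) * Complex.exp (((β ω + k ω * θ : ℝ) : ℂ) * Complex.I)‖ ^ 2 =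
      ∑ ω, ∑ ω', a ω * a ω' * cos (((k ω - k ω' : ℤ) : ℝ) * θ + (β ω - β ω')) := by
  rw [Complex.sq_norm, Complex.normSq_apply, Complex.re_sum, Complex.im_sum, sum_mul_sum,
    sum_mul_sum, ← sum_add_distrib]
  refine sum_congr rfl fun ω _ => ?_
  rw [← sum_add_distrib]
  refine sum_congr rfl fun ω' _ => ?_
  simp only [Complex.re_ofReal_mul, Complex.im_ofReal_mul, Complex.exp_ofReal_mul_I_re,
    Complex.exp_ofReal_mul_I_im]
  rw [show ((k ω - k ω' : ℤ) : ℝ) * θ + (β ω - β ω') = (β ω + k ω * θ) - (β ω' + k ω' * θ) by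
    push_cast; ring, cos_sub]
  ring

theorem int_cos (n : ℤ) (b : ℝ) :
    ∫ θ in (-π)..π, cos ((n : ℝ) * θ + b) ≤ if n = 0 then 2 * π else 0 := by
  split_ifs with h
  · subst h
    have := mul_le_mul_of_nonneg_left (cos_le_one b) (by positivity : 0 ≤ 2 * π)
    simp only [Int.cast_zero, zero_mul, zero_add, intervalIntegral.integral_const, smul_eq_mul]
    linarith
  · have hn : (n : ℝ) ≠ 0 := by exact_mod_cast h
    rw [intervalIntegral.integral_comp_mul_add (fun x => cos x) hn, integral_cos,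
      show (n : ℝ) * π + b = ((n : ℝ) * -π + b) + n * (2 * π) by ring, sin_add_int_mul_two_pi]
    simp

theorem parseval (a : Ω → ℝ) (ha : ∀ ω, 0 ≤ a ω) (k : Ω → ℤ) (β : Ω → ℝ) :
    ∫ θ in (-π)..π, ‖∑ ω, (a ω : ℂ) * Complex.exp (((β ω + k ω * θ : ℝ) : ℂ) * Complex.I)‖ ^ 2 ≤
      2 * π * ∑ ω, a ω * ∑ ω', if k ω' = k ω then a ω' else 0 := by
  simp_rw [normsq]
  rw [intervalIntegral.integral_finsetSum (fun ω _ => Continuous.intervalIntegrable
    (by fun_prop) _ _), mul_sum]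
  refine sum_le_sum fun ω _ => ?_
  rw [intervalIntegral.integral_finsetSum (fun ω _ => Continuous.intervalIntegrable
    (by fun_prop) _ _), mul_sum, mul_sum]
  refine sum_le_sum fun ω' _ => ?_
  rw [intervalIntegral.integral_const_mul]
  refine (mul_le_mul_of_nonneg_left (int_cos _ _) (mul_nonneg (ha ω) (ha ω'))).trans_eq ?_
  by_cases h : k ω' = k ω
  · simp [h]; ring
  · rw [if_neg h, if_neg (fun h' => h (by omega))]; simp

theorem light {P : Ω → ℝ} (hP : IsProb P) (k : Ω → ℤ) (β : Ω → ℝ) (j : Ω → S) {M e : ℝ} (hM : 1 ≤ M)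
    {T : Set ℝ} (hT : MeasurableSet T) (hT1 : T ⊆ Set.Icc (-π) π) (hT0 : 0 < volume.real T)
    (h : ∀ θ ∈ T, ∃ φ : S → ℂ, (∀ s, ‖φ s‖ ≤ 1) ∧
      1 - e ≤ ∑ ω, P ω * (φ (j ω) * Complex.exp (((β ω + k ω * θ : ℝ) : ℂ) * Complex.I)).re)
    (E : Ω → Prop) [DecidablePred E]
    (hE : ∀ ω, E ω → law P (fun ω => (k ω, j ω)) (k ω, j ω) ≤
      volume.real T / (2 * π * M) * law P j (j ω)) :
    ∑ ω, (if E ω then P ω else 0) ≤ 2 * e + 1 / M := by
  classical
  set F := univ.image j with hF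
  have hFm : ∀ ω, j ω ∈ F := fun ω => mem_image_of_mem j (mem_univ ω)
  set V := volume.real T with hV
  set a : S → Ω → ℝ := fun s ω => if E ω ∧ j ω = s then P ω else 0 with ha
  have a0 : ∀ s ω, 0 ≤ a s ω := fun s ω => by
    simp only [ha]; split_ifs; exacts [hP.nn ω, le_rfl]
  set p : S → ℝ → ℂ := fun s θ =>
    ∑ ω, (a s ω : ℂ) * Complex.exp (((β ω + k ω * θ : ℝ) : ℂ) * Complex.I) with hp
  set L := law P j with hL
  have L0 : ∀ s, 0 ≤ L s := law_nonneg hP.nn j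
  have L1 : ∑ s ∈ F, L s = 1 := by
    have := sum_law P j (fun _ => 1) F hFm
    simp only [mul_one] at this
    rw [← this, hP.one]
  set PE := ∑ ω, (if E ω then P ω else 0) with hPE
  have sa : ∑ s ∈ F, ∑ ω, a s ω = PE := by
    rw [sum_comm]
    refine sum_congr rfl fun ω _ => ?_
    by_cases hω : E ω
    · simp [ha, hω, hFm ω]
    · simp [ha, hω]
  have pL : ∀ s θ, ‖p s θ‖ ≤ L s := by
    intro s θ
    refine (norm_sum_le _ _).trans ?_
    simp only [hL, law]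
    refine sum_le_sum fun ω _ => ?_
    rw [norm_mul, Complex.norm_exp_ofReal_mul_I, mul_one, Complex.norm_real,
      Real.norm_of_nonneg (a0 s ω)]
    simp only [ha]
    by_cases h1 : j ω = s
    · simp only [h1, and_true, if_true]; split_ifs; exacts [le_rfl, hP.nn ω]
    · simp [h1]
  have M0 : 0 < M := by linarith
  have amgm : ∀ s θ, ‖p s θ‖ ≤ M / (2 * L s) * ‖p s θ‖ ^ 2 + L s / (2 * M) := by
    intro s θ
    rcases (L0 s).eq_or_lt with h0 | h0
    · have := pL s θ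
      rw [← h0] at this ⊢
      simpa using this
    · have e1 : M / (2 * L s) * ‖p s θ‖ ^ 2 + L s / (2 * M) - ‖p s θ‖ =
          (M * ‖p s θ‖ - L s) ^ 2 / (2 * M * L s) := by field_simp; ring
      have : 0 ≤ (M * ‖p s θ‖ - L s) ^ 2 / (2 * M * L s) := by positivity
      linarith
  set Q : ℝ → ℝ := fun θ => ∑ s ∈ F, M / (2 * L s) * ‖p s θ‖ ^ 2 with hQ
  have Qc : Continuous Q := by simp only [hQ, hp]; fun_prop
  have Q0 : ∀ θ, 0 ≤ Q θ := fun θ => sum_nonneg fun s _ => by have := L0 s; positivity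
  have low : ∀ θ ∈ T, PE - e - 1 / (2 * M) ≤ Q θ := by
    intro θ hθ
    obtain ⟨φ, hφ, h1⟩ := h θ hθ
    have h2 : ∑ ω, P ω * (φ (j ω) * Complex.exp (((β ω + k ω * θ : ℝ) : ℂ) * Complex.I)).re ≤
        ∑ ω, (P ω - (if E ω then P ω else 0) + ∑ s ∈ F,
          (φ s * ((a s ω : ℂ) * Complex.exp (((β ω + k ω * θ : ℝ) : ℂ) * Complex.I))).re) := by
      refine sum_le_sum fun ω _ => ?_
      by_cases hω : E ω
      · rw [sum_eq_single (j ω) (fun s _ hs => by simp [ha, hs.symm]) (fun h => (h (hFm ω)).elim)]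
        simp only [ha, hω, if_true, true_and, sub_self, zero_add]
        rw [mul_left_comm, Complex.re_ofReal_mul]
      · have : (φ (j ω) * Complex.exp (((β ω + k ω * θ : ℝ) : ℂ) * Complex.I)).re ≤ 1 := by
          refine (Complex.re_le_norm _).trans ?_
          rw [norm_mul, Complex.norm_exp_ofReal_mul_I, mul_one]; exact hφ _
        simp only [ha, hω, if_false, false_and, sub_zero, Complex.ofReal_zero, zero_mul, mul_zero,
          Complex.zero_re, sum_const_zero, add_zero]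
        exact mul_le_of_le_one_right (hP.nn ω) this
    rw [sum_add_distrib, sum_sub_distrib, hP.one, sum_comm] at h2
    have h3 : ∑ s ∈ F, ∑ ω,
        (φ s * ((a s ω : ℂ) * Complex.exp (((β ω + k ω * θ : ℝ) : ℂ) * Complex.I))).re ≤
        ∑ s ∈ F, (M / (2 * L s) * ‖p s θ‖ ^ 2 + L s / (2 * M)) := by
      refine sum_le_sum fun s _ => ?_
      rw [← Complex.re_sum, ← mul_sum]
      refine (Complex.re_le_norm _).trans (le_trans ?_ (amgm s θ))
      rw [norm_mul]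
      exact mul_le_of_le_one_left (norm_nonneg _) (hφ s)
    rw [sum_add_distrib, ← sum_div, L1] at h3
    simp only [hQ]
    linarith
  have fin : volume T ≠ ⊤ := ((measure_mono hT1).trans_lt measure_Icc_lt_top).ne
  have i1 : (PE - e - 1 / (2 * M)) * V ≤ ∫ θ in T, Q θ :=
    setIntegral_ge_of_const_le_real hT fin low (Qc.continuousOn.integrableOn_Icc.mono_set hT1)
  have i2 : ∫ θ in T, Q θ ≤ ∫ θ in (-π)..π, Q θ := by
    rw [intervalIntegral.integral_of_le (by linarith [pi_pos]), ← integral_Icc_eq_integral_Ioc]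
    exact setIntegral_mono_set Qc.continuousOn.integrableOn_Icc (Filter.Eventually.of_forall Q0)
      hT1.eventuallyLE
  have i3 : ∫ θ in (-π)..π, Q θ ≤ V / 2 * PE := by
    simp only [hQ]
    rw [intervalIntegral.integral_finsetSum (fun s _ => Continuous.intervalIntegrable
      (by simp only [hp]; fun_prop) _ _), ← sa, mul_sum]
    refine sum_le_sum fun s _ => ?_
    rw [intervalIntegral.integral_const_mul]
    simp only [hp]
    refine le_trans (mul_le_mul_of_nonneg_left (parseval (a s) (a0 s) k β)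
      (by have := L0 s; positivity)) ?_
    have b1 : ∑ ω, a s ω * (∑ ω', if k ω' = k ω then a s ω' else 0) ≤
        ∑ ω, a s ω * (V / (2 * π * M) * L s) := by
      refine sum_le_sum fun ω _ => ?_
      by_cases hω : E ω ∧ j ω = s
      · obtain ⟨hω1, hω2⟩ := hω
        subst hω2
        refine mul_le_mul_of_nonneg_left (le_trans ?_ (hE ω hω1)) (a0 _ ω)
        simp only [law]
        refine sum_le_sum fun ω' _ => ?_
        simp only [ha, Prod.mk.injEq]
        have := hP.nn ω'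
        split_ifs with c1 c2 c3 <;> first | exact le_rfl | exact this | skip
        exact (c3 ⟨c1, c2.2⟩).elim
      · simp [ha, hω]
    rw [← sum_mul] at b1
    have b2 : 0 ≤ ∑ ω, a s ω := sum_nonneg fun ω _ => a0 s ω
    have := L0 s
    have := pi_pos
    calc _ ≤ M / (2 * L s) * (2 * π * ((∑ ω, a s ω) * (V / (2 * π * M) * L s))) := by gcongr
      _ = V / 2 * (∑ ω, a s ω) * (L s / L s) := by field_simp
      _ ≤ V / 2 * (∑ ω, a s ω) * 1 := by gcongr; exact div_self_le_one _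
      _ = _ := mul_one _
  have i4 : (PE - e - 1 / (2 * M)) * V ≤ PE / 2 * V := by linarith
  have i5 := le_of_mul_le_mul_right i4 hT0
  have : 1 / M = 2 * (1 / (2 * M)) := by field_simp
  linarith

open Classical in
/-- **Lemma P**, set form: heavy coarse bins have small mass. The centre `tc` is arbitrary. -/
theorem heavy {P : Ω → ℝ} (hP : IsProb P) (Z : Ω → ℝ) {M κ lI lJ g t0 tc m0 : ℝ} (hM : 1 ≤ M)
    (hκ : 0 < κ) (hκ1 : κ ≤ 1) (hI : 0 < lI) (hJ : 0 ≤ lJ)
    (hm : ∀ a : ℤ, law P (fun ω => ⌊Z ω * lI / κ⌋) a ≤ m0)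
    {B : Set ℝ} (hB : MeasurableSet B) (hB1 : B ⊆ Set.Icc (t0 - lI) (t0 + lI))
    (h : ∀ t ∈ B, ∃ t1, |t - t1| ≤ lJ ∧ 1 - g ≤ ‖∑ ω, (P ω : ℂ) * ex (Z ω) (t1 - tc)‖) (hg : 0 ≤ g) :
    ∑ ω, (if 2 * π * M * m0 * lI <
        κ * volume.real B * law P (fun ω => ⌊Z ω * lJ / κ⌋) ⌊Z ω * lJ / κ⌋ then P ω else 0) ≤
      2 * (g + 2 * κ) + 1 / M := by
  have hpi := pi_pos
  have m00 : 0 ≤ m0 := (law_nonneg hP.nn _ 0).trans (hm 0)
  rcases (measureReal_nonneg (μ := volume) (s := B)).eq_or_lt with hB0 | hB0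
  · rw [← hB0]
    refine le_trans (le_of_eq (sum_eq_zero fun ω _ => if_neg (not_lt.2 ?_))) (by positivity)
    simp only [mul_zero, zero_mul]
    positivity
  set T : Set ℝ := (fun θ => -(lI / κ) * θ) ⁻¹' ((fun y => t0 + y) ⁻¹' B) with hT
  have hne : -(lI / κ) ≠ 0 := neg_ne_zero.2 (by positivity)
  have hv : volume.real T = κ / lI * volume.real B := by
    rw [hT, Measure.real, Real.volume_preimage_mul_left hne, measure_preimage_add,
      ENNReal.toReal_mul, ENNReal.toReal_ofReal (abs_nonneg _), inv_neg, abs_neg, inv_div,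
      abs_of_pos (by positivity)]
    rfl
  have hTm : MeasurableSet T :=
    (measurable_const_mul _) ((measurable_const_add t0) hB)
  have habs : ∀ θ ∈ T, |-(lI / κ) * θ| ≤ lI := fun θ hθ => by
    have := hB1 hθ
    rw [abs_le]
    constructor <;> linarith [this.1, this.2]
  have hT1 : T ⊆ Set.Icc (-π) π := fun θ hθ => by
    have a1 := habs θ hθ
    rw [abs_mul, abs_neg, abs_of_pos (by positivity), div_mul_eq_mul_div, div_le_iff₀ hκ] at a1
    have a2 : |θ| ≤ κ := le_of_mul_le_mul_left a1 hI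
    have := pi_gt_three
    exact abs_le.1 (by linarith)
  refine light hP (fun ω => ⌊Z ω * lI / κ⌋) (fun ω => -(Z ω * (t0 - tc)))
    (fun ω => ⌊Z ω * lJ / κ⌋) (e := g + 2 * κ) hM hTm hT1 (by rw [hv]; positivity)
    (fun θ hθ => ?_) _ (fun ω hω => ?_)
  · obtain ⟨t1, h1, h2⟩ := h _ hθ
    set τ := -(lI / κ) * θ with hτ
    obtain ⟨u, hu, hu'⟩ := Complex.exists_norm_eq_mul_self (∑ ω, (P ω : ℂ) * ex (Z ω) (t1 - tc))
    refine ⟨fun s => u * Complex.exp ((((s : ℝ) * (κ / lJ) * (t0 + τ - t1) : ℝ) : ℂ) * Complex.I),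
      fun s => by rw [norm_mul, hu, Complex.norm_exp_ofReal_mul_I, one_mul], ?_⟩
    have k1 : ∀ ω, (u * ((P ω : ℂ) * ex (Z ω) (t1 - tc))).re - P ω * (2 * κ) ≤ P ω *
        (u * Complex.exp ((((⌊Z ω * lJ / κ⌋ : ℝ) * (κ / lJ) * (t0 + τ - t1) : ℝ) : ℂ) * Complex.I) *
          Complex.exp (((-(Z ω * (t0 - tc)) + (⌊Z ω * lI / κ⌋ : ℤ) * θ : ℝ) : ℂ) * Complex.I)).re := by
      intro ω
      have e1 := U5.floor_err (Z ω) hκ hI.le (habs θ hθ)
      have e2 := U5.floor_err (Z ω) hκ hJ h1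
      set η := (Z ω - (⌊Z ω * lI / κ⌋ : ℝ) * (κ / lI)) * τ -
        (Z ω - (⌊Z ω * lJ / κ⌋ : ℝ) * (κ / lJ)) * (t0 + τ - t1) with hη
      have e3 : |η| ≤ 2 * κ := (abs_sub _ _).trans (by linarith)
      have e4 : Complex.exp ((((⌊Z ω * lJ / κ⌋ : ℝ) * (κ / lJ) * (t0 + τ - t1) : ℝ) : ℂ) *
          Complex.I) *
          Complex.exp (((-(Z ω * (t0 - tc)) + (⌊Z ω * lI / κ⌋ : ℤ) * θ : ℝ) : ℂ) * Complex.I) =
          ex (Z ω) (t1 - tc) * Complex.exp (Complex.I * (η : ℂ)) := by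
        unfold ex
        rw [← Complex.exp_add, ← Complex.exp_add]
        congr 1
        have : (⌊Z ω * lJ / κ⌋ : ℝ) * (κ / lJ) * (t0 + τ - t1) +
            (-(Z ω * (t0 - tc)) + (⌊Z ω * lI / κ⌋ : ℝ) * θ) = -(Z ω * (t1 - tc)) + η := by
          have a1 : κ / lI * τ = -θ := by rw [hτ]; field_simp
          rw [hη]
          linear_combination (⌊Z ω * lI / κ⌋ : ℝ) * a1
        rw [← add_mul, ← Complex.ofReal_add, this]
        push_cast
        ring
      rw [mul_assoc u, e4, mul_left_comm u, Complex.re_ofReal_mul, ← mul_sub]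
      refine mul_le_mul_of_nonneg_left ?_ (hP.nn ω)
      have e5 : ‖u * ex (Z ω) (t1 - tc) -
          u * (ex (Z ω) (t1 - tc) * Complex.exp (Complex.I * (η : ℂ)))‖ ≤ 2 * κ := by
        calc _ = ‖u * (ex (Z ω) (t1 - tc) * (Complex.exp (Complex.I * (η : ℂ)) - 1))‖ := by
              rw [← norm_neg]; congr 1; ring
          _ ≤ _ := by
            rw [norm_mul, norm_mul, hu, pth_norm_ex, one_mul, one_mul]
            exact Real.norm_exp_I_mul_ofReal_sub_one_le.trans e3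
      have e6 := (Complex.re_le_norm _).trans e5
      rw [Complex.sub_re] at e6
      linarith
    have s := sum_le_sum fun ω (_ : ω ∈ univ) => k1 ω
    rw [sum_sub_distrib, ← sum_mul, hP.one, ← Complex.re_sum, ← mul_sum, ← hu',
      Complex.ofReal_re] at s
    linarith
  · have a1 : law P (fun ω => (⌊Z ω * lI / κ⌋, ⌊Z ω * lJ / κ⌋)) (⌊Z ω * lI / κ⌋, ⌊Z ω * lJ / κ⌋) ≤
        law P (fun ω => ⌊Z ω * lI / κ⌋) ⌊Z ω * lI / κ⌋ := by
      simp only [law]
      refine sum_le_sum fun ω' _ => ?_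
      simp only [Prod.mk.injEq]
      have := hP.nn ω'
      split_ifs with c1 c2 <;> first | exact le_rfl | exact this | exact (c2 c1.1).elim
    refine (a1.trans (hm _)).trans ?_
    have M0 : 0 < M := by linarith
    rw [hv, div_mul_eq_mul_div, div_mul_eq_mul_div, div_mul_eq_mul_div, div_div,
      le_div_iff₀ (by positivity)]
    linarith

/-- **birth bound**: a pure set is small when all bins are light -/
theorem birth {P : Ω → ℝ} (hP : IsProb P) (Z : Ω → ℝ) {κ lI g t0 tc m0 : ℝ}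
    (hκ : 0 < κ) (hgκ : g + 2 * κ ≤ 1 / 5) (hg : 0 ≤ g) (hI : 0 < lI)
    (hm : ∀ a : ℤ, law P (fun ω => ⌊Z ω * lI / κ⌋) a ≤ m0)
    {B : Set ℝ} (hB : MeasurableSet B) (hB1 : B ⊆ Set.Icc (t0 - lI) (t0 + lI))
    (h : ∀ t ∈ B, 1 - g ≤ ‖∑ ω, (P ω : ℂ) * ex (Z ω) (t - tc)‖) :
    volume.real B ≤ 4 * π * m0 * lI / κ := by
  have := heavy hP Z (M := 2) (lJ := 0) (t0 := t0) (tc := tc) (by norm_num) hκ (by linarith) hI
    le_rfl hm hB hB1 (fun t ht => ⟨t, by simp, h t ht⟩) hg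
  by_contra hc
  rw [not_le, div_lt_iff₀ hκ] at hc
  have e : ∀ ω, law P (fun ω => ⌊Z ω * 0 / κ⌋) ⌊Z ω * 0 / κ⌋ = 1 := fun ω => by
    simp [law, hP.one]
  simp only [e] at this
  rw [sum_congr rfl (fun ω _ => if_pos (by linarith)), hP.one] at this
  linarith

theorem path_mem : ∀ (n : ℕ) {α ℓ x : ℝ}, x ∈ Set.Ico α (α + ℓ) →
    (path n α ℓ x).length = n ∧ nd α ℓ (path n α ℓ x) ≤ x ∧ x ≤ nd α ℓ (path n α ℓ x) + ℓ / 2 ^ n
  | 0, α, ℓ, x, hx => by simpa [path, nd] using ⟨hx.1, hx.2.le⟩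
  | n + 1, α, ℓ, x, hx => by
    have e : ℓ / 2 ^ (n + 1) = ℓ / 2 / 2 ^ n := by rw [pow_succ]; field_simp
    by_cases h : α + ℓ / 2 ≤ x
    · have := path_mem n (α := α + ℓ / 2) (ℓ := ℓ / 2) (x := x) ⟨h, by linarith [hx.2]⟩
      rw [pth_true h, e]
      simpa [nd, ch] using this
    · have := path_mem n (α := α) (ℓ := ℓ / 2) (x := x) ⟨hx.1, not_le.1 h⟩
      rw [pth_false h, e]
      simpa [nd, ch] using this

open Classical in
/-- **Lemma P**, tree form: `A` is the set of nodes of depth `k` containing a pure point -/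
theorem heavy_tree {P : Ω → ℝ} (hP : IsProb P) (Z : Ω → ℝ) {M κ α ℓ g tc m0 : ℝ} (hM : 1 ≤ M)
    (hκ : 0 < κ) (hκ1 : κ ≤ 1) (hℓ : 0 < ℓ) (hg : 0 ≤ g)
    (hm : ∀ a : ℤ, law P (fun ω => ⌊Z ω * ℓ / κ⌋) a ≤ m0) (k : ℕ) (A : List Bool → Prop)
    (h : ∀ v, v.length = k → A v → ∃ t1 ∈ Set.Icc (nd α ℓ v) (nd α ℓ v + ln ℓ v),
      1 - g ≤ ‖∑ ω, (P ω : ℂ) * ex (Z ω) (t1 - tc)‖) :
    ∑ ω, (if 2 * π * M * m0 < κ * avg k (fun v => if A v then 1 else 0) *
        law P (fun ω => ⌊Z ω * (ℓ / 2 ^ k) / κ⌋) ⌊Z ω * (ℓ / 2 ^ k) / κ⌋ then P ω else 0) ≤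
      2 * (g + 2 * κ) + 1 / M := by
  set Φ : List Bool → ℝ := fun v => if A v then 1 else 0 with hΦ
  have Φ0 : ∀ l, 0 ≤ Φ l := fun l => by simp only [hΦ]; split_ifs <;> norm_num
  set B : Set ℝ := Set.Ico α (α + ℓ) ∩ (fun x => Φ (path k α ℓ x)) ⁻¹' {1} with hB
  have m1 : MeasurableSet ((fun x => Φ (path k α ℓ x)) ⁻¹' {1}) :=
    measurable_path_comp Φ k α ℓ (measurableSet_singleton 1)
  have hv : volume.real B = ℓ * avg k Φ := by
    have a1 := lintegral_path Φ0 k α hℓ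
    have a2 : (fun x => ENNReal.ofReal (Φ (path k α ℓ x))) =
        ((fun x => Φ (path k α ℓ x)) ⁻¹' {1}).indicator 1 := by
      funext x
      by_cases hx : A (path k α ℓ x) <;> simp [hΦ, Set.indicator, hx]
    rw [a2, lintegral_indicator_one m1, Measure.restrict_apply m1, Set.inter_comm] at a1
    rw [Measure.real, hB, a1, ENNReal.toReal_ofReal (mul_nonneg hℓ.le (pth_avg_nonneg Φ0 k))]
  have := heavy hP Z (t0 := α) (tc := tc) (lJ := ℓ / 2 ^ k) hM hκ hκ1 hℓ (by positivity) hm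
    (B := B) (measurableSet_Ico.inter m1)
    (fun t ht => ⟨by linarith [ht.1.1], ht.1.2.le⟩) (fun t ht => by
      obtain ⟨p1, p2, p3⟩ := path_mem k ht.1
      have hA : A (path k α ℓ t) := by
        by_contra hA
        have := ht.2
        simp [hΦ, hA] at this
      obtain ⟨t1, q1, q2⟩ := h _ p1 hA
      refine ⟨t1, ?_, q2⟩
      have q3 := q1.2
      rw [ln, p1] at q3
      rw [abs_le]
      constructor <;> linarith [q1.1]) hg
  refine le_trans (le_of_eq (sum_congr rfl fun ω _ => if_congr ?_ rfl rfl)) this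
  rw [hv, show κ * (ℓ * avg k Φ) * law P (fun ω => ⌊Z ω * (ℓ / 2 ^ k) / κ⌋) ⌊Z ω * (ℓ / 2 ^ k) / κ⌋ =
    κ * avg k Φ * law P (fun ω => ⌊Z ω * (ℓ / 2 ^ k) / κ⌋) ⌊Z ω * (ℓ / 2 ^ k) / κ⌋ * ℓ by ring,
    mul_lt_mul_iff_left₀ hℓ]

end Crest.Agent.R100.P5
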