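import Crest.Agent.R100.LifeBasic

set_option autoImplicit false

open MeasureTheory Set

noncomputable section

namespace Crest.Agent.R100.Life

open Crest.Agent.R100 Crest.Agent.R100.Low Crest.Agent.R100.Run

variable {Y Ω : Type} [Fintype Y] [Fintype Ω] {R P μ : ℝ} {h : Y → List Bool → ℝ → ℝ} {α ℓ : ℝ}
  {A : List Bool → Prop} {lam Z : Ω → ℝ}

theorem LifeLip_core {f : ℝ → ℂ} (hf : Measurable f) {M : ℝ} (hM : ∀ y, ‖f y‖ ≤ M) (ξ β : ℝ)
    {a b lam x : ℝ} (hl : 0 < lam) (hab : a ≤ b) (hb : b ≤ a + lam) (h1 : a ≤ x)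
    (h2 : x ≤ a + lam) :
    ‖(∫ y in a..b, f y * ex ξ y) - ex (ξ - β) x * ∫ y in a..b, f y * ex β y‖ ≤
      |ξ - β| * lam * ∫ y in a..a + lam, ‖f y‖ := by
  have hc : ∀ t : ℝ, Continuous (ex t) := fun t => by unfold ex; fun_prop
  have hi : ∀ t : ℝ, IntervalIntegrable (fun y => f y * ex t y) volume a b := fun t =>
    (famA_int hf hM a b).mul_continuousOn (hc t).continuousOn
  have hn := (famA_int hf hM a (a + lam)).norm
  have hn' := (famA_int hf hM a b).norm
  have h4 : ∫ y in a..b, ‖f y‖ ≤ ∫ y in a..a + lam, ‖f y‖ :=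
    intervalIntegral.integral_mono_interval le_rfl hab hb
      (Filter.Eventually.of_forall fun y => norm_nonneg _) hn
  rw [← intervalIntegral.integral_const_mul, ← intervalIntegral.integral_sub (hi ξ)
    ((hi β).const_mul _)]
  refine (intervalIntegral.norm_integral_le_of_norm_le hab (g := fun y => |ξ - β| * lam * ‖f y‖)
    (Filter.Eventually.of_forall fun y hy => ?_) (hn'.const_mul _)).trans ?_
  · have e : f y * ex ξ y - ex (ξ - β) x * (f y * ex β y) =
        (ex ξ y - ex (ξ - β) x * ex β y) * f y := by ring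
    rw [e, norm_mul]
    refine mul_le_mul_of_nonneg_right ((famA_ex_sub ξ β y x).trans ?_) (norm_nonneg _)
    refine mul_le_mul_of_nonneg_left (abs_le.2 ⟨?_, ?_⟩) (abs_nonneg _) <;> linarith [hy.1, hy.2]
  · rw [intervalIntegral.integral_const_mul]
    exact mul_le_mul_of_nonneg_left h4 (by positivity)

theorem LifeLip_sup (hD : Data R P μ h α ℓ A lam Z) (y : Y) (v : List Bool) (t : ℝ) :
    h y v t ≤ Real.exp (3 * R) * P := by
  induction v using List.reverseRecOn with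
  | nil => exact hD.sup y t
  | append_singleton v c ih => exact (hD.dec y v c t).trans ih

theorem LifeLip_dd (hD : Data R P μ h α ℓ A lam Z) (ζ ζ' : ℝ) (l : List Bool) (k : ℕ) (y : Y) :
    ‖dd h α ℓ ζ y (l.take k) - ex (ζ - ζ') (nd α ℓ l) * dd h α ℓ ζ' y (l.take k)‖ ≤
      3 * (|ζ - ζ'| * ln ℓ (l.take k)) * ms h α ℓ y (l.take k) (l.take k) := by
  set v := l.take k with hv
  have hl : 0 < ln ℓ v := by have := hD.hl; unfold ln; positivity
  have hx := famA_nd_mem (l.drop k) (nd α ℓ v) _ hl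
  rw [← famA_nd_append, hv, List.take_append_drop, ← hv] at hx
  have hf : Measurable fun t => (h y v t : ℂ) := Complex.measurable_ofReal.comp (hD.meas y v)
  have hn : ∀ t, ‖(h y v t : ℂ)‖ = h y v t := fun t => by
    rw [Complex.norm_real, Real.norm_of_nonneg (hD.nn y v t)]
  have hM : ∀ t, ‖(h y v t : ℂ)‖ ≤ Real.exp (3 * R) * P := fun t => by
    rw [hn]; exact LifeLip_sup hD y v t
  have hI : ∫ t in nd α ℓ v..nd α ℓ v + ln ℓ v, ‖(h y v t : ℂ)‖ = ln ℓ v * ms h α ℓ y v v := by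
    simp only [hn]; unfold ms av; field_simp
  have h1 : ‖cf h α ℓ ζ y v v - ex (ζ - ζ') (nd α ℓ l) * cf h α ℓ ζ' y v v‖ ≤
      |ζ - ζ'| * ln ℓ v * ms h α ℓ y v v := by
    have h := LifeLip_core hf hM ζ ζ' hl (by linarith) le_rfl hx.1 hx.2
    rw [hI] at h
    unfold cf U cu
    rw [← mul_div_assoc, ← sub_div, norm_div, Complex.norm_real, Real.norm_of_nonneg hl.le,
      div_le_iff₀ hl]
    linarith
  have h2 : ‖cf h α ℓ ζ y v (v ++ [false]) -
      ex (ζ - ζ') (nd α ℓ l) * cf h α ℓ ζ' y v (v ++ [false])‖ ≤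
      2 * (|ζ - ζ'| * ln ℓ v * ms h α ℓ y v v) := by
    have h := LifeLip_core hf hM ζ ζ' (b := nd α ℓ v + ln ℓ v / 2) hl (by linarith)
      (by linarith) hx.1 hx.2
    rw [hI] at h
    have hl2 : 0 < ln ℓ v / 2 := by linarith
    have e2 : ch false (nd α ℓ v) (ln ℓ v) = nd α ℓ v := by simp [ch]
    unfold cf U cu
    rw [nd_snoc, ln_snoc, e2, ← mul_div_assoc, ← sub_div, norm_div, Complex.norm_real,
      Real.norm_of_nonneg hl2.le, div_le_iff₀ hl2]
    linarith
  have e : dd h α ℓ ζ y v - ex (ζ - ζ') (nd α ℓ l) * dd h α ℓ ζ' y v =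
      (cf h α ℓ ζ y v (v ++ [false]) -
        ex (ζ - ζ') (nd α ℓ l) * cf h α ℓ ζ' y v (v ++ [false])) -
      (cf h α ℓ ζ y v v - ex (ζ - ζ') (nd α ℓ l) * cf h α ℓ ζ' y v v) := by
    unfold dd; ring
  rw [e]
  refine (norm_sub_le _ _).trans ?_
  linarith

theorem LifeLip_geom (c : ℝ) {s t : ℕ} (hst : s ≤ t) :
    ∑ k ∈ Finset.Ico s t, c / 2 ^ k = 2 * (c / 2 ^ s) - 2 * (c / 2 ^ t) := by
  induction t, hst using Nat.le_induction with
  | base => simp
  | succ t hst ih => rw [Finset.sum_Ico_succ_top hst, ih, pow_succ]; ring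

/-- replace the frequency: one unimodular phase for the whole path, geometric error -/
theorem Wn_lip (hD : Data R P μ h α ℓ A lam Z) {φ : Y → ℂ} (hφ : ∀ y, ‖φ y‖ ≤ 1) (ζ ζ' : ℝ)
    (l : List Bool) (s t : ℕ) (ht : t ≤ l.length) :
    ‖Wn h α ℓ A φ ζ l s t‖ ≤
      ‖Wn h α ℓ A φ ζ' l s t‖ + 6 * P * (|ζ - ζ'| * ln ℓ (l.take s)) := by
  classical
  have hl := hD.hl
  have hP := hD.hP
  rcases le_or_gt t s with hts | hst
  · have h0 : 0 ≤ ln ℓ (l.take s) := by unfold ln; positivity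
    have h1 : Wn h α ℓ A φ ζ l s t = 0 := by
      unfold Wn wD; rw [Finset.Ico_eq_empty_of_le hts, Finset.sum_empty]
    rw [h1, norm_zero]; positivity
  set ω := ex (ζ - ζ') (nd α ℓ l) with hω
  have hln : ∀ k, k ≤ l.length → ln ℓ (l.take k) = ℓ / 2 ^ k := fun k hk => by
    rw [ln, List.length_take, min_eq_left hk]
  have key : ‖Wn h α ℓ A φ ζ l s t - ω * Wn h α ℓ A φ ζ' l s t‖ ≤
      ∑ k ∈ Finset.Ico s t, 3 * P * |ζ - ζ'| * ℓ / 2 ^ k := by
    unfold Wn wD
    rw [Finset.mul_sum, ← Finset.sum_sub_distrib]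
    refine (norm_sum_le _ _).trans (Finset.sum_le_sum fun k hk => ?_)
    have hk' : k ≤ l.length := (Finset.mem_Ico.1 hk).2.le.trans ht
    unfold tD
    have hs : ‖(sig (l.getD k false) (l.getD (k + 1) false) : ℂ)‖ ≤ 1 := by
      rw [Complex.norm_real]; unfold sig; split_ifs <;> simp
    rw [mul_left_comm, ← mul_sub, norm_mul]
    refine (mul_le_of_le_one_left (norm_nonneg _) hs).trans ?_
    beta_reduce
    by_cases hA : A (l.take k)
    · rw [if_pos hA, if_pos hA, Finset.mul_sum, ← Finset.sum_sub_distrib]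
      refine (norm_sum_le _ _).trans ?_
      calc _ ≤ ∑ y, 3 * (|ζ - ζ'| * ln ℓ (l.take k)) * ms h α ℓ y (l.take k) (l.take k) := by
            refine Finset.sum_le_sum fun y _ => ?_
            rw [mul_left_comm, ← mul_sub, norm_mul]
            exact (mul_le_of_le_one_left (norm_nonneg _) (hφ y)).trans (LifeLip_dd hD ζ ζ' l k y)
        _ ≤ 3 * (|ζ - ζ'| * ln ℓ (l.take k)) * P := by
            rw [← Finset.mul_sum]
            refine mul_le_mul_of_nonneg_left (hD.mass _ hA) ?_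
            rw [hln k hk']; positivity
        _ = _ := by rw [hln k hk']; ring
    · rw [if_neg hA, if_neg hA, mul_zero, sub_zero, norm_zero]; positivity
  rw [LifeLip_geom _ hst.le] at key
  have h1 : ‖ω * Wn h α ℓ A φ ζ' l s t‖ = ‖Wn h α ℓ A φ ζ' l s t‖ := by
    rw [norm_mul, hω, famA_norm_ex, one_mul]
  have h2 := norm_sub_norm_le (Wn h α ℓ A φ ζ l s t) (ω * Wn h α ℓ A φ ζ' l s t)
  have h3 : 0 ≤ 3 * P * |ζ - ζ'| * ℓ / 2 ^ t := by positivity
  rw [hln s (hst.le.trans ht)]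
  have h4 : 6 * P * (|ζ - ζ'| * (ℓ / 2 ^ s)) = 2 * (3 * P * |ζ - ζ'| * ℓ / 2 ^ s) := by ring
  linarith

end Crest.Agent.R100.Life
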