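import Crest.Agent.R100.LifeRun
import Crest.Agent.R100.LifeLip
import Crest.Agent.R100.CandDefs

/-! # Row 100, LIFE (helper88): the cost of the labelled windows of one level -/

set_option autoImplicit false
set_option linter.unusedSectionVars false

open MeasureTheory Set

noncomputable section

namespace Crest.Agent.R100.St88

open Crest.Agent.R100 Crest.Agent.R100.Low Crest.Agent.R100.Run Crest.Agent.R100.Life
  Crest.Agent.R100.Cand

variable {Y Ω : Type} [Fintype Y] [Fintype Ω] {R P μ : ℝ} {h : Y → List Bool → ℝ → ℝ} {α ℓ : ℝ}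
  {A : List Bool → Prop} {lam Z : Ω → ℝ}

/-- the weights of a finite set of marked nodes -/
theorem sum_nodes (Cd : List Bool → Prop) (n : ℕ) (V : Finset (List Bool))
    (hV : ∀ v ∈ V, v.length ≤ n ∧ Cd v) :
    ∑ v ∈ V, (1 : ℝ) / 2 ^ v.length ≤ avg n (cnt Cd n) := by
  classical
  have h1 : ∀ v ∈ V, (1 : ℝ) / 2 ^ v.length = avg n (fun l => if v <+: l then 1 else 0) := by
    intro v hv
    obtain ⟨m, rfl⟩ := Nat.exists_eq_add_of_le (hV v hv).1
    have := avg_cyl v m (fun _ => 1)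
    rw [avg_const] at this
    convert this.symm
  rw [Finset.sum_congr rfl h1, ← avg_sum]
  refine avg_mono_len n fun l _ => ?_
  unfold cnt
  rw [Finset.sum_boole, Finset.sum_boole, Nat.cast_le]
  refine Finset.card_le_card_of_injOn List.length (fun v hv => ?_) (fun v hv v' hv' e => ?_)
  · have hv' := Finset.mem_filter.1 (Finset.mem_coe.1 hv)
    refine Finset.mem_coe.2 (Finset.mem_filter.2 ⟨Finset.mem_range.2
      (Nat.lt_succ_of_le (hV v hv'.1).1), ?_⟩)
    rw [← List.prefix_iff_eq_take.1 hv'.2]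
    exact (hV v hv'.1).2
  · have h2 := (Finset.mem_filter.1 (Finset.mem_coe.1 hv)).2
    have h3 := (Finset.mem_filter.1 (Finset.mem_coe.1 hv')).2
    rw [List.prefix_iff_eq_take.1 h2, List.prefix_iff_eq_take.1 h3, e]

open Classical in
/-- **LEVEL** (the statement of `Life.stage_cost`) -/
theorem stage_cost88 (hD : Data R P μ h α ℓ A lam Z) {φ : Ω → Y → ℂ} (hφ : ∀ ω y, ‖φ ω y‖ ≤ 1)
    (n : ℕ) (ξ : List Bool → ℝ) {Cd : List Bool → Prop} {M κ b ε τ μ1 : ℝ} (hM : 1 ≤ M)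
    (hCd : avg n (Cand.cnt Cd n) ≤ M) (hε : 0 < ε) (hε1 : ε ≤ 1) (hτ : 0 ≤ τ)
    (hμ1 : 0 < μ1)
    (hbin : ∀ v, A v → ∀ a : ℝ,
      ∑ ω, (if a ≤ Z ω ∧ Z ω ≤ a + 1 / ln ℓ v then lam ω else 0) ≤ μ1)
    (hcnt : ∀ v, A v → ∀ F : Finset ℤ, (∀ N ∈ F, b ≤ SS h α ℓ (lat κ ℓ v N) v) →
      (F.card : ℝ) ≤ Real.exp τ / μ1)
    (J s t : List Bool → Ω → ℕ) (z : List Bool → Ω → ℝ)
    (hw : ∀ l, l.length = n → ∀ ω, s l ω < t l ω →
      J l ω ≤ s l ω ∧ t l ω ≤ n - 1 ∧ Cd (l.take (J l ω)) ∧ A (l.take (J l ω)) ∧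
      (∃ N : ℤ, z l ω = lat κ ℓ (l.take (J l ω)) N) ∧ b ≤ SS h α ℓ (z l ω) (l.take (J l ω)) ∧
      (∀ k, J l ω ≤ k → k ≤ t l ω → A (l.take k) → SS h α ℓ (z l ω) (l.take k) ≤ ε ^ 2 * P) ∧
      |ξ l + Z ω - z l ω| * ln ℓ (l.take (s l ω)) ≤ 1 / 2) :
    ∑ ω, lam ω * avg n (fun l => ‖Wn h α ℓ A (φ ω) (ξ l + Z ω) l (s l ω) (t l ω)‖) ≤
      1024 * ε * P * (τ + Real.log M + 2) + 5120 / ε * P * (1 + Real.log (Fintype.card Y)) +
        3 * P := by
  have hP := hD.hP
  have hℓ := hD.hl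
  have hN : ∀ l ω, ∃ N : ℤ, l.length = n → s l ω < t l ω →
      z l ω = lat κ ℓ (l.take (J l ω)) N := fun l ω => by
    by_cases hh : l.length = n ∧ s l ω < t l ω
    · obtain ⟨N, e⟩ := (hw l hh.1 ω hh.2).2.2.2.2.1
      exact ⟨N, fun _ _ => e⟩
    · exact ⟨0, fun a c => absurd ⟨a, c⟩ hh⟩
  choose N hN using hN
  set lab : List Bool → Ω → List Bool × ℤ := fun l ω => (l.take (J l ω), N l ω) with hlab
  set Lab : Finset (List Bool × ℤ) :=
    (((List.finite_length_eq Bool n).toFinset ×ˢ (Finset.univ : Finset Ω)).filter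
      fun x => s x.1 x.2 < t x.1 x.2).image fun x => lab x.1 x.2 with hLab
  have hmem : ∀ j ∈ Lab, ∃ l ω, l.length = n ∧ s l ω < t l ω ∧ lab l ω = j := fun j hj => by
    obtain ⟨x, hx, e⟩ := Finset.mem_image.1 hj
    obtain ⟨h1, h2⟩ := Finset.mem_filter.1 hx
    exact ⟨x.1, x.2, by simpa using (Finset.mem_product.1 h1).1, h2, e⟩
  have hlen : ∀ l, l.length = n → ∀ ω, s l ω < t l ω → (l.take (J l ω)).length = J l ω :=
    fun l hl ω hst => by
      obtain ⟨h1, h2, -⟩ := hw l hl ω hst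
      rw [List.length_take]; omega
  have hq0 : 0 < μ1 / Real.exp τ := by positivity
  have key := life_run hD Lab Prod.fst (fun j => lat κ ℓ j.1 j.2) hε hε1 hM hτ φ hφ n
    (fun l ω => s l ω < t l ω ∧ A (l.take (s l ω))) lab s t (fun _ => μ1 / Real.exp τ)
    (fun _ _ => hq0.le) ?_ ?_ ?_
  · refine le_trans ?_ (add_le_add key (le_refl (3 * P)))
    have e6 : 3 * P = ∑ ω, lam ω * (3 * P) := by rw [← Finset.sum_mul, hD.lone, one_mul]
    rw [e6, ← Finset.sum_add_distrib]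
    refine Finset.sum_le_sum fun ω _ => ?_
    rw [← mul_add]
    refine mul_le_mul_of_nonneg_left ?_ (hD.lnn ω)
    rw [← avg_const n (3 * P), ← avg_add']
    refine avg_mono_len n fun l hl => ?_
    by_cases hst : s l ω < t l ω ∧ A (l.take (s l ω))
    · obtain ⟨-, h2, -, -, -, -, -, h8⟩ := hw l hl ω hst.1
      have h9 := Wn_lip hD (hφ ω) (ξ l + Z ω) (z l ω) l (s l ω) (t l ω) (by omega)
      rw [if_pos hst]
      simp only [hlab, ← hN l ω hl hst.1]
      have : 6 * P * (|ξ l + Z ω - z l ω| * ln ℓ (l.take (s l ω))) ≤ 6 * P * (1 / 2) := by gcongr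
      linarith
    · have : Wn h α ℓ A (φ ω) (ξ l + Z ω) l (s l ω) (t l ω) = 0 := by
        unfold Wn wD
        refine Finset.sum_eq_zero fun k hk => ?_
        obtain ⟨k1, k2⟩ := Finset.mem_Ico.1 hk
        have hA : ¬A (l.take k) := fun hA => hst ⟨by omega, by
          have := hD.her _ (s l ω) hA
          rwa [List.take_take, min_eq_left k1] at this⟩
        simp only [tD, if_neg hA, mul_zero]
      rw [this, if_neg hst, norm_zero]
      positivity
  · -- the prior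
    rw [← Finset.sum_fiberwise_of_maps_to (s := Lab) (t := Lab.image Prod.fst) (g := Prod.fst)
      (fun j hj => Finset.mem_image_of_mem _ hj)]
    refine le_trans (Finset.sum_le_sum fun v hv => ?_)
      ((sum_nodes Cd n (Lab.image Prod.fst) fun v hv => ?_).trans hCd)
    · have e1 : ∑ j ∈ Lab with j.1 = v, μ1 / Real.exp τ / 2 ^ j.1.length =
          ((Lab.filter fun j => j.1 = v).card : ℝ) * (μ1 / Real.exp τ / 2 ^ v.length) := by
        rw [← nsmul_eq_mul, ← Finset.sum_const]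
        exact Finset.sum_congr rfl fun j hj => by rw [(Finset.mem_filter.1 hj).2]
      obtain ⟨j0, hj0, rfl⟩ := Finset.mem_image.1 hv
      obtain ⟨l0, ω0, a1, a2, a3⟩ := hmem j0 hj0
      have hA0 : A j0.1 := by
        rw [← a3]
        exact (hw l0 a1 ω0 a2).2.2.2.1
      have e2 := hcnt j0.1 hA0 ((Lab.filter fun j => j.1 = j0.1).image Prod.snd) fun N' hN' => by
        obtain ⟨j, hj, rfl⟩ := Finset.mem_image.1 hN'
        obtain ⟨b1, b2⟩ := Finset.mem_filter.1 hj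
        obtain ⟨l, ω, c1, c2, c3⟩ := hmem j b1
        have := (hw l c1 ω c2).2.2.2.2.2.1
        rw [hN l ω c1 c2] at this
        rw [← b2, ← c3]
        exact this
      rw [Finset.card_image_of_injOn fun j hj j' hj' e => Prod.ext
        ((Finset.mem_filter.1 (Finset.mem_coe.1 hj)).2.trans
          (Finset.mem_filter.1 (Finset.mem_coe.1 hj')).2.symm) e] at e2
      rw [e1]
      refine le_trans (mul_le_mul_of_nonneg_right e2 (by positivity)) (le_of_eq ?_)
      field_simp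
    · obtain ⟨j0, hj0, rfl⟩ := Finset.mem_image.1 hv
      obtain ⟨l0, ω0, a1, a2, a3⟩ := hmem j0 hj0
      rw [← a3]
      refine ⟨?_, (hw l0 a1 ω0 a2).2.2.1⟩
      simp only [hlab, List.length_take]; omega
  · intro l hl ω hst'
    have hst := hst'.1
    obtain ⟨h1, h2, -, -, -, -, h7, -⟩ := hw l hl ω hst
    refine ⟨Finset.mem_image.2 ⟨(l, ω), Finset.mem_filter.2 ⟨Finset.mem_product.2
      ⟨by simpa using hl, Finset.mem_univ _⟩, hst⟩, rfl⟩, List.take_prefix _ _, fun _ => ?_⟩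
    simp only [hlab, hlen l hl ω hst, ← hN l ω hl hst]
    exact ⟨h1, by omega, h7⟩
  · intro l hl j _
    have e0 : Real.exp τ * (μ1 / Real.exp τ) = μ1 := by field_simp
    rw [e0]
    by_cases hne : (Finset.univ.filter fun ω =>
      (s l ω < t l ω ∧ A (l.take (s l ω))) ∧ lab l ω = j).Nonempty
    · obtain ⟨ω0, b1, b2⟩ := Finset.exists_max_image _ (s l) hne
      obtain ⟨-, ⟨c1, c2⟩, -⟩ := Finset.mem_filter.1 b1
      have hln : ∀ ω, s l ω < t l ω → ln ℓ (l.take (s l ω)) = ℓ / 2 ^ s l ω := fun ω hω => by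
        have := (hw l hl ω hω).2.1
        rw [ln, List.length_take, min_eq_left (by omega)]
      have hpos : 0 < ℓ / 2 ^ s l ω0 := by positivity
      refine le_trans (Finset.sum_le_sum fun ω _ => ?_) (hbin _ c2
        (lat κ ℓ j.1 j.2 - ξ l - 1 / (ℓ / 2 ^ s l ω0) / 2))
      by_cases hω : (s l ω < t l ω ∧ A (l.take (s l ω))) ∧ lab l ω = j
      · have d1 := b2 ω (Finset.mem_filter.2 ⟨Finset.mem_univ _, hω⟩)
        have d2 := (hw l hl ω hω.1.1).2.2.2.2.2.2.2
        rw [hln ω hω.1.1] at d2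
        have d3 : z l ω = lat κ ℓ j.1 j.2 := by rw [hN l ω hl hω.1.1, ← hω.2]
        have d4 : ℓ / 2 ^ s l ω0 ≤ ℓ / 2 ^ s l ω :=
          div_le_div_of_nonneg_left hℓ.le (by positivity) (pow_le_pow_right₀ (by norm_num) d1)
        have d5 : |ξ l + Z ω - z l ω| ≤ 1 / (ℓ / 2 ^ s l ω0) / 2 := by
          rw [div_right_comm, le_div_iff₀ hpos]
          exact le_trans (mul_le_mul_of_nonneg_left d4 (abs_nonneg _)) d2
        rw [d3, abs_le] at d5
        rw [if_pos hω, hln ω0 c1, if_pos ⟨by linarith [d5.1], by linarith [d5.2]⟩]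
      · rw [if_neg hω]
        split_ifs
        · exact hD.lnn ω
        · exact le_rfl
    · refine le_trans (le_of_eq (Finset.sum_eq_zero fun ω _ => if_neg fun hh =>
        hne ⟨ω, Finset.mem_filter.2 ⟨Finset.mem_univ _, hh⟩⟩)) hμ1.le

end Crest.Agent.R100.St88
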