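import Crest.Agent.R100.LowFamA

/-!
# Row 100, Lemma P (helper46): a mask that is pure on many nodes of depth `k` has light bins
-/

set_option autoImplicit false

open MeasureTheory Set
open scoped Real

noncomputable section

namespace Crest.Agent.R100.P46

open Crest.Agent.R100 Crest.Agent.R100.Low

theorem cont_ex (ξ : ℝ) : Continuous (ex ξ) := by
  unfold ex; fun_prop

theorem norm_ex (ξ y : ℝ) : ‖ex ξ y‖ = 1 := lowFamA_norm_ex ξ y

theorem ex_add (ξ x y : ℝ) : ex ξ (x + y) = ex ξ x * ex ξ y := by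
  unfold ex
  rw [← Complex.exp_add]
  congr 1
  push_cast; ring

theorem ex_mul_conj (ξ β y : ℝ) : ex ξ y * (starRingEnd ℂ) (ex β y) = ex (ξ - β) y := by
  unfold ex
  rw [← Complex.exp_conj, ← Complex.exp_add]
  congr 1
  simp only [map_mul, map_neg, Complex.conj_ofReal, Complex.conj_I]
  push_cast; ring

theorem ex_sub_le (ξ β y : ℝ) : ‖ex ξ y - ex β y‖ ≤ |ξ - β| * |y| := by
  have h := famA_ex_sub ξ β y 0
  have e : ex (ξ - β) 0 = 1 := by simp [ex]
  rwa [e, one_mul, sub_zero] at h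

theorem int_ex_period {h : ℝ} (hh : 0 < h) (j : ℤ) (N : ℕ) (a t0 : ℝ) :
    ∫ t in a..a + N * (2 * π / h), ex (h * j) (t - t0) =
      if j = 0 then ((N * (2 * π / h) : ℝ) : ℂ) else 0 := by
  split_ifs with hj
  · subst hj
    simp [ex]
  · have hc : (-((h * j : ℝ) : ℂ) * Complex.I) ≠ 0 := by
      have : (h * j : ℝ) ≠ 0 := mul_ne_zero hh.ne' (by exact_mod_cast hj)
      exact mul_ne_zero (neg_ne_zero.2 (by exact_mod_cast this)) Complex.I_ne_zero
    have e : ∀ t : ℝ, ex (h * j) (t - t0) =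
        ex (h * j) (-t0) * Complex.exp ((-((h * j : ℝ) : ℂ) * Complex.I) * t) := by
      intro t
      unfold ex
      rw [← Complex.exp_add]
      congr 1
      push_cast; ring
    simp only [e]
    rw [intervalIntegral.integral_const_mul, integral_exp_mul_complex hc]
    have e2 : (-((h * j : ℝ) : ℂ) * Complex.I) * ((a + N * (2 * π / h) : ℝ) : ℂ) =
        (-((h * j : ℝ) : ℂ) * Complex.I) * a + ((-(j * N) : ℤ) : ℂ) * (2 * π * Complex.I) := by
      have : (h : ℂ) ≠ 0 := by exact_mod_cast hh.ne'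
      push_cast
      field_simp
      ring
    rw [e2, Complex.exp_add, Complex.exp_int_mul_two_pi_mul_I]
    simp

/-- Bessel's inequality on an interval for frequencies in the lattice `h ℤ` -/
theorem bessel {ι : Type*} [Fintype ι] (c : ι → ℝ) (hc : ∀ i, 0 ≤ c i) (z : ι → ℤ) {h : ℝ}
    (hh : 0 < h) {m0 : ℝ} (hm : ∀ j : ℤ, ∑ i with z i = j, c i ≤ m0) (a : ℝ) {ℓ : ℝ} (hℓ : 0 ≤ ℓ)
    (t0 : ℝ) :
    ∫ t in a..a + ℓ, ‖∑ i, (c i : ℂ) * ex (h * z i) (t - t0)‖ ^ 2 ≤
      (ℓ + 2 * π / h) * m0 * ∑ i, c i := by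
  set N : ℕ := ⌈ℓ / (2 * π / h)⌉₊ with hN
  have hp : 0 < 2 * π / h := by positivity
  have hT1 : ℓ ≤ N * (2 * π / h) := by
    have := Nat.le_ceil (ℓ / (2 * π / h))
    rwa [div_le_iff₀ hp] at this
  have hT2 : N * (2 * π / h) ≤ ℓ + 2 * π / h := by
    have := (Nat.ceil_lt_add_one (div_nonneg hℓ hp.le)).le
    have h2 := mul_le_mul_of_nonneg_right this hp.le
    rwa [add_mul, div_mul_cancel₀ _ hp.ne', one_mul] at h2
  have hm0 : 0 ≤ m0 := (Finset.sum_nonneg fun i _ => hc i).trans (hm 0)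
  set T : ℝ := N * (2 * π / h) with hT
  have hcont : Continuous fun t : ℝ => ‖∑ i, (c i : ℂ) * ex (h * z i) (t - t0)‖ ^ 2 := by
    refine Continuous.pow (Continuous.norm (continuous_finsetSum _ fun i _ => ?_)) 2
    exact continuous_const.mul ((cont_ex _).comp (continuous_id.sub continuous_const))
  have h1 : ∫ t in a..a + ℓ, ‖∑ i, (c i : ℂ) * ex (h * z i) (t - t0)‖ ^ 2 ≤
      ∫ t in a..a + T, ‖∑ i, (c i : ℂ) * ex (h * z i) (t - t0)‖ ^ 2 :=
    intervalIntegral.integral_mono_interval le_rfl (by linarith) (by linarith)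
      (Filter.Eventually.of_forall fun t => by positivity) (hcont.intervalIntegrable _ _)
  have hct : ∀ i i' : ι, Continuous fun t : ℝ =>
      ((c i * c i' : ℝ) : ℂ) * ex (h * ((z i - z i' : ℤ) : ℝ)) (t - t0) := fun i i' =>
    continuous_const.mul ((cont_ex _).comp (continuous_id.sub continuous_const))
  have h2 : ((∫ t in a..a + T, ‖∑ i, (c i : ℂ) * ex (h * z i) (t - t0)‖ ^ 2 : ℝ) : ℂ) =
      ((∑ i, ∑ i', c i * c i' * (if z i - z i' = 0 then T else 0) : ℝ) : ℂ) := by
    rw [← intervalIntegral.integral_ofReal]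
    have e : ∀ t : ℝ, ((‖∑ i, (c i : ℂ) * ex (h * z i) (t - t0)‖ ^ 2 : ℝ) : ℂ) =
        ∑ i, ∑ i', ((c i * c i' : ℝ) : ℂ) * ex (h * ((z i - z i' : ℤ) : ℝ)) (t - t0) := by
      intro t
      rw [← Complex.normSq_eq_norm_sq, ← Complex.mul_conj, map_sum, Finset.sum_mul_sum]
      refine Finset.sum_congr rfl fun i _ => Finset.sum_congr rfl fun i' _ => ?_
      rw [map_mul, Complex.conj_ofReal]
      have := ex_mul_conj (h * z i) (h * z i') (t - t0)
      rw [show h * ((z i - z i' : ℤ) : ℝ) = h * z i - h * z i' by push_cast; ring, ← this]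
      push_cast; ring
    simp only [e]
    rw [intervalIntegral.integral_finsetSum fun i _ =>
      (continuous_finsetSum _ fun i' _ => hct i i').intervalIntegrable _ _, Complex.ofReal_sum]
    refine Finset.sum_congr rfl fun i _ => ?_
    rw [intervalIntegral.integral_finsetSum fun i' _ => (hct i i').intervalIntegrable _ _,
      Complex.ofReal_sum]
    refine Finset.sum_congr rfl fun i' _ => ?_
    rw [intervalIntegral.integral_const_mul, hT, int_ex_period hh (z i - z i') N a t0]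
    split_ifs <;> simp
  have h3 := Complex.ofReal_injective h2
  have hT0 : 0 ≤ T := hℓ.trans hT1
  have h4 : ∑ i, ∑ i', c i * c i' * (if z i - z i' = 0 then T else 0) ≤ ∑ i, T * m0 * c i := by
    refine Finset.sum_le_sum fun i _ => ?_
    have e : ∑ i', c i * c i' * (if z i - z i' = 0 then T else 0) =
        T * c i * ∑ i' with z i' = z i, c i' := by
      rw [Finset.sum_filter, Finset.mul_sum]
      refine Finset.sum_congr rfl fun i' _ => ?_
      by_cases hz : z i' = z i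
      · simp [hz]; ring
      · have : ¬ z i - z i' = 0 := fun h => hz (by omega)
        simp [hz, this]
    rw [e]
    have := mul_le_mul_of_nonneg_left (hm (z i)) (mul_nonneg hT0 (hc i))
    linarith
  rw [← Finset.mul_sum] at h4
  have h5 : T * m0 * ∑ i, c i ≤ (ℓ + 2 * π / h) * m0 * ∑ i, c i :=
    mul_le_mul_of_nonneg_right (mul_le_mul_of_nonneg_right hT2 hm0)
      (Finset.sum_nonneg fun i _ => hc i)
  linarith

/-- the average over the nodes of depth `k` of the node averages -/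
theorem avg_av {F : ℝ → ℝ} (hF : Continuous F) : ∀ (k : ℕ) (α ℓ : ℝ), 0 < ℓ →
    avg k (fun v => av F (nd α ℓ v) (ln ℓ v)) = av F α ℓ
  | 0, α, ℓ, _ => by simp [avg, nd, ln]
  | k + 1, α, ℓ, hℓ => by
    have e : ∀ (c : Bool) (u : List Bool), ln ℓ (c :: u) = ln (ℓ / 2) u := by
      intro c u
      simp only [ln, List.length_cons, pow_succ]
      field_simp
    simp only [avg, nd, e]
    rw [avg_av hF k _ _ (half_pos hℓ), avg_av hF k _ _ (half_pos hℓ)]
    simp only [av, ch, if_true, Bool.false_eq_true, if_false]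
    rw [show α + ℓ / 2 + ℓ / 2 = α + ℓ by ring,
      ← intervalIntegral.integral_add_adjacent_intervals (a := α) (b := α + ℓ / 2) (c := α + ℓ)
        (hF.intervalIntegrable _ _) (hF.intervalIntegrable _ _)]
    field_simp

theorem bin_step {ι : Type*} (s : Finset ι) (lam : ι → ℝ) (hl0 : ∀ i, 0 ≤ lam i) (ξ : ι → ℝ)
    {w κ : ℝ} (hbin : ∀ i ∈ s, ∀ i' ∈ s, |ξ i - ξ i'| ≤ w) (x y t0 : ℝ) (hκ : w * |x - y| ≤ κ) :
    ‖∑ i ∈ s, (lam i : ℂ) * ex (ξ i) (x - t0)‖ ≤
      ‖∑ i ∈ s, (lam i : ℂ) * ex (ξ i) (y - t0)‖ + κ * ∑ i ∈ s, lam i := by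
  rcases s.eq_empty_or_nonempty with rfl | ⟨i0, hi0⟩
  · simp
  have e : ∑ i ∈ s, (lam i : ℂ) * ex (ξ i) (x - t0) =
      ex (ξ i0) (x - y) * ∑ i ∈ s, (lam i : ℂ) * ex (ξ i) (y - t0) +
        ∑ i ∈ s, (lam i : ℂ) * ex (ξ i) (y - t0) * (ex (ξ i) (x - y) - ex (ξ i0) (x - y)) := by
    rw [Finset.mul_sum, ← Finset.sum_add_distrib]
    refine Finset.sum_congr rfl fun i _ => ?_
    rw [show x - t0 = (y - t0) + (x - y) by ring, ex_add]
    ring
  rw [e]
  refine (norm_add_le _ _).trans (add_le_add ?_ ?_)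
  · rw [norm_mul, norm_ex, one_mul]
  · rw [Finset.mul_sum]
    refine (norm_sum_le _ _).trans (Finset.sum_le_sum fun i hi => ?_)
    rw [norm_mul, norm_mul, norm_ex, mul_one, Complex.norm_real, Real.norm_of_nonneg (hl0 i),
      mul_comm κ]
    refine mul_le_mul_of_nonneg_left ((ex_sub_le _ _ _).trans ?_) (hl0 i)
    exact (mul_le_mul_of_nonneg_right (hbin i hi i0 hi0) (abs_nonneg _)).trans hκ

open Classical in
/-- **Lemma P.** -/
theorem lemmaP {ι B : Type*} [Fintype ι] (lam : ι → ℝ) (hl0 : ∀ i, 0 ≤ lam i)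
    (hl1 : ∑ i, lam i = 1) (z : ι → ℤ) {h : ℝ} (hh : 0 < h) {m0 : ℝ}
    (hm : ∀ j : ℤ, ∑ i with z i = j, lam i ≤ m0) (bin : ι → B) {w : ℝ}
    (hbin : ∀ i i', bin i = bin i' → |h * z i - h * z i'| ≤ w) (α : ℝ) {ℓ : ℝ} (hℓ : 0 < ℓ) (k : ℕ)
    (t0 : ℝ) {η κ : ℝ} (hη : 0 ≤ η + κ) (hw : w * (ℓ / 2 ^ k) ≤ κ) (S : List Bool → Prop)
    (hS : ∀ v : List Bool, v.length = k → S v → ∃ s ∈ Icc (nd α ℓ v) (nd α ℓ v + ln ℓ v),
      1 - η ≤ ‖∑ i, (lam i : ℂ) * ex (h * z i) (s - t0)‖) :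
    ∑ i with 4 * (1 + 2 * π / (h * ℓ)) * m0 <
        avg k (fun v => if S v then 1 else 0) * ∑ i' with bin i' = bin i, lam i', lam i ≤
      2 * (η + κ) := by
  set σ : ℝ := avg k (fun v => if S v then 1 else 0) with hσ
  set Λ : ℝ := 1 + 2 * π / (h * ℓ) with hΛ
  have hΛ0 : 0 < Λ := by positivity
  have hm0 : 0 ≤ m0 := (Finset.sum_nonneg fun i _ => hl0 i).trans (hm 0)
  have hσ0 : 0 ≤ σ := avg_nonneg_len k fun l _ => by split_ifs <;> norm_num
  set lb : B → ℝ := fun b => ∑ i with bin i = b, lam i with hlb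
  set ψ : B → ℝ → ℂ := fun b t => ∑ i with bin i = b, (lam i : ℂ) * ex (h * z i) (t - t0) with hψ
  set Bs : Finset B := Finset.univ.image bin with hBs
  have hmaps : ∀ i ∈ (Finset.univ : Finset ι), bin i ∈ Bs := fun i hi =>
    Finset.mem_image_of_mem _ hi
  set Hv : Finset B := Bs.filter fun b => 4 * Λ * m0 < σ * lb b with hHv
  have hlb0 : ∀ b, 0 ≤ lb b := fun b => Finset.sum_nonneg fun i _ => hl0 i
  have hH : ∑ i with 4 * Λ * m0 < σ * lb (bin i), lam i = ∑ b ∈ Hv, lb b := by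
    rw [Finset.sum_filter, ← Finset.sum_fiberwise_of_maps_to hmaps, hHv, Finset.sum_filter]
    refine Finset.sum_congr rfl fun b _ => ?_
    split_ifs with hb
    · refine Finset.sum_congr rfl fun i hi => ?_
      rw [(Finset.mem_filter.1 hi).2, if_pos hb]
    · refine Finset.sum_eq_zero fun i hi => ?_
      rw [(Finset.mem_filter.1 hi).2, if_neg hb]
  change ∑ i with 4 * Λ * m0 < σ * lb (bin i), lam i ≤ 2 * (η + κ)
  rw [hH]
  set H : ℝ := ∑ b ∈ Hv, lb b with hHdef
  have hpos : ∀ b ∈ Hv, 0 < lb b ∧ 4 * Λ * m0 < σ * lb b := by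
    intro b hb
    have h1 := (Finset.mem_filter.1 hb).2
    refine ⟨?_, h1⟩
    rcases (hlb0 b).lt_or_eq with h2 | h2
    · exact h2
    · rw [← h2, mul_zero] at h1
      exact absurd h1 (not_lt.2 (by positivity))
  rcases hσ0.eq_or_lt with hσz | hσp
  · have : H = 0 := Finset.sum_eq_zero fun b hb => by
      have h1 := (hpos b hb).2
      rw [← hσz, zero_mul] at h1
      exact absurd h1 (not_lt.2 (by positivity))
    linarith
  have hcψ : ∀ b, Continuous (ψ b) := fun b => continuous_finsetSum _ fun i _ =>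
    continuous_const.mul ((cont_ex _).comp (continuous_id.sub continuous_const))
  have hψle : ∀ b t, ‖ψ b t‖ ≤ lb b := fun b t =>
    (norm_sum_le _ _).trans (Finset.sum_le_sum fun i _ => by
      rw [norm_mul, norm_ex, mul_one, Complex.norm_real, Real.norm_of_nonneg (hl0 i)])
  have hsum1 : ∑ b ∈ Bs, lb b = 1 := by
    rw [← hl1]; exact Finset.sum_fiberwise_of_maps_to hmaps _
  set F : ℝ → ℝ := fun t => ∑ b ∈ Hv, ‖ψ b t‖ ^ 2 / lb b with hF
  have hFc : Continuous F := continuous_finsetSum _ fun b _ => ((hcψ b).norm.pow 2).div_const _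
  have hF0 : ∀ t, 0 ≤ F t := fun t => Finset.sum_nonneg fun b _ => div_nonneg (sq_nonneg _) (hlb0 b)
  obtain ⟨i0⟩ : Nonempty ι := by
    by_contra hne
    rw [not_nonempty_iff] at hne
    simp at hl1
  have hw0 : 0 ≤ w := by simpa using hbin i0 i0 rfl
  -- pointwise lower bound
  have hpt : ∀ v : List Bool, v.length = k → S v → ∀ t ∈ Icc (nd α ℓ v) (nd α ℓ v + ln ℓ v),
      3 / 4 * H - (η + κ) ≤ F t := by
    intro v hv hSv t ht
    obtain ⟨s, hs, hpure⟩ := hS v hv hSv
    have hst : w * |s - t| ≤ κ := by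
      refine le_trans (mul_le_mul_of_nonneg_left ?_ hw0) hw
      have : ln ℓ v = ℓ / 2 ^ k := by rw [ln, hv]
      rw [← this, abs_le]
      constructor <;> linarith [hs.1, hs.2, ht.1, ht.2]
    have h1 : ∑ i, (lam i : ℂ) * ex (h * z i) (s - t0) = ∑ b ∈ Bs, ψ b s :=
      (Finset.sum_fiberwise_of_maps_to hmaps _).symm
    have h2 : ∀ b, ‖ψ b s‖ ≤ ‖ψ b t‖ + κ * lb b := fun b =>
      bin_step _ lam hl0 (fun i => h * z i) (fun i hi i' hi' => hbin i i'
        ((Finset.mem_filter.1 hi).2.trans (Finset.mem_filter.1 hi').2.symm)) s t t0 hst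
    have h3 : 1 - η ≤ ∑ b ∈ Bs, ‖ψ b t‖ + κ := by
      rw [h1] at hpure
      refine hpure.trans ((norm_sum_le _ _).trans ((Finset.sum_le_sum fun b _ => h2 b).trans ?_))
      rw [Finset.sum_add_distrib, ← Finset.mul_sum, hsum1, mul_one]
    have h4 : ∑ b ∈ Bs, ‖ψ b t‖ ≤
        ∑ b ∈ Bs, (lb b + if 4 * Λ * m0 < σ * lb b then ‖ψ b t‖ ^ 2 / lb b - 3 / 4 * lb b else 0) := by
      refine Finset.sum_le_sum fun b hb => ?_
      split_ifs with hb'
      · have hp := (hpos b (Finset.mem_filter.2 ⟨hb, hb'⟩)).1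
        have : ‖ψ b t‖ - lb b / 4 ≤ ‖ψ b t‖ ^ 2 / lb b := by
          rw [le_div_iff₀ hp]
          nlinarith [sq_nonneg (‖ψ b t‖ - lb b / 2)]
        linarith
      · simpa using hψle b t
    rw [Finset.sum_add_distrib, hsum1, ← Finset.sum_filter, ← hHv, Finset.sum_sub_distrib,
      ← Finset.mul_sum] at h4
    change _ ≤ 1 + (F t - 3 / 4 * H) at h4
    linarith
  have hlow : σ * (3 / 4 * H - (η + κ)) ≤ av F α ℓ := by
    rw [← avg_av hFc k α ℓ hℓ, mul_comm, hσ, ← avg_mul_left]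
    refine avg_mono_len k fun v hv => ?_
    have hl := lowFamA_ln_pos hℓ v
    unfold av
    rw [le_div_iff₀ hl]
    split_ifs with hSv
    · have := intervalIntegral.integral_mono_on (μ := volume) (a := nd α ℓ v)
        (b := nd α ℓ v + ln ℓ v) (by linarith) (f := fun _ => 3 / 4 * H - (η + κ)) (g := F)
        intervalIntegrable_const (hFc.intervalIntegrable _ _) (hpt v hv hSv)
      rw [intervalIntegral.integral_const, smul_eq_mul] at this
      nlinarith
    · rw [mul_zero, zero_mul]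
      exact intervalIntegral.integral_nonneg (by linarith) fun t _ => hF0 t
  have hup : av F α ℓ ≤ σ * (H / 4) := by
    unfold av
    have hFi : ∫ y in α..α + ℓ, F y = ∑ b ∈ Hv, ∫ y in α..α + ℓ, ‖ψ b y‖ ^ 2 / lb b :=
      intervalIntegral.integral_finsetSum (f := fun b y => ‖ψ b y‖ ^ 2 / lb b) fun b _ =>
        (((hcψ b).norm.pow 2).div_const _).intervalIntegrable _ _
    rw [div_le_iff₀ hℓ, hFi]
    rw [hHdef, Finset.sum_div, Finset.mul_sum, Finset.sum_mul]
    refine Finset.sum_le_sum fun b hb => ?_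
    obtain ⟨hp, hb'⟩ := hpos b hb
    rw [intervalIntegral.integral_div, div_le_iff₀ hp]
    have hb2 := bessel (fun i => if bin i = b then lam i else 0)
      (fun i => by split_ifs; exacts [hl0 i, le_rfl]) z hh (m0 := m0)
      (fun j => (Finset.sum_le_sum fun i _ => by split_ifs; exacts [le_rfl, hl0 i]).trans (hm j))
      α hℓ.le t0
    have e1 : ∀ t, ∑ i, (((if bin i = b then lam i else 0 : ℝ)) : ℂ) * ex (h * z i) (t - t0) =
        ψ b t := by
      intro t
      simp only [hψ, Finset.sum_filter]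
      refine Finset.sum_congr rfl fun i _ => ?_
      split_ifs <;> simp
    have e2 : ∑ i, (if bin i = b then lam i else 0) = lb b := by
      simp only [hlb, Finset.sum_filter]
    simp only [e1, e2] at hb2
    have e3 : ℓ + 2 * π / h = Λ * ℓ := by
      rw [hΛ]; field_simp
    rw [e3] at hb2
    refine hb2.trans ?_
    have := mul_le_mul_of_nonneg_right hb'.le (mul_nonneg hℓ.le hp.le)
    nlinarith
  have := le_of_mul_le_mul_left (hlow.trans hup) hσp
  linarith

end Crest.Agent.R100.P46
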