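import Crest.Agent.R100.LifeBasic
import Crest.Agent.R100.Pot46

set_option autoImplicit false

open MeasureTheory Set

noncomputable section

namespace Crest.Agent.R100.Life

open Crest.Agent.R100 Crest.Agent.R100.Low Crest.Agent.R100.Run

variable {Y Ω : Type} [Fintype Y] [Fintype Ω] {R P μ : ℝ} {h : Y → List Bool → ℝ → ℝ} {α ℓ : ℝ}
  {A : List Bool → Prop} {lam Z : Ω → ℝ}

theorem lifeBes_orth (F : Finset ℤ) (c : ℤ → ℂ) {η : ℝ} (hη : 0 < η) (a : ℝ) :
    ∫ t in a..a + 2 * Real.pi / η, ‖∑ N ∈ F, c N * ex (η * N) t‖ ^ 2 =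
      2 * Real.pi / η * ∑ N ∈ F, ‖c N‖ ^ 2 := by
  have hct : ∀ i i' : ℤ, Continuous fun t : ℝ =>
      (c i * (starRingEnd ℂ) (c i')) * ex (η * ((i - i' : ℤ) : ℝ)) t := fun i i' =>
    continuous_const.mul (P46.cont_ex _)
  apply Complex.ofReal_injective
  rw [← intervalIntegral.integral_ofReal]
  have e : ∀ t : ℝ, ((‖∑ N ∈ F, c N * ex (η * N) t‖ ^ 2 : ℝ) : ℂ) =
      ∑ i ∈ F, ∑ i' ∈ F, (c i * (starRingEnd ℂ) (c i')) * ex (η * ((i - i' : ℤ) : ℝ)) t := by
    intro t
    rw [← Complex.normSq_eq_norm_sq, ← Complex.mul_conj, map_sum, Finset.sum_mul_sum]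
    refine Finset.sum_congr rfl fun i _ => Finset.sum_congr rfl fun i' _ => ?_
    rw [map_mul]
    have := P46.ex_mul_conj (η * i) (η * i') t
    rw [show η * ((i - i' : ℤ) : ℝ) = η * i - η * i' by push_cast; ring, ← this]
    ring
  simp only [e]
  rw [intervalIntegral.integral_finsetSum fun i _ =>
    (continuous_finsetSum _ fun i' _ => hct i i').intervalIntegrable _ _, Finset.mul_sum,
    Complex.ofReal_sum]
  refine Finset.sum_congr rfl fun i hi => ?_
  rw [intervalIntegral.integral_finsetSum fun i' _ => (hct i i').intervalIntegrable _ _]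
  have e2 : ∀ i' : ℤ, ∫ t in a..a + 2 * Real.pi / η,
      (c i * (starRingEnd ℂ) (c i')) * ex (η * ((i - i' : ℤ) : ℝ)) t =
      if i = i' then (c i * (starRingEnd ℂ) (c i')) * ((2 * Real.pi / η : ℝ) : ℂ) else 0 := by
    intro i'
    have h1 := P46.int_ex_period hη (i - i') 1 a 0
    simp only [Nat.cast_one, one_mul, sub_zero, sub_eq_zero] at h1
    rw [intervalIntegral.integral_const_mul, h1]
    split_ifs <;> simp
  simp only [e2]
  rw [Finset.sum_ite_eq, if_pos hi, Complex.mul_conj, Complex.normSq_eq_norm_sq]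
  push_cast; ring

theorem lifeBes_bessel {f : ℝ → ℝ} (hf : Measurable f) {M : ℝ} (h0 : ∀ t, 0 ≤ f t)
    (hM : ∀ t, f t ≤ M) (F : Finset ℤ) {η : ℝ} (hη : 0 < η) (a : ℝ) {l : ℝ} (hl : 0 ≤ l)
    (hlT : l ≤ 2 * Real.pi / η) :
    ∑ N ∈ F, ‖∫ t in a..a + l, (f t : ℂ) * ex (η * N) t‖ ^ 2 ≤
      2 * Real.pi / η * (M * ∫ t in a..a + l, f t) := by
  set T : ℝ := 2 * Real.pi / η with hT
  have hT0 : 0 < T := by have := Real.pi_pos; positivity
  set c : ℤ → ℂ := fun N => ∫ t in a..a + l, (f t : ℂ) * ex (η * N) t with hc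
  set S : ℝ := ∑ N ∈ F, ‖c N‖ ^ 2 with hS
  set G : ℝ → ℂ := fun t => ∑ N ∈ F, (starRingEnd ℂ) (c N) * ex (η * N) t with hG
  have hGc : Continuous G :=
    continuous_finsetSum _ fun N _ => continuous_const.mul (P46.cont_ex _)
  have hfc : Measurable fun t => (f t : ℂ) := Complex.measurable_ofReal.comp hf
  have hfb : ∀ t, ‖(f t : ℂ)‖ ≤ M := fun t => by
    rw [Complex.norm_real, Real.norm_of_nonneg (h0 t)]; exact hM t
  have hfi : IntervalIntegrable f volume a (a + l) :=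
    lowFamA_bdd hf.aestronglyMeasurable (M := M)
      (fun y => by rw [Real.norm_of_nonneg (h0 y)]; exact hM y) _ _
  have h1 : ∫ t in a..a + l, (f t : ℂ) * G t = (S : ℂ) := by
    have e : ∀ t, (f t : ℂ) * G t =
        ∑ N ∈ F, (starRingEnd ℂ) (c N) * ((f t : ℂ) * ex (η * N) t) := by
      intro t
      simp only [hG, Finset.mul_sum]
      exact Finset.sum_congr rfl fun N _ => by ring
    simp only [e]
    rw [intervalIntegral.integral_finsetSum fun (N : ℤ) _ =>
      (lowFamA_int hfc hfb (η * (N : ℝ)) a (a + l)).const_mul ((starRingEnd ℂ) (c N)), hS,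
      Complex.ofReal_sum]
    refine Finset.sum_congr rfl fun N _ => ?_
    rw [intervalIntegral.integral_const_mul, mul_comm]
    change c N * _ = _
    rw [Complex.mul_conj, Complex.normSq_eq_norm_sq]
  have h2 : ∫ t in a..a + T, ‖G t‖ ^ 2 = T * S := by
    have := lifeBes_orth F (fun N => (starRingEnd ℂ) (c N)) hη a
    simp only [Complex.norm_conj] at this
    exact this
  have hG2 : Continuous fun t => ‖G t‖ ^ 2 := hGc.norm.pow 2
  have h3 : ∫ t in a..a + l, ‖G t‖ ^ 2 ≤ ∫ t in a..a + T, ‖G t‖ ^ 2 :=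
    intervalIntegral.integral_mono_interval le_rfl (by linarith) (by linarith)
      (Filter.Eventually.of_forall fun t => by positivity) (hG2.intervalIntegrable _ _)
  have h4 : ‖∫ t in a..a + l, (f t : ℂ) * G t‖ ≤
      ∫ t in a..a + l, (T * M / 2 * f t + 1 / (2 * T) * ‖G t‖ ^ 2) := by
    refine intervalIntegral.norm_integral_le_of_norm_le (by linarith)
      (Filter.Eventually.of_forall fun t _ => ?_)
      ((hfi.const_mul _).add ((hG2.intervalIntegrable _ _).const_mul _))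
    rw [norm_mul, Complex.norm_real, Real.norm_of_nonneg (h0 t)]
    have h5 : f t * f t ≤ M * f t := mul_le_mul_of_nonneg_right (hM t) (h0 t)
    have h6 : 0 ≤ 1 / (2 * T) * (T * f t - ‖G t‖) ^ 2 := by positivity
    have h7 : 1 / (2 * T) * (T * f t - ‖G t‖) ^ 2 =
        T / 2 * (f t * f t) - f t * ‖G t‖ + 1 / (2 * T) * ‖G t‖ ^ 2 := by
      field_simp; ring
    have h8 := mul_le_mul_of_nonneg_left h5 (half_pos hT0).le
    nlinarith
  rw [intervalIntegral.integral_add (hfi.const_mul _) ((hG2.intervalIntegrable _ _).const_mul _),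
    intervalIntegral.integral_const_mul, intervalIntegral.integral_const_mul, h1,
    Complex.norm_real] at h4
  have h9 : 1 / (2 * T) * ∫ t in a..a + l, ‖G t‖ ^ 2 ≤ 1 / (2 * T) * (T * S) :=
    mul_le_mul_of_nonneg_left (h3.trans h2.le) (by positivity)
  have h10 : 1 / (2 * T) * (T * S) = S / 2 := by field_simp
  have h11 : S ≤ ‖S‖ := le_abs_self S
  nlinarith

theorem lifeBes_sup (hD : Data R P μ h α ℓ A lam Z) (y : Y) (t : ℝ) (v : List Bool) :
    h y v t ≤ Real.exp (3 * R) * P := by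
  induction v using List.reverseRecOn with
  | nil => exact hD.sup y t
  | append_singleton v c ih => exact (hD.dec y v c t).trans ih

/-- Bessel count of the large lattice frequencies -/
theorem bes (hD : Data R P μ h α ℓ A lam Z) {κ b : ℝ} (hκ : 0 < κ) (hκ1 : κ ≤ 1) (hb : 0 < b)
    {v : List Bool} (hv : A v) (F : Finset ℤ)
    (hF : ∀ N ∈ F, b * P ≤ SS h α ℓ (lat κ ℓ v N) v) :
    (F.card : ℝ) ≤ Fintype.card Y * (8 / κ) * Real.exp (3 * R) / b ^ 2 := by
  have hl : 0 < ln ℓ v := lowFamA_ln_pos hD.hl v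
  have hP := hD.hP
  have hpi := Real.pi_pos
  have hpi3 := Real.pi_gt_three
  have hpi4 := Real.pi_le_four
  set l := ln ℓ v with hldef
  set M := Real.exp (3 * R) * P with hM
  have hM0 : 0 ≤ M := by positivity
  have hη : 0 < κ / l := by positivity
  have hT : 2 * Real.pi / (κ / l) = 2 * Real.pi / κ * l := by field_simp
  have hT1 : 1 ≤ 2 * Real.pi / κ := by rw [le_div_iff₀ hκ]; linarith
  have hT8 : 2 * Real.pi / κ ≤ 8 / κ := div_le_div_of_nonneg_right (by linarith) hκ.le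
  have hms : ∀ y, 0 ≤ ms h α ℓ y v v := fun y =>
    div_nonneg (intervalIntegral.integral_nonneg (by linarith) fun t _ => hD.nn y v t) hl.le
  have hy : ∀ y, ∑ N ∈ F, ‖cf h α ℓ (lat κ ℓ v N) y v v‖ ^ 2 ≤
      8 / κ * (M * ms h α ℓ y v v) := by
    intro y
    have hb := lifeBes_bessel (hD.meas y v) (hD.nn y v) (fun t => lifeBes_sup hD y t v) F hη
      (nd α ℓ v) hl.le (by rw [hT]; nlinarith)
    have e : ∀ N : ℤ, ‖cf h α ℓ (lat κ ℓ v N) y v v‖ ^ 2 =
        ‖∫ t in nd α ℓ v..nd α ℓ v + l, (h y v t : ℂ) * ex (κ / l * N) t‖ ^ 2 / l ^ 2 := by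
      intro N
      have : lat κ ℓ v N = κ / l * N := by unfold lat; rw [← hldef]; ring
      unfold cf U cu
      rw [this, ← hldef, norm_div, div_pow, Complex.norm_real, Real.norm_of_nonneg hl.le]
    simp only [e]
    rw [← Finset.sum_div, div_le_iff₀ (by positivity)]
    refine hb.trans ?_
    have e2 : ∫ t in nd α ℓ v..nd α ℓ v + l, h y v t = ms h α ℓ y v v * l := by
      unfold ms av; rw [← hldef]; field_simp
    rw [hT, e2]
    have h0 : 0 ≤ M * ms h α ℓ y v v * l ^ 2 := by have := hms y; positivity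
    have := mul_le_mul_of_nonneg_right hT8 h0
    nlinarith
  have h1 : (F.card : ℝ) * (b * P) ^ 2 ≤
      ∑ N ∈ F, (Fintype.card Y : ℝ) * ∑ y, ‖cf h α ℓ (lat κ ℓ v N) y v v‖ ^ 2 := by
    rw [← nsmul_eq_mul, ← Finset.sum_const]
    refine Finset.sum_le_sum fun N hN => ?_
    have h2 : (b * P) ^ 2 ≤ SS h α ℓ (lat κ ℓ v N) v ^ 2 :=
      pow_le_pow_left₀ (by positivity) (hF N hN) 2
    refine h2.trans ?_
    have := sq_sum_le_card_mul_sum_sq (s := (Finset.univ : Finset Y))
      (f := fun y => ‖cf h α ℓ (lat κ ℓ v N) y v v‖)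
    simpa [SS] using this
  rw [← Finset.mul_sum, Finset.sum_comm] at h1
  have h3 : ∑ y, ∑ N ∈ F, ‖cf h α ℓ (lat κ ℓ v N) y v v‖ ^ 2 ≤ 8 / κ * (M * P) := by
    refine (Finset.sum_le_sum fun y _ => hy y).trans ?_
    rw [← Finset.mul_sum, ← Finset.mul_sum]
    exact mul_le_mul_of_nonneg_left (mul_le_mul_of_nonneg_left (hD.mass v hv) hM0)
      (by positivity)
  have h4 := h1.trans (mul_le_mul_of_nonneg_left h3 (Nat.cast_nonneg _))
  rw [le_div_iff₀ (by positivity)]
  have h5 : (F.card : ℝ) * b ^ 2 * P ^ 2 ≤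
      Fintype.card Y * (8 / κ) * Real.exp (3 * R) * P ^ 2 := by
    rw [hM] at h4
    nlinarith
  exact le_of_mul_le_mul_right h5 (by positivity)

end Crest.Agent.R100.Life
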