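import Crest.Agent.R100.LifeRem
import Crest.Agent.R100.Cand

set_option autoImplicit false

open MeasureTheory Set

noncomputable section

namespace Crest.Agent.R100.Life

open Crest.Agent.R100 Crest.Agent.R100.Low Crest.Agent.R100.Run

variable {Y Ω : Type} [Fintype Y] [Fintype Ω] {R P μ : ℝ} {h : Y → List Bool → ℝ → ℝ} {α ℓ : ℝ}
  {A : List Bool → Prop} {lam Z : Ω → ℝ}

theorem lifeCand_U_div (F : ℝ → ℝ) (P α ℓ ξ : ℝ) (v : List Bool) :
    U (fun y => ((F y / P : ℝ) : ℂ)) α ℓ ξ v = U (fun y => (F y : ℂ)) α ℓ ξ v / P := by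
  unfold U cu
  have : ∀ y, ((F y / P : ℝ) : ℂ) * ex ξ y = ((F y : ℂ) * ex ξ y) / P := fun y => by
    push_cast; ring
  simp only [this]
  rw [intervalIntegral.integral_div]
  ring

theorem lifeCand_le_root (hD : Data R P μ h α ℓ A lam Z) (y : Y) (t : ℝ) (v : List Bool) :
    h y v t ≤ h y [] t := by
  induction v using List.reverseRecOn with
  | nil => exact le_rfl
  | append_singleton v c ih => exact (hD.dec y v c t).trans ih

theorem lifeCand_SS (hP : 0 < P) (ζ : ℝ) (r x : List Bool) (hx : ∀ L, h L (r ++ x) = h L r) :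
    SS h α ℓ ζ (r ++ x) =
      P * ∑ L, ‖U (fun y => ((h L r y / P : ℝ) : ℂ)) (nd α ℓ r) (ln ℓ r) ζ x‖ := by
  unfold SS cf
  rw [Finset.mul_sum]
  refine Finset.sum_congr rfl fun L _ => ?_
  rw [lifeCand_U_div, hx L, Life52.U_append, norm_div, Complex.norm_real, Real.norm_eq_abs,
    abs_of_pos hP]
  field_simp

open Classical in
theorem lifeCand_cnt (Rem : List Bool → Prop) (Cr : List Bool → List Bool → Prop) (n : ℕ)
    (l : List Bool) (hl : l.length = n) :
    Cand.cnt (fun v => ∃ k, k ≤ v.length ∧ Rem (v.take k) ∧ Cr (v.take k) (v.drop k)) n l ≤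
      ∑ k ∈ Finset.range (n + 1), if Rem (l.take k) then
        Cand.cnt (Cr (l.take k)) (n - (l.take k).length) (l.drop k) else 0 := by
  unfold Cand.cnt
  calc _ ≤ ∑ j ∈ Finset.range (n + 1), ∑ k ∈ Finset.range (n + 1),
        if k ≤ j ∧ Rem (l.take k) ∧ Cr (l.take k) ((l.drop k).take (j - k)) then (1 : ℝ) else 0 := by
        refine Finset.sum_le_sum fun j hj => ?_
        have hj' : j ≤ n := by simpa [Nat.lt_succ_iff] using hj
        split_ifs with hc
        · obtain ⟨k, hk, h1, h2⟩ := hc
          have hkj : k ≤ j := by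
            rw [List.length_take] at hk; omega
          rw [List.take_take, min_eq_left hkj] at h1 h2
          rw [List.drop_take] at h2
          have := Finset.single_le_sum (s := Finset.range (n + 1))
            (f := fun k => if k ≤ j ∧ Rem (l.take k) ∧ Cr (l.take k) ((l.drop k).take (j - k))
              then (1 : ℝ) else 0) (fun i _ => by split_ifs <;> norm_num)
            (Finset.mem_range.mpr (show k < n + 1 by omega))
          rwa [if_pos ⟨hkj, h1, h2⟩] at this
        · exact Finset.sum_nonneg fun i _ => by split_ifs <;> norm_num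
    _ ≤ _ := by
        rw [Finset.sum_comm]
        refine Finset.sum_le_sum fun k hk => ?_
        have hk' : k ≤ n := by simpa [Nat.lt_succ_iff] using hk
        have hlen : (l.take k).length = k := by rw [List.length_take]; omega
        by_cases hR : Rem (l.take k)
        · rw [if_pos hR, hlen]
          rw [← Finset.sum_range_add_sum_Ico _ (show k ≤ n + 1 by omega), Finset.sum_Ico_eq_sum_range]
          have h0 : ∑ j ∈ Finset.range k, (if k ≤ j ∧ Rem (l.take k) ∧
              Cr (l.take k) ((l.drop k).take (j - k)) then (1 : ℝ) else 0) = 0 :=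
            Finset.sum_eq_zero fun j hj => if_neg fun hc => by
              have := Finset.mem_range.mp hj; omega
          rw [h0, zero_add, show n + 1 - k = n - k + 1 by omega]
          refine Finset.sum_le_sum fun i _ => ?_
          rw [Nat.add_sub_cancel_left]
          by_cases hc : Cr (l.take k) ((l.drop k).take i)
          · rw [if_pos hc]; split_ifs <;> norm_num
          · rw [if_neg hc, if_neg fun h => hc h.2.2]
        · rw [if_neg hR]
          exact (Finset.sum_eq_zero fun j _ => if_neg fun hc => hR hc.2.1).le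

/-- candidates of a life: `Cand.cand` restarted at the roots of the periods -/
theorem cand_life : ∃ C : ℝ, 0 < C ∧ ∀ (Y Ω : Type) [Fintype Y] [Fintype Ω] (R P μ : ℝ)
    (h : Y → List Bool → ℝ → ℝ) (α ℓ : ℝ) (A : List Bool → Prop) (lam Z : Ω → ℝ) (ε : ℝ) (n : ℕ),
    Data R P μ h α ℓ A lam Z → 1 ≤ R → 1 ≤ mm R → 0 < ε → ε ≤ 1 →
    ∃ Cd : List Bool → Prop,
      avg n (Cand.cnt Cd n) ≤ (1 + mm R ^ 30) * (C * (5 * R / ε ^ 2) ^ 4) ∧
      ∀ v, A v → ∀ ζ : ℝ, 6 * ε * P ≤ SS h α ℓ ζ v → ∃ k, k ≤ v.length ∧ Cd (v.take k) ∧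
        ∃ ζ' : ℝ, |ζ - ζ'| * ln ℓ v ≤ 1 / ε ∧
          SS h α ℓ ζ v - 3 * ε * P ≤ SS h α ℓ ζ' (v.take k) := by
  classical
  obtain ⟨C, hC, hcand⟩ := Cand.cand
  refine ⟨C, hC, ?_⟩
  intro Y Ω _ _ R P μ h α ℓ A lam Z ε n hD hR hm h0 h1
  have hP := hD.hP
  have hB : 0 ≤ C * (5 * R / ε ^ 2) ^ 4 := by positivity
  rcases isEmpty_or_nonempty Y with hY | hY
  · refine ⟨fun _ => False, ?_, fun v _ ζ hζ => ?_⟩
    · have : Cand.cnt (fun _ => False) n = fun _ => (0 : ℝ) := by
        funext l; simp [Cand.cnt]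
      rw [this, avg_const]
      positivity
    · exfalso
      have : SS h α ℓ ζ v = 0 := by simp [SS]
      rw [this] at hζ
      have : 0 < 6 * ε * P := by positivity
      linarith
  have hlog : Real.log (Fintype.card Y) ≤ R :=
    hD.card.trans (div_le_self (by linarith) (one_le_pow₀ hm))
  have hlog0 : 0 ≤ Real.log (Fintype.card Y) := Real.log_natCast_nonneg _
  have key := fun r : List Bool => hcand Y (fun L t => h L r t / P) (3 * R) ε (nd α ℓ r) (ln ℓ r)
    (fun w => ∀ k, A (r ++ w.take k) ∧ ∀ L, h L (r ++ w.take k) = h L r) (n - r.length)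
    (by linarith) h0 h1 (by have := hD.hl; unfold ln; positivity)
    (fun L => (hD.meas L r).div_const P)
    (fun L y => ⟨div_nonneg (hD.nn L r y) hP.le, by
      rw [div_le_iff₀ hP]; exact (lifeCand_le_root hD L y r).trans (hD.sup L y)⟩)
    (fun w j hw k => by rw [List.take_take]; exact hw _)
    (fun w hw => by
      have h2 := hw w.length
      rw [List.take_length] at h2
      have h3 := SS_le hD 0 h2.1
      rw [lifeCand_SS hP 0 r w h2.2] at h3
      by_contra hc
      push Not at hc
      nlinarith)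
  choose Cr _ hcnt hCr using key
  refine ⟨fun v => ∃ k, k ≤ v.length ∧ Rem h A (v.take k) ∧ Cr (v.take k) (v.drop k), ?_, ?_⟩
  · have h2 := Life52.period_sum n (Rem h A) (fun w => Cand.cnt (Cr w) (n - w.length))
      (B := C * (5 * R / ε ^ 2) ^ 4) (fun w _ _ => (hcnt w).trans (by
        refine mul_le_mul_of_nonneg_left (pow_le_pow_left₀ (by positivity) ?_ 4) hC.le
        exact div_le_div_of_nonneg_right (by linarith) (by positivity)))
    have h3 := rem_cnt hD (by linarith) n
    refine (avg_mono_len n fun l hl => lifeCand_cnt (Rem h A) Cr n l hl).trans ?_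
    refine le_trans (le_of_eq ?_) (h2.trans ?_)
    · congr
    · rw [mul_comm]; exact mul_le_mul_of_nonneg_right h3 hB
  · intro v hv ζ hζ
    obtain ⟨j, hj1, hj2⟩ := Life52.exists_last (Rem := Rem h A) (Or.inl rfl) v
    have hN : Life52.NoR (fun u => ¬ ∀ y, h y u = h y u.dropLast) j v :=
      ⟨hj2.1, fun k hk1 hk2 hc => hj2.2 k hk1 hk2 (Or.inr ⟨hD.her v k hv, hc⟩)⟩
    have hconst := Life52.const_of_NoR (f := fun u => fun y => h y u)
      (Rem := fun u => ¬ ∀ y, h y u = h y u.dropLast) (fun u c hc => by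
        push Not at hc
        funext y
        have := hc y
        rwa [List.dropLast_concat] at this) hN
    have hjl := hj2.1
    have hlen : (v.take j).length = j := by rw [List.length_take]; omega
    have htk : ∀ k, v.take j ++ (v.drop j).take k = v.take (j + k) := fun k => by
      rw [List.take_add]
    have hal : ∀ k, A (v.take j ++ (v.drop j).take k) ∧
        ∀ L, h L (v.take j ++ (v.drop j).take k) = h L (v.take j) := fun k => by
      rw [htk]
      refine ⟨hD.her v _ hv, fun L => ?_⟩
      have e : v.take (j + k) = v.take (min (j + k) v.length) := by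
        rw [← List.take_take, List.take_length]
      rw [e]
      exact congrFun (hconst (min (j + k) v.length) (by omega) (min_le_right _ _)) L
    obtain ⟨k, hk, hC1, -, ξ', φ, hφ1, hφ2, hφ3⟩ := hCr (v.take j) (v.drop j) hal ζ
    rw [List.length_drop] at hk
    have hv' : v.take j ++ v.drop j = v := List.take_append_drop j v
    have hS1 := lifeCand_SS (α := α) (ℓ := ℓ) hP ζ (v.take j) (v.drop j) (fun L => by
      have := (hal (v.drop j).length).2 L
      rwa [List.take_length] at this)
    have hS2 := lifeCand_SS (α := α) (ℓ := ℓ) hP ξ' (v.take j) ((v.drop j).take k) (hal k).2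
    have hS3 := SS_le hD ξ' (hal k).1
    have hS4 := SS_nonneg (h := h) (α := α) (ℓ := ℓ) ξ' (v.take j ++ (v.drop j).take k)
    rw [hv'] at hS1
    rw [← Life52.ln_append, hv'] at hφ2
    have hmain : SS h α ℓ ζ v ≤ 3 * ε * P + ‖φ‖ * SS h α ℓ ξ' (v.take j ++ (v.drop j).take k) := by
      rw [hS1, hS2]
      have : ∑ L, ‖U (fun y => ((h L (v.take j) y / P : ℝ) : ℂ)) (nd α ℓ (v.take j))
          (ln ℓ (v.take j)) ζ (v.drop j)‖ ≤ 3 * ε + ‖φ‖ * ∑ L, ‖U (fun y => ((h L (v.take j) y / P : ℝ) : ℂ))
            (nd α ℓ (v.take j)) (ln ℓ (v.take j)) ξ' ((v.drop j).take k)‖ := by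
        refine le_trans ?_ (add_le_add hφ3 le_rfl)
        rw [Finset.mul_sum, ← Finset.sum_add_distrib]
        refine Finset.sum_le_sum fun L _ => ?_
        rw [← norm_mul]
        exact norm_le_norm_sub_add _ _
      nlinarith
    rw [htk] at hmain hS3 hS4
    refine ⟨j + k, by omega, ⟨j, ?_, ?_, ?_⟩, ξ', ?_, ?_⟩
    · rw [List.length_take]; omega
    · rw [List.take_take, min_eq_left (by omega)]; exact hj1
    · rw [List.take_take, min_eq_left (by omega), List.drop_take, Nat.add_sub_cancel_left]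
      exact hC1
    · have hφ4 : 3 * ε ≤ ‖φ‖ := by
        have h5 : ‖φ‖ * SS h α ℓ ξ' (v.take (j + k)) ≤ ‖φ‖ * P :=
          mul_le_mul_of_nonneg_left hS3 (norm_nonneg _)
        by_contra hc
        push Not at hc
        nlinarith
      have hX : 0 ≤ |ζ - ξ'| * ln ℓ v := by
        have := hD.hl
        unfold ln; positivity
      rw [le_div_iff₀ h0]
      nlinarith
    · have h5 : ‖φ‖ * SS h α ℓ ξ' (v.take (j + k)) ≤ 1 * SS h α ℓ ξ' (v.take (j + k)) :=
        mul_le_mul_of_nonneg_right hφ1 hS4
      linarith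

end Crest.Agent.R100.Life
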