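import Crest.Agent.R100.LifeLow
import Crest.Agent.R100.LifeDefs

/-! # Row 100, LIFE (helper52): LOW for one life -/

set_option autoImplicit false

open MeasureTheory Set

noncomputable section

namespace Crest.Agent.R100.Life52

open Crest.Agent.R100 Crest.Agent.R100.Low Crest.Agent.R100.Run Crest.Agent.R100.Cand
  Crest.Agent.R100.Life

theorem cnt_nonneg (G : List Bool → Prop) (n : ℕ) (l : List Bool) : 0 ≤ cnt G n l := by
  unfold cnt
  exact Finset.sum_nonneg fun k _ => by split_ifs <;> norm_num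

open Classical in
theorem cnt_snoc (G : List Bool → Prop) (v : List Bool) (c : Bool) :
    cnt G (v.length + 1) (v ++ [c]) = cnt G v.length v + if G (v ++ [c]) then 1 else 0 := by
  unfold cnt
  rw [Finset.sum_range_succ]
  congr 1
  · refine Finset.sum_congr rfl fun k hk => ?_
    have : k ≤ v.length := by simpa [Nat.lt_succ_iff] using hk
    rw [List.take_append_of_le_length this]
  · rw [List.take_of_length_le (by simp)]

theorem rem_count (M : List Bool → ℝ) (Mc : List Bool → Bool → ℝ) (hM : ∀ v, 0 ≤ M v)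
    (hle : ∀ v c, M (v ++ [c]) ≤ Mc v c) (hmp : ∀ v, (Mc v false + Mc v true) / 2 ≤ M v)
    {g : ℝ} (hg : 0 < g) (G : List Bool → Prop)
    (hG : ∀ v c, G (v ++ [c]) → g ≤ Mc v c - M (v ++ [c])) (n : ℕ) :
    avg n (cnt G n) ≤ 1 + M [] / g := by
  classical
  have key : ∀ n : ℕ, avg n (fun l => cnt G n l + g⁻¹ * M l) ≤ 1 + g⁻¹ * M [] := by
    intro n
    induction n with
    | zero =>
      simp only [avg, cnt]
      simp only [zero_add, Finset.range_one, Finset.sum_singleton]
      split_ifs <;> linarith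
    | succ n ih =>
      rw [avg_snoc]
      refine le_trans (avg_mono_len n fun v hv => ?_) ih
      have h1 : ∀ c, cnt G (n + 1) (v ++ [c]) + g⁻¹ * M (v ++ [c]) ≤ cnt G n v + g⁻¹ * Mc v c := by
        intro c
        rw [← hv, cnt_snoc]
        have hgi : 0 < g⁻¹ := inv_pos.2 hg
        split_ifs with h
        · have h2 := mul_le_mul_of_nonneg_left (hG v c h) hgi.le
          rw [inv_mul_cancel₀ hg.ne'] at h2
          linarith
        · have h2 := mul_le_mul_of_nonneg_left (hle v c) hgi.le
          linarith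
      have h2 := mul_le_mul_of_nonneg_left (hmp v) (inv_pos.2 hg).le
      have := h1 false
      have := h1 true
      linarith
  have h1 := key n
  rw [avg_add', avg_mul_left] at h1
  have h2 : 0 ≤ avg n M := avg_nonneg_len n fun l _ => hM l
  have h3 : 0 ≤ g⁻¹ * avg n M := by positivity
  rw [div_eq_inv_mul]
  linarith

theorem low_period {f : List Bool → ℝ → ℂ} (hm : ∀ v, Measurable (f v)) {R : ℝ} (hR : 1 ≤ R)
    (hM : ∀ v y, ‖f v y‖ ≤ Real.exp R) (α : ℝ) {ℓ : ℝ} (hℓ : 0 < ℓ) {Rem : List Bool → Prop}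
    (hf : ∀ v c, ¬Rem (v ++ [c]) → f (v ++ [c]) = f v) (e : List Bool → ℂ)
    (he : ∀ v, ‖e v‖ ≤ 1)
    (hA : ∀ v, e v ≠ 0 → ∀ k, k ≤ v.length →
      ca (f (v.take k)) (nd α ℓ (v.take k)) (ln ℓ (v.take k)) ≤ 1)
    {c : ℝ} (hc : 0 < c) (hc2 : c ≤ 2) (n : ℕ) (w : List Bool) (hw : w.length ≤ n)
    (ξ : List Bool → ℝ) (s t : List Bool → ℕ)
    (ht : ∀ l, l.length = n → t l ≤ n - 1)
    (hsm : ∀ l, l.length = n → ∀ k, s l ≤ k → w.length ≤ k → k < t l → NoR Rem w.length (l.take k) →
      ‖U (f (l.take k)) α ℓ (ξ l) (l.take k)‖ ≤ c ∧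
        ‖U (f (l.take k)) α ℓ (ξ l) (l.take (k + 1))‖ ≤ c) :
    avg (n - w.length) (fun x =>
      ‖win (eP Rem e w.length) (U (f w) α ℓ (ξ (w ++ x))) (w ++ x) (max (s (w ++ x)) w.length)
        (t (w ++ x))‖) ≤ 20000 * √c * (R + Real.log (2 / c) + 1) := by
  classical
  have hl' : 0 < ln ℓ w := lowFamA_ln_pos hℓ w
  have hF := fam_U (hm w) hR (hM w) (nd α ℓ w) hl'
  have htk : ∀ (x : List Bool) (k : ℕ), (w ++ x).take (w.length + k) = w ++ x.take k :=
    fun x k => List.take_length_add_append k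
  have key := small hF hR hl' (fun x => eP Rem e w.length (w ++ x))
    (fun x => by unfold eP; split_ifs; exacts [he _, by simp])
    (fun x hx k hk => by
      have h1 : NoR Rem w.length (w ++ x) := by
        by_contra h; simp [eP, h] at hx
      have h2 : e (w ++ x) ≠ 0 := by simpa [eP, h1] using hx
      have h3 := hA _ h2 (w.length + k) (by simp; omega)
      have h4 := const_of_NoR hf h1 (w.length + k) (by omega) (by simp; omega)
      rw [h4, htk, famA_nd_append, ln_append] at h3
      simpa using h3)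
    c hc hc2 (n - w.length) (fun x => ξ (w ++ x))
    (fun x => max (s (w ++ x)) w.length - w.length) (fun x => t (w ++ x) - w.length)
    (fun x hx => by have := ht (w ++ x) (by simp; omega); omega)
    (fun x hx k hk1 hk2 hk3 => by
      have hlen : (w ++ x).length = n := by simp; omega
      have h5 := ht (w ++ x) hlen
      have h1 : NoR Rem w.length (w ++ x.take k) := by
        by_contra h; simp [tm, eP, h] at hk3
      have h4 : f (w ++ x.take k) = f w := by simpa using const_of_NoR' hf h1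
      have h6 := hsm (w ++ x) hlen (w.length + k) (by omega) (by omega) (by omega)
        (by rwa [htk])
      rw [add_assoc, htk, htk, h4, U_append, U_append] at h6
      exact h6)
  refine le_trans (le_of_eq (avg_congr_len _ fun x _ => ?_)) key
  rw [win_shift _ _ _ _ _ _ (le_max_right _ _)]
  simp only [U_append]

open Classical in
/-- the end of the window of the period that starts at depth `j` -/
def tP (Rem : List Bool → Prop) (j t : ℕ) (l : List Bool) : ℕ :=
  if h : ∃ r, j < r ∧ r ≤ t ∧ Rem (l.take r) then Nat.find h - 1 else t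

theorem tP_le (Rem : List Bool → Prop) (j t : ℕ) (l : List Bool) : tP Rem j t l ≤ t := by
  classical
  unfold tP
  split_ifs with h
  · have := (Nat.find_spec h).2.1
    omega
  · exact le_rfl

theorem tP_not (Rem : List Bool → Prop) (j t : ℕ) (l : List Bool) {k : ℕ} (h1 : j < k)
    (h2 : k ≤ tP Rem j t l) : ¬Rem (l.take k) := by
  classical
  have h3 := tP_le Rem j t l
  unfold tP at h2
  intro hk
  split_ifs at h2 with h
  · have h4 := (Nat.find_spec h).1
    exact Nat.find_min h (m := k) (by omega) ⟨h1, by have := (Nat.find_spec h).2.1; omega, hk⟩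
  · exact h ⟨k, h1, h2, hk⟩

theorem win_tP (Rem : List Bool → Prop) (e u : List Bool → ℂ) (j s t : ℕ) (l : List Bool)
    (ht : t ≤ l.length) {b : ℝ} (hb : 0 ≤ b) (h : ∀ k, k < t → ‖tm (eP Rem e j) u l k‖ ≤ b) :
    ‖win (eP Rem e j) u l s t‖ ≤ b + ‖win (eP Rem e j) u l s (tP Rem j t l)‖ := by
  classical
  have hle := tP_le Rem j t l
  by_cases hex : ∃ r, j < r ∧ r ≤ t ∧ Rem (l.take r)
  · have hs := Nat.find_spec hex
    have htp : tP Rem j t l = Nat.find hex - 1 := by simp only [tP, dif_pos hex]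
    have hz : ∀ k, tP Rem j t l + 1 ≤ k → k < t → tm (eP Rem e j) u l k = 0 := by
      intro k hk1 hk2
      have : ¬NoR Rem j (l.take k) := fun h2 => by
        refine h2.2 (Nat.find hex) hs.1 (by rw [List.length_take]; omega) ?_
        rw [List.take_take, min_eq_left (by omega)]
        exact hs.2.2
      simp [tm, eP, this]
    have h1 : win (eP Rem e j) u l s t = win (eP Rem e j) u l s (tP Rem j t l) +
        if s ≤ tP Rem j t l ∧ tP Rem j t l < t then tm (eP Rem e j) u l (tP Rem j t l) else 0 := by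
      unfold win
      split_ifs with h2
      · rw [← Finset.sum_Ico_succ_top h2.1]
        refine (Finset.sum_subset (fun k hk => ?_) fun k hk hk' => ?_).symm
        · simp only [Finset.mem_Ico] at hk ⊢; omega
        · simp only [Finset.mem_Ico] at hk hk'
          exact hz k (by omega) hk.2
      · rw [add_zero]
        refine (Finset.sum_subset (fun k hk => ?_) fun k hk hk' => ?_).symm
        · simp only [Finset.mem_Ico] at hk ⊢; omega
        · simp only [Finset.mem_Ico] at hk hk'
          exact hz k (by omega) hk.2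
    rw [h1]
    refine (norm_add_le _ _).trans ?_
    split_ifs with h2
    · linarith [h _ h2.2]
    · simp [hb]
  · have htp : tP Rem j t l = t := by simp only [tP, dif_neg hex]
    rw [htp]; linarith

/-- **LOW with removals**, the sizes are only controlled after the removals. -/
theorem low_rem' {f : List Bool → ℝ → ℂ} (hm : ∀ v, Measurable (f v)) {R : ℝ} (hR : 1 ≤ R)
    (hM : ∀ v y, ‖f v y‖ ≤ Real.exp R) (α : ℝ) {ℓ : ℝ} (hℓ : 0 < ℓ) {Rem : List Bool → Prop}
    (h0 : Rem []) (hf : ∀ v c, ¬Rem (v ++ [c]) → f (v ++ [c]) = f v)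
    (hA : ∀ v, ca (f v) (nd α ℓ v) (ln ℓ v) ≤ 1)
    {c : ℝ} (hc : 0 < c) (hc2 : c ≤ 2) (n : ℕ) (ξ : List Bool → ℝ) (s t : List Bool → ℕ)
    (ht : ∀ l, l.length = n → t l ≤ n - 1)
    (hsm : ∀ l, l.length = n → ∀ k, s l ≤ k → k ≤ t l →
      ‖U (f (l.take k)) α ℓ (ξ l) (l.take k)‖ ≤ c) :
    avg n (fun l => ‖wD (Dr (fun _ => 1) f α ℓ (ξ l)) l (s l) (t l)‖) ≤
      (20000 * √c * (R + Real.log (2 / c) + 1) + 3) * avg n (cnt Rem n) := by
  classical
  set e : List Bool → ℂ := fun _ => 1 with he
  set X : List Bool → List Bool → ℝ := fun w x =>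
    3 + ‖win (eP Rem e w.length) (U (f w) α ℓ (ξ (w ++ x))) (w ++ x) (max (s (w ++ x)) w.length)
      (tP Rem w.length (t (w ++ x)) (w ++ x))‖ with hXd
  refine le_trans (avg_mono_len n fun l hl => ?_) (period_sum n Rem X fun w hw _ => ?_)
  · have htl : t l ≤ l.length := by have := ht l hl; omega
    rw [wD_periods h0 hf e α ℓ (ξ l) l (s l) (t l) htl, hl]
    refine (norm_sum_le _ _).trans (Finset.sum_le_sum fun j hj => ?_)
    have hj' : j ≤ n := by simpa [Nat.lt_succ_iff] using hj
    split_ifs with h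
    · have hlen : (l.take j).length = j := by simp [hl, hj']
      simp only [hXd, List.take_append_drop, hlen]
      refine win_tP Rem e _ j _ _ l htl (by norm_num) fun k hk => ?_
      by_cases h1 : NoR Rem j (l.take k)
      · have hjk : j ≤ k := by
          have := h1.1
          simp only [List.length_take, le_min_iff] at this
          exact this.1
        have h2 := const_of_NoR' hf h1
        rw [List.take_take, min_eq_left hjk] at h2
        refine (lowLevel_tm_le _ _ (fun v => by unfold eP; split_ifs <;> simp [he]) l k).trans ?_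
        rw [← h2]
        have hl1 := lowFamA_ln_pos hℓ (l.take k)
        have h3 : ‖U (f (l.take k)) α ℓ (ξ l) (l.take k)‖ ≤ 1 :=
          (lowFamA_cu_le _ _ _ hl1).trans (hA _)
        have h4 : ‖U (f (l.take k)) α ℓ (ξ l) (l.take k ++ [false])‖ ≤ 2 := by
          refine (lowFamA_cu_le _ _ _ (lowFamA_ln_pos hℓ _)).trans ?_
          rw [nd_snoc, ln_snoc]
          linarith [lowFamA_ca_child (hm (l.take k)) (hM _) (nd α ℓ (l.take k)) hl1 false,
            hA (l.take k)]
        linarith [norm_sub_le (U (f (l.take k)) α ℓ (ξ l) (l.take k ++ [false]))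
          (U (f (l.take k)) α ℓ (ξ l) (l.take k))]
      · simp [tm, eP, h1]
    · simp
  · have key := low_period hm hR hM α hℓ hf e (fun v => by simp [he]) (fun v _ k _ => hA _) hc hc2
      n w hw ξ s (fun l => tP Rem w.length (t l) l)
      (fun l hl => (tP_le _ _ _ _).trans (ht l hl))
      (fun l hl k hk1 hk2 hk3 _ => by
        have h1 := tP_le Rem w.length (t l) l
        have h2 := ht l hl
        refine ⟨hsm l hl k hk1 (by omega), ?_⟩
        have h3 := tP_not Rem w.length (t l) l (k := k + 1) (by omega) (by omega)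
        have h4 : l.take (k + 1) = l.take k ++ [l[k]'(by omega)] := by
          rw [List.take_succ_eq_append_getElem]
        have h5 : f (l.take (k + 1)) = f (l.take k) := by
          rw [h4] at h3 ⊢
          exact hf _ _ h3
        rw [← h5]
        exact hsm l hl (k + 1) (by omega) (by omega))
    simp only [hXd]
    rw [avg_add', avg_const]
    linarith

variable {Y Ω : Type} [Fintype Y] [Fintype Ω]

/-- the root, the alive nodes at which a cell changes, and the death nodes -/
def RemD (h : Y → List Bool → ℝ → ℝ) (A : List Bool → Prop) (v : List Bool) : Prop :=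
  v = [] ∨ ∃ w c, v = w ++ [c] ∧ A w ∧ (¬A v ∨ ¬∀ y, h y v = h y w)

section
variable {R P μ : ℝ} {h : Y → List Bool → ℝ → ℝ} {α ℓ : ℝ} {A : List Bool → Prop}
  {lam Z : Ω → ℝ}

theorem A_parent (hD : Data R P μ h α ℓ A lam Z) {v : List Bool} {c : Bool} (hv : A (v ++ [c])) :
    A v := by
  simpa using hD.her _ v.length hv

theorem h_le (hD : Data R P μ h α ℓ A lam Z) (y : Y) (v : List Bool) (t : ℝ) :
    h y v t ≤ Real.exp (3 * R) * P := by
  induction v using List.reverseRecOn with
  | nil => exact hD.sup y t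
  | append_singleton v c ih => exact (hD.dec y v c t).trans ih

theorem h_int (hD : Data R P μ h α ℓ A lam Z) (y : Y) (v : List Bool) (a b : ℝ) :
    IntervalIntegrable (h y v) volume a b :=
  lowFamA_bdd (hD.meas y v).aestronglyMeasurable (M := Real.exp (3 * R) * P)
    (fun t => by rw [Real.norm_of_nonneg (hD.nn y v t)]; exact h_le hD y v t) a b

theorem ms_nonneg (hD : Data R P μ h α ℓ A lam Z) (y : Y) (w v : List Bool) :
    0 ≤ ms h α ℓ y w v := by
  have hl := lowFamA_ln_pos hD.hl v
  unfold ms av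
  exact div_nonneg (intervalIntegral.integral_nonneg (by linarith) fun t _ => hD.nn y w t) hl.le

theorem ms_dec (hD : Data R P μ h α ℓ A lam Z) (y : Y) (w : List Bool) (c : Bool) (v : List Bool) :
    ms h α ℓ y (w ++ [c]) v ≤ ms h α ℓ y w v := by
  have hl := lowFamA_ln_pos hD.hl v
  unfold ms av
  exact div_le_div_of_nonneg_right (intervalIntegral.integral_mono_on (by linarith)
    (h_int hD y _ _ _) (h_int hD y _ _ _) fun t _ => hD.dec y w c t) hl.le

theorem ms_mart (hD : Data R P μ h α ℓ A lam Z) (y : Y) (w v : List Bool) :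
    ms h α ℓ y w v = (ms h α ℓ y w (v ++ [false]) + ms h α ℓ y w (v ++ [true])) / 2 := by
  have hl := lowFamA_ln_pos hD.hl v
  simp only [ms, av, nd_snoc, ln_snoc, lowFamA_ch_false, lowFamA_ch_true]
  rw [← intervalIntegral.integral_add_adjacent_intervals (b := nd α ℓ v + ln ℓ v / 2)
    (h_int hD y w _ _) (h_int hD y w _ _),
    show nd α ℓ v + ln ℓ v / 2 + ln ℓ v / 2 = nd α ℓ v + ln ℓ v by ring]
  field_simp

/-- the number of periods of a life -/
theorem remD_cnt (hD : Data R P μ h α ℓ A lam Z) (hm : 0 < mm R) (n : ℕ) :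
    avg n (cnt (RemD h A) n) ≤ 2 + mm R ^ 30 := by
  classical
  have hP := hD.hP
  have hg : 0 < P / mm R ^ 30 := by positivity
  have key := rem_count
    (fun v => if A v then ∑ y, ms h α ℓ y v v + P / mm R ^ 30 else 0)
    (fun v c => if A v then ∑ y, ms h α ℓ y v (v ++ [c]) + P / mm R ^ 30 else 0)
    (fun v => by
      split_ifs
      · exact add_nonneg (Finset.sum_nonneg fun y _ => ms_nonneg hD y _ _) hg.le
      · exact le_rfl)
    (fun v c => by
      by_cases h1 : A (v ++ [c])
      · rw [if_pos h1, if_pos (A_parent hD h1)]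
        have := Finset.sum_le_sum fun y (_ : y ∈ Finset.univ) => ms_dec hD y v c (v ++ [c])
        linarith
      · rw [if_neg h1]
        split_ifs
        · exact add_nonneg (Finset.sum_nonneg fun y _ => ms_nonneg hD y _ _) hg.le
        · exact le_rfl)
    (fun v => by
      split_ifs
      · have : ∑ y, ms h α ℓ y v v = (∑ y, ms h α ℓ y v (v ++ [false]) +
            ∑ y, ms h α ℓ y v (v ++ [true])) / 2 := by
          rw [← Finset.sum_add_distrib, Finset.sum_div]
          exact Finset.sum_congr rfl fun y _ => ms_mart hD y v v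
        linarith
      · simp)
    hg (RemD h A)
    (fun v c hv => by
      rcases hv with hv | ⟨w, c', h1, h2, h3⟩
      · simp at hv
      obtain ⟨rfl, h4⟩ := List.append_inj' h1 rfl
      rw [if_pos h2]
      by_cases h5 : A (v ++ [c])
      · rw [if_pos h5]
        rcases hD.gap v c h5 with h6 | h6
        · exact absurd h6 (h3.resolve_left (not_not.2 h5))
        · rw [Finset.sum_sub_distrib] at h6
          linarith
      · rw [if_neg h5]
        have := Finset.sum_nonneg fun y (_ : y ∈ Finset.univ) => ms_nonneg hD y v (v ++ [c])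
        linarith) n
  refine key.trans ?_
  split_ifs with h1
  · have h2 := hD.mass [] h1
    have h3 : (∑ y, ms h α ℓ y [] [] + P / mm R ^ 30) / (P / mm R ^ 30) ≤ mm R ^ 30 + 1 := by
      rw [div_le_iff₀ hg, add_mul, one_mul, mul_div_cancel₀ _ (by positivity)]
      linarith
    linarith
  · have : 0 ≤ mm R ^ 30 := by positivity
    simp only [zero_div]
    linarith

open Classical in
/-- the normalised function of a member at the node `v` -/
def fD (P : ℝ) (h : Y → List Bool → ℝ → ℝ) (A : List Bool → Prop) (φ : Y → ℂ) (v : List Bool)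
    (t : ℝ) : ℂ :=
  if A v then ∑ y, φ y * (P⁻¹ : ℝ) * (h y v t : ℂ) else 0

theorem U_fD (hD : Data R P μ h α ℓ A lam Z) (φ : Y → ℂ) (ξ : ℝ) {v : List Bool} (hv : A v)
    (w : List Bool) :
    U (fD P h A φ v) α ℓ ξ w = (P⁻¹ : ℝ) * ∑ y, φ y * cf h α ℓ ξ y v w := by
  unfold cf U cu
  simp only [fD, if_pos hv, Finset.sum_mul]
  rw [intervalIntegral.integral_finsetSum, Finset.sum_div, Finset.mul_sum]
  · refine Finset.sum_congr rfl fun y _ => ?_
    simp only [mul_assoc]
    rw [intervalIntegral.integral_const_mul, intervalIntegral.integral_const_mul]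
    ring
  · intro y _
    simp only [mul_assoc]
    refine IntervalIntegrable.const_mul (IntervalIntegrable.const_mul ?_ _) _
    exact lowFamA_int (Complex.measurable_ofReal.comp (hD.meas y v)) (M := Real.exp (3 * R) * P)
      (fun t => by
        rw [Function.comp_apply, Complex.norm_real, Real.norm_of_nonneg (hD.nn y v t)]
        exact h_le hD y v t) ξ _ _

theorem U_fD_dead (φ : Y → ℂ) (ξ : ℝ) {v : List Bool} (hv : ¬A v) (w : List Bool) :
    U (fD P h A φ v) α ℓ ξ w = 0 := by
  unfold U cu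
  simp [fD, if_neg hv]

theorem fD_norm (hD : Data R P μ h α ℓ A lam Z) {φ : Y → ℂ} (hφ : ∀ y, ‖φ y‖ ≤ 1) (v : List Bool)
    (t : ℝ) : ‖fD P h A φ v t‖ ≤ P⁻¹ * ∑ y, h y v t := by
  have hP : 0 ≤ P⁻¹ := (inv_pos.2 hD.hP).le
  unfold fD
  split_ifs
  · rw [Finset.mul_sum]
    refine (norm_sum_le _ _).trans (Finset.sum_le_sum fun y _ => ?_)
    rw [norm_mul, norm_mul, Complex.norm_real, Complex.norm_real, Real.norm_of_nonneg hP,
      Real.norm_of_nonneg (hD.nn y v t)]
    have := mul_le_mul_of_nonneg_right (hφ y) (mul_nonneg hP (hD.nn y v t))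
    linarith
  · simpa using mul_nonneg hP (Finset.sum_nonneg fun y _ => hD.nn y v t)

theorem fD_meas (hD : Data R P μ h α ℓ A lam Z) (φ : Y → ℂ) (v : List Bool) :
    Measurable (fD P h A φ v) := by
  unfold fD
  split_ifs
  · exact Finset.measurable_sum _ fun y _ =>
      (Complex.measurable_ofReal.comp (hD.meas y v)).const_mul _
  · exact measurable_const

theorem card_le (hD : Data R P μ h α ℓ A lam Z) (hR : 1 ≤ R) (hm : 1 ≤ mm R) :
    (Fintype.card Y : ℝ) ≤ Real.exp R := by
  rcases Nat.eq_zero_or_pos (Fintype.card Y) with h0 | h0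
  · rw [h0]; simpa using (Real.exp_pos R).le
  · rw [← Real.log_le_iff_le_exp (by exact_mod_cast h0)]
    exact hD.card.trans (div_le_self (by linarith) (one_le_pow₀ hm))

theorem fD_sup (hD : Data R P μ h α ℓ A lam Z) (hR : 1 ≤ R) (hm : 1 ≤ mm R) {φ : Y → ℂ}
    (hφ : ∀ y, ‖φ y‖ ≤ 1) (v : List Bool) (t : ℝ) : ‖fD P h A φ v t‖ ≤ Real.exp (4 * R) := by
  have hP := hD.hP
  refine (fD_norm hD hφ v t).trans ?_
  have h1 : ∑ y, h y v t ≤ Fintype.card Y * (Real.exp (3 * R) * P) := by
    simpa using Finset.sum_le_card_nsmul Finset.univ _ _ fun y _ => h_le hD y v t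
  have h2 := mul_le_mul_of_nonneg_right (card_le hD hR hm)
    (show 0 ≤ Real.exp (3 * R) * P by positivity)
  rw [inv_mul_le_iff₀ hP, show 4 * R = R + 3 * R by ring, Real.exp_add]
  linarith

theorem fD_ca (hD : Data R P μ h α ℓ A lam Z) {φ : Y → ℂ} (hφ : ∀ y, ‖φ y‖ ≤ 1) (v : List Bool) :
    ca (fD P h A φ v) (nd α ℓ v) (ln ℓ v) ≤ 1 := by
  have hP := hD.hP
  have hl := lowFamA_ln_pos hD.hl v
  by_cases hv : A v
  · have hi : IntervalIntegrable (fun t => P⁻¹ * ∑ y, h y v t) volume (nd α ℓ v)
        (nd α ℓ v + ln ℓ v) :=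
      IntervalIntegrable.const_mul (by
        have := IntervalIntegrable.sum Finset.univ fun y _ => h_int hD y v (nd α ℓ v)
          (nd α ℓ v + ln ℓ v)
        have e : (fun t => ∑ y, h y v t) = ∑ y, h y v := by funext t; simp
        rw [e]; exact this) _
    have h1 : ∫ t in (nd α ℓ v)..(nd α ℓ v + ln ℓ v), ‖fD P h A φ v t‖ ≤
        ∫ t in (nd α ℓ v)..(nd α ℓ v + ln ℓ v), P⁻¹ * ∑ y, h y v t := by
      refine intervalIntegral.integral_mono_on (by linarith) ?_ hi fun t _ => fD_norm hD hφ v t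
      refine lowFamA_bdd (fD_meas hD φ v).norm.aestronglyMeasurable
        (M := P⁻¹ * (Fintype.card Y * (Real.exp (3 * R) * P))) (fun t => ?_) _ _
      rw [norm_norm]
      refine (fD_norm hD hφ v t).trans (mul_le_mul_of_nonneg_left ?_ (by positivity))
      simpa using Finset.sum_le_card_nsmul Finset.univ _ _ fun y _ => h_le hD y v t
    rw [intervalIntegral.integral_const_mul,
      intervalIntegral.integral_finsetSum fun y _ => h_int hD y v _ _] at h1
    have h2 := hD.mass v hv
    simp only [ms, av] at h2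
    rw [← Finset.sum_div, div_le_iff₀ hl] at h2
    unfold ca
    rw [div_le_one hl]
    refine h1.trans ?_
    rw [inv_mul_le_iff₀ hP]
    exact h2
  · simp [ca, fD, hv]

theorem fD_const (hD : Data R P μ h α ℓ A lam Z) (φ : Y → ℂ) (v : List Bool) (c : Bool)
    (hv : ¬RemD h A (v ++ [c])) : fD P h A φ (v ++ [c]) = fD P h A φ v := by
  funext t
  by_cases h1 : A v
  · have h2 : A (v ++ [c]) := by
      by_contra h3
      exact hv (Or.inr ⟨v, c, rfl, h1, Or.inl h3⟩)
    have h3 : ∀ y, h y (v ++ [c]) = h y v := by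
      by_contra h3
      exact hv (Or.inr ⟨v, c, rfl, h1, Or.inr h3⟩)
    simp only [fD, if_pos h1, if_pos h2, h3]
  · have h2 : ¬A (v ++ [c]) := fun h3 => h1 (A_parent hD h3)
    simp only [fD, if_neg h1, if_neg h2]

theorem Wn_eqD (hD : Data R P μ h α ℓ A lam Z) (φ : Y → ℂ) (ξ : ℝ) (l : List Bool) (s t : ℕ) :
    Wn h α ℓ A φ ξ l s t = (P : ℂ) * wD (Dr (fun _ => 1) (fD P h A φ) α ℓ ξ) l s t := by
  have hP : (P : ℂ) ≠ 0 := by exact_mod_cast hD.hP.ne'
  unfold Wn wD
  rw [Finset.mul_sum]
  refine Finset.sum_congr rfl fun k _ => ?_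
  unfold tD Dr
  by_cases h1 : A (l.take k)
  · simp only [if_pos h1, U_fD hD φ ξ h1, dd, mul_sub, Finset.sum_sub_distrib]
    push_cast
    field_simp
  · simp [if_neg h1, U_fD_dead φ ξ h1]

/-- **LOW for a life** (one member of the mask) -/
theorem low_life (hD : Data R P μ h α ℓ A lam Z) (hR : 1 ≤ R) (hm : 1 ≤ mm R) {φ : Y → ℂ}
    (hφ : ∀ y, ‖φ y‖ ≤ 1) {c : ℝ} (hc : 0 < c) (hc2 : c ≤ 2) (n : ℕ) (ξ : List Bool → ℝ)
    (s t : List Bool → ℕ) (ht : ∀ l, l.length = n → t l ≤ n - 1)
    (hsm : ∀ l, l.length = n → ∀ k, s l ≤ k → k ≤ t l → A (l.take k) →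
      SS h α ℓ (ξ l) (l.take k) ≤ c * P) :
    avg n (fun l => ‖Wn h α ℓ A φ (ξ l) l (s l) (t l)‖) ≤
      P * ((20000 * √c * (4 * R + Real.log (2 / c) + 1) + 3) * (2 + mm R ^ 30)) := by
  have hP := hD.hP
  have key := low_rem' (fD_meas hD φ) (R := 4 * R) (by linarith) (fD_sup hD hR hm hφ) α hD.hl
    (Rem := RemD h A) (Or.inl rfl) (fD_const hD φ) (fD_ca hD hφ) hc hc2 n ξ s t ht
    (fun l hl k hk1 hk2 => by
      by_cases h1 : A (l.take k)
      · rw [U_fD hD φ _ h1, norm_mul, Complex.norm_real, Real.norm_of_nonneg (by positivity),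
          inv_mul_le_iff₀ hP, mul_comm P c]
        refine le_trans ?_ (hsm l hl k hk1 hk2 h1)
        refine (norm_sum_le _ _).trans (Finset.sum_le_sum fun y _ => ?_)
        rw [norm_mul]
        exact mul_le_of_le_one_left (norm_nonneg _) (hφ y)
      · rw [U_fD_dead φ _ h1]; simpa using hc.le)
  have hlog : 0 ≤ Real.log (2 / c) := Real.log_nonneg (by rw [le_div_iff₀ hc]; linarith)
  simp only [Wn_eqD hD, norm_mul, Complex.norm_real, Real.norm_of_nonneg hP.le]
  rw [avg_mul_left]
  refine mul_le_mul_of_nonneg_left (key.trans ?_) hP.le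
  exact mul_le_mul_of_nonneg_left (remD_cnt hD (by linarith) n) (by positivity)

end

end Crest.Agent.R100.Life52
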