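import Crest.Agent.R100.LowDefs

/-!
# Row 100, POT (helper12): packing of the triggers, the junk bound, the lineage accounting
Abstract statements on the dyadic tree of `LowDefs` (the birth node of the class is the root).
-/

set_option autoImplicit false

noncomputable section

namespace Crest.Agent.R100.Pot

open Crest.Agent.R100 Crest.Agent.R100.Low Finset

/-- telescoping: a nonnegative supermartingale `V` (value after the drops made at the node) pays
for the drops `dr` made at the nodes of depth `1, .., n`. -/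
theorem tele {V dr : List Bool → ℝ}
    (hs : ∀ v, (V (v ++ [false]) + dr (v ++ [false]) + (V (v ++ [true]) + dr (v ++ [true]))) / 2
      ≤ V v) (n : ℕ) :
    avg n (fun l => V l + ∑ k ∈ range n, dr (l.take (k + 1))) ≤ V [] := by
  induction n with
  | zero => simp [avg]
  | succ n ih =>
    rw [avg_snoc]
    refine le_trans (avg_mono_len n fun v hv => ?_) ih
    have h1 : ∀ c : Bool, ∑ k ∈ range (n + 1), dr ((v ++ [c]).take (k + 1)) =
        ∑ k ∈ range n, dr (v.take (k + 1)) + dr (v ++ [c]) := fun c => by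
      rw [sum_range_succ]
      congr 1
      · refine sum_congr rfl fun k hk => ?_
        rw [List.take_append_of_le_length (by rw [mem_range] at hk; omega)]
      · rw [List.take_of_length_le (by simp [hv])]
    rw [h1, h1]
    have := hs v
    linarith

theorem tele' {V dr : List Bool → ℝ} (hV : ∀ v, 0 ≤ V v)
    (hs : ∀ v, (V (v ++ [false]) + dr (v ++ [false]) + (V (v ++ [true]) + dr (v ++ [true]))) / 2
      ≤ V v) (n : ℕ) :
    avg n (fun l => ∑ k ∈ range n, dr (l.take (k + 1))) ≤ V [] :=
  le_trans (avg_mono_len n fun l _ => by linarith [hV l]) (tele hs n)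

/-- **packing**: `pc v`, `p v` = mass of the class before / after the removals at `v`, `P v` = the
level, `N v` = the number of triggers at `v`; each of them removes at least `θ P v`. -/
theorem pack {p pc P N : List Bool → ℝ} {θ : ℝ} (hθ : 0 < θ) (nn : ∀ v, 0 ≤ p v)
    (mp : ∀ v, (pc (v ++ [false]) + pc (v ++ [true])) / 2 ≤ p v)
    (hN : ∀ v, 0 ≤ N v) (hrem : ∀ v, θ * P v * N v ≤ pc v - p v)
    (hP : ∀ v c, P v ≤ P (v ++ [c])) (hP0 : ∀ v, 0 < P v) (hpc : ∀ v, pc v ≤ 2 * P v)
    (w : List Bool) (m : ℕ) :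
    avg m (fun l => ∑ i ∈ range (m + 1), N (w ++ l.take i)) ≤ 2 / θ := by
  have hmono : ∀ l : List Bool, P w ≤ P (w ++ l) := fun l => by
    induction l using List.reverseRecOn with
    | nil => simp
    | append_singleton l c ih => rw [← List.append_assoc]; exact ih.trans (hP _ c)
  have hd : ∀ l : List Bool, θ * P w * N (w ++ l) ≤ pc (w ++ l) - p (w ++ l) := fun l =>
    le_trans (mul_le_mul_of_nonneg_right (mul_le_mul_of_nonneg_left (hmono l) hθ.le) (hN _))
      (hrem _)
  have ht := tele' (V := fun l => p (w ++ l)) (dr := fun l => θ * P w * N (w ++ l))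
    (fun v => nn _) (fun v => by
      have h1 := hd (v ++ [false])
      have h2 := hd (v ++ [true])
      have h3 := mp (w ++ v)
      simp only [← List.append_assoc] at h1 h2 ⊢
      linarith) m
  have h0 := hd []
  have h4 := hpc w
  simp only [List.append_nil] at ht h0
  have hpos : 0 < θ * P w := mul_pos hθ (hP0 w)
  have e : avg m (fun l => ∑ k ∈ range m, θ * P w * N (w ++ l.take (k + 1))) + θ * P w * N w =
      θ * P w * avg m (fun l => ∑ i ∈ range (m + 1), N (w ++ l.take i)) := by
    rw [← avg_mul_left, ← avg_const m (θ * P w * N w), ← avg_add']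
    refine avg_congr_len m fun l _ => ?_
    rw [sum_range_succ', mul_add, mul_sum]
    simp
  rw [le_div_iff₀ hθ]
  have h5 : θ * P w * avg m (fun l => ∑ i ∈ range (m + 1), N (w ++ l.take i)) ≤ 2 * P w := by
    linarith
  have h6 := hP0 w
  nlinarith

open Classical in
/-- the triggers below the depth-`j` nodes with the property `Q` -/
theorem below {N : List Bool → ℝ} {T : ℝ}
    (hpack : ∀ w m, avg m (fun l => ∑ i ∈ range (m + 1), N (w ++ l.take i)) ≤ T)
    (Q : List Bool → Prop) {j n : ℕ} (hj : j ≤ n) :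
    avg n (fun l => if Q (l.take j) then ∑ k ∈ Ico j (n + 1), N (l.take k) else 0) ≤
      T * avg j (fun v => if Q v then 1 else 0) := by
  obtain ⟨m, rfl⟩ := Nat.exists_eq_add_of_le hj
  rw [avg_split, ← avg_mul_left]
  refine avg_mono_len j fun v hv => ?_
  have h1 : ∀ w : List Bool, (v ++ w).take j = v := fun w => by rw [← hv]; simp
  simp only [h1]
  split_ifs with hQ
  · rw [mul_one]
    refine le_trans (le_of_eq (avg_congr_len m fun w _ => ?_)) (hpack v m)
    rw [sum_Ico_eq_sum_range]
    have : j + m + 1 - j = m + 1 := by omega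
    rw [this]
    refine sum_congr rfl fun i _ => ?_
    rw [← hv, List.take_length_add_append]
  · rw [avg_const, mul_zero]

open Classical in
/-- **junk, one atom**: `d k = h_I - h_k ∈ [0, M]`, `meet v`: the node `v` meets the atom; `hU` is
the uncertainty inequality (U). -/
theorem junk_one {N : List Bool → ℝ} (hN : ∀ v, 0 ≤ N v) {T Λ M : ℝ} {n : ℕ}
    (hpack : ∀ w m, avg m (fun l => ∑ i ∈ range (m + 1), N (w ++ l.take i)) ≤ T)
    (d : ℕ → ℝ) (hd : ∀ k, k ≤ n → 0 ≤ d k ∧ d k ≤ M)
    (meet : List Bool → Prop) (her : ∀ v k, meet v → meet (v.take k))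
    (hU : ∀ k, k ≤ n → avg k (fun v => if meet v then 1 else 0) ≤ Λ * Real.exp (-d k)) :
    avg n (fun l => ∑ k ∈ range (n + 1),
      if meet (l.take k) then N (l.take k) * Real.exp (d k) else 0) ≤
      Real.exp 1 * (M + 1) * T * Λ := by
  have hT : 0 ≤ T := le_trans (avg_nonneg_len 0 fun l _ => sum_nonneg fun i _ => hN _) (hpack [] 0)
  have hM : 0 ≤ M := (hd 0 (Nat.zero_le _)).1.trans (hd 0 (Nat.zero_le _)).2
  have hΛ : 0 ≤ Λ := by
    have h1 := hU 0 (Nat.zero_le _)
    have h2 : (0 : ℝ) ≤ avg 0 (fun v => if meet v then (1 : ℝ) else 0) :=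
      avg_nonneg_len 0 fun l _ => by split_ifs <;> norm_num
    exact nonneg_of_mul_nonneg_left (h2.trans h1) (Real.exp_pos _)
  have hgrp : ∀ m : ℕ, avg n (fun l => ∑ k ∈ (range (n + 1)).filter (fun k => ⌊d k⌋₊ = m),
      if meet (l.take k) then N (l.take k) * Real.exp (d k) else 0) ≤ Real.exp 1 * T * Λ := by
    intro m
    rcases ((range (n + 1)).filter (fun k => ⌊d k⌋₊ = m)).eq_empty_or_nonempty with he | hne
    · simp only [he, sum_empty, avg_const]; positivity
    set G := (range (n + 1)).filter (fun k => ⌊d k⌋₊ = m) with hG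
    have hjG : G.min' hne ∈ G := G.min'_mem hne
    have hjle : ∀ k ∈ G, G.min' hne ≤ k := fun k hk => G.min'_le k hk
    generalize G.min' hne = j at hjG hjle
    have hmem : ∀ k ∈ G, k ≤ n ∧ (m : ℝ) ≤ d k ∧ d k ≤ m + 1 := fun k hk => by
      rw [hG, mem_filter, mem_range] at hk
      have h0 := (hd k (by omega)).1
      refine ⟨by omega, ?_, ?_⟩
      · rw [← hk.2]; exact Nat.floor_le h0
      · rw [← hk.2]; exact (Nat.lt_floor_add_one _).le
    obtain ⟨hjn, hjm, -⟩ := hmem j hjG
    have h1 : avg n (fun l => ∑ k ∈ G,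
        if meet (l.take k) then N (l.take k) * Real.exp (d k) else 0) ≤
        avg n (fun l => Real.exp (m + 1) *
          if meet (l.take j) then ∑ k ∈ Ico j (n + 1), N (l.take k) else 0) := by
      refine avg_mono_len n fun l _ => ?_
      by_cases hq : meet (l.take j)
      · rw [if_pos hq, mul_sum]
        refine le_trans (sum_le_sum (g := fun k => Real.exp (m + 1) * N (l.take k))
          fun k hk => ?_) (sum_le_sum_of_subset_of_nonneg (fun k hk => ?_) fun k _ _ => ?_)
        · have := Real.exp_le_exp.2 (hmem k hk).2.2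
          have h2 := hN (l.take k)
          have h3 := Real.exp_pos ((m : ℝ) + 1)
          split_ifs
          · nlinarith
          · positivity
        · rw [mem_Ico]; exact ⟨hjle k hk, Nat.lt_succ_of_le (hmem k hk).1⟩
        · have h2 := hN (l.take k)
          positivity
      · rw [if_neg hq, mul_zero]
        refine le_of_eq (sum_eq_zero fun k hk => if_neg fun hk' => hq ?_)
        have := her _ j hk'
        rwa [List.take_take, min_eq_left (hjle k hk)] at this
    rw [avg_mul_left] at h1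
    have h2 := below hpack meet hjn
    have h3 := mul_le_mul_of_nonneg_left (hU j hjn) hT
    have h4 : Real.exp (m + 1) * Real.exp (-d j) ≤ Real.exp 1 := by
      rw [← Real.exp_add]; exact Real.exp_le_exp.2 (by linarith)
    have h5 := mul_le_mul_of_nonneg_left (h2.trans h3) (Real.exp_pos ((m : ℝ) + 1)).le
    have h6 := mul_le_mul_of_nonneg_right h4 (mul_nonneg hT hΛ)
    calc _ ≤ _ := h1.trans h5
      _ = Real.exp (m + 1) * Real.exp (-d j) * (T * Λ) := by ring
      _ ≤ _ := h6
      _ = _ := by ring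
  have hsplit : avg n (fun l => ∑ k ∈ range (n + 1),
      if meet (l.take k) then N (l.take k) * Real.exp (d k) else 0) =
      ∑ m ∈ range (⌊M⌋₊ + 1), avg n (fun l =>
        ∑ k ∈ (range (n + 1)).filter (fun k => ⌊d k⌋₊ = m),
          if meet (l.take k) then N (l.take k) * Real.exp (d k) else 0) := by
    rw [← avg_sum]
    refine avg_congr_len n fun l _ => ?_
    refine (sum_fiberwise_of_maps_to (fun k hk => ?_) _).symm
    rw [mem_range] at hk ⊢
    exact Nat.lt_succ_of_le (Nat.floor_mono (hd k (by omega)).2)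
  rw [hsplit]
  refine le_trans (sum_le_sum fun m _ => hgrp m) ?_
  rw [sum_const, card_range, nsmul_eq_mul]
  have h7 : ((⌊M⌋₊ + 1 : ℕ) : ℝ) ≤ M + 1 := by
    push_cast; linarith [Nat.floor_le hM]
  have h8 : 0 ≤ Real.exp 1 * T * Λ := by positivity
  nlinarith

open Classical in
/-- **junk**: `F0 y` = density of the atom `y` at birth, `jk v` = density of the junk made at `v`
(`a = exp (2 K1 - δ / 2)`). -/
theorem junk {Y : Type*} (S : Finset Y) {N : List Bool → ℝ} (hN : ∀ v, 0 ≤ N v) {T Λ M a : ℝ}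
    {n : ℕ} (ha : 0 ≤ a)
    (hpack : ∀ w m, avg m (fun l => ∑ i ∈ range (m + 1), N (w ++ l.take i)) ≤ T)
    (d : ℕ → ℝ) (hd : ∀ k, k ≤ n → 0 ≤ d k ∧ d k ≤ M)
    (meet : Y → List Bool → Prop) (her : ∀ y ∈ S, ∀ v k, meet y v → meet y (v.take k))
    (hU : ∀ y ∈ S, ∀ k, k ≤ n →
      avg k (fun v => if meet y v then 1 else 0) ≤ Λ * Real.exp (-d k))
    (F0 : Y → ℝ) (hF0 : ∀ y ∈ S, 0 ≤ F0 y) (jk : List Bool → ℝ)
    (hjk : ∀ v, v.length ≤ n →
      jk v ≤ a * N v * Real.exp (d v.length) * ∑ y ∈ S, if meet y v then F0 y else 0) :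
    avg n (fun l => ∑ k ∈ range (n + 1), jk (l.take k)) ≤
      Real.exp 1 * (M + 1) * T * Λ * a * ∑ y ∈ S, F0 y := by
  have h1 : avg n (fun l => ∑ k ∈ range (n + 1), jk (l.take k)) ≤
      avg n (fun l => ∑ y ∈ S, a * F0 y * ∑ k ∈ range (n + 1),
        if meet y (l.take k) then N (l.take k) * Real.exp (d k) else 0) := by
    refine avg_mono_len n fun l hl => ?_
    simp only [mul_sum]
    rw [sum_comm]
    refine sum_le_sum fun k hk => ?_
    rw [mem_range] at hk
    have hlen : (l.take k).length = k := by rw [List.length_take]; omega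
    have := hjk (l.take k) (by omega)
    rw [hlen, mul_sum] at this
    refine this.trans (le_of_eq (sum_congr rfl fun y _ => ?_))
    split_ifs <;> ring
  refine h1.trans ?_
  rw [avg_sum n S (fun y l => a * F0 y * ∑ k ∈ range (n + 1),
    if meet y (l.take k) then N (l.take k) * Real.exp (d k) else 0), mul_sum]
  refine sum_le_sum fun y hy => ?_
  rw [avg_mul_left]
  have h2 := junk_one hN hpack d hd (meet y) (her y hy) (hU y hy)
  have h3 := mul_le_mul_of_nonneg_left h2 (mul_nonneg ha (hF0 y hy))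
  linarith

/-- the junk rule, pointwise: `F0`, `h0` at birth, `hk` now, `hn` the entropy of the new mask -/
theorem junk_pt {F0 F Ψ h0 hk hn δ δ' K : ℝ} (hF0 : 0 < F0) (hF : 0 ≤ F)
    (hΨ : Ψ ≤ Real.log F0 + h0) (hn' : hk + δ' - K ≤ hn) (hδ : δ ≤ δ')
    (hj : F = 0 ∨ Real.log F + hn < Ψ + δ' / 2) :
    F ≤ Real.exp (K - δ / 2) * Real.exp (h0 - hk) * F0 := by
  rcases hF.eq_or_lt with h | h
  · rw [← h]; positivity
  rcases hj with hj | hj
  · rw [hj]; positivity
  rw [← Real.exp_log h, ← Real.exp_log hF0, ← Real.exp_add, ← Real.exp_add]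
  exact Real.exp_le_exp.2 (by linarith)

/-- the weight of a class of level `P ≤ B` and potential `Ψ ≤ E` -/
def wt (B E δ C P Ψ : ℝ) : ℝ := Real.log (B / P) / Real.log 2 + C * (E - Ψ) / δ

theorem wt_nonneg {B E δ C P Ψ : ℝ} (hP : 0 < P) (hPB : P ≤ B) (hδ : 0 < δ) (hC : 0 ≤ C)
    (hΨ : Ψ ≤ E) : 0 ≤ wt B E δ C P Ψ := by
  have h1 : 0 ≤ Real.log (B / P) := Real.log_nonneg ((one_le_div hP).2 hPB)
  have h2 : 0 < Real.log 2 := Real.log_pos (by norm_num)
  have h3 : 0 ≤ E - Ψ := by linarith
  unfold wt; positivity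

/-- doubling the level lowers the weight by one -/
theorem wt_double {B E δ C P Ψ : ℝ} (hP : 0 < P) (hB : 0 < B) :
    wt B E δ C (2 * P) Ψ = wt B E δ C P Ψ - 1 := by
  have h2 : 0 < Real.log 2 := Real.log_pos (by norm_num)
  unfold wt
  rw [Real.log_div hB.ne' (by positivity), Real.log_div hB.ne' hP.ne',
    Real.log_mul (by norm_num) hP.ne']
  field_simp
  ring

/-- a birth: the level drops by at most `2 ^ j`, the potential grows by `δ' / 2` -/
theorem wt_birth {B E δ δ' C P P' Ψ : ℝ} {j : ℕ} (hP : 0 < P) (hB : 0 < B) (hδ : 0 < δ)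
    (hP' : P ≤ 2 ^ j * P') (hj : ((j : ℝ) + 1) * δ ≤ C * (δ' / 2)) :
    wt B E δ C P' (Ψ + δ' / 2) ≤ wt B E δ C P Ψ - 1 := by
  have h2 : 0 < Real.log 2 := Real.log_pos (by norm_num)
  have hP0 : 0 < P' := by
    by_contra h
    have : (2 : ℝ) ^ j * P' ≤ 0 := mul_nonpos_of_nonneg_of_nonpos (by positivity) (not_lt.1 h)
    linarith
  have h1 : Real.log P ≤ j * Real.log 2 + Real.log P' := by
    have := Real.log_le_log hP hP'
    rwa [Real.log_mul (by positivity) hP0.ne', Real.log_pow] at this
  unfold wt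
  rw [Real.log_div hB.ne' hP0.ne', Real.log_div hB.ne' hP.ne']
  have h3 : (Real.log B - Real.log P') / Real.log 2 ≤
      (Real.log B - Real.log P) / Real.log 2 + j := by
    rw [div_add' _ _ _ h2.ne', div_le_div_iff_of_pos_right h2]; linarith
  have h4 : C * (E - (Ψ + δ' / 2)) / δ ≤ C * (E - Ψ) / δ - (j + 1) := by
    rw [div_sub' hδ.ne', div_le_div_iff_of_pos_right hδ]; nlinarith
  linarith

end Crest.Agent.R100.Pot
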