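import Crest.Agent.R100.LifeBasic
import Crest.Agent.R100.LifeLow2
import Crest.Agent.R100.Pot

set_option autoImplicit false

open MeasureTheory Set

noncomputable section

namespace Crest.Agent.R100.Life

open Crest.Agent.R100 Crest.Agent.R100.Low Crest.Agent.R100.Run

variable {Y Ω : Type} [Fintype Y] [Fintype Ω] {R P μ : ℝ} {h : Y → List Bool → ℝ → ℝ} {α ℓ : ℝ}
  {A : List Bool → Prop} {lam Z : Ω → ℝ}

/-- the roots of the periods -/
def Rem (h : Y → List Bool → ℝ → ℝ) (A : List Bool → Prop) (v : List Bool) : Prop :=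
  v = [] ∨ (A v ∧ ¬ ∀ y, h y v = h y v.dropLast)

theorem LifeRem_h_le (hD : Data R P μ h α ℓ A lam Z) (y : Y) (v : List Bool) (t : ℝ) :
    h y v t ≤ Real.exp (3 * R) * P := by
  induction v using List.reverseRecOn with
  | nil => exact hD.sup y t
  | append_singleton v c ih => exact (hD.dec y v c t).trans ih

theorem LifeRem_ms_nonneg (hD : Data R P μ h α ℓ A lam Z) (y : Y) (w v : List Bool) :
    0 ≤ ms h α ℓ y w v := by
  have hl := lowFamA_ln_pos hD.hl v
  exact div_nonneg (intervalIntegral.integral_nonneg (by linarith) fun t _ => hD.nn y w t) hl.le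

theorem LifeRem_ms_mart (hD : Data R P μ h α ℓ A lam Z) (y : Y) (w v : List Bool) :
    ms h α ℓ y w v = (ms h α ℓ y w (v ++ [false]) + ms h α ℓ y w (v ++ [true])) / 2 := by
  have hl := lowFamA_ln_pos hD.hl v
  have hi : ∀ a b : ℝ, IntervalIntegrable (h y w) volume a b := fun a b =>
    lowFamA_bdd (hD.meas y w).aestronglyMeasurable (M := Real.exp (3 * R) * P)
      (fun t => by rw [Real.norm_of_nonneg (hD.nn y w t)]; exact LifeRem_h_le hD y w t) a b
  simp only [ms, av, nd_snoc, ln_snoc, lowFamA_ch_false, lowFamA_ch_true]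
  have h3 := intervalIntegral.integral_add_adjacent_intervals
    (hi (nd α ℓ v) (nd α ℓ v + ln ℓ v / 2))
    (hi (nd α ℓ v + ln ℓ v / 2) (nd α ℓ v + ln ℓ v / 2 + ln ℓ v / 2))
  rw [show nd α ℓ v + ln ℓ v / 2 + ln ℓ v / 2 = nd α ℓ v + ln ℓ v by ring] at h3 ⊢
  rw [← h3]
  field_simp

theorem rem_cnt (hD : Data R P μ h α ℓ A lam Z) (hm : 0 < mm R) (n : ℕ) :
    avg n (Cand.cnt (Rem h A) n) ≤ 1 + mm R ^ 30 := by
  classical
  have hP := hD.hP
  set q : ℝ := P / mm R ^ 30 with hq
  have hq0 : 0 < q := by positivity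
  set V : List Bool → ℝ := fun v => if A v then ∑ y, ms h α ℓ y v v else 0 with hV
  set dr : List Bool → ℝ :=
    fun v => if A v ∧ ¬ ∀ y, h y v = h y v.dropLast then q else 0 with hdr
  have hV0 : ∀ v, 0 ≤ V v := by
    intro v
    simp only [hV]
    split_ifs
    · exact Finset.sum_nonneg fun y _ => LifeRem_ms_nonneg hD y v v
    · exact le_rfl
  have hc : ∀ v c, V (v ++ [c]) + dr (v ++ [c]) ≤
      if A v then ∑ y, ms h α ℓ y v (v ++ [c]) else 0 := by
    intro v c
    by_cases hA : A (v ++ [c])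
    · have hAv : A v := by simpa using hD.her _ v.length hA
      simp only [hV, hdr, if_pos hA, if_pos hAv, List.dropLast_concat]
      by_cases he : ∀ y, h y (v ++ [c]) = h y v
      · rw [if_neg (fun hh => hh.2 he), add_zero]
        refine le_of_eq (Finset.sum_congr rfl fun y _ => ?_)
        simp only [ms, he y]
      · rw [if_pos ⟨hA, he⟩]
        have h1 := (hD.gap v c hA).resolve_left he
        rw [Finset.sum_sub_distrib] at h1
        linarith
    · simp only [hV, hdr, if_neg hA]
      rw [if_neg (fun hh => hA hh.1), add_zero]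
      split_ifs
      · exact Finset.sum_nonneg fun y _ => LifeRem_ms_nonneg hD y v _
      · exact le_rfl
  have hs : ∀ v, (V (v ++ [false]) + dr (v ++ [false]) + (V (v ++ [true]) + dr (v ++ [true]))) / 2
      ≤ V v := by
    intro v
    have h1 := hc v false
    have h2 := hc v true
    by_cases hA : A v
    · rw [if_pos hA] at h1 h2
      have h3 : V v = (∑ y, ms h α ℓ y v (v ++ [false]) + ∑ y, ms h α ℓ y v (v ++ [true])) / 2 := by
        simp only [hV, if_pos hA]
        rw [← Finset.sum_add_distrib, Finset.sum_div]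
        exact Finset.sum_congr rfl fun y _ => LifeRem_ms_mart hD y v v
      linarith
    · rw [if_neg hA] at h1 h2
      have := hV0 v
      linarith
  have ht := Pot.tele' hV0 hs n
  have hroot : V [] ≤ P := by
    simp only [hV]
    split_ifs with hA
    · exact hD.mass _ hA
    · exact hP.le
  have hle : avg n (Cand.cnt (Rem h A) n) ≤
      avg n (fun l => 1 + q⁻¹ * ∑ k ∈ Finset.range n, dr (l.take (k + 1))) := by
    refine avg_mono_len n fun l hl => ?_
    unfold Cand.cnt
    rw [Finset.sum_range_succ', add_comm, Finset.mul_sum]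
    refine add_le_add (by split_ifs <;> norm_num) (Finset.sum_le_sum fun k hk => ?_)
    have hk' : k < n := Finset.mem_range.1 hk
    split_ifs with hr
    · have hne : l.take (k + 1) ≠ [] := by
        intro h0
        have := congrArg List.length h0
        simp only [List.length_take, List.length_nil] at this
        omega
      have h1 := hr.resolve_left hne
      simp only [hdr, if_pos h1]
      rw [inv_mul_cancel₀ hq0.ne']
    · simp only [hdr]
      split_ifs <;> positivity
  rw [avg_add', avg_const, avg_mul_left] at hle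
  have h5 : q⁻¹ * avg n (fun l => ∑ k ∈ Finset.range n, dr (l.take (k + 1))) ≤ q⁻¹ * P :=
    mul_le_mul_of_nonneg_left (ht.trans hroot) (by positivity)
  have h6 : q⁻¹ * P = mm R ^ 30 := by
    rw [hq]
    field_simp
  linarith

/-- the LOW zone -/
theorem low_Wn (hD : Data R P μ h α ℓ A lam Z) (hR : 1 ≤ R) (hm : 1 ≤ mm R) {φ : Y → ℂ}
    (hφ : ∀ y, ‖φ y‖ ≤ 1) {c : ℝ} (hc : 0 < c) (hc1 : c ≤ 1) (n : ℕ) (ξ : List Bool → ℝ)
    (t : List Bool → ℕ) (ht : ∀ l, l.length = n → t l ≤ n - 1)
    (hsm : ∀ l, l.length = n → ∀ k, k < t l → A (l.take k) →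
      SS h α ℓ (ξ l) (l.take k) ≤ c * P) :
    avg n (fun l => ‖Wn h α ℓ A φ (ξ l) l 0 (t l)‖) ≤
      (2 + mm R ^ 30) * P * (20000 * √c * (4 * R + Real.log (2 / c) + 1) + 6) := by
  have hP := hD.hP
  have key := Life52.low_life hD hR hm hφ hc (by linarith) n ξ
    (fun l => if t l = 0 then 1 else 0) (fun l => t l - 1)
    (fun l hl => (Nat.sub_le _ _).trans (ht l hl))
    (fun l hl k hk1 hk2 hA => hsm l hl k (by split_ifs at hk1 <;> omega) hA)
  have h1 : avg n (fun l => ‖Wn h α ℓ A φ (ξ l) l 0 (t l)‖) ≤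
      avg n (fun l => ‖Wn h α ℓ A φ (ξ l) l (if t l = 0 then 1 else 0) (t l - 1)‖ + 3 * P) := by
    refine avg_mono_len n fun l _ => ?_
    by_cases h0 : t l = 0
    · rw [Wn_empty φ (ξ l) l (s := 0) (t := t l) h0.le, norm_zero]
      positivity
    · rw [if_neg h0, Wn_add φ (ξ l) l (s := 0) (m := t l - 1) (t := t l) (Nat.zero_le _)
        (Nat.sub_le _ _)]
      refine (norm_add_le _ _).trans (add_le_add le_rfl ?_)
      have := Wn_triv hD hφ (ξ l) l (t l - 1) (t l)
      rwa [show t l - (t l - 1) = 1 by omega, Nat.cast_one, mul_one] at this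
  rw [avg_add', avg_const] at h1
  have h2 : 0 ≤ mm R ^ 30 := by positivity
  nlinarith [mul_nonneg hP.le h2]

end Crest.Agent.R100.Life
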