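import Crest.Agent.R100.LifeRun
import Crest.Agent.R100.CandDefs

/-! # Row 100, LIFE (helper96): the information of the labels (node, lattice point) -/

set_option autoImplicit false
set_option linter.unusedSectionVars false

open MeasureTheory Set

noncomputable section

namespace Crest.Agent.R100.Life

open Crest.Agent.R100 Crest.Agent.R100.Low Crest.Agent.R100.Run

variable {Y Ω : Type} [Fintype Y] [Fintype Ω] {R P μ : ℝ} {h : Y → List Bool → ℝ → ℝ} {α ℓ : ℝ}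
  {A : List Bool → Prop} {lam Z : Ω → ℝ}

open Classical in
/-- an interval of radius `D / r` is covered by `2 D + 1` bins -/
theorem bin_cover (h0 : ∀ ω, 0 ≤ lam ω) {μ' r D : ℝ} (hr : 0 < r) (hD : 0 ≤ D)
    (hb : ∀ a : ℝ, ∑ ω, (if a ≤ Z ω ∧ Z ω ≤ a + 1 / r then lam ω else 0) ≤ μ') (hμ : 0 ≤ μ')
    (b : ℝ) : ∑ ω, (if |Z ω - b| * r ≤ D then lam ω else 0) ≤ (2 * D + 1) * μ' := by
  set m : ℕ := ⌊2 * D⌋₊ + 1 with hm
  have hm1 : (m : ℝ) ≤ 2 * D + 1 := by
    rw [hm]; push_cast; linarith [Nat.floor_le (show 0 ≤ 2 * D by linarith)]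
  calc ∑ ω, (if |Z ω - b| * r ≤ D then lam ω else 0)
      ≤ ∑ ω, ∑ i ∈ Finset.range m,
          (if b - D / r + i / r ≤ Z ω ∧ Z ω ≤ b - D / r + i / r + 1 / r then lam ω else 0) := by
        refine Finset.sum_le_sum fun ω _ => ?_
        have hnn : ∀ i ∈ Finset.range m, 0 ≤
            (if b - D / r + i / r ≤ Z ω ∧ Z ω ≤ b - D / r + i / r + 1 / r then lam ω else 0) :=
          fun i _ => by
            split_ifs
            · exact h0 ω
            · exact le_rfl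
        split_ifs with hc
        · have h1 : |(Z ω - b) * r| ≤ D := by rwa [abs_mul, abs_of_pos hr]
          obtain ⟨h2, h3⟩ := abs_le.1 h1
          set x : ℝ := (Z ω - b) * r + D with hx
          have hx0 : 0 ≤ x := by linarith
          have hi : ⌊x⌋₊ ∈ Finset.range m :=
            Finset.mem_range.2 (Nat.lt_succ_of_le (Nat.floor_le_floor (by linarith)))
          refine le_trans (le_of_eq ?_) (Finset.single_le_sum hnn hi)
          have e : Z ω = b - D / r + x / r := by rw [hx]; field_simp; ring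
          rw [if_pos]
          constructor
          · rw [e]
            have := div_le_div_of_nonneg_right (Nat.floor_le hx0) hr.le
            linarith
          · rw [e]
            have := div_le_div_of_nonneg_right (Nat.lt_floor_add_one x).le hr.le
            rw [add_div (⌊x⌋₊ : ℝ)] at this
            linarith
        · exact Finset.sum_nonneg hnn
    _ ≤ ∑ _i ∈ Finset.range m, μ' := by
        rw [Finset.sum_comm]
        exact Finset.sum_le_sum fun i _ => hb _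
    _ ≤ (2 * D + 1) * μ' := by
        rw [Finset.sum_const, Finset.card_range, nsmul_eq_mul]
        exact mul_le_mul_of_nonneg_right hm1 hμ

theorem h96_ln_anti {ℓ : ℝ} (hℓ : 0 < ℓ) (l : List Bool) {a b : ℕ} (hab : a ≤ b) :
    ln ℓ (l.take b) ≤ ln ℓ (l.take a) := by
  unfold ln
  refine div_le_div_of_nonneg_left hℓ.le (by positivity) (pow_le_pow_right₀ one_le_two ?_)
  simp only [List.length_take]
  omega

open Classical in
/-- the total length of a finite family of marked nodes -/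
theorem nodes_le_cnt (Cd : List Bool → Prop) (n : ℕ) (V : Finset (List Bool))
    (hV : ∀ v ∈ V, Cd v ∧ v.length ≤ n) :
    ∑ v ∈ V, (1 : ℝ) / 2 ^ v.length ≤ avg n (Cand.cnt Cd n) := by
  have e : ∀ v ∈ V, (1 : ℝ) / 2 ^ v.length = avg n (fun l => if v <+: l then 1 else 0) :=
    fun v hv => by
      obtain ⟨m, rfl⟩ := Nat.exists_eq_add_of_le (hV v hv).2
      rw [avg_cyl, avg_const]
  rw [Finset.sum_congr rfl e, ← avg_sum]
  refine avg_mono_len n fun l _ => ?_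
  unfold Cand.cnt
  rw [← Finset.sum_filter, ← Finset.sum_filter]
  simp only [Finset.sum_const, nsmul_eq_mul, mul_one, Nat.cast_le]
  refine Finset.card_le_card_of_injOn List.length (fun v hv => ?_) (fun v hv v' hv' e => ?_)
  · have hv1 := Finset.mem_filter.1 (Finset.mem_coe.1 hv)
    refine Finset.mem_coe.2 (Finset.mem_filter.2 ⟨Finset.mem_range.2 ?_, ?_⟩)
    · exact Nat.lt_succ_of_le (hV v hv1.1).2
    · rw [← List.prefix_iff_eq_take.1 hv1.2]
      exact (hV v hv1.1).1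
  · have hv1 := Finset.mem_filter.1 (Finset.mem_coe.1 hv)
    have hv2 := Finset.mem_filter.1 (Finset.mem_coe.1 hv')
    rw [List.prefix_iff_eq_take.1 hv1.2, List.prefix_iff_eq_take.1 hv2.2, e]

theorem h96_paths (n : ℕ) : ∃ L : Finset (List Bool), ∀ l, l ∈ L ↔ l.length = n :=
  ⟨(List.finite_length_eq Bool n).toFinset, fun l => by simp⟩

open Classical in
/-- labels (node, lattice point), general bin bound `μ'` -/
theorem life_lab_gen (hD : Data R P μ h α ℓ A lam Z) (Cd : List Bool → Prop)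
    {κ ε M δ D c μ' : ℝ} (hε : 0 < ε) (hε1 : ε ≤ 1) (hM : 1 ≤ M) (hδ : 0 ≤ δ) (hD0 : 0 ≤ D)
    (hμ' : 0 < μ') (n : ℕ) (hCd : avg n (Cand.cnt Cd n) ≤ M)
    (hbin : ∀ v, A v → ∀ a : ℝ,
      ∑ ω, (if a ≤ Z ω ∧ Z ω ≤ a + 1 / ln ℓ v then lam ω else 0) ≤ μ')
    (hcnt : ∀ v, A v → ∀ F : Finset ℤ, (∀ N ∈ F, c ≤ SS h α ℓ (lat κ ℓ v N) v) →
      (F.card : ℝ) ≤ Real.exp δ / μ')
    (ξ : List Bool → ℝ) (φ : Ω → Y → ℂ) (hφ : ∀ ω y, ‖φ ω y‖ ≤ 1) (act : List Bool → Ω → Prop)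
    (k s t : List Bool → Ω → ℕ) (N : List Bool → Ω → ℤ)
    (hact : ∀ l, l.length = n → ∀ ω, act l ω → k l ω ≤ s l ω ∧ s l ω ≤ n ∧ t l ω ≤ n ∧
      Cd (l.take (k l ω)) ∧ A (l.take (s l ω)) ∧
      c ≤ SS h α ℓ (lat κ ℓ (l.take (k l ω)) (N l ω)) (l.take (k l ω)) ∧
      |ξ l + Z ω - lat κ ℓ (l.take (k l ω)) (N l ω)| * ln ℓ (l.take (s l ω)) ≤ D ∧
      ∀ j, k l ω ≤ j → j ≤ t l ω → A (l.take j) →
        SS h α ℓ (lat κ ℓ (l.take (k l ω)) (N l ω)) (l.take j) ≤ ε ^ 2 * P) :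
    ∑ ω, lam ω * avg n (fun l => if act l ω then
        ‖Wn h α ℓ A (φ ω) (lat κ ℓ (l.take (k l ω)) (N l ω)) l (s l ω) (t l ω)‖ else 0) ≤
      1024 * ε * P * (δ + Real.log (2 * D + 1) + Real.log M + 2) +
        5120 / ε * P * (1 + Real.log (Fintype.card Y)) := by
  obtain ⟨L, hL⟩ := h96_paths n
  set lab : List Bool → Ω → List Bool × ℤ := fun l ω => (l.take (k l ω), N l ω) with hlab
  set J : Finset (List Bool × ℤ) :=
    ((L ×ˢ (Finset.univ : Finset Ω)).filter fun x => act x.1 x.2).image fun x => lab x.1 x.2 with hJ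
  have hJ1 : ∀ j ∈ J, Cd j.1 ∧ j.1.length ≤ n ∧ A j.1 ∧ c ≤ SS h α ℓ (lat κ ℓ j.1 j.2) j.1 := by
    intro j hj
    obtain ⟨x, hx, rfl⟩ := Finset.mem_image.1 hj
    have hx1 := Finset.mem_filter.1 hx
    have hl : x.1.length = n := (hL _).1 (Finset.mem_product.1 hx1.1).1
    obtain ⟨a1, a2, -, a4, a5, a6, -⟩ := hact x.1 hl x.2 hx1.2
    refine ⟨a4, by simp only [hlab, List.length_take]; omega, ?_, a6⟩
    have := hD.her _ (k x.1 x.2) a5
    rwa [List.take_take, min_eq_left a1] at this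
  have hpos : 0 < Real.exp δ / μ' := by positivity
  have h21 : 0 < 2 * D + 1 := by linarith
  refine life_run hD J (fun j => j.1) (fun j => lat κ ℓ j.1 j.2) hε hε1 hM
    (τ := δ + Real.log (2 * D + 1)) (add_nonneg hδ (Real.log_nonneg (by linarith))) φ hφ n act lab
    s t (fun _ => (Real.exp δ / μ')⁻¹) (fun _ _ => by positivity) ?_ (fun l hl ω ha => ?_)
    (fun l hl j _ => ?_)
  · refine le_trans ?_ (le_trans (nodes_le_cnt Cd n (J.image Prod.fst) fun v hv => ?_) hCd)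
    · rw [← Finset.sum_fiberwise_of_maps_to (g := Prod.fst) (t := J.image Prod.fst)
        fun j hj => Finset.mem_image_of_mem _ hj]
      refine Finset.sum_le_sum fun v hv => ?_
      obtain ⟨j0, hj0, rfl⟩ := Finset.mem_image.1 hv
      rw [Finset.sum_congr rfl (g := fun _ => (Real.exp δ / μ')⁻¹ / 2 ^ j0.1.length)
        fun j hj => by rw [(Finset.mem_filter.1 hj).2], Finset.sum_const, nsmul_eq_mul,
        ← mul_div_assoc]
      refine div_le_div_of_nonneg_right ?_ (by positivity)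
      rw [← div_eq_mul_inv, div_le_one hpos]
      have hc := hcnt j0.1 (hJ1 j0 hj0).2.2.1 ((J.filter fun j => j.1 = j0.1).image Prod.snd)
        fun N' hN' => by
          obtain ⟨j, hj, rfl⟩ := Finset.mem_image.1 hN'
          have hj1 := Finset.mem_filter.1 hj
          rw [← hj1.2]
          exact (hJ1 j hj1.1).2.2.2
      rwa [Finset.card_image_of_injOn fun j hj j' hj' e => Prod.ext
        (((Finset.mem_filter.1 (Finset.mem_coe.1 hj)).2).trans
          (Finset.mem_filter.1 (Finset.mem_coe.1 hj')).2.symm) e] at hc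
    · obtain ⟨j, hj, rfl⟩ := Finset.mem_image.1 hv
      exact ⟨(hJ1 j hj).1, (hJ1 j hj).2.1⟩
  · obtain ⟨a1, a2, a3, -, -, -, -, a8⟩ := hact l hl ω ha
    have e : (l.take (k l ω)).length = k l ω := by rw [List.length_take]; omega
    refine ⟨Finset.mem_image.2 ⟨(l, ω), Finset.mem_filter.2
      ⟨Finset.mem_product.2 ⟨(hL l).2 hl, Finset.mem_univ _⟩, ha⟩, rfl⟩, List.take_prefix _ _,
      fun _ => ?_⟩
    simp only [hlab, e]
    exact ⟨a1, a3, a8⟩
  · rw [Real.exp_add, Real.exp_log h21]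
    have e : Real.exp δ * (2 * D + 1) * (Real.exp δ / μ')⁻¹ = (2 * D + 1) * μ' := by
      field_simp
    rw [e]
    by_cases hne : (Finset.univ.filter fun ω => act l ω ∧ lab l ω = j).Nonempty
    · obtain ⟨ω₀, h1, h2⟩ := Finset.exists_max_image _ (s l) hne
      have h1' := (Finset.mem_filter.1 h1).2
      have hA := (hact l hl ω₀ h1'.1).2.2.2.2.1
      refine le_trans (Finset.sum_le_sum fun ω _ => ?_)
        (bin_cover hD.lnn (lowFamA_ln_pos hD.hl _) hD0 (hbin _ hA) hμ'.le (lat κ ℓ j.1 j.2 - ξ l))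
      split_ifs with b1 b2
      · exact le_rfl
      · refine absurd ?_ b2
        have a7 := (hact l hl ω b1.1).2.2.2.2.2.2.1
        have e2 : Z ω - (lat κ ℓ j.1 j.2 - ξ l) = ξ l + Z ω - lat κ ℓ (l.take (k l ω)) (N l ω) := by
          rw [← b1.2]; simp only [hlab]; ring
        rw [e2]
        exact le_trans (mul_le_mul_of_nonneg_left (h96_ln_anti hD.hl l
          (h2 ω (Finset.mem_filter.2 ⟨Finset.mem_univ _, b1⟩))) (abs_nonneg _)) a7
      · exact hD.lnn ω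
      · exact le_rfl
    · exact le_trans (le_of_eq (Finset.sum_eq_zero fun ω _ => if_neg fun hh =>
        hne ⟨ω, Finset.mem_filter.2 ⟨Finset.mem_univ _, hh⟩⟩)) (by positivity)

open Classical in
/-- labels (node, lattice point), the bin bound in the form of balls -/
theorem life_lab_core (hD : Data R P μ h α ℓ A lam Z) (Cd : List Bool → Prop)
    {κ ε M δ D c μ' : ℝ} (hε : 0 < ε) (hε1 : ε ≤ 1) (hM : 1 ≤ M) (hδ : 0 ≤ δ)
    (hμ' : 0 < μ') (n : ℕ) (hCd : avg n (Cand.cnt Cd n) ≤ M)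
    (hbin : ∀ v, A v → ∀ b : ℝ, ∑ ω, (if |Z ω - b| * ln ℓ v ≤ D then lam ω else 0) ≤ μ')
    (hcnt : ∀ v, A v → ∀ F : Finset ℤ, (∀ N ∈ F, c ≤ SS h α ℓ (lat κ ℓ v N) v) →
      (F.card : ℝ) ≤ Real.exp δ / μ')
    (ξ : List Bool → ℝ) (φ : Ω → Y → ℂ) (hφ : ∀ ω y, ‖φ ω y‖ ≤ 1) (act : List Bool → Ω → Prop)
    (k s t : List Bool → Ω → ℕ) (N : List Bool → Ω → ℤ)
    (hact : ∀ l, l.length = n → ∀ ω, act l ω → k l ω ≤ s l ω ∧ s l ω ≤ n ∧ t l ω ≤ n ∧
      Cd (l.take (k l ω)) ∧ A (l.take (s l ω)) ∧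
      c ≤ SS h α ℓ (lat κ ℓ (l.take (k l ω)) (N l ω)) (l.take (k l ω)) ∧
      |ξ l + Z ω - lat κ ℓ (l.take (k l ω)) (N l ω)| * ln ℓ (l.take (s l ω)) ≤ D ∧
      ∀ j, k l ω ≤ j → j ≤ t l ω → A (l.take j) →
        SS h α ℓ (lat κ ℓ (l.take (k l ω)) (N l ω)) (l.take j) ≤ ε ^ 2 * P) :
    ∑ ω, lam ω * avg n (fun l => if act l ω then
        ‖Wn h α ℓ A (φ ω) (lat κ ℓ (l.take (k l ω)) (N l ω)) l (s l ω) (t l ω)‖ else 0) ≤
      1024 * ε * P * (δ + Real.log M + 2) +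
        5120 / ε * P * (1 + Real.log (Fintype.card Y)) := by
  obtain ⟨L, hL⟩ := h96_paths n
  set lab : List Bool → Ω → List Bool × ℤ := fun l ω => (l.take (k l ω), N l ω) with hlab
  set J : Finset (List Bool × ℤ) :=
    ((L ×ˢ (Finset.univ : Finset Ω)).filter fun x => act x.1 x.2).image fun x => lab x.1 x.2 with hJ
  have hJ1 : ∀ j ∈ J, Cd j.1 ∧ j.1.length ≤ n ∧ A j.1 ∧ c ≤ SS h α ℓ (lat κ ℓ j.1 j.2) j.1 := by
    intro j hj
    obtain ⟨x, hx, rfl⟩ := Finset.mem_image.1 hj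
    have hx1 := Finset.mem_filter.1 hx
    have hl : x.1.length = n := (hL _).1 (Finset.mem_product.1 hx1.1).1
    obtain ⟨a1, a2, -, a4, a5, a6, -⟩ := hact x.1 hl x.2 hx1.2
    refine ⟨a4, by simp only [hlab, List.length_take]; omega, ?_, a6⟩
    have := hD.her _ (k x.1 x.2) a5
    rwa [List.take_take, min_eq_left a1] at this
  have hpos : 0 < Real.exp δ / μ' := by positivity
  refine life_run hD J (fun j => j.1) (fun j => lat κ ℓ j.1 j.2) hε hε1 hM
    (τ := δ) hδ φ hφ n act lab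
    s t (fun _ => (Real.exp δ / μ')⁻¹) (fun _ _ => by positivity) ?_ (fun l hl ω ha => ?_)
    (fun l hl j _ => ?_)
  · refine le_trans ?_ (le_trans (nodes_le_cnt Cd n (J.image Prod.fst) fun v hv => ?_) hCd)
    · rw [← Finset.sum_fiberwise_of_maps_to (g := Prod.fst) (t := J.image Prod.fst)
        fun j hj => Finset.mem_image_of_mem _ hj]
      refine Finset.sum_le_sum fun v hv => ?_
      obtain ⟨j0, hj0, rfl⟩ := Finset.mem_image.1 hv
      rw [Finset.sum_congr rfl (g := fun _ => (Real.exp δ / μ')⁻¹ / 2 ^ j0.1.length)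
        fun j hj => by rw [(Finset.mem_filter.1 hj).2], Finset.sum_const, nsmul_eq_mul,
        ← mul_div_assoc]
      refine div_le_div_of_nonneg_right ?_ (by positivity)
      rw [← div_eq_mul_inv, div_le_one hpos]
      have hc := hcnt j0.1 (hJ1 j0 hj0).2.2.1 ((J.filter fun j => j.1 = j0.1).image Prod.snd)
        fun N' hN' => by
          obtain ⟨j, hj, rfl⟩ := Finset.mem_image.1 hN'
          have hj1 := Finset.mem_filter.1 hj
          rw [← hj1.2]
          exact (hJ1 j hj1.1).2.2.2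
      rwa [Finset.card_image_of_injOn fun j hj j' hj' e => Prod.ext
        (((Finset.mem_filter.1 (Finset.mem_coe.1 hj)).2).trans
          (Finset.mem_filter.1 (Finset.mem_coe.1 hj')).2.symm) e] at hc
    · obtain ⟨j, hj, rfl⟩ := Finset.mem_image.1 hv
      exact ⟨(hJ1 j hj).1, (hJ1 j hj).2.1⟩
  · obtain ⟨a1, a2, a3, -, -, -, -, a8⟩ := hact l hl ω ha
    have e : (l.take (k l ω)).length = k l ω := by rw [List.length_take]; omega
    refine ⟨Finset.mem_image.2 ⟨(l, ω), Finset.mem_filter.2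
      ⟨Finset.mem_product.2 ⟨(hL l).2 hl, Finset.mem_univ _⟩, ha⟩, rfl⟩, List.take_prefix _ _,
      fun _ => ?_⟩
    simp only [hlab, e]
    exact ⟨a1, a3, a8⟩
  · have e : Real.exp δ * (Real.exp δ / μ')⁻¹ = μ' := by
      field_simp
    rw [e]
    by_cases hne : (Finset.univ.filter fun ω => act l ω ∧ lab l ω = j).Nonempty
    · obtain ⟨ω₀, h1, h2⟩ := Finset.exists_max_image _ (s l) hne
      have h1' := (Finset.mem_filter.1 h1).2
      have hA := (hact l hl ω₀ h1'.1).2.2.2.2.1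
      refine le_trans (Finset.sum_le_sum fun ω _ => ?_)
        (hbin _ hA (lat κ ℓ j.1 j.2 - ξ l))
      split_ifs with b1 b2
      · exact le_rfl
      · refine absurd ?_ b2
        have a7 := (hact l hl ω b1.1).2.2.2.2.2.2.1
        have e2 : Z ω - (lat κ ℓ j.1 j.2 - ξ l) = ξ l + Z ω - lat κ ℓ (l.take (k l ω)) (N l ω) := by
          rw [← b1.2]; simp only [hlab]; ring
        rw [e2]
        exact le_trans (mul_le_mul_of_nonneg_left (h96_ln_anti hD.hl l
          (h2 ω (Finset.mem_filter.2 ⟨Finset.mem_univ _, b1⟩))) (abs_nonneg _)) a7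
      · exact hD.lnn ω
      · exact le_rfl
    · exact le_trans (le_of_eq (Finset.sum_eq_zero fun ω _ => if_neg fun hh =>
        hne ⟨ω, Finset.mem_filter.2 ⟨Finset.mem_univ _, hh⟩⟩)) (by positivity)

open Classical in
/-- **labels of a counted level** (`card F ≤ e^δ / μ`) -/
theorem life_lab (hD : Data R P μ h α ℓ A lam Z) (Cd : List Bool → Prop)
    {κ ε M δ D c : ℝ} (hε : 0 < ε) (hε1 : ε ≤ 1) (hM : 1 ≤ M) (hδ : 0 ≤ δ) (hD0 : 0 ≤ D)
    (n : ℕ) (hCd : avg n (Cand.cnt Cd n) ≤ M)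
    (hcnt : ∀ v, A v → ∀ F : Finset ℤ, (∀ N ∈ F, c ≤ SS h α ℓ (lat κ ℓ v N) v) →
      (F.card : ℝ) ≤ Real.exp δ / μ)
    (ξ : List Bool → ℝ) (φ : Ω → Y → ℂ) (hφ : ∀ ω y, ‖φ ω y‖ ≤ 1) (act : List Bool → Ω → Prop)
    (k s t : List Bool → Ω → ℕ) (N : List Bool → Ω → ℤ)
    (hact : ∀ l, l.length = n → ∀ ω, act l ω → k l ω ≤ s l ω ∧ s l ω ≤ n ∧ t l ω ≤ n ∧
      Cd (l.take (k l ω)) ∧ A (l.take (s l ω)) ∧
      c ≤ SS h α ℓ (lat κ ℓ (l.take (k l ω)) (N l ω)) (l.take (k l ω)) ∧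
      |ξ l + Z ω - lat κ ℓ (l.take (k l ω)) (N l ω)| * ln ℓ (l.take (s l ω)) ≤ D ∧
      ∀ j, k l ω ≤ j → j ≤ t l ω → A (l.take j) →
        SS h α ℓ (lat κ ℓ (l.take (k l ω)) (N l ω)) (l.take j) ≤ ε ^ 2 * P) :
    ∑ ω, lam ω * avg n (fun l => if act l ω then
        ‖Wn h α ℓ A (φ ω) (lat κ ℓ (l.take (k l ω)) (N l ω)) l (s l ω) (t l ω)‖ else 0) ≤
      1024 * ε * P * (δ + Real.log (2 * D + 1) + Real.log M + 2) +
        5120 / ε * P * (1 + Real.log (Fintype.card Y)) :=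
  life_lab_gen hD Cd hε hε1 hM hδ hD0 hD.hμ n hCd hD.bin hcnt ξ φ hφ act k s t N hact

open Classical in
/-- **labels of a Bessel level** (`card F ≤ e^δ`) -/
theorem life_lab1 (hD : Data R P μ h α ℓ A lam Z) (Cd : List Bool → Prop)
    {κ ε M δ D c : ℝ} (hε : 0 < ε) (hε1 : ε ≤ 1) (hM : 1 ≤ M) (hδ : 0 ≤ δ) (hD0 : 0 ≤ D)
    (n : ℕ) (hCd : avg n (Cand.cnt Cd n) ≤ M)
    (hcnt : ∀ v, A v → ∀ F : Finset ℤ, (∀ N ∈ F, c ≤ SS h α ℓ (lat κ ℓ v N) v) →
      (F.card : ℝ) ≤ Real.exp δ)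
    (ξ : List Bool → ℝ) (φ : Ω → Y → ℂ) (hφ : ∀ ω y, ‖φ ω y‖ ≤ 1) (act : List Bool → Ω → Prop)
    (k s t : List Bool → Ω → ℕ) (N : List Bool → Ω → ℤ)
    (hact : ∀ l, l.length = n → ∀ ω, act l ω → k l ω ≤ s l ω ∧ s l ω ≤ n ∧ t l ω ≤ n ∧
      Cd (l.take (k l ω)) ∧ A (l.take (s l ω)) ∧
      c ≤ SS h α ℓ (lat κ ℓ (l.take (k l ω)) (N l ω)) (l.take (k l ω)) ∧
      |ξ l + Z ω - lat κ ℓ (l.take (k l ω)) (N l ω)| * ln ℓ (l.take (s l ω)) ≤ D ∧
      ∀ j, k l ω ≤ j → j ≤ t l ω → A (l.take j) →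
        SS h α ℓ (lat κ ℓ (l.take (k l ω)) (N l ω)) (l.take j) ≤ ε ^ 2 * P) :
    ∑ ω, lam ω * avg n (fun l => if act l ω then
        ‖Wn h α ℓ A (φ ω) (lat κ ℓ (l.take (k l ω)) (N l ω)) l (s l ω) (t l ω)‖ else 0) ≤
      1024 * ε * P * (δ + Real.log (2 * D + 1) + Real.log M + 2) +
        5120 / ε * P * (1 + Real.log (Fintype.card Y)) :=
  life_lab_gen hD Cd (μ' := 1) hε hε1 hM hδ hD0 one_pos n hCd
    (fun v _ a => by
      rw [← hD.lone]
      refine Finset.sum_le_sum fun ω _ => ?_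
      split_ifs
      · exact le_rfl
      · exact hD.lnn ω)
    (fun v hv F hF => by rw [div_one]; exact hcnt v hv F hF) ξ φ hφ act k s t N hact

end Crest.Agent.R100.Life
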