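import Crest.Agent.R100.LowDefs

set_option autoImplicit false

open MeasureTheory Set

noncomputable section

namespace Crest.Agent.R100.Low

open Crest.Agent.R100

/-- running maximum along a path -/
def SepDoob_mx (F : List Bool → ℝ) (l : List Bool) : ℝ :=
  (Finset.range (l.length + 1)).sup' (by simp) (fun k => F (l.take k))

theorem SepDoob_le_mx (F : List Bool → ℝ) (l : List Bool) (k : ℕ) :
    F (l.take k) ≤ SepDoob_mx F l := by
  unfold SepDoob_mx
  rcases le_total k l.length with h | h
  · exact Finset.le_sup' (fun k => F (l.take k)) (by simp; omega)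
  · rw [List.take_of_length_le h]
    have := Finset.le_sup' (fun k => F (l.take k))
      (show l.length ∈ Finset.range (l.length + 1) by simp)
    simpa using this

theorem SepDoob_self_le_mx (F : List Bool → ℝ) (l : List Bool) : F l ≤ SepDoob_mx F l := by
  have := SepDoob_le_mx F l l.length
  simpa using this

theorem SepDoob_mx_nil (F : List Bool → ℝ) : SepDoob_mx F [] = F [] := by
  simp [SepDoob_mx]

theorem SepDoob_mx_snoc (F : List Bool → ℝ) (l : List Bool) (c : Bool) :
    SepDoob_mx F (l ++ [c]) = max (SepDoob_mx F l) (F (l ++ [c])) := by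
  apply le_antisymm
  · unfold SepDoob_mx
    refine Finset.sup'_le _ _ fun k hk => ?_
    rcases le_or_gt k l.length with h | h
    · rw [List.take_append_of_le_length h]
      exact le_trans (SepDoob_le_mx F l k) (le_max_left _ _)
    · rw [List.take_of_length_le (by simp; omega)]
      exact le_max_right _ _
  · refine max_le ?_ (SepDoob_self_le_mx F _)
    conv_lhs => unfold SepDoob_mx
    refine Finset.sup'_le _ _ fun k hk => ?_
    have h : k ≤ l.length := by simp at hk; omega
    have := SepDoob_le_mx F (l ++ [c]) k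
    rwa [List.take_append_of_le_length h] at this

theorem SepDoob_logstep {m a : ℝ} (hm : 0 ≤ m) (ha : 0 ≤ a) (h : m = 0 → a = 0) :
    max m a - a * Real.log (max m a) ≤ m - a * Real.log m := by
  rcases le_total a m with h1 | h1
  · rw [max_eq_left h1]
  · rw [max_eq_right h1]
    rcases hm.eq_or_lt with h2 | h2
    · have := h h2.symm
      subst this; simp [← h2]
    · have ha' : 0 < a := lt_of_lt_of_le h2 h1
      have h3 := Real.log_le_sub_one_of_pos (div_pos h2 ha')
      rw [Real.log_div h2.ne' ha'.ne'] at h3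
      have h4 := mul_le_mul_of_nonneg_left h3 ha
      have h5 : a * (m / a - 1) = m - a := by field_simp
      rw [h5] at h4
      nlinarith

theorem SepDoob_young {a b : ℝ} (ha : 0 ≤ a) (hab : a ≤ b) :
    a * Real.log b ≤ a * Real.log a + b / 2 := by
  rcases ha.eq_or_lt with h | h
  · subst h; simp; linarith
  · have hb : 0 < b := lt_of_lt_of_le h hab
    have h3 := Real.log_le_sub_one_of_pos (show 0 < b / (2 * a) by positivity)
    rw [Real.log_div hb.ne' (by positivity), Real.log_mul (by norm_num) h.ne'] at h3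
    have h2 : Real.log 2 ≤ 1 := by
      have := Real.log_le_sub_one_of_pos (show (0 : ℝ) < 2 by norm_num); linarith
    have h4 : Real.log b - Real.log a ≤ b / (2 * a) := by linarith
    have h5 := mul_le_mul_of_nonneg_left h4 ha
    have h6 : a * (b / (2 * a)) = b / 2 := by field_simp
    rw [h6] at h5
    nlinarith

theorem SepDoob_main (F : List Bool → ℝ) (h0 : ∀ v, 0 ≤ F v) (hF : MartR F) : ∀ n : ℕ,
    avg n (fun l => SepDoob_mx F l - F l * Real.log (SepDoob_mx F l)) ≤
      F [] - F [] * Real.log (F [])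
  | 0 => by simp [avg, SepDoob_mx_nil]
  | n + 1 => by
    rw [avg_snoc]
    refine le_trans (avg_mono_len n fun v _ => ?_) (SepDoob_main F h0 hF n)
    have hv := SepDoob_self_le_mx F v
    have hm : 0 ≤ SepDoob_mx F v := le_trans (h0 v) hv
    have e := hF v
    have ha := h0 (v ++ [false])
    have hb := h0 (v ++ [true])
    have h1 := SepDoob_logstep hm ha (fun h => by linarith)
    have h2 := SepDoob_logstep hm hb (fun h => by linarith)
    simp only [SepDoob_mx_snoc]
    rw [e]
    linarith

/-- Doob's `L log L` inequality -/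
theorem doob_llogl (F : List Bool → ℝ) (h0 : ∀ v, 0 ≤ F v) (hF : MartR F) (n : ℕ)
    (τ : List Bool → ℕ) : avg n (fun l => F (l.take (τ l))) ≤ 2 * (Ent F n + F []) := by
  have h1 := SepDoob_main F h0 hF n
  rw [avg_sub] at h1
  have h2 : avg n (fun l => F l * Real.log (SepDoob_mx F l)) ≤
      avg n (fun l => F l * Real.log (F l) + (1 / 2) * SepDoob_mx F l) :=
    avg_mono_len n fun l _ => by
      have := SepDoob_young (h0 l) (SepDoob_self_le_mx F l); linarith
  rw [avg_add', avg_mul_left] at h2
  have h3 : avg n (fun l => F (l.take (τ l))) ≤ avg n (fun l => SepDoob_mx F l) :=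
    avg_mono_len n fun l _ => SepDoob_le_mx F l _
  unfold Ent
  linarith

/-- the running maximum, started at `m` -/
def sepDoobG : ℝ → (List Bool → ℝ) → List Bool → ℝ
  | m, _, [] => m
  | m, Z, c :: l => sepDoobG (max m (Z [c])) (fun w => Z (c :: w)) l

theorem sepDoobG_ge : ∀ (l : List Bool) (m : ℝ) (Z : List Bool → ℝ), m ≤ sepDoobG m Z l
  | [], _, _ => le_rfl
  | c :: l, m, Z => (le_max_left m (Z [c])).trans (sepDoobG_ge l _ _)

theorem sepDoobG_take : ∀ (l : List Bool) (m : ℝ) (Z : List Bool → ℝ) (k : ℕ), Z [] ≤ m →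
    Z (l.take k) ≤ sepDoobG m Z l
  | [], _, _, _, h => by simpa [sepDoobG] using h
  | c :: l, m, Z, 0, h => h.trans (sepDoobG_ge (c :: l) m Z)
  | c :: l, m, Z, k + 1, _ =>
    sepDoobG_take l (max m (Z [c])) (fun w => Z (c :: w)) k (le_max_right _ _)

theorem sepDoobG_key : ∀ (n : ℕ) (m : ℝ) (Z : List Bool → ℝ), 0 ≤ m → Z [] ≤ m →
    (∀ v, Z v ≤ (Z (v ++ [false]) + Z (v ++ [true])) / 2) →
    avg n (fun l => sepDoobG m Z l ^ 2 / 2 - sepDoobG m Z l * Z l) ≤ m ^ 2 / 2 - m * Z []
  | 0, _, _, _, _, _ => le_rfl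
  | n + 1, m, Z, hm, _, hs => by
    have h : ∀ c : Bool, avg n (fun l => sepDoobG m Z (c :: l) ^ 2 / 2 -
        sepDoobG m Z (c :: l) * Z (c :: l)) ≤ m ^ 2 / 2 - m * Z [c] := by
      intro c
      refine (sepDoobG_key n (max m (Z [c])) (fun w => Z (c :: w)) (hm.trans (le_max_left _ _))
        (le_max_right _ _) fun v => hs (c :: v)).trans ?_
      rcases le_total m (Z [c]) with h1 | h1
      · rw [max_eq_right h1]
        nlinarith [sq_nonneg (m - Z [c])]
      · rw [max_eq_left h1]
    have h1 := mul_le_mul_of_nonneg_left (hs []) hm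
    have h2 := h false
    have h3 := h true
    simp only [List.nil_append] at h1
    simp only [avg]
    linarith

/-- Doob's `L²` inequality for a nonnegative submartingale -/
theorem doob_l2 (Z : List Bool → ℝ) (h0 : ∀ v, 0 ≤ Z v)
    (hs : ∀ v, Z v ≤ (Z (v ++ [false]) + Z (v ++ [true])) / 2) (n : ℕ) (τ : List Bool → ℕ) :
    avg n (fun l => Z (l.take (τ l)) ^ 2) ≤ 4 * avg n (fun l => Z l ^ 2) := by
  have h1 := sepDoobG_key n (Z []) Z (h0 []) le_rfl hs
  have h2 : avg n (fun l => Z (l.take (τ l)) ^ 2) ≤ avg n (fun l =>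
      4 * (sepDoobG (Z []) Z l ^ 2 / 2 - sepDoobG (Z []) Z l * Z l) + 4 * Z l ^ 2) := by
    refine avg_mono_len n fun l _ => ?_
    have h3 := sepDoobG_take l (Z []) Z (τ l) le_rfl
    have h4 := pow_le_pow_left₀ (h0 _) h3 2
    nlinarith [sq_nonneg (sepDoobG (Z []) Z l - 2 * Z l)]
  rw [avg_add', avg_mul_left, avg_mul_left] at h2
  nlinarith [sq_nonneg (Z [])]

theorem SepDoob_two_pt {x : ℝ} (h1 : -1 ≤ x) (h2 : x ≤ 1) :
    x ^ 2 ≤ (1 + x) * Real.log (1 + x) + (1 - x) * Real.log (1 - x) := by
  have hl2 : (0.6931471803 : ℝ) < Real.log 2 := Real.log_two_gt_d9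
  rcases eq_or_lt_of_le h1 with h | h1'
  · subst h; norm_num; linarith
  rcases eq_or_lt_of_le h2 with h | h2'
  · subst h; norm_num; linarith
  have hx : |x| < 1 := abs_lt.2 ⟨h1', h2'⟩
  have hx2 : |x ^ 2| < 1 := by
    rw [abs_of_nonneg (sq_nonneg x)]; nlinarith
  have A := (Real.hasSum_log_sub_log_of_abs_lt_one hx).mul_left x
  have B := Real.hasSum_pow_div_log_of_abs_lt_one hx2
  have C := A.sub B
  have hlog : Real.log (1 - x ^ 2) = Real.log (1 + x) + Real.log (1 - x) := by
    rw [← Real.log_mul (by linarith) (by linarith)]; congr 1; ring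
  have D := le_hasSum C 0 (fun j _ => by
    have e : x * (2 * (1 / (2 * (j : ℝ) + 1)) * x ^ (2 * j + 1)) - (x ^ 2) ^ (j + 1) / ((j : ℝ) + 1)
        = (x ^ 2) ^ (j + 1) * (1 / ((2 * (j : ℝ) + 1) * ((j : ℝ) + 1))) := by
      have : (x ^ 2) ^ (j + 1) = x * x ^ (2 * j + 1) := by ring
      rw [this]; field_simp; ring
    rw [e]; positivity)
  rw [hlog] at D
  norm_num at D
  nlinarith

theorem SepDoob_mul_log {F y : ℝ} (hF : 0 < F) (hy : 0 ≤ y) :
    F * y * Real.log (F * y) = F * y * Real.log F + F * (y * Real.log y) := by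
  rcases eq_or_lt_of_le hy with h | h
  · subst h; simp
  · rw [Real.log_mul hF.ne' h.ne']; ring

theorem SepDoob_step {a b F : ℝ} (ha : 0 ≤ a) (hb : 0 ≤ b) (hF : F = (a + b) / 2) :
    (a - F) ^ 2 / F ≤ 2 * ((a * Real.log a + b * Real.log b) / 2 - F * Real.log F) := by
  rcases eq_or_lt_of_le (show 0 ≤ F by linarith) with h | h
  · have ha0 : a = 0 := by linarith
    have hb0 : b = 0 := by linarith
    rw [← h, ha0, hb0]; simp
  obtain ⟨x, hx⟩ : ∃ x, x = (a - F) / F := ⟨_, rfl⟩
  have e1 : a = F * (1 + x) := by rw [hx]; field_simp; ring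
  have e2 : b = F * (1 - x) := by
    have : b = 2 * F - a := by linarith
    rw [this, hx]; field_simp; ring
  have p1 : 0 ≤ 1 + x := by
    by_contra hh; push Not at hh; nlinarith
  have p2 : 0 ≤ 1 - x := by
    by_contra hh; push Not at hh; nlinarith
  have k := SepDoob_two_pt (x := x) (by linarith) (by linarith)
  have q1 := SepDoob_mul_log h p1
  have q2 := SepDoob_mul_log h p2
  have e3 : (a - F) ^ 2 / F = F * x ^ 2 := by rw [hx]; field_simp
  rw [e3]
  rw [← e1] at q1
  rw [← e2] at q2
  have hab : a + b = 2 * F := by linarith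
  have k' := mul_le_mul_of_nonneg_left k h.le
  have : a * Real.log F + b * Real.log F = 2 * F * Real.log F := by rw [← hab]; ring
  nlinarith

/-- the `χ²` increments are paid by the entropy -/
theorem chi_le_ent (F : List Bool → ℝ) (h0 : ∀ v, 0 ≤ F v) (hF : MartR F) (n : ℕ) :
    avg n (fun l => ∑ k ∈ Finset.range n,
      (F (l.take k ++ [false]) - F (l.take k)) ^ 2 / F (l.take k)) ≤ 2 * Ent F n := by
  have key : avg n (fun l => ∑ k ∈ Finset.range n,
      (F (l.take k ++ [false]) - F (l.take k)) ^ 2 / F (l.take k)) =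
      ∑ k ∈ Finset.range n, avg k (fun v => (F (v ++ [false]) - F v) ^ 2 / F v) := by
    rw [avg_sum]
    refine Finset.sum_congr rfl fun k hk => ?_
    exact avg_take (Finset.mem_range.1 hk).le (fun v => (F (v ++ [false]) - F v) ^ 2 / F v)
  rw [key]
  clear key
  induction n with
  | zero => simp [Ent, avg]
  | succ n ih =>
    rw [Finset.sum_range_succ]
    have h1 : avg n (fun v => (F (v ++ [false]) - F v) ^ 2 / F v) ≤
        avg n (fun v => 2 * ((F (v ++ [false]) * Real.log (F (v ++ [false])) +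
          F (v ++ [true]) * Real.log (F (v ++ [true]))) / 2 - F v * Real.log (F v))) :=
      avg_mono_len n fun v _ => SepDoob_step (h0 _) (h0 _) (hF v)
    rw [avg_mul_left, avg_sub] at h1
    have h2 := avg_snoc n (fun l => F l * Real.log (F l))
    unfold Ent at ih ⊢
    rw [h2]
    linarith

theorem Ent_nonneg (F : List Bool → ℝ) (h0 : ∀ v, 0 ≤ F v) (hF : MartR F) (n : ℕ) :
    0 ≤ Ent F n := by
  unfold Ent
  induction n with
  | zero => simp [avg]
  | succ n ih =>
    rw [avg_snoc]
    have h : avg n (fun l => F l * Real.log (F l)) ≤ avg n (fun v =>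
        (F (v ++ [false]) * Real.log (F (v ++ [false])) +
          F (v ++ [true]) * Real.log (F (v ++ [true]))) / 2) := by
      refine avg_mono_len n fun v _ => ?_
      have hc := Real.convexOn_mul_log.2 (h0 (v ++ [false])) (h0 (v ++ [true]))
        (show (0 : ℝ) ≤ 1 / 2 by norm_num) (show (0 : ℝ) ≤ 1 / 2 by norm_num) (by norm_num)
      simp only [smul_eq_mul] at hc
      have e : 1 / 2 * F (v ++ [false]) + 1 / 2 * F (v ++ [true]) = F v := by
        rw [hF v]; ring
      rw [e] at hc
      linarith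
    linarith

end Crest.Agent.R100.Low
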