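import Crest.Agent.R100.RunDefs
import Crest.Agent.R100.SepDoob

/-! # Row 100 (helper59): the expected penalty of a run -/

set_option autoImplicit false

noncomputable section

namespace Crest.Agent.R100.Run

open Crest.Agent.R100 Crest.Agent.R100.Low

variable {Y : Type*} [Fintype Y]

theorem Pen_drop {x y B : ℝ} (hy : 0 ≤ y) (hyx : y ≤ x) (hB : Real.log x ≤ B) :
    x * Real.log x - y * Real.log y ≤ (B + 1) * (x - y) := by
  rcases hy.eq_or_lt with h | h
  · subst h
    simp only [zero_mul, sub_zero]
    nlinarith
  · have hx : 0 < x := lt_of_lt_of_le h hyx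
    have h1 : Real.log (x / y) ≤ x / y - 1 := Real.log_le_sub_one_of_pos (div_pos hx h)
    rw [Real.log_div hx.ne' h.ne'] at h1
    have h2 : y * (Real.log x - Real.log y) ≤ x - y := by
      have := mul_le_mul_of_nonneg_left h1 hy
      have e : y * (x / y - 1) = x - y := by field_simp
      linarith
    nlinarith

theorem Pen_take (l : List Bool) (c : Bool) {k : ℕ} (hk : k ≤ l.length) :
    (l ++ [c]).take k = l.take k := by
  rw [List.take_append_of_le_length hk]

theorem Pen_snoc (p pc : Y → List Bool → ℝ) (v : List Bool) (c : Bool) :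
    pen p pc (v.length + 1) (v ++ [c]) = pen p pc v.length v + (Vl p pc v + Rm p pc (v ++ [c])) := by
  unfold pen
  rw [Finset.sum_range_succ]
  congr 1
  · refine Finset.sum_congr rfl fun k hk => ?_
    have hk' := Finset.mem_range.1 hk
    rw [Pen_take v c hk'.le, Pen_take v c (by omega)]
  · rw [Pen_take v c le_rfl, List.take_length, List.take_of_length_le (by simp)]

theorem pen_le {p pc : Y → List Bool → ℝ} (hp : RP p pc) {M : ℝ}
    (hM : ∀ v, ∑ y, p y v ≤ M) (n : ℕ) :
    avg n (pen p pc n) ≤ 10 * M * (1 + Real.log (Fintype.card Y)) := by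
  have hM0 : 0 ≤ M := le_trans (Finset.sum_nonneg fun y _ => hp.nn y []) (hM [])
  have hlog : 0 ≤ Real.log (Fintype.card Y) := Real.log_natCast_nonneg _
  have hpc0 : ∀ y v, 0 ≤ pc y v := fun y v => (hp.nn y v).trans (hp.le y v)
  have hpM : ∀ y v, p y v ≤ M := fun y v =>
    (Finset.single_le_sum (f := fun y => p y v) (fun y _ => hp.nn y v) (Finset.mem_univ y)).trans (hM v)
  rcases hM0.eq_or_lt with h0 | h0
  · have hz : ∀ y v, p y v = 0 := fun y v => le_antisymm (h0 ▸ hpM y v) (hp.nn y v)
    have hz' : ∀ y v c, pc y (v ++ [c]) = 0 := by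
      intro y v c
      have := hp.mp y v
      have h1 := hpc0 y (v ++ [false])
      have h2 := hpc0 y (v ++ [true])
      rw [hz] at this
      cases c <;> linarith
    have : avg n (pen p pc n) = avg n (fun _ => 0) := by
      refine avg_congr_len n fun l hl => ?_
      unfold pen Vl Rm
      refine Finset.sum_eq_zero fun k hk => ?_
      have hk' := Finset.mem_range.1 hk
      have e : l.take (k + 1) = l.take k ++ [l[k]'(by omega)] := by
        rw [List.take_add_one]; simp [List.getElem?_eq_getElem (show k < l.length by omega)]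
      have e2 : ∀ y, pc y (l.take (k + 1)) = 0 := fun y => by rw [e]; exact hz' _ _ _
      simp [hz, hz', e2]
    rw [this, avg_const, ← h0]; simp
  rcases isEmpty_or_nonempty Y with hY | hY
  · have : avg n (pen p pc n) = avg n (fun _ => 0) := by
      refine avg_congr_len n fun l _ => ?_
      simp [pen, Vl, Rm]
    rw [this, avg_const]; positivity
  have hN : (0 : ℝ) < Fintype.card Y := by exact_mod_cast Fintype.card_pos
  set N : ℝ := ((Fintype.card Y : ℕ) : ℝ) with hNdef
  set B : ℝ := Real.log (2 * M) with hB
  set Φ : List Bool → ℝ := fun v => ∑ y, p y v * Real.log (p y v) with hΦ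
  set S : List Bool → ℝ := fun v => ∑ y, p y v with hS
  -- linear correction: `κ = log (N / (2M))`
  set κ : ℝ := Real.log N - B with hκ
  have step : ∀ v, Vl p pc v + (Rm p pc (v ++ [false]) + Rm p pc (v ++ [true])) / 2 ≤
      2 * ((Φ (v ++ [false]) + Φ (v ++ [true])) / 2 - Φ v) +
        (2 * B + 3) * (S v - (S (v ++ [false]) + S (v ++ [true])) / 2) := by
    intro v
    have key : ∀ y, (pc y (v ++ [false]) - p y v) ^ 2 / p y v +
        ((pc y (v ++ [false]) - p y (v ++ [false])) + (pc y (v ++ [true]) - p y (v ++ [true]))) / 2 ≤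
        2 * ((p y (v ++ [false]) * Real.log (p y (v ++ [false])) +
          p y (v ++ [true]) * Real.log (p y (v ++ [true]))) / 2 - p y v * Real.log (p y v)) +
        (2 * B + 3) * (p y v - (p y (v ++ [false]) + p y (v ++ [true])) / 2) := by
      intro y
      have h1 := SepDoob_step (hpc0 y (v ++ [false])) (hpc0 y (v ++ [true])) (hp.mp y v)
      have hm := hp.mp y v
      have hd : ∀ c, pc y (v ++ [c]) * Real.log (pc y (v ++ [c])) -
          p y (v ++ [c]) * Real.log (p y (v ++ [c])) ≤ (B + 1) * (pc y (v ++ [c]) - p y (v ++ [c])) := by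
        intro c
        rcases (hpc0 y (v ++ [c])).eq_or_lt with h | h
        · have h' : p y (v ++ [c]) = 0 := le_antisymm (h ▸ hp.le y _) (hp.nn y _)
          rw [← h, h']; simp
        · refine Pen_drop (hp.nn y _) (hp.le y _) (Real.log_le_log h ?_)
          have h1 := hpc0 y (v ++ [false])
          have h2 := hpc0 y (v ++ [true])
          have h3 := hpM y v
          cases c <;> linarith
      have ha := hd false
      have hb := hd true
      rw [hm] at h1 ⊢
      nlinarith
    have := Finset.sum_le_sum (s := Finset.univ) fun y _ => key y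
    simp only [Finset.sum_add_distrib, ← Finset.sum_div, ← Finset.mul_sum, Finset.sum_sub_distrib] at this
    simp only [Vl, Rm, hΦ, hS, Finset.sum_sub_distrib]
    linarith
  have main : ∀ n, avg n (pen p pc n) ≤ 2 * (avg n Φ - Φ []) + (2 * B + 3) * (S [] - avg n S) := by
    intro n
    induction n with
    | zero => simp [avg, pen]
    | succ n ih =>
      rw [avg_snoc, avg_snoc n Φ, avg_snoc n S]
      have h1 : avg n (fun v => (pen p pc (n + 1) (v ++ [false]) + pen p pc (n + 1) (v ++ [true])) / 2) ≤
          avg n (fun v => pen p pc n v + (2 * ((Φ (v ++ [false]) + Φ (v ++ [true])) / 2 - Φ v) +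
            (2 * B + 3) * (S v - (S (v ++ [false]) + S (v ++ [true])) / 2))) := by
        refine avg_mono_len n fun v hv => ?_
        subst hv
        rw [Pen_snoc, Pen_snoc]
        have := step v
        linarith
      rw [avg_add', avg_add', avg_mul_left, avg_mul_left, avg_sub, avg_sub] at h1
      linarith
  have up : ∀ v, Φ v + κ * S v ≤ Real.log N * S v := by
    intro v
    have : Φ v ≤ B * S v := by
      simp only [hΦ, hS, Finset.mul_sum]
      refine Finset.sum_le_sum fun y _ => ?_
      rcases (hp.nn y v).eq_or_lt with h | h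
      · rw [← h]; simp
      · have : Real.log (p y v) ≤ B := Real.log_le_log h (by linarith [hpM y v])
        nlinarith
    rw [hκ]; linarith
  have low : -(2 * M) ≤ Φ [] + κ * S [] := by
    have : ∀ y, -(2 * M / N) ≤ p y [] * Real.log (p y []) + κ * p y [] := by
      intro y
      rcases (hp.nn y []).eq_or_lt with h | h
      · rw [← h]; simp; positivity
      · have hq : 0 < 2 * M / (N * p y []) := by positivity
        have h1 := Real.log_le_sub_one_of_pos hq
        rw [Real.log_div (by positivity) (by positivity), Real.log_mul hN.ne' h.ne'] at h1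
        have h2 := mul_le_mul_of_nonneg_left h1 h.le
        have e : p y [] * (2 * M / (N * p y []) - 1) = 2 * M / N - p y [] := by field_simp
        rw [e] at h2
        rw [hκ, hB]; nlinarith
    have h := Finset.sum_le_sum (s := Finset.univ) fun y _ => this y
    simp only [Finset.sum_const, Finset.card_univ, nsmul_eq_mul, Finset.sum_add_distrib,
      ← Finset.mul_sum] at h
    have e : (Fintype.card Y : ℝ) * -(2 * M / N) = -(2 * M) := by rw [← hNdef]; field_simp
    rw [e] at h
    exact h
  have hS0 : ∀ v, 0 ≤ S v := fun v => Finset.sum_nonneg fun y _ => hp.nn y v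
  have hA : avg n Φ + κ * avg n S ≤ Real.log N * avg n S := by
    have := avg_mono_len n (F := fun v => Φ v + κ * S v) (F' := fun v => Real.log N * S v)
      fun v _ => up v
    rwa [avg_add', avg_mul_left, avg_mul_left] at this
  have hSn : 0 ≤ avg n S := avg_nonneg_len n fun v _ => hS0 v
  have hSM : S [] ≤ M := hM []
  have hS00 := hS0 []
  have h := main n
  have e1 : (2 * B + 3) * (S [] - avg n S) =
      (2 * Real.log N + 3) * (S [] - avg n S) - 2 * κ * (S [] - avg n S) := by rw [hκ]; ring
  have h3 : (2 * Real.log N + 3) * (S [] - avg n S) + 2 * (Real.log N * avg n S) ≤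
      (2 * Real.log N + 3) * M := by nlinarith
  nlinarith

end Crest.Agent.R100.Run
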