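import Crest.Agent.R100.Run

/-! # Row 100, RUN with local labels (helper96): every label has its own root node -/

set_option autoImplicit false

noncomputable section

namespace Crest.Agent.R100.Run

open Crest.Agent.R100 Crest.Agent.R100.Low

variable {Y : Type*} [Fintype Y]

open Classical in
/-- the average over a cylinder -/
theorem avg_cyl : ∀ (ρ : List Bool) (m : ℕ) (F : List Bool → ℝ),
    avg (ρ.length + m) (fun l => if ρ <+: l then F l else 0) =
      avg m (fun w => F (ρ ++ w)) / 2 ^ ρ.length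
  | [], m, F => by simp
  | c :: ρ, m, F => by
    have e : (c :: ρ).length + m = (ρ.length + m) + 1 := by simp; ring
    have ih := avg_cyl ρ m (fun l => F (c :: l))
    rw [e]
    cases c
    · simp only [avg, List.cons_prefix_cons, true_and, List.cons_append, List.length_cons]
      rw [ih]
      simp [avg_const, pow_succ, div_div]
    · simp only [avg, List.cons_prefix_cons, true_and, List.cons_append, List.length_cons]
      rw [ih]
      simp [avg_const, pow_succ, div_div]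

theorem tD_shift (D : List Bool → ℂ) (ρ w : List Bool) (k : ℕ) :
    tD D (ρ ++ w) (ρ.length + k) = tD (fun v => D (ρ ++ v)) w k := by
  unfold tD
  have h1 : ∀ i, (ρ ++ w).getD (ρ.length + i) false = w.getD i false := fun i => by
    rw [List.getD_append_right _ _ _ _ (Nat.le_add_right _ _), Nat.add_sub_cancel_left]
  rw [h1, add_assoc, h1, List.take_length_add_append]

theorem wD_shift (D : List Bool → ℂ) (ρ w : List Bool) {s t : ℕ} (hs : ρ.length ≤ s) :
    wD D (ρ ++ w) s t = wD (fun v => D (ρ ++ v)) w (s - ρ.length) (t - ρ.length) := by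
  unfold wD
  rw [Finset.sum_Ico_eq_sum_range, Finset.sum_Ico_eq_sum_range]
  have e : t - ρ.length - (s - ρ.length) = t - s := by omega
  rw [e]
  refine Finset.sum_congr rfl fun k _ => ?_
  rw [← tD_shift]
  congr 1
  omega

omit [Fintype Y] in
theorem RP.shift {p pc : Y → List Bool → ℝ} (hp : RP p pc) (ρ : List Bool) :
    RP (fun y v => p y (ρ ++ v)) (fun y v => pc y (ρ ++ v)) :=
  ⟨fun y _ => hp.nn y _, fun y _ => hp.le y _, fun y v => by
    simp only [← List.append_assoc]; exact hp.mp y _⟩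

omit [Fintype Y] in
theorem RU.shift {K : ℝ} {p pc : Y → List Bool → ℝ} {u uc : Y → List Bool → ℂ}
    (hu : RU K p pc u uc) (ρ : List Bool) :
    RU K (fun y v => p y (ρ ++ v)) (fun y v => pc y (ρ ++ v)) (fun y v => u y (ρ ++ v))
      (fun y v => uc y (ρ ++ v)) :=
  ⟨fun y v => by simp only [← List.append_assoc]; exact hu.mu y _, fun y _ => hu.bd y _,
    fun y _ => hu.rem y _⟩

theorem h96_Vl_nn {p pc : Y → List Bool → ℝ} (hp : RP p pc) (v : List Bool) : 0 ≤ Vl p pc v :=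
  Finset.sum_nonneg fun y _ => div_nonneg (sq_nonneg _) (hp.nn y v)

theorem h96_Rm_nn {p pc : Y → List Bool → ℝ} (hp : RP p pc) (v : List Bool) : 0 ≤ Rm p pc v :=
  Finset.sum_nonneg fun y _ => sub_nonneg.2 (hp.le y v)

theorem pen_shift_le {p pc : Y → List Bool → ℝ} (hp : RP p pc) (ρ w : List Bool) (m : ℕ) :
    pen (fun y v => p y (ρ ++ v)) (fun y v => pc y (ρ ++ v)) m w ≤
      pen p pc (ρ.length + m) (ρ ++ w) := by
  unfold pen
  rw [Finset.sum_range_add]
  refine le_add_of_nonneg_of_le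
    (Finset.sum_nonneg fun k _ => add_nonneg (h96_Vl_nn hp _) (h96_Rm_nn hp _)) (le_of_eq ?_)
  refine Finset.sum_congr rfl fun k _ => ?_
  rw [add_assoc, List.take_length_add_append, List.take_length_add_append]
  simp only [Vl, Rm, List.append_assoc]

open Classical in
/-- the exponential moment of one label on the cylinder of its root -/
theorem run_exp_loc {K ε P : ℝ} (hK : 1 ≤ K) (hε : 0 < ε) (hε1 : ε ≤ 1) (hP : 0 < P)
    {p pc : Y → List Bool → ℝ} {u uc : Y → List Bool → ℂ} (hp : RP p pc) (hu : RU K p pc u uc)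
    (D : Y → List Bool → ℂ) (hD : ∀ y v, ‖D y v‖ ≤ ‖uc y (v ++ [false]) - u y v‖)
    (ρ : List Bool) (n : ℕ) (s t : List Bool → ℕ)
    (hst : ∀ l, l.length = n → ρ <+: l → s l < t l → ρ.length ≤ s l ∧ t l ≤ n ∧
      ∀ k, ρ.length ≤ k → k ≤ t l →
        Sz p u (l.take k) ≤ ε ^ 2 * P ∧ ∑ y, p y (l.take k) ≤ 2 * P) :
    avg n (fun l => if ρ <+: l then Real.exp ((∑ y, ‖wD (D y) l (s l) (t l)‖) / (1024 * ε * P) -
      K ^ 2 * pen p pc n l / (2 * ε ^ 2 * P)) else 0) ≤ 4 / 2 ^ ρ.length := by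
  by_cases hn : ρ.length ≤ n
  swap
  · rw [avg_congr_len n (F' := fun _ => 0) fun l hl => if_neg fun h => hn (hl ▸ h.length_le),
      avg_const]
    positivity
  obtain ⟨m, rfl⟩ := Nat.exists_eq_add_of_le hn
  rw [avg_cyl]
  refine div_le_div_of_nonneg_right ?_ (by positivity)
  have hG : GoodSet ε P (fun y v => p y (ρ ++ v)) (fun y v => u y (ρ ++ v))
      (fun v => ∀ k, Sz p u (ρ ++ v.take k) ≤ ε ^ 2 * P ∧ ∑ y, p y (ρ ++ v.take k) ≤ 2 * P) := by
    refine ⟨fun v k h i => ?_, fun v h => ?_, fun v h => ?_⟩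
    · rw [List.take_take]; exact h _
    · have := (h v.length).1
      rwa [List.take_length] at this
    · have := (h v.length).2
      rwa [List.take_length] at this
  have key := run_exp hK hε hε1 hP (hp.shift ρ) (hu.shift ρ) (fun y v => D y (ρ ++ v))
    (fun y v => by simp only [← List.append_assoc]; exact hD y _) hG m
    (fun w => s (ρ ++ w) - ρ.length) (fun w => t (ρ ++ w) - ρ.length) (fun w hw hlt => by
      obtain ⟨h1, h2, h3⟩ := hst (ρ ++ w) (by simp [hw]) (List.prefix_append _ _) (by omega)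
      refine ⟨by omega, fun k => ?_⟩
      have := h3 (ρ.length + min k (t (ρ ++ w) - ρ.length)) (by omega) (by omega)
      rw [List.take_length_add_append] at this
      rw [List.take_take]
      exact this)
  refine le_trans (avg_mono_len m fun w hw => ?_) key
  refine Real.exp_le_exp.2 (sub_le_sub (le_of_eq ?_) ?_)
  · congr 1
    refine Finset.sum_congr rfl fun y _ => ?_
    by_cases hlt : s (ρ ++ w) < t (ρ ++ w)
    · rw [wD_shift _ _ _ (hst (ρ ++ w) (by simp [hw]) (List.prefix_append _ _) hlt).1]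
    · unfold wD
      rw [Finset.Ico_eq_empty hlt, Finset.Ico_eq_empty (by omega)]
      simp
  · refine div_le_div_of_nonneg_right ?_ (by positivity)
    exact mul_le_mul_of_nonneg_left (pen_shift_le hp ρ w m) (by positivity)

open Classical in
/-- Donsker–Varadhan on (path, label) when the label `i` lives on the cylinder of `ρ i` -/
theorem dv_loc {ι : Type*} (J : Finset ι) (ρ : ι → List Bool) (n : ℕ) (w : List Bool → ι → ℝ)
    (q : ι → ℝ) (F : List Bool → ι → ℝ) (hw : ∀ l, l.length = n → ∀ j ∈ J, 0 ≤ w l j)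
    (hq : ∀ j ∈ J, 0 ≤ q j) (hwq : ∀ l, l.length = n → ∀ j ∈ J, q j = 0 → w l j = 0)
    (hw1 : ∀ l, l.length = n → ∑ j ∈ J, w l j = 1)
    (hρ : ∀ l, l.length = n → ∀ j ∈ J, w l j ≠ 0 → ρ j <+: l) {B : ℝ} (hB : 0 < B)
    (hF : ∑ j ∈ J, q j * avg n (fun l => if ρ j <+: l then Real.exp (F l j) else 0) ≤ B) :
    avg n (fun l => ∑ j ∈ J, w l j * F l j) ≤
      avg n (fun l => ∑ j ∈ J, w l j * Real.log (w l j / q j)) + Real.log B := by
  have h1 : avg n (fun l => ∑ j ∈ J, w l j * F l j) ≤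
      avg n (fun l => (∑ j ∈ J, w l j * Real.log (w l j / q j)) + ((Real.log B - 1) +
        B⁻¹ * ∑ j ∈ J, q j * (if ρ j <+: l then Real.exp (F l j) else 0))) := by
    refine avg_mono_len n fun l hl => ?_
    have h2 : ∑ j ∈ J, w l j * F l j ≤ ∑ j ∈ J, (w l j * Real.log (w l j / q j) +
        (w l j * (Real.log B - 1) +
          B⁻¹ * (q j * (if ρ j <+: l then Real.exp (F l j) else 0)))) := by
      refine Finset.sum_le_sum fun j hj => ?_
      by_cases h0 : w l j = 0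
      · rw [h0]
        have : 0 ≤ B⁻¹ * (q j * (if ρ j <+: l then Real.exp (F l j) else 0)) :=
          mul_nonneg (inv_nonneg.2 hB.le) (mul_nonneg (hq j hj) (by split_ifs <;> positivity))
        linarith
      · rw [if_pos (hρ l hl j hj h0)]
        have := lowDV_pt (F := F l j) (hw l hl j hj) (hq j hj) (hwq l hl j hj) hB
        linarith
    rw [Finset.sum_add_distrib, Finset.sum_add_distrib, ← Finset.sum_mul, hw1 l hl, one_mul,
      ← Finset.mul_sum] at h2
    exact h2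
  rw [avg_add', avg_add', avg_const, avg_mul_left,
    avg_sum n J (fun j l => q j * if ρ j <+: l then Real.exp (F l j) else 0)] at h1
  rw [Finset.sum_congr rfl fun j _ => avg_mul_left n (q j)
    (fun l => if ρ j <+: l then Real.exp (F l j) else 0)] at h1
  have h3 : B⁻¹ * ∑ j ∈ J, q j * avg n (fun l => if ρ j <+: l then Real.exp (F l j) else 0) ≤ 1 := by
    rw [inv_mul_le_iff₀ hB]; linarith
  linarith

/-- **RUN, local labels.** The label `j` has the root node `ρ j`; the size and mass conditions are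
needed only along the path, between the root of the label and the end of the window, and only for
the labels of positive weight; the prior has `∑ q j |ρ j| ≤ M`. -/
theorem run_dv_loc {ι : Type*} (J : Finset ι) (ρ : ι → List Bool) {K ε P M : ℝ} (hK : 1 ≤ K)
    (hε : 0 < ε) (hε1 : ε ≤ 1) (hP : 0 < P) (hM : 0 < M) {p pc : Y → List Bool → ℝ}
    {u uc : ι → Y → List Bool → ℂ} (hp : RP p pc)
    (hu : ∀ j ∈ J, RU K p pc (u j) (uc j)) (D : ι → Y → List Bool → ℂ)
    (hD : ∀ j ∈ J, ∀ y v, ‖D j y v‖ ≤ ‖uc j y (v ++ [false]) - u j y v‖) (n : ℕ)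
    (s t : List Bool → ι → ℕ) (w : List Bool → ι → ℝ) (q : ι → ℝ)
    (hst : ∀ l, l.length = n → ∀ j ∈ J, w l j ≠ 0 → ρ j <+: l ∧ (s l j < t l j →
      (ρ j).length ≤ s l j ∧ t l j ≤ n ∧ ∀ k, (ρ j).length ≤ k → k ≤ t l j →
        Sz p (u j) (l.take k) ≤ ε ^ 2 * P ∧ ∑ y, p y (l.take k) ≤ 2 * P))
    (hw : ∀ l, l.length = n → ∀ j ∈ J, 0 ≤ w l j)
    (hq : ∀ j ∈ J, 0 ≤ q j) (hwq : ∀ l, l.length = n → ∀ j ∈ J, q j = 0 → w l j = 0)
    (hw1 : ∀ l, l.length = n → ∑ j ∈ J, w l j = 1)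
    (hq1 : ∑ j ∈ J, q j / 2 ^ (ρ j).length ≤ M) :
    avg n (fun l => ∑ j ∈ J, w l j * ∑ y, ‖wD (D j y) l (s l j) (t l j)‖) ≤
      1024 * ε * P * (avg n (fun l => ∑ j ∈ J, w l j * Real.log (w l j / q j)) + Real.log M + 2) +
        512 * K ^ 2 / ε * avg n (pen p pc n) := by
  classical
  set t' : List Bool → ι → ℕ := fun l j => if w l j = 0 then 0 else t l j with ht'
  have hc : 0 < 1024 * ε * P := by positivity
  have key := dv_loc J ρ n w q (fun l j => (∑ y, ‖wD (D j y) l (s l j) (t' l j)‖) /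
      (1024 * ε * P) - K ^ 2 * pen p pc n l / (2 * ε ^ 2 * P)) hw hq hwq hw1
    (fun l hl j hj h0 => (hst l hl j hj h0).1) (B := 4 * M) (by positivity) (by
      refine le_trans (Finset.sum_le_sum fun j hj => mul_le_mul_of_nonneg_left
        (run_exp_loc hK hε hε1 hP hp (hu j hj) (D j) (hD j hj) (ρ j) n (fun l => s l j)
          (fun l => t' l j) fun l hl _ hlt => ?_) (hq j hj)) ?_
      · by_cases h0 : w l j = 0
        · simp [ht', h0] at hlt
        · simp only [ht', if_neg h0] at hlt ⊢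
          exact (hst l hl j hj h0).2 hlt
      · have : ∑ j ∈ J, q j * (4 / 2 ^ (ρ j).length) = 4 * ∑ j ∈ J, q j / 2 ^ (ρ j).length := by
          rw [Finset.mul_sum]
          exact Finset.sum_congr rfl fun j _ => by ring
        rw [this]; linarith)
  have e1 : avg n (fun l => ∑ j ∈ J, w l j * ((∑ y, ‖wD (D j y) l (s l j) (t' l j)‖) /
      (1024 * ε * P) - K ^ 2 * pen p pc n l / (2 * ε ^ 2 * P))) =
      (1024 * ε * P)⁻¹ * avg n (fun l => ∑ j ∈ J, w l j * ∑ y, ‖wD (D j y) l (s l j) (t l j)‖) -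
        K ^ 2 / (2 * ε ^ 2 * P) * avg n (pen p pc n) := by
    rw [← avg_mul_left, ← avg_mul_left, ← avg_sub]
    refine avg_congr_len n fun l hl => ?_
    simp only [mul_sub]
    rw [Finset.sum_sub_distrib, ← Finset.sum_mul, hw1 l hl, Finset.mul_sum]
    congr 1
    · refine Finset.sum_congr rfl fun j _ => ?_
      by_cases h0 : w l j = 0
      · simp [h0]
      · simp only [ht', if_neg h0]; ring
    · ring
  rw [e1] at key
  have hl4 : Real.log (4 * M) ≤ Real.log M + 2 := by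
    rw [Real.log_mul (by norm_num) hM.ne', show (4 : ℝ) = 2 ^ 2 by norm_num, Real.log_pow]
    have := Real.log_le_sub_one_of_pos (show (0 : ℝ) < 2 by norm_num)
    push_cast
    linarith
  have e2 : 512 * K ^ 2 / ε = 1024 * ε * P * (K ^ 2 / (2 * ε ^ 2 * P)) := by
    field_simp; ring
  rw [e2, mul_assoc (1024 * ε * P), ← mul_add, ← inv_mul_le_iff₀ hc]
  linarith

open Classical in
/-- `dv_loc` for a sub-probability law of the label -/
theorem dv_loc_le {ι : Type*} (J : Finset ι) (ρ : ι → List Bool) (n : ℕ) (w : List Bool → ι → ℝ)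
    (q : ι → ℝ) (F : List Bool → ι → ℝ) (hw : ∀ l, l.length = n → ∀ j ∈ J, 0 ≤ w l j)
    (hq : ∀ j ∈ J, 0 ≤ q j) (hwq : ∀ l, l.length = n → ∀ j ∈ J, q j = 0 → w l j = 0)
    (hw1 : ∀ l, l.length = n → ∑ j ∈ J, w l j ≤ 1)
    (hρ : ∀ l, l.length = n → ∀ j ∈ J, w l j ≠ 0 → ρ j <+: l) {B : ℝ} (hB : 0 < B)
    (hB1 : 1 ≤ Real.log B)
    (hF : ∑ j ∈ J, q j * avg n (fun l => if ρ j <+: l then Real.exp (F l j) else 0) ≤ B) :
    avg n (fun l => ∑ j ∈ J, w l j * F l j) ≤
      avg n (fun l => ∑ j ∈ J, w l j * Real.log (w l j / q j)) + Real.log B := by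
  have h1 : avg n (fun l => ∑ j ∈ J, w l j * F l j) ≤
      avg n (fun l => (∑ j ∈ J, w l j * Real.log (w l j / q j)) + ((Real.log B - 1) +
        B⁻¹ * ∑ j ∈ J, q j * (if ρ j <+: l then Real.exp (F l j) else 0))) := by
    refine avg_mono_len n fun l hl => ?_
    have h2 : ∑ j ∈ J, w l j * F l j ≤ ∑ j ∈ J, (w l j * Real.log (w l j / q j) +
        (w l j * (Real.log B - 1) +
          B⁻¹ * (q j * (if ρ j <+: l then Real.exp (F l j) else 0)))) := by
      refine Finset.sum_le_sum fun j hj => ?_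
      by_cases h0 : w l j = 0
      · rw [h0]
        have : 0 ≤ B⁻¹ * (q j * (if ρ j <+: l then Real.exp (F l j) else 0)) :=
          mul_nonneg (inv_nonneg.2 hB.le) (mul_nonneg (hq j hj) (by split_ifs <;> positivity))
        linarith
      · rw [if_pos (hρ l hl j hj h0)]
        have := lowDV_pt (F := F l j) (hw l hl j hj) (hq j hj) (hwq l hl j hj) hB
        linarith
    rw [Finset.sum_add_distrib, Finset.sum_add_distrib, ← Finset.sum_mul,
      ← Finset.mul_sum] at h2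
    have h3 := mul_le_of_le_one_left (sub_nonneg.2 hB1) (hw1 l hl)
    linarith
  rw [avg_add', avg_add', avg_const, avg_mul_left,
    avg_sum n J (fun j l => q j * if ρ j <+: l then Real.exp (F l j) else 0)] at h1
  rw [Finset.sum_congr rfl fun j _ => avg_mul_left n (q j)
    (fun l => if ρ j <+: l then Real.exp (F l j) else 0)] at h1
  have h3 : B⁻¹ * ∑ j ∈ J, q j * avg n (fun l => if ρ j <+: l then Real.exp (F l j) else 0) ≤ 1 := by
    rw [inv_mul_le_iff₀ hB]; linarith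
  linarith

theorem h96_pen_nn {p pc : Y → List Bool → ℝ} (hp : RP p pc) (n : ℕ) (l : List Bool) :
    0 ≤ pen p pc n l :=
  Finset.sum_nonneg fun _ _ => add_nonneg (h96_Vl_nn hp _) (h96_Rm_nn hp _)

/-- **RUN, local labels, sub-probability law** (`∑ w ≤ 1`, `1 ≤ M`) -/
theorem run_dv_loc_le {ι : Type*} (J : Finset ι) (ρ : ι → List Bool) {K ε P M : ℝ} (hK : 1 ≤ K)
    (hε : 0 < ε) (hε1 : ε ≤ 1) (hP : 0 < P) (hM : 1 ≤ M) {p pc : Y → List Bool → ℝ}
    {u uc : ι → Y → List Bool → ℂ} (hp : RP p pc)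
    (hu : ∀ j ∈ J, RU K p pc (u j) (uc j)) (D : ι → Y → List Bool → ℂ)
    (hD : ∀ j ∈ J, ∀ y v, ‖D j y v‖ ≤ ‖uc j y (v ++ [false]) - u j y v‖) (n : ℕ)
    (s t : List Bool → ι → ℕ) (w : List Bool → ι → ℝ) (q : ι → ℝ)
    (hst : ∀ l, l.length = n → ∀ j ∈ J, w l j ≠ 0 → ρ j <+: l ∧ (s l j < t l j →
      (ρ j).length ≤ s l j ∧ t l j ≤ n ∧ ∀ k, (ρ j).length ≤ k → k ≤ t l j →
        Sz p (u j) (l.take k) ≤ ε ^ 2 * P ∧ ∑ y, p y (l.take k) ≤ 2 * P))
    (hw : ∀ l, l.length = n → ∀ j ∈ J, 0 ≤ w l j)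
    (hq : ∀ j ∈ J, 0 ≤ q j) (hwq : ∀ l, l.length = n → ∀ j ∈ J, q j = 0 → w l j = 0)
    (hw1 : ∀ l, l.length = n → ∑ j ∈ J, w l j ≤ 1)
    (hq1 : ∑ j ∈ J, q j / 2 ^ (ρ j).length ≤ M) :
    avg n (fun l => ∑ j ∈ J, w l j * ∑ y, ‖wD (D j y) l (s l j) (t l j)‖) ≤
      1024 * ε * P * (avg n (fun l => ∑ j ∈ J, w l j * Real.log (w l j / q j)) + Real.log M + 2) +
        512 * K ^ 2 / ε * avg n (pen p pc n) := by
  classical
  set t' : List Bool → ι → ℕ := fun l j => if w l j = 0 then 0 else t l j with ht'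
  have hc : 0 < 1024 * ε * P := by positivity
  have hM0 : 0 < M := by linarith
  have e4 : Real.log (4 * M) = 2 * Real.log 2 + Real.log M := by
    rw [Real.log_mul (by norm_num) hM0.ne', show (4 : ℝ) = 2 ^ 2 by norm_num, Real.log_pow]
    norm_num
  have key := dv_loc_le J ρ n w q (fun l j => (∑ y, ‖wD (D j y) l (s l j) (t' l j)‖) /
      (1024 * ε * P) - K ^ 2 * pen p pc n l / (2 * ε ^ 2 * P)) hw hq hwq hw1
    (fun l hl j hj h0 => (hst l hl j hj h0).1) (B := 4 * M) (by positivity)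
    (by rw [e4]; linarith [Real.log_nonneg hM, Real.log_two_gt_d9]) (by
      refine le_trans (Finset.sum_le_sum fun j hj => mul_le_mul_of_nonneg_left
        (run_exp_loc hK hε hε1 hP hp (hu j hj) (D j) (hD j hj) (ρ j) n (fun l => s l j)
          (fun l => t' l j) fun l hl _ hlt => ?_) (hq j hj)) ?_
      · by_cases h0 : w l j = 0
        · simp [ht', h0] at hlt
        · simp only [ht', if_neg h0] at hlt ⊢
          exact (hst l hl j hj h0).2 hlt
      · have : ∑ j ∈ J, q j * (4 / 2 ^ (ρ j).length) = 4 * ∑ j ∈ J, q j / 2 ^ (ρ j).length := by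
          rw [Finset.mul_sum]
          exact Finset.sum_congr rfl fun j _ => by ring
        rw [this]; linarith)
  have e1 : (1024 * ε * P)⁻¹ *
        avg n (fun l => ∑ j ∈ J, w l j * ∑ y, ‖wD (D j y) l (s l j) (t l j)‖) -
        K ^ 2 / (2 * ε ^ 2 * P) * avg n (pen p pc n) ≤
      avg n (fun l => ∑ j ∈ J, w l j * ((∑ y, ‖wD (D j y) l (s l j) (t' l j)‖) /
        (1024 * ε * P) - K ^ 2 * pen p pc n l / (2 * ε ^ 2 * P))) := by
    rw [← avg_mul_left, ← avg_mul_left, ← avg_sub]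
    refine avg_mono_len n fun l hl => ?_
    simp only [mul_sub]
    rw [Finset.sum_sub_distrib, ← Finset.sum_mul, Finset.mul_sum]
    refine sub_le_sub (le_of_eq ?_) ?_
    · refine Finset.sum_congr rfl fun j _ => ?_
      by_cases h0 : w l j = 0
      · simp [h0]
      · simp only [ht', if_neg h0]; ring
    · have h0 : 0 ≤ K ^ 2 * pen p pc n l / (2 * ε ^ 2 * P) := by
        have := h96_pen_nn hp n l
        positivity
      refine le_trans (mul_le_of_le_one_left h0 (hw1 l hl)) (le_of_eq ?_)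
      ring
  have hl4 : Real.log (4 * M) ≤ Real.log M + 2 := by
    rw [e4]; linarith [Real.log_two_lt_d9]
  have e2 : 512 * K ^ 2 / ε = 1024 * ε * P * (K ^ 2 / (2 * ε ^ 2 * P)) := by
    field_simp; ring
  rw [e2, mul_assoc (1024 * ε * P), ← mul_add, ← inv_mul_le_iff₀ hc]
  linarith

/-- **RUN, local labels, pointwise information** `w l j ≤ e^τ q j` -/
theorem run_tau {ι : Type*} (J : Finset ι) (ρ : ι → List Bool) {K ε P M τ : ℝ} (hK : 1 ≤ K)
    (hε : 0 < ε) (hε1 : ε ≤ 1) (hP : 0 < P) (hM : 1 ≤ M) (hτ : 0 ≤ τ) {p pc : Y → List Bool → ℝ}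
    {u uc : ι → Y → List Bool → ℂ} (hp : RP p pc)
    (hu : ∀ j ∈ J, RU K p pc (u j) (uc j)) (D : ι → Y → List Bool → ℂ)
    (hD : ∀ j ∈ J, ∀ y v, ‖D j y v‖ ≤ ‖uc j y (v ++ [false]) - u j y v‖) (n : ℕ)
    (s t : List Bool → ι → ℕ) (w : List Bool → ι → ℝ) (q : ι → ℝ)
    (hst : ∀ l, l.length = n → ∀ j ∈ J, w l j ≠ 0 → ρ j <+: l ∧ (s l j < t l j →
      (ρ j).length ≤ s l j ∧ t l j ≤ n ∧ ∀ k, (ρ j).length ≤ k → k ≤ t l j →
        Sz p (u j) (l.take k) ≤ ε ^ 2 * P ∧ ∑ y, p y (l.take k) ≤ 2 * P))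
    (hw : ∀ l, l.length = n → ∀ j ∈ J, 0 ≤ w l j) (hq : ∀ j ∈ J, 0 ≤ q j)
    (hwq : ∀ l, l.length = n → ∀ j ∈ J, w l j ≤ Real.exp τ * q j)
    (hw1 : ∀ l, l.length = n → ∑ j ∈ J, w l j ≤ 1)
    (hq1 : ∑ j ∈ J, q j / 2 ^ (ρ j).length ≤ M) :
    avg n (fun l => ∑ j ∈ J, w l j * ∑ y, ‖wD (D j y) l (s l j) (t l j)‖) ≤
      1024 * ε * P * (τ + Real.log M + 2) + 512 * K ^ 2 / ε * avg n (pen p pc n) := by
  have h0 : ∀ l, l.length = n → ∀ j ∈ J, q j = 0 → w l j = 0 := fun l hl j hj h =>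
    le_antisymm (by simpa [h] using hwq l hl j hj) (hw l hl j hj)
  refine le_trans (run_dv_loc_le J ρ hK hε hε1 hP hM hp hu D hD n s t w q hst hw hq h0 hw1 hq1) ?_
  have h1 : avg n (fun l => ∑ j ∈ J, w l j * Real.log (w l j / q j)) ≤ τ := by
    refine le_trans (avg_mono_len n (F' := fun _ => τ) fun l hl => ?_) (avg_const n τ).le
    refine le_trans (Finset.sum_le_sum (g := fun j => w l j * τ) fun j hj => ?_) ?_
    · by_cases hz : w l j = 0
      · simp [hz]
      have hw0 : 0 < w l j := lt_of_le_of_ne (hw l hl j hj) (Ne.symm hz)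
      have hq0 : 0 < q j := lt_of_le_of_ne (hq j hj) fun h => hz (h0 l hl j hj h.symm)
      refine mul_le_mul_of_nonneg_left ?_ hw0.le
      rw [Real.log_le_iff_le_exp (div_pos hw0 hq0), div_le_iff₀ hq0]
      exact hwq l hl j hj
    · rw [← Finset.sum_mul]
      exact mul_le_of_le_one_left hτ (hw1 l hl)
  have hc : 0 ≤ 1024 * ε * P := by positivity
  nlinarith [mul_le_mul_of_nonneg_left h1 hc]

end Crest.Agent.R100.Run
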