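import Crest.Agent.R100.LifeLip
import Crest.Agent.R100.RunLoc
import Crest.Agent.R100.Pen
import Crest.Agent.R100.CandDefs
import Crest.Agent.R100.LifeLab

set_option autoImplicit false

open MeasureTheory Set

noncomputable section

namespace Crest.Agent.R100.Life

open Crest.Agent.R100 Crest.Agent.R100.Low Crest.Agent.R100.Run

variable {Y Ω : Type} [Fintype Y] [Fintype Ω] {R P μ : ℝ} {h : Y → List Bool → ℝ → ℝ} {α ℓ : ℝ}
  {A : List Bool → Prop} {lam Z : Ω → ℝ}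

open Classical in
/-- one stage: labels `(l.take J, N)`, uniform prior on the labels used at each candidate -/
theorem stage_cost (hD : Data R P μ h α ℓ A lam Z) {φ : Ω → Y → ℂ} (hφ : ∀ ω y, ‖φ ω y‖ ≤ 1)
    (n : ℕ) (ξ : List Bool → ℝ) {Cd : List Bool → Prop} {M κ b ε τ μ' : ℝ} (hM1 : 1 ≤ M)
    (hM : avg n (Cand.cnt Cd n) ≤ M) (hκ : 0 < κ) (hε : 0 < ε) (hε1 : ε ≤ 1) (hτ : 0 ≤ τ)
    (hμ' : 0 < μ')
    (hbin : ∀ v, A v → ∀ a : ℝ,
      ∑ ω, (if a ≤ Z ω ∧ Z ω ≤ a + 1 / ln ℓ v then lam ω else 0) ≤ μ')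
    (hcnt : ∀ v, A v → ∀ F : Finset ℤ, (∀ N ∈ F, b ≤ SS h α ℓ (lat κ ℓ v N) v) →
      (F.card : ℝ) ≤ Real.exp τ / μ')
    (J s t : List Bool → Ω → ℕ) (z : List Bool → Ω → ℝ)
    (hst : ∀ l, l.length = n → ∀ ω, s l ω < t l ω →
      J l ω ≤ s l ω ∧ t l ω ≤ n - 1 ∧ Cd (l.take (J l ω)) ∧ A (l.take (J l ω)) ∧
      (∃ N : ℤ, z l ω = lat κ ℓ (l.take (J l ω)) N) ∧ b ≤ SS h α ℓ (z l ω) (l.take (J l ω)) ∧
      (∀ k, J l ω ≤ k → k ≤ t l ω → A (l.take k) → SS h α ℓ (z l ω) (l.take k) ≤ ε ^ 2 * P) ∧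
      |ξ l + Z ω - z l ω| * ln ℓ (l.take (s l ω)) ≤ 1 / 2) :
    ∑ ω, lam ω * avg n (fun l => ‖Wn h α ℓ A (φ ω) (ξ l + Z ω) l (s l ω) (t l ω)‖) ≤
      1024 * ε * P * (τ + Real.log M + 2) + 5120 / ε * P * (1 + Real.log (Fintype.card Y)) +
        3 * P := by
  have hP := hD.hP
  have hN : ∀ l ω, ∃ N : ℤ, l.length = n → s l ω < t l ω →
      z l ω = lat κ ℓ (l.take (J l ω)) N := fun l ω => by
    by_cases hc : l.length = n ∧ s l ω < t l ω
    · obtain ⟨N, e⟩ := (hst l hc.1 ω hc.2).2.2.2.2.1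
      exact ⟨N, fun _ _ => e⟩
    · exact ⟨0, fun a b => absurd ⟨a, b⟩ hc⟩
  choose N hN using hN
  have key := life_lab_core hD Cd (κ := κ) (D := 1 / 2) (c := b) hε hε1 hM1 hτ hμ' n hM
    (fun v hv b' => by
      have hl := lowFamA_ln_pos hD.hl v
      refine le_trans (Finset.sum_le_sum fun ω _ => ?_) (hbin v hv (b' - 1 / 2 / ln ℓ v))
      split_ifs with b1 b2
      · exact le_rfl
      · refine absurd ?_ b2
        have h1 : |Z ω - b'| ≤ 1 / 2 / ln ℓ v := by rwa [le_div_iff₀ hl]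
        have h2 : 1 / ln ℓ v = 2 * (1 / 2 / ln ℓ v) := by ring
        obtain ⟨h3, h4⟩ := abs_le.1 h1
        constructor <;> linarith
      · exact hD.lnn ω
      · exact le_rfl) hcnt ξ φ hφ (fun l ω => s l ω < t l ω ∧ A (l.take (s l ω))) J s t N
    (fun l hl ω ha => by
      obtain ⟨a1, a2, a3, -, -, a6, a7, a8⟩ := hst l hl ω ha.1
      rw [← hN l ω hl ha.1]
      have := ha.1
      exact ⟨a1, by omega, by omega, a3, ha.2, a6, a8, a7⟩)
  have h1 : ∀ ω, avg n (fun l => ‖Wn h α ℓ A (φ ω) (ξ l + Z ω) l (s l ω) (t l ω)‖) ≤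
      avg n (fun l => if s l ω < t l ω ∧ A (l.take (s l ω)) then
        ‖Wn h α ℓ A (φ ω) (lat κ ℓ (l.take (J l ω)) (N l ω)) l (s l ω) (t l ω)‖ else 0) + 3 * P := by
    intro ω
    rw [← avg_const n (3 * P), ← avg_add']
    refine avg_mono_len n fun l hl => ?_
    split_ifs with ha
    · obtain ⟨-, a2, -, -, -, -, -, a8⟩ := hst l hl ω ha.1
      rw [← hN l ω hl ha.1]
      have h2 := Wn_lip hD (hφ ω) (ξ l + Z ω) (z l ω) l (s l ω) (t l ω) (by omega)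
      nlinarith
    · have h0 : Wn h α ℓ A (φ ω) (ξ l + Z ω) l (s l ω) (t l ω) = 0 := by
        unfold Wn wD tD
        refine Finset.sum_eq_zero fun k hk => ?_
        have hk' := Finset.mem_Ico.1 hk
        have hA : ¬A (l.take k) := fun hA => ha ⟨lt_of_le_of_lt hk'.1 hk'.2, by
          have := hD.her _ (s l ω) hA
          rwa [List.take_take, min_eq_left hk'.1] at this⟩
        simp only [if_neg hA, mul_zero]
      rw [h0, norm_zero]
      linarith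
  refine le_trans (Finset.sum_le_sum fun ω _ => mul_le_mul_of_nonneg_left (h1 ω) (hD.lnn ω)) ?_
  rw [Finset.sum_congr rfl fun ω _ => mul_add (lam ω) _ _, Finset.sum_add_distrib,
    ← Finset.sum_mul, hD.lone, one_mul]
  refine add_le_add (le_of_eq_of_le ?_ key) le_rfl
  congr!

end Crest.Agent.R100.Life
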