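import Mathlib

/-!
# Row 100, LIFE (helper88): the stage decomposition of one path
-/

set_option autoImplicit false

noncomputable section

namespace Crest.Agent.R100.St88

/-- the data of the window of stage `i` -/
def Win (S : ℝ → ℕ → ℝ) (Cd : ℕ → Prop) (La : ℕ → ℝ → Prop) (a b : ℕ → ℝ) (N ℓ E : ℝ)
    (T e i J s t : ℕ) (z : ℝ) : Prop :=
  s < t → J ≤ s ∧ T ≤ s ∧ t ≤ e ∧ Cd J ∧ La J z ∧ b i ≤ S z J ∧
    (∀ k, J ≤ k → k ≤ t → S z k ≤ a i) ∧ |N - z| * (ℓ / 2 ^ s) ≤ E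

theorem len_mono {ℓ : ℝ} (hℓ : 0 ≤ ℓ) {s t : ℕ} (h : s ≤ t) : ℓ / 2 ^ t ≤ ℓ / 2 ^ s :=
  div_le_div_of_nonneg_left hℓ (by positivity) (pow_le_pow_right₀ (by norm_num) h)

theorem stage_ind (S : ℝ → ℕ → ℝ) (F : ℕ → ℕ → ℝ) (Cd : ℕ → Prop) (La : ℕ → ℝ → Prop)
    (a b : ℕ → ℝ) (N ℓ K D0 : ℝ) (e w i1 : ℕ) (hℓ : 0 ≤ ℓ) (hK0 : 0 ≤ K) (hD0 : 0 ≤ D0)
    (hF0 : ∀ s t, 0 ≤ F s t)
    (hsub : ∀ s m t, s ≤ m → m ≤ t → t ≤ e → F s t ≤ F s m + F m t)
    (hK : ∀ s t, s ≤ t → t ≤ e → F s t ≤ K * ((t : ℝ) - s))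
    (hc : ∀ i k z, i ≤ i1 → k ≤ e → a (i + 1) ≤ S z k → ∃ J, J ≤ k ∧ Cd J ∧ ∃ z', La J z' ∧
      b i ≤ S z' J ∧ |z - z'| * (ℓ / 2 ^ k) ≤ D0)
    (htop : ∀ z k, k ≤ e → S z k ≤ a 0) :
    ∀ i, i ≤ i1 → ∀ (T τ : ℕ) (N' D : ℝ), τ ≤ T → T ≤ e → a (i + 1) ≤ S N' τ →
      |N - N'| * (ℓ / 2 ^ T) ≤ D → ∃ (J s t : ℕ → ℕ) (z : ℕ → ℝ),
        F T e ≤ ∑ j ∈ Finset.range (i + 1), (K * (w + 1) + F (s j) (t j)) ∧
          ∀ j, j ≤ i → Win S Cd La a b N ℓ ((D + (i + 1) * D0) / 2 ^ w) T e j (J j) (s j) (t j)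
            (z j) := by
  classical
  -- one stage
  have one : ∀ i, i ≤ i1 → ∀ (T τ : ℕ) (N' D : ℝ), τ ≤ T → T ≤ e → a (i + 1) ≤ S N' τ →
      |N - N'| * (ℓ / 2 ^ T) ≤ D → ∃ (J s t T' : ℕ) (z : ℝ), T ≤ T' ∧ T' ≤ e ∧
        F T T' ≤ K * (w + 1) + F s t ∧ Win S Cd La a b N ℓ ((D + D0) / 2 ^ w) T e i J s t z ∧
          |N - z| * (ℓ / 2 ^ T') ≤ D + D0 ∧ (T' = e ∨ ∃ τ', τ' ≤ T' ∧ a i < S z τ') := by
    intro i hi T τ N' D hτ hT hS hN
    obtain ⟨J, hJ, hCd, z, hLa, hb, hz⟩ := hc i τ N' hi (hτ.trans hT) hS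
    have hNz : |N - z| * (ℓ / 2 ^ T) ≤ D + D0 := by
      have h1 : |N - z| ≤ |N - N'| + |N' - z| := abs_sub_le _ _ _
      have h2 : |N' - z| * (ℓ / 2 ^ T) ≤ |N' - z| * (ℓ / 2 ^ τ) :=
        mul_le_mul_of_nonneg_left (len_mono hℓ hτ) (abs_nonneg _)
      have h3 : 0 ≤ ℓ / 2 ^ T := by positivity
      nlinarith
    have hNw : |N - z| * (ℓ / 2 ^ (T + w)) ≤ (D + D0) / 2 ^ w := by
      rw [pow_add, ← div_div, ← mul_div_assoc]
      exact div_le_div_of_nonneg_right hNz (by positivity)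
    have hmono : ∀ T', T ≤ T' → |N - z| * (ℓ / 2 ^ T') ≤ D + D0 := fun T' h =>
      (mul_le_mul_of_nonneg_left (len_mono hℓ h) (abs_nonneg _)).trans hNz
    -- serve `[T, T')` where the size is small on `[J, t]`, `T' ≤ t + 1`
    have serve : ∀ t T', T ≤ T' → T' ≤ e → T' ≤ max T (t + 1) → t ≤ T' →
        (T + w < t → ∀ k, J ≤ k → k ≤ t → S z k ≤ a i) → ∃ s t', F T T' ≤ K * (w + 1) + F s t' ∧
          Win S Cd La a b N ℓ ((D + D0) / 2 ^ w) T e i J s t' z := by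
      intro t T' h1 h2 h3 h4 h5
      by_cases hw : T + w < t
      · refine ⟨T + w, t, ?_, fun _ => ⟨by omega, by omega, by omega, hCd, hLa, hb, h5 hw, hNw⟩⟩
        have e1 := hsub T (T + w) T' (by omega) (by omega) h2
        have e2 := hsub (T + w) t T' (by omega) h4 h2
        have e3 := hK T (T + w) (by omega) (by omega)
        have e4 := hK t T' h4 h2
        have e5 : (T' : ℝ) - t ≤ 1 := by
          have : T' ≤ t + 1 := by omega
          have : (T' : ℝ) ≤ t + 1 := by exact_mod_cast this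
          linarith
        have e6 : K * ((T' : ℝ) - t) ≤ K * 1 := mul_le_mul_of_nonneg_left e5 hK0
        push_cast at e3
        nlinarith
      · refine ⟨0, 0, ?_, fun h => absurd h (lt_irrefl _)⟩
        have e3 := hK T T' h1 h2
        have e5 : (T' : ℝ) - T ≤ w + 1 := by
          have : T' ≤ T + w + 1 := by omega
          have : (T' : ℝ) ≤ T + w + 1 := by exact_mod_cast this
          linarith
        have e6 := mul_le_mul_of_nonneg_left e5 hK0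
        have := hF0 0 0
        linarith
    by_cases hex : ∃ k, J ≤ k ∧ k ≤ e ∧ a i < S z k
    · obtain ⟨h1, h2, h3⟩ := Nat.find_spec hex
      have hmin : ∀ k, k < Nat.find hex → J ≤ k → S z k ≤ a i := fun k hk hJk => by
        have := Nat.find_min hex hk
        by_contra hc'
        exact this ⟨hJk, by omega, lt_of_not_ge hc'⟩
      obtain ⟨s, t', e1, e2⟩ := serve (Nat.find hex - 1) (max T (Nat.find hex)) (le_max_left _ _)
        (max_le hT h2) (by omega) (by omega) (fun hw k hk1 hk2 => hmin k (by omega) hk1)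
      exact ⟨J, s, t', max T (Nat.find hex), z, le_max_left _ _, max_le hT h2, e1, e2,
        hmono _ (le_max_left _ _), Or.inr ⟨_, le_max_right _ _, h3⟩⟩
    · obtain ⟨s, t', e1, e2⟩ := serve e e hT le_rfl (by omega) le_rfl (fun _ k hk1 hk2 => by
        by_contra hc'
        exact hex ⟨k, hk1, hk2, lt_of_not_ge hc'⟩)
      exact ⟨J, s, t', e, z, hT, le_rfl, e1, e2, hmono _ hT, Or.inl rfl⟩
  have wmono : ∀ {E E' : ℝ} {T T' j J s t : ℕ} {z : ℝ}, E ≤ E' → T' ≤ T →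
      Win S Cd La a b N ℓ E T e j J s t z → Win S Cd La a b N ℓ E' T' e j J s t z := by
    intro E E' T T' j J s t z hE hT h hst
    obtain ⟨h1, h2, h3, h4, h5, h6, h7, h8⟩ := h hst
    exact ⟨h1, hT.trans h2, h3, h4, h5, h6, h7, h8.trans hE⟩
  have hee : F e e ≤ 0 := by simpa using hK e e le_rfl le_rfl
  intro i
  induction i with
  | zero =>
    intro hi T τ N' D hτ hT hS hN
    obtain ⟨J, s, t, T', z, h1, h2, h3, h4, _, h6⟩ := one 0 hi T τ N' D hτ hT hS hN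
    refine ⟨fun _ => J, fun _ => s, fun _ => t, fun _ => z, ?_, fun j hj => ?_⟩
    · rcases h6 with rfl | ⟨τ', h7, h8⟩
      · simpa using h3
      · exact absurd (htop z τ' (h7.trans h2)) (not_le.2 h8)
    · obtain rfl : j = 0 := by omega
      simpa using h4
  | succ i ih =>
    intro hi T τ N' D hτ hT hS hN
    obtain ⟨J, s, t, T', z, h1, h2, h3, h4, h5, h6⟩ := one (i + 1) hi T τ N' D hτ hT hS hN
    have hE : (D + D0) / 2 ^ w ≤ (D + (((i + 1 : ℕ) : ℝ) + 1) * D0) / 2 ^ w := by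
      refine div_le_div_of_nonneg_right ?_ (by positivity)
      have : (0 : ℝ) ≤ ((i + 1 : ℕ) : ℝ) * D0 := by positivity
      linarith
    have key : ∃ (J' s' t' : ℕ → ℕ) (z' : ℕ → ℝ),
        F T' e ≤ ∑ j ∈ Finset.range (i + 1), (K * (w + 1) + F (s' j) (t' j)) ∧
          ∀ j, j ≤ i → Win S Cd La a b N ℓ ((D + D0 + (i + 1) * D0) / 2 ^ w) T' e j (J' j) (s' j)
            (t' j) (z' j) := by
      rcases h6 with rfl | ⟨τ', h7, h8⟩
      · refine ⟨fun _ => 0, fun _ => 0, fun _ => 0, fun _ => 0, hee.trans ?_,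
          fun j _ h => absurd h (lt_irrefl _)⟩
        exact Finset.sum_nonneg fun j _ => add_nonneg (by positivity) (hF0 _ _)
      · exact ih (by omega) T' τ' z (D + D0) h7 h2 h8.le h5
    obtain ⟨J', s', t', z', k1, k2⟩ := key
    refine ⟨fun j => if j ≤ i then J' j else J, fun j => if j ≤ i then s' j else s,
      fun j => if j ≤ i then t' j else t, fun j => if j ≤ i then z' j else z, ?_, fun j hj => ?_⟩
    · rw [Finset.sum_range_succ]
      have e1 : ∑ j ∈ Finset.range (i + 1), (K * (w + 1) + F (if j ≤ i then s' j else s)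
          (if j ≤ i then t' j else t)) =
          ∑ j ∈ Finset.range (i + 1), (K * (w + 1) + F (s' j) (t' j)) :=
        Finset.sum_congr rfl fun j hj => by
          have : j ≤ i := Nat.lt_succ_iff.1 (Finset.mem_range.1 hj)
          simp only [this, if_true]
      have e2 : ¬(i + 1 ≤ i) := by omega
      simp only [e1, e2, if_false]
      have := hsub T T' e h1 h2 le_rfl
      linarith
    · by_cases hji : j ≤ i
      · simp only [hji, if_true]
        refine wmono (le_of_eq ?_) h1 (k2 j hji)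
        push_cast; ring
      · obtain rfl : j = i + 1 := by omega
        simp only [hji, if_false]
        exact wmono hE le_rfl h4

/-- **STAGES**: the part of the path after the first large node is covered by at most one labelled
window per level and `w + 1` crude steps per level -/
theorem stages (S : ℝ → ℕ → ℝ) (F : ℕ → ℕ → ℝ) (Cd : ℕ → Prop) (La : ℕ → ℝ → Prop)
    (a b : ℕ → ℝ) (N ℓ K D0 : ℝ) (e w i1 T : ℕ) (hℓ : 0 ≤ ℓ) (hK0 : 0 ≤ K) (hD0 : 0 ≤ D0)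
    (hF0 : ∀ s t, 0 ≤ F s t)
    (hsub : ∀ s m t, s ≤ m → m ≤ t → t ≤ e → F s t ≤ F s m + F m t)
    (hK : ∀ s t, s ≤ t → t ≤ e → F s t ≤ K * ((t : ℝ) - s))
    (hc : ∀ i k z, i ≤ i1 → k ≤ e → a (i + 1) ≤ S z k → ∃ J, J ≤ k ∧ Cd J ∧ ∃ z', La J z' ∧
      b i ≤ S z' J ∧ |z - z'| * (ℓ / 2 ^ k) ≤ D0)
    (htop : ∀ z k, k ≤ e → S z k ≤ a 0) (hT : T ≤ e) (hS : a (i1 + 1) ≤ S N T) :
    ∃ (J s t : ℕ → ℕ) (z : ℕ → ℝ),
      F T e ≤ ∑ j ∈ Finset.range (i1 + 1), (K * (w + 1) + F (s j) (t j)) ∧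
        ∀ j, j ≤ i1 → Win S Cd La a b N ℓ ((i1 + 1) * D0 / 2 ^ w) T e j (J j) (s j) (t j)
          (z j) := by
  have := stage_ind S F Cd La a b N ℓ K D0 e w i1 hℓ hK0 hD0 hF0 hsub hK hc htop i1 le_rfl T T N 0
    le_rfl hT hS (by simp)
  simpa only [zero_add] using this

end Crest.Agent.R100.St88
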