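import Crest.Agent.R100.LifeBasic
import Crest.Agent.R100.LifeBes
import Crest.Agent.R100.LifeCand
import Crest.Agent.R100.LifeRem
import Crest.Agent.R100.LifeStage
import Crest.Agent.R100.Stage88

/-! # Row 100, LIFE (helper44): assembly of one life -/

set_option autoImplicit false

open MeasureTheory Set Filter

noncomputable section

namespace Crest.Agent.R100.L44

open Crest.Agent.R100 Crest.Agent.R100.Low Crest.Agent.R100.Run Crest.Agent.R100.Life

theorem big {C : ℝ} (hC : 1 ≤ C) : ∃ R₀ : ℝ, ∀ R, R₀ ≤ R → 1 ≤ R ∧ 10 ≤ mm R ∧ mm R ^ 40 ≤ R ∧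
    128 * mm R ^ 194 ≤ Real.exp R ∧ mm R * (Real.log (1250 * C) + 19 * Real.log R) ≤ R := by
  have t1 : Tendsto mm atTop atTop := by
    unfold mm
    exact Real.tendsto_log_atTop.comp (tendsto_atTop_add_const_left _ _ Real.tendsto_log_atTop)
  have e1 := t1.eventually_ge_atTop 10
  have e2 := Real.tendsto_log_atTop.eventually_ge_atTop (max 1 (Real.log (1250 * C)))
  have e3 := (Real.isLittleO_pow_log_id_atTop (n := 40)).bound (c := 1 / 2 ^ 40) (by positivity)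
  have e4 := (Real.isLittleO_pow_log_id_atTop (n := 2)).bound (c := 1 / 40) (by positivity)
  have e5 := (Real.tendsto_exp_div_pow_atTop 5).eventually_ge_atTop 128
  obtain ⟨R₀, h⟩ := eventually_atTop.1
    (e1.and (e2.and (e3.and (e4.and (e5.and (eventually_ge_atTop 1))))))
  refine ⟨R₀, fun R hR => ?_⟩
  obtain ⟨h1, h2, h3, h4, h5, h6⟩ := h R hR
  have hl1 : 1 ≤ Real.log R := (le_max_left _ _).trans h2
  have hl2 : Real.log (1250 * C) ≤ Real.log R := (le_max_right _ _).trans h2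
  have hm : mm R ≤ 2 * Real.log R := by
    unfold mm
    have := Real.log_le_sub_one_of_pos (show 0 < 2 + Real.log R by linarith)
    linarith
  simp only [id, Real.norm_eq_abs] at h3 h4
  rw [abs_of_nonneg (by positivity), abs_of_nonneg (by linarith)] at h3 h4
  have h40 : mm R ^ 40 ≤ R := by
    calc mm R ^ 40 ≤ (2 * Real.log R) ^ 40 := by gcongr
      _ = 2 ^ 40 * Real.log R ^ 40 := by ring
      _ ≤ 2 ^ 40 * (1 / 2 ^ 40 * R) := by gcongr
      _ = R := by field_simp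
  refine ⟨h6, h1, h40, ?_, ?_⟩
  · rw [le_div_iff₀ (by positivity)] at h5
    refine le_trans ?_ h5
    have : mm R ^ 194 ≤ R ^ 5 := by
      calc mm R ^ 194 ≤ mm R ^ 200 := pow_le_pow_right₀ (by linarith) (by norm_num)
        _ = (mm R ^ 40) ^ 5 := by ring
        _ ≤ R ^ 5 := by gcongr
    linarith
  · calc mm R * (Real.log (1250 * C) + 19 * Real.log R)
        ≤ (2 * Real.log R) * (20 * Real.log R) := by
          have : 0 ≤ Real.log (1250 * C) := Real.log_nonneg (by linarith)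
          gcongr
          linarith
      _ = 40 * Real.log R ^ 2 := by ring
      _ ≤ R := by linarith

theorem near {m : ℝ} (hm : 10 ≤ m) (k : ℕ) :
    ∃ i : ℕ, (2 : ℝ) ^ i ≤ m ^ k ∧ m ^ k < 2 ^ (i + 1) ∧ (i : ℝ) ≤ 2 * k * m := by
  obtain ⟨i, h1, h2⟩ := exists_nat_pow_near (x := m ^ k) (y := (2 : ℝ))
    (one_le_pow₀ (by linarith)) (by norm_num)
  refine ⟨i, h1, h2, ?_⟩
  have h3 := Real.log_le_log (by positivity) h1
  rw [Real.log_pow, Real.log_pow] at h3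
  have h4 := Real.log_two_gt_d9
  have h5 := Real.log_le_sub_one_of_pos (show 0 < m by linarith)
  have h6 : (k : ℝ) * Real.log m ≤ k * m := by gcongr; linarith
  have h7 : (0 : ℝ) ≤ i := Nat.cast_nonneg i
  nlinarith

theorem eps_sq (j : ℕ) : √(1 / (2 : ℝ) ^ j) ^ 2 = 1 / 2 ^ j := Real.sq_sqrt (by positivity)

theorem eps_le (j : ℕ) : √(1 / (2 : ℝ) ^ j) ≤ (9 / 10) ^ j := by
  refine le_of_pow_le_pow_left₀ (n := 2) (by norm_num) (by positivity) ?_
  rw [eps_sq, ← pow_mul, mul_comm, pow_mul, one_div, ← inv_pow]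
  gcongr
  norm_num

theorem eps_one (j : ℕ) :
    √(1 / (2 : ℝ) ^ j) * (2 : ℝ) ^ (((j + 2 : ℕ) : ℝ) / 4) ≤ 2 * (9 / 10) ^ j := by
  refine le_of_pow_le_pow_left₀ (n := 4) (by norm_num) (by positivity) ?_
  have e1 : ((2 : ℝ) ^ (((j + 2 : ℕ) : ℝ) / 4)) ^ 4 = 2 ^ (j + 2) := by
    rw [← Real.rpow_natCast, ← Real.rpow_mul (by norm_num), ← Real.rpow_natCast]
    congr 1
    push_cast
    ring
  have e2 : √(1 / (2 : ℝ) ^ j) ^ 4 = (1 / 2 ^ j) ^ 2 := by
    rw [show 4 = 2 * 2 by norm_num, pow_mul, eps_sq]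
  rw [mul_pow, e1, e2, mul_pow, ← pow_mul, mul_comm j 4, pow_mul]
  have h1 : ((1 : ℝ) / 2) ^ j ≤ ((9 / 10) ^ 4) ^ j := by gcongr; norm_num
  have e3 : (1 / (2 : ℝ) ^ j) ^ 2 * 2 ^ (j + 2) = 4 * (1 / 2) ^ j := by
    rw [one_div_pow, one_div_pow]; field_simp; ring
  rw [e3]
  have : (0 : ℝ) ≤ (1 / 2) ^ j := by positivity
  linarith

theorem eps_two (j : ℕ) {m : ℝ} (hm : 0 ≤ m) (h : m ^ 3 ≤ 2 ^ (j + 2)) :
    √(1 / (2 : ℝ) ^ j) * m ≤ 2 * (9 / 10) ^ j := by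
  refine le_of_pow_le_pow_left₀ (n := 6) (by norm_num) (by positivity) ?_
  have e2 : √(1 / (2 : ℝ) ^ j) ^ 6 = (1 / 2 ^ j) ^ 3 := by
    rw [show 6 = 2 * 3 by norm_num, pow_mul, eps_sq]
  have h0 : m ^ 6 ≤ (2 ^ (j + 2)) ^ 2 := by
    rw [show 6 = 3 * 2 by norm_num, pow_mul]; gcongr
  rw [mul_pow, e2, mul_pow, ← pow_mul (9 / 10 : ℝ), mul_comm j 6, pow_mul]
  have h1 : ((1 : ℝ) / 2) ^ j ≤ ((9 / 10) ^ 6) ^ j := by gcongr; norm_num
  have e3 : (1 / (2 : ℝ) ^ j) ^ 3 * (2 ^ (j + 2)) ^ 2 = 16 * (1 / 2) ^ j := by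
    rw [one_div_pow, one_div_pow]; field_simp; ring
  have h2 : (1 / (2 : ℝ) ^ j) ^ 3 * m ^ 6 ≤ (1 / (2 : ℝ) ^ j) ^ 3 * (2 ^ (j + 2)) ^ 2 := by gcongr
  rw [e3] at h2
  have : (0 : ℝ) ≤ (1 / 2) ^ j := by positivity
  linarith

variable {Y Ω : Type} [Fintype Y] [Fintype Ω] {R P μ : ℝ} {h : Y → List Bool → ℝ → ℝ} {α ℓ : ℝ}
  {A : List Bool → Prop} {lam Z : Ω → ℝ}

theorem ln_take {l : List Bool} {k : ℕ} (hk : k ≤ l.length) : ln ℓ (l.take k) = ℓ / 2 ^ k := by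
  unfold ln
  rw [List.length_take, min_eq_left hk]

theorem Wn_dead (φ : Y → ℂ) (ζ : ℝ) (l : List Bool) {s t : ℕ}
    (hd : ∀ k, s ≤ k → k < t → ¬A (l.take k)) : Wn h α ℓ A φ ζ l s t = 0 := by
  unfold Wn wD
  refine Finset.sum_eq_zero fun k hk => ?_
  rw [Finset.mem_Ico] at hk
  simp [tD, hd k hk.1 hk.2]

theorem member (hD : Data R P μ h α ℓ A lam Z) {φ : Y → ℂ} (hφ : ∀ y, ‖φ y‖ ≤ 1) {κ : ℝ}
    (hκ : 0 < κ) (i1 w : ℕ) (h16 : 16 * κ * 2 ^ i1 ≤ 1)
    (hw : ((i1 : ℝ) + 1) * (1 / κ + κ) / 2 ^ w ≤ 1 / 2) {Cd : List Bool → Prop}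
    (hCd : ∀ v, A v → ∀ ζ : ℝ, 6 * κ * P ≤ SS h α ℓ ζ v → ∃ k, k ≤ v.length ∧ Cd (v.take k) ∧
        ∃ ζ' : ℝ, |ζ - ζ'| * ln ℓ v ≤ 1 / κ ∧
          SS h α ℓ ζ v - 3 * κ * P ≤ SS h α ℓ ζ' (v.take k))
    (n : ℕ) (l : List Bool) (N : ℝ) : ∃ (T : ℕ) (J s t : ℕ → ℕ) (z : ℕ → ℝ), l.length = n →
      T ≤ n - 1 ∧ (∀ k, k < T → A (l.take k) → SS h α ℓ N (l.take k) ≤ 1 / 2 ^ (i1 + 1) * P) ∧
      ‖Wn h α ℓ A φ N l 0 (n - 1)‖ ≤ ‖Wn h α ℓ A φ N l 0 T‖ + (3 * P +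
        ∑ j ∈ Finset.range (i1 + 1), (3 * P * (w + 1) + ‖Wn h α ℓ A φ N l (s j) (t j)‖)) ∧
      ∀ j, j ≤ i1 → s j < t j → J j ≤ s j ∧ t j ≤ n - 1 ∧ Cd (l.take (J j)) ∧ A (l.take (J j)) ∧
        (∃ N' : ℤ, z j = lat κ ℓ (l.take (J j)) N') ∧
        P / 2 ^ (j + 2) ≤ SS h α ℓ (z j) (l.take (J j)) ∧
        (∀ k, J j ≤ k → k ≤ t j → A (l.take k) →
          SS h α ℓ (z j) (l.take k) ≤ √(1 / 2 ^ j) ^ 2 * P) ∧
        |N - z j| * ln ℓ (l.take (s j)) ≤ 1 / 2 := by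
  classical
  have hP := hD.hP
  have hℓ := hD.hl
  by_cases hl : l.length = n
  swap
  · exact ⟨0, 0, 0, 0, 0, fun h => absurd h hl⟩
  by_cases hex : ∃ k, k ≤ n - 1 ∧ A (l.take k) ∧ P / 2 ^ (i1 + 1) ≤ SS h α ℓ N (l.take k)
  swap
  · refine ⟨n - 1, 0, 0, 0, 0, fun _ => ⟨le_rfl, fun k hk hA => ?_, ?_, fun j _ hj => ?_⟩⟩
    · by_contra hc
      refine hex ⟨k, hk.le, hA, ?_⟩
      rw [not_le] at hc
      rw [div_eq_mul_one_div, mul_comm]
      exact hc.le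
    · refine le_add_of_nonneg_right (add_nonneg (by positivity) ?_)
      exact Finset.sum_nonneg fun j _ => by positivity
    · simp at hj
  set T := Nat.find hex with hT
  obtain ⟨hT1, hT2, hT3⟩ := Nat.find_spec hex
  set e := Nat.findGreatest (fun k => A (l.take k)) (n - 1) with he
  have hTe : T ≤ e := Nat.le_findGreatest (P := fun k => A (l.take k)) hT1 hT2
  have hen : e ≤ n - 1 := Nat.findGreatest_le _
  have hAe : A (l.take e) := Nat.findGreatest_spec (P := fun k => A (l.take k)) hT1 hT2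
  have hAk : ∀ k, k ≤ e → A (l.take k) := fun k hk => by
    have := hD.her _ k hAe
    rwa [List.take_take, min_eq_left hk] at this
  have hlen : ∀ k, k ≤ e → k ≤ l.length := fun k hk => by omega
  obtain ⟨J, s, t, z, h1, h2⟩ := St88.stages (fun ζ k => SS h α ℓ ζ (l.take k))
    (fun s t => ‖Wn h α ℓ A φ N l s t‖) (fun k => Cd (l.take k))
    (fun k ζ => ∃ N' : ℤ, ζ = lat κ ℓ (l.take k) N') (fun i => P / 2 ^ i)
    (fun i => P / 2 ^ (i + 2)) N ℓ (3 * P) (1 / κ + κ) e w i1 T hℓ.le (by positivity)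
    (by positivity) (fun _ _ => norm_nonneg _)
    (fun s m t h1 h2 _ => by rw [Wn_add φ N l h1 h2]; exact norm_add_le _ _)
    (fun s t h1 _ => by
      have := Wn_triv hD hφ N l s t
      rwa [Nat.cast_sub h1] at this)
    (fun i k ζ hi hk hS => by
      have hp : (2 : ℝ) ^ i ≤ 2 ^ i1 := pow_le_pow_right₀ (by norm_num) hi
      have h4 : 4 * κ * P ≤ P / 2 ^ (i + 2) := by
        rw [le_div_iff₀ (by positivity), pow_add]
        have : 16 * κ * 2 ^ i ≤ 1 := le_trans (by gcongr) h16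
        nlinarith
      have e2 : P / 2 ^ (i + 1) = 2 * (P / 2 ^ (i + 2)) := by field_simp; ring
      have hκP : 0 < κ * P := mul_pos hκ hP
      obtain ⟨k', hk', hc, ζ', hζ, hS'⟩ := hCd _ (hAk k hk) ζ (by
        refine le_trans ?_ hS
        show _ ≤ P / 2 ^ (i + 1)
        nlinarith)
      have hk2 : k' ≤ k := by
        rw [List.length_take] at hk'
        exact hk'.trans (min_le_left _ _)
      rw [List.take_take, min_eq_left hk2] at hc hS'
      have hL : 0 < ln ℓ (l.take k') := lowFamA_ln_pos hℓ _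
      set L := ln ℓ (l.take k') with hLd
      have hr : |ζ' - lat κ ℓ (l.take k') ⌊ζ' * L / κ⌋| * L ≤ κ := by
        have h5 := Int.floor_le (ζ' * L / κ)
        have h6 := Int.lt_floor_add_one (ζ' * L / κ)
        have e3 : ζ' - lat κ ℓ (l.take k') ⌊ζ' * L / κ⌋ =
            (ζ' * L / κ - ⌊ζ' * L / κ⌋) * (κ / L) := by
          unfold lat
          rw [← hLd]
          field_simp
        rw [e3, abs_of_nonneg (mul_nonneg (by linarith) (by positivity))]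
        calc (ζ' * L / κ - ⌊ζ' * L / κ⌋) * (κ / L) * L = (ζ' * L / κ - ⌊ζ' * L / κ⌋) * κ := by
              field_simp
          _ ≤ 1 * κ := by gcongr; linarith
          _ = κ := one_mul κ
      refine ⟨k', hk2, hc, lat κ ℓ (l.take k') ⌊ζ' * L / κ⌋, ⟨_, rfl⟩, ?_, ?_⟩
      · have h5 := SS_lip hD ζ' (lat κ ℓ (l.take k') ⌊ζ' * L / κ⌋) (hAk k' (hk2.trans hk))
        have h6 := mul_le_mul_of_nonneg_right hr hP.le
        have h7 : P / 2 ^ (i + 1) ≤ SS h α ℓ ζ (l.take k) := hS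
        rw [← hLd] at h5
        show P / 2 ^ (i + 2) ≤ SS h α ℓ _ (l.take k')
        linarith
      · rw [ln_take (hlen k hk)] at hζ
        have h5 : ℓ / 2 ^ k ≤ L := by
          rw [hLd, ln_take (hlen k' (hk2.trans hk))]
          exact St88.len_mono hℓ.le hk2
        have h6 := abs_sub_le ζ ζ' (lat κ ℓ (l.take k') ⌊ζ' * L / κ⌋)
        have h7 : |ζ' - lat κ ℓ (l.take k') ⌊ζ' * L / κ⌋| * (ℓ / 2 ^ k) ≤ κ :=
          le_trans (mul_le_mul_of_nonneg_left h5 (abs_nonneg _)) hr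
        have h8 := mul_le_mul_of_nonneg_right h6 (show 0 ≤ ℓ / 2 ^ k by positivity)
        linarith)
    (fun ζ k hk => by simpa using SS_le hD ζ (hAk k hk)) hTe hT3
  refine ⟨T, J, s, t, z, fun _ => ⟨hT1, fun k hk hA => ?_, ?_, fun j hj hst => ?_⟩⟩
  · have := Nat.find_min hex hk
    by_contra hc
    refine this ⟨by omega, hA, ?_⟩
    rw [not_le] at hc
    rw [div_eq_mul_one_div, mul_comm]
    exact hc.le
  · have h3 : ‖Wn h α ℓ A φ N l e (n - 1)‖ ≤ 3 * P := by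
      rcases eq_or_lt_of_le hen with h4 | h4
      · rw [Wn_empty φ N l h4.ge, norm_zero]; positivity
      · rw [Wn_add φ N l (Nat.le_succ e) h4, Wn_dead (s := e.succ) φ N l
          (fun k h5 h6 => Nat.findGreatest_is_greatest (P := fun k => A (l.take k)) h5 h6.le),
          add_zero]
        simpa using Wn_triv hD hφ N l e e.succ
    rw [Wn_add φ N l (Nat.zero_le T) hT1, Wn_add φ N l hTe hen]
    refine (norm_add_le _ _).trans (add_le_add le_rfl ((norm_add_le _ _).trans ?_))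
    linarith
  · obtain ⟨a1, -, a3, a4, a5, a6, a7, a8⟩ := h2 j hj hst
    refine ⟨a1, a3.trans hen, a4, hAk _ (by omega), a5, a6, fun k b1 b2 _ => ?_, ?_⟩
    · rw [eps_sq, mul_comm, ← div_eq_mul_one_div]
      exact a7 k b1 b2
    · rw [ln_take (hlen _ (by omega))]
      exact a8.trans hw

theorem card_le (hD : Data R P μ h α ℓ A lam Z) (hR : 1 ≤ R) (hm : 10 ≤ mm R) :
    (Fintype.card Y : ℝ) ≤ Real.exp R := by
  have h1 : R / mm R ^ 40 ≤ R := div_le_self (by linarith) (one_le_pow₀ (by linarith))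
  rcases Nat.eq_zero_or_pos (Fintype.card Y) with h0 | h0
  · rw [h0]; simpa using (Real.exp_pos R).le
  · rw [← Real.log_le_iff_le_exp (by exact_mod_cast h0)]
    exact hD.card.trans h1

open Classical in
theorem one_stage (hD : Data R P μ h α ℓ A lam Z) {φ : Ω → Y → ℂ} (hφ : ∀ ω y, ‖φ ω y‖ ≤ 1)
    (hR : 1 ≤ R) (hm : 10 ≤ mm R) (hexp : 128 * mm R ^ 194 ≤ Real.exp R)
    (n : ℕ) (ξ : List Bool → ℝ) {Cd : List Bool → Prop} {M : ℝ} (hM1 : 1 ≤ M)
    (hM : avg n (Cand.cnt Cd n) ≤ M) (j : ℕ) (hj : (2 : ℝ) ^ j ≤ mm R ^ 62)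
    (J s t : List Bool → Ω → ℕ) (z : List Bool → Ω → ℝ)
    (hst : ∀ l, l.length = n → ∀ ω, s l ω < t l ω →
      J l ω ≤ s l ω ∧ t l ω ≤ n - 1 ∧ Cd (l.take (J l ω)) ∧ A (l.take (J l ω)) ∧
      (∃ N : ℤ, z l ω = lat (kap R) ℓ (l.take (J l ω)) N) ∧
      P / 2 ^ (j + 2) ≤ SS h α ℓ (z l ω) (l.take (J l ω)) ∧
      (∀ k, J l ω ≤ k → k ≤ t l ω → A (l.take k) →
        SS h α ℓ (z l ω) (l.take k) ≤ √(1 / 2 ^ j) ^ 2 * P) ∧
      |ξ l + Z ω - z l ω| * ln ℓ (l.take (s l ω)) ≤ 1 / 2) :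
    ∑ ω, lam ω * avg n (fun l => ‖Wn h α ℓ A (φ ω) (ξ l + Z ω) l (s l ω) (t l ω)‖) ≤
      (9 / 10) ^ j * (1024 * P * (10 * (R / mm R) + Real.log M + 2)) +
        (5120 * mm R ^ 31 * P * (1 + R / mm R ^ 40) + 3 * P) := by
  have hP := hD.hP
  set m := mm R with hmd
  have hm0 : 0 < m := by linarith
  set ε := √(1 / (2 : ℝ) ^ j) with hε
  have hε0 : 0 < ε := Real.sqrt_pos.2 (by positivity)
  have hε9 : ε ≤ (9 / 10) ^ j := eps_le j
  have hε1 : ε ≤ 1 := hε9.trans (pow_le_one₀ (by norm_num) (by norm_num))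
  have hκ : 0 < kap R := by unfold kap; positivity
  have hδ : 0 ≤ R / m := by positivity
  have hlM : 0 ≤ Real.log M := Real.log_nonneg hM1
  have key : ∃ τ : ℝ, 0 ≤ τ ∧ ε * τ ≤ (9 / 10) ^ j * (10 * (R / m)) ∧
      ∑ ω, lam ω * avg n (fun l => ‖Wn h α ℓ A (φ ω) (ξ l + Z ω) l (s l ω) (t l ω)‖) ≤
        1024 * ε * P * (τ + Real.log M + 2) + 5120 / ε * P * (1 + Real.log (Fintype.card Y)) +
          3 * P := by
    by_cases hc : (2 : ℝ) ^ (j + 2) ≤ m ^ 3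
    · refine ⟨4 * (2 : ℝ) ^ (((j + 2 : ℕ) : ℝ) / 4) * (R / m), by positivity, ?_, ?_⟩
      · have h1 := mul_le_mul_of_nonneg_right (eps_one j) hδ
        have h2 : 0 ≤ (9 / 10 : ℝ) ^ j * (R / m) := by positivity
        nlinarith
      · exact stage_cost hD hφ n ξ hM1 hM hκ hε0 hε1 (by positivity) hD.hμ hD.bin
          (fun v hv F hF => hD.cnt v hv (j + 2) hc F hF) J s t z hst
    · refine ⟨5 * R, by positivity, ?_, ?_⟩
      · have h1 := mul_le_mul_of_nonneg_right (eps_two j hm0.le (not_le.1 hc).le) hδ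
        have e : ε * (5 * R) = 5 * (ε * m * (R / m)) := by field_simp
        rw [e]
        linarith
      · refine stage_cost hD hφ n ξ hM1 hM hκ hε0 hε1 (by positivity) one_pos (fun v _ a => ?_)
          (fun v hv F hF => ?_) J s t z hst
        · rw [← hD.lone]
          refine Finset.sum_le_sum fun ω _ => ?_
          split_ifs
          · exact le_rfl
          · exact hD.lnn ω
        · have hκ1 : kap R ≤ 1 := by
            unfold kap
            exact inv_le_one_of_one_le₀ (one_le_pow₀ (by linarith))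
          have h1 := bes hD hκ hκ1 (b := 1 / 2 ^ (j + 2)) (by positivity) hv F (fun N hN => by
            rw [mul_comm, ← div_eq_mul_one_div]; exact hF N hN)
          refine h1.trans ?_
          have e : (Fintype.card Y : ℝ) * (8 / kap R) * Real.exp (3 * R) / (1 / 2 ^ (j + 2)) ^ 2 =
              Fintype.card Y * (128 * m ^ 70 * (2 ^ j) ^ 2) * Real.exp (3 * R) := by
            unfold kap
            rw [← hmd]
            field_simp
            ring
          have h2 : 128 * m ^ 70 * ((2 : ℝ) ^ j) ^ 2 ≤ Real.exp R := by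
            refine le_trans ?_ hexp
            calc 128 * m ^ 70 * ((2 : ℝ) ^ j) ^ 2 ≤ 128 * m ^ 70 * (m ^ 62) ^ 2 := by gcongr
              _ = 128 * m ^ 194 := by ring
          have h3 := card_le hD hR hm
          rw [e, div_one, show 5 * R = R + R + 3 * R by ring, Real.exp_add, Real.exp_add]
          gcongr
  obtain ⟨τ, hτ, h1, h2⟩ := key
  refine h2.trans ?_
  have h3 : 1 / ε ≤ m ^ 31 := by
    rw [div_le_iff₀ hε0]
    refine le_of_pow_le_pow_left₀ (n := 2) (by norm_num) (by positivity) ?_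
    rw [mul_pow, eps_sq, ← pow_mul, mul_one_div, le_div_iff₀ (by positivity)]
    simpa using hj
  have h4 : 5120 / ε * P * (1 + Real.log (Fintype.card Y)) ≤
      5120 * m ^ 31 * P * (1 + R / m ^ 40) := by
    have := hD.card
    have h0 := Real.log_natCast_nonneg (Fintype.card Y)
    rw [div_eq_mul_one_div 5120]
    gcongr
  have h5 : ε * (Real.log M + 2) ≤ (9 / 10) ^ j * (Real.log M + 2) := by gcongr
  have h6 : 1024 * P * (ε * τ + ε * (Real.log M + 2)) ≤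
      1024 * P * ((9 / 10) ^ j * (10 * (R / m)) + (9 / 10) ^ j * (Real.log M + 2)) := by gcongr
  linarith

theorem geo (k : ℕ) : ∑ j ∈ Finset.range k, (9 / 10 : ℝ) ^ j ≤ 10 := by
  have : ∑ j ∈ Finset.range k, (9 / 10 : ℝ) ^ j = 10 - 10 * (9 / 10) ^ k := by
    induction k with
    | zero => simp
    | succ k ih => rw [Finset.sum_range_succ, ih]; ring
  rw [this]
  have : (0 : ℝ) ≤ (9 / 10) ^ k := by positivity
  linarith

theorem logM {C R m : ℝ} (hC : 1 ≤ C) (hR : 1 ≤ R) (hm : 10 ≤ m) (h40 : m ^ 40 ≤ R)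
    (h : m * (Real.log (1250 * C) + 19 * Real.log R) ≤ R) :
    1 ≤ (1 + m ^ 30) * (C * (5 * R / ((m ^ 70)⁻¹) ^ 2) ^ 4) ∧
      Real.log ((1 + m ^ 30) * (C * (5 * R / ((m ^ 70)⁻¹) ^ 2) ^ 4)) ≤ R / m := by
  have hm0 : 0 < m := by linarith
  have e : (1 + m ^ 30) * (C * (5 * R / ((m ^ 70)⁻¹) ^ 2) ^ 4) =
      625 * C * R ^ 4 * ((1 + m ^ 30) * m ^ 560) := by field_simp; ring
  have h30 : 1 ≤ m ^ 30 := one_le_pow₀ (by linarith)
  have h560 : 1 ≤ m ^ 560 := one_le_pow₀ (by linarith)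
  have hR4 : 1 ≤ R ^ 4 := one_le_pow₀ hR
  rw [e]
  have h1 : 1 ≤ 625 * C * R ^ 4 * ((1 + m ^ 30) * m ^ 560) :=
    one_le_mul_of_one_le_of_one_le (one_le_mul_of_one_le_of_one_le (by linarith) hR4)
      (one_le_mul_of_one_le_of_one_le (by linarith) h560)
  refine ⟨h1, ?_⟩
  have h2 : (1 + m ^ 30) * m ^ 560 ≤ 2 * R ^ 15 := by
    calc (1 + m ^ 30) * m ^ 560 ≤ (2 * m ^ 30) * m ^ 560 := by gcongr; linarith
      _ = 2 * m ^ 590 := by ring
      _ ≤ 2 * m ^ 600 := by gcongr; linarith; norm_num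
      _ = 2 * (m ^ 40) ^ 15 := by ring
      _ ≤ 2 * R ^ 15 := by gcongr
  have h3 : 625 * C * R ^ 4 * ((1 + m ^ 30) * m ^ 560) ≤ 1250 * C * R ^ 19 := by
    calc _ ≤ 625 * C * R ^ 4 * (2 * R ^ 15) := by gcongr
      _ = _ := by ring
  refine (Real.log_le_log (by linarith) h3).trans ?_
  rw [Real.log_mul (by positivity) (by positivity), Real.log_pow, le_div_iff₀ hm0]
  push_cast
  linarith

set_option maxHeartbeats 1000000 in
/-- **LIFE** -/
theorem life44 : LIFE := by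
  classical
  obtain ⟨C0, hC0, hcand⟩ := cand_life
  obtain ⟨R₀, hbig⟩ := big (C := max C0 1) (le_max_right _ _)
  refine ⟨3000000, R₀, fun R P μ Y Ω _ _ h α ℓ A lam Z φ n ξ hR₀ hD hφ => ?_⟩
  obtain ⟨hR, hm, h40, hexp, hlog⟩ := hbig R hR₀
  have hP := hD.hP
  obtain ⟨hM1, hM2⟩ := logM (le_max_right C0 1) hR hm h40 hlog
  have hκd : kap R = (mm R ^ 70)⁻¹ := rfl
  rw [← hκd] at hM1 hM2
  set m := mm R with hmd
  have hm0 : 0 < m := by linarith
  have hm1 : 1 ≤ m := by linarith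
  have hκ : 0 < kap R := by rw [hκd]; positivity
  have hκ1 : kap R ≤ 1 := by rw [hκd]; exact inv_le_one_of_one_le₀ (one_le_pow₀ hm1)
  obtain ⟨Cd, hCd1, hCd2⟩ := hcand Y Ω R P μ h α ℓ A lam Z (kap R) n hD hR hm1 hκ hκ1
  set M := (1 + m ^ 30) * (max C0 1 * (5 * R / kap R ^ 2) ^ 4) with hMd
  have hM : avg n (Cand.cnt Cd n) ≤ M := by
    refine hCd1.trans ?_
    rw [hMd]
    gcongr
    exact le_max_left _ _
  obtain ⟨i1, hi1, hi2, hi3⟩ := near hm 62
  obtain ⟨w0, -, hw2, hw3⟩ := near hm 80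
  push_cast at hi3 hw3
  have h8 : 16 ≤ m ^ 8 := le_trans (by norm_num) (pow_le_pow_left₀ (by norm_num) hm 8)
  have h16 : 16 * kap R * 2 ^ i1 ≤ 1 := by
    rw [hκd]
    calc 16 * (m ^ 70)⁻¹ * 2 ^ i1 ≤ m ^ 8 * (m ^ 70)⁻¹ * m ^ 62 := by gcongr
      _ = 1 := by field_simp
  have hw : ((i1 : ℝ) + 1) * (1 / kap R + kap R) / 2 ^ (w0 + 1) ≤ 1 / 2 := by
    rw [div_le_iff₀ (by positivity)]
    have h1 : 1 / kap R = m ^ 70 := by rw [hκd]; simp
    have h2 : 1 ≤ m ^ 70 := one_le_pow₀ hm1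
    have h3 : 500 ≤ m ^ 9 := le_trans (by norm_num) (pow_le_pow_left₀ (by norm_num) hm 9)
    calc ((i1 : ℝ) + 1) * (1 / kap R + kap R) ≤ (125 * m) * (2 * m ^ 70) := by
          rw [h1]; gcongr <;> linarith
      _ = 1 / 2 * (500 * m ^ 71) := by ring
      _ ≤ 1 / 2 * (m ^ 9 * m ^ 71) := by gcongr
      _ = 1 / 2 * m ^ 80 := by ring
      _ ≤ _ := by gcongr
  choose T J s t z hmem using fun (l : List Bool) (ω : Ω) =>
    member hD (hφ ω) hκ i1 (w0 + 1) h16 hw hCd2 n l (ξ l + Z ω)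
  set δ := R / m with hδ
  have hδ39 : m ^ 39 ≤ δ := by
    rw [hδ, le_div_iff₀ hm0, ← pow_succ]; exact h40
  have hpow : ∀ k : ℕ, k ≤ 39 → m ^ k ≤ δ := fun k hk => (pow_le_pow_right₀ hm1 hk).trans hδ39
  have hδ1 : 1 ≤ δ := by simpa using hpow 0 (by norm_num)
  -- the LOW zone
  have hlow : ∀ ω, avg n (fun l => ‖Wn h α ℓ A (φ ω) (ξ l + Z ω) l 0 (T l ω)‖) ≤
      250000 * P * δ := fun ω => by
    have hc1 : 1 / (2 : ℝ) ^ (i1 + 1) ≤ 1 := by
      rw [div_le_one (by positivity)]; exact one_le_pow₀ (by norm_num)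
    refine (low_Wn hD hR hm1 (hφ ω) (c := 1 / 2 ^ (i1 + 1)) (by positivity) hc1 n
      (fun l => ξ l + Z ω) (fun l => T l ω) (fun l hl => (hmem l ω hl).1)
      (fun l hl => (hmem l ω hl).2.1)).trans ?_
    rw [← hmd]
    have h1 : √(1 / (2 : ℝ) ^ (i1 + 1)) ≤ 1 / m ^ 31 := by
      refine le_of_pow_le_pow_left₀ (n := 2) (by norm_num) (by positivity) ?_
      rw [eps_sq, one_div_pow, ← pow_mul]
      exact one_div_le_one_div_of_le (by positivity) hi2.le
    have h2 : Real.log (2 / (1 / 2 ^ (i1 + 1))) ≤ 126 * m := by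
      rw [show (2 : ℝ) / (1 / 2 ^ (i1 + 1)) = 2 ^ (i1 + 2) by field_simp; ring, Real.log_pow]
      have := Real.log_two_lt_d9
      push_cast
      have h0 : (0 : ℝ) ≤ i1 := Nat.cast_nonneg _
      nlinarith
    have h2' : 0 ≤ Real.log (2 / (1 / 2 ^ (i1 + 1))) := by
      rw [show (2 : ℝ) / (1 / 2 ^ (i1 + 1)) = 2 ^ (i1 + 2) by field_simp; ring]
      exact Real.log_nonneg (one_le_pow₀ (by norm_num))
    have h3 : 126 * m ≤ R := by
      have h4 : 126 ≤ m ^ 39 := le_trans (by norm_num) (pow_le_pow_left₀ (by norm_num) hm 39)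
      calc 126 * m ≤ m ^ 39 * m := by gcongr
        _ = m ^ 40 := by ring
        _ ≤ R := h40
    have h30 : 2 ≤ m ^ 30 := le_trans (by norm_num) (pow_le_pow_left₀ (by norm_num) hm 30)
    have h5 := hpow 30 (by norm_num)
    calc (2 + m ^ 30) * P * (20000 * √(1 / 2 ^ (i1 + 1)) *
          (4 * R + Real.log (2 / (1 / 2 ^ (i1 + 1))) + 1) + 6)
        ≤ (2 * m ^ 30) * P * (20000 * (1 / m ^ 31) * (6 * R) + 6) := by
          gcongr <;> linarith
      _ = P * (240000 * δ + 12 * m ^ 30) := by rw [hδ]; field_simp; ring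
      _ ≤ P * (250000 * δ) := by gcongr; linarith
      _ = _ := by ring
  -- the stages
  have hstage := fun j (hj : j ∈ Finset.range (i1 + 1)) =>
    one_stage hD hφ hR hm hexp n ξ hM1 hM j
      ((pow_le_pow_right₀ (by norm_num) (Nat.lt_succ_iff.1 (Finset.mem_range.1 hj))).trans hi1)
      (fun l ω => J l ω j) (fun l ω => s l ω j) (fun l ω => t l ω j) (fun l ω => z l ω j)
      (fun l hl ω => (hmem l ω hl).2.2.2 j (Nat.lt_succ_iff.1 (Finset.mem_range.1 hj)))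
  rw [← hmd, ← hδ] at hstage
  set K1 := 1024 * P * (10 * δ + Real.log M + 2) with hK1
  set K2 := 5120 * m ^ 31 * P * (1 + R / m ^ 40) + 3 * P with hK2
  set K3 := 3 * P * (((w0 + 1 : ℕ) : ℝ) + 1) with hK3
  have hsplit : ∀ ω, avg n (fun l => ‖Wn h α ℓ A (φ ω) (ξ l + Z ω) l 0 (n - 1)‖) ≤
      (250000 * P * δ + 3 * P + (i1 + 1) * K3) + ∑ j ∈ Finset.range (i1 + 1),
        avg n (fun l => ‖Wn h α ℓ A (φ ω) (ξ l + Z ω) l (s l ω j) (t l ω j)‖) := fun ω => by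
    refine (avg_mono_len n fun l hl => (hmem l ω hl).2.2.1).trans ?_
    rw [avg_add', avg_add', avg_const, avg_sum]
    simp only [avg_add', avg_const]
    rw [Finset.sum_add_distrib, Finset.sum_const, Finset.card_range, nsmul_eq_mul]
    have := hlow ω
    push_cast
    linarith
  have hsum : ∑ ω, lam ω * avg n (fun l => ‖Wn h α ℓ A (φ ω) (ξ l + Z ω) l 0 (n - 1)‖) ≤
      (250000 * P * δ + 3 * P + (i1 + 1) * K3) + ∑ j ∈ Finset.range (i1 + 1),
        ((9 / 10) ^ j * K1 + K2) := by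
    refine (Finset.sum_le_sum fun ω _ => mul_le_mul_of_nonneg_left (hsplit ω) (hD.lnn ω)).trans ?_
    simp only [mul_add (lam _), Finset.mul_sum]
    rw [Finset.sum_add_distrib, Finset.sum_comm]
    refine add_le_add (le_of_eq ?_) (Finset.sum_le_sum hstage)
    simp only [← mul_add]
    rw [← Finset.sum_mul, hD.lone, one_mul]
  refine hsum.trans ?_
  rw [Finset.sum_add_distrib, ← Finset.sum_mul, Finset.sum_const, Finset.card_range, nsmul_eq_mul]
  have hlM : 0 ≤ Real.log M := Real.log_nonneg hM1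
  have b1 : (∑ j ∈ Finset.range (i1 + 1), (9 / 10 : ℝ) ^ j) * K1 ≤ 10 * (1024 * P * (13 * δ)) := by
    have := geo (i1 + 1)
    rw [hK1]
    gcongr
    linarith
  have b2 : ((i1 + 1 : ℕ) : ℝ) * K2 ≤ 1300000 * P * δ := by
    have h1 := hpow 32 (by norm_num)
    have h2 := hpow 1 (by norm_num)
    have h3 : R / m ^ 8 ≤ δ := by
      rw [hδ]
      exact div_le_div_of_nonneg_left (by linarith) hm0 (le_self_pow₀ hm1 (by norm_num))
    push_cast
    calc ((i1 : ℝ) + 1) * K2 ≤ (125 * m) * K2 := by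
          rw [hK2]; gcongr; linarith
      _ = P * (640000 * m ^ 32 + 640000 * (R / m ^ 8) + 375 * m ^ 1) := by
          rw [hK2]; field_simp; ring
      _ ≤ P * (1300000 * δ) := by gcongr; linarith
      _ = _ := by ring
  have b3 : ((i1 : ℝ) + 1) * K3 ≤ 70000 * P * δ := by
    have h1 := hpow 2 (by norm_num)
    calc ((i1 : ℝ) + 1) * K3 ≤ (125 * m) * (3 * P * (162 * m)) := by
          rw [hK3]; push_cast; gcongr <;> linarith
      _ = P * (60750 * m ^ 2) := by ring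
      _ ≤ P * (70000 * δ) := by gcongr; linarith
      _ = _ := by ring
  have b4 : P ≤ P * δ := le_mul_of_one_le_right hP.le hδ1
  have b5 : 0 ≤ P * δ := by positivity
  linarith

end Crest.Agent.R100.L44
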