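import Crest.Agent.R100.LifeDefs
import Crest.Agent.R100.LowFamA

set_option autoImplicit false

open MeasureTheory Set

noncomputable section

namespace Crest.Agent.R100.Life

open Crest.Agent.R100 Crest.Agent.R100.Low Crest.Agent.R100.Run

variable {Y Ω : Type} [Fintype Y] [Fintype Ω] {R P μ : ℝ} {h : Y → List Bool → ℝ → ℝ} {α ℓ : ℝ}
  {A : List Bool → Prop} {lam Z : Ω → ℝ}

theorem Wn_add (φ : Y → ℂ) (ζ : ℝ) (l : List Bool) {s m t : ℕ} (h1 : s ≤ m) (h2 : m ≤ t) :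
    Wn h α ℓ A φ ζ l s t = Wn h α ℓ A φ ζ l s m + Wn h α ℓ A φ ζ l m t := by
  unfold Wn wD
  exact (Finset.sum_Ico_consecutive _ h1 h2).symm

theorem Wn_empty (φ : Y → ℂ) (ζ : ℝ) (l : List Bool) {s t : ℕ} (h1 : t ≤ s) :
    Wn h α ℓ A φ ζ l s t = 0 := by
  unfold Wn wD
  rw [Finset.Ico_eq_empty_of_le h1, Finset.sum_empty]

theorem lifeBasic_sup (hD : Data R P μ h α ℓ A lam Z) (y : Y) (v : List Bool) (t : ℝ) :
    h y v t ≤ Real.exp (3 * R) * P := by
  induction v using List.reverseRecOn with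
  | nil => exact hD.sup y t
  | append_singleton v c ih => exact (hD.dec y v c t).trans ih

theorem lifeBasic_meas (hD : Data R P μ h α ℓ A lam Z) (y : Y) (w : List Bool) :
    Measurable (fun t => (h y w t : ℂ)) :=
  Complex.measurable_ofReal.comp (hD.meas y w)

theorem lifeBasic_norm (hD : Data R P μ h α ℓ A lam Z) (y : Y) (w : List Bool) (t : ℝ) :
    ‖(h y w t : ℂ)‖ ≤ Real.exp (3 * R) * P := by
  rw [Complex.norm_real, Real.norm_of_nonneg (hD.nn y w t)]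
  exact lifeBasic_sup hD y w t

theorem lifeBasic_ca (hD : Data R P μ h α ℓ A lam Z) (y : Y) (w v : List Bool) :
    ca (fun t => (h y w t : ℂ)) (nd α ℓ v) (ln ℓ v) = ms h α ℓ y w v := by
  unfold ca ms av
  congr 1
  refine intervalIntegral.integral_congr fun t _ => ?_
  simp only [Complex.norm_real]
  exact Real.norm_of_nonneg (hD.nn y w t)

theorem lifeBasic_cf_le (hD : Data R P μ h α ℓ A lam Z) (ζ : ℝ) (y : Y) (w v : List Bool) :
    ‖cf h α ℓ ζ y w v‖ ≤ ms h α ℓ y w v := by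
  rw [← lifeBasic_ca hD]
  exact lowFamA_cu_le _ _ _ (lowFamA_ln_pos hD.hl v)

theorem lifeBasic_ms_child (hD : Data R P μ h α ℓ A lam Z) (y : Y) (w v : List Bool) (c : Bool) :
    ms h α ℓ y w (v ++ [c]) ≤ 2 * ms h α ℓ y w v := by
  rw [← lifeBasic_ca hD, ← lifeBasic_ca hD, nd_snoc, ln_snoc]
  exact lowFamA_ca_child (lifeBasic_meas hD y w) (lifeBasic_norm hD y w) _
    (lowFamA_ln_pos hD.hl v) c

theorem lifeBasic_dd_le (hD : Data R P μ h α ℓ A lam Z) (ζ : ℝ) (y : Y) (v : List Bool) :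
    ‖dd h α ℓ ζ y v‖ ≤ 3 * ms h α ℓ y v v := by
  unfold dd
  have h1 := lifeBasic_cf_le hD ζ y v (v ++ [false])
  have h2 := lifeBasic_cf_le hD ζ y v v
  have h3 := lifeBasic_ms_child hD y v v false
  have h4 := norm_sub_le (cf h α ℓ ζ y v (v ++ [false])) (cf h α ℓ ζ y v v)
  linarith

theorem lifeBasic_sig (c c' : Bool) : ‖((sig c c' : ℝ) : ℂ)‖ ≤ 1 := by
  cases c <;> cases c' <;> simp [sig]

theorem lifeBasic_inc (hD : Data R P μ h α ℓ A lam Z) {φ : Y → ℂ} (hφ : ∀ y, ‖φ y‖ ≤ 1) (ζ : ℝ)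
    {v : List Bool} (hv : A v) : ‖∑ y, φ y * dd h α ℓ ζ y v‖ ≤ 3 * P := by
  refine (norm_sum_le _ _).trans ?_
  calc ∑ y, ‖φ y * dd h α ℓ ζ y v‖ ≤ ∑ y, 3 * ms h α ℓ y v v := by
        refine Finset.sum_le_sum fun y _ => ?_
        rw [norm_mul]
        calc ‖φ y‖ * ‖dd h α ℓ ζ y v‖ ≤ 1 * ‖dd h α ℓ ζ y v‖ :=
              mul_le_mul_of_nonneg_right (hφ y) (norm_nonneg _)
          _ ≤ _ := by rw [one_mul]; exact lifeBasic_dd_le hD ζ y v
    _ = 3 * ∑ y, ms h α ℓ y v v := by rw [Finset.mul_sum]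
    _ ≤ 3 * P := by linarith [hD.mass v hv]

theorem Wn_triv (hD : Data R P μ h α ℓ A lam Z) {φ : Y → ℂ} (hφ : ∀ y, ‖φ y‖ ≤ 1) (ζ : ℝ)
    (l : List Bool) (s t : ℕ) : ‖Wn h α ℓ A φ ζ l s t‖ ≤ 3 * P * ((t - s : ℕ) : ℝ) := by
  unfold Wn wD
  refine (norm_sum_le _ _).trans ?_
  refine (Finset.sum_le_sum (g := fun _ => 3 * P) fun k _ => ?_).trans ?_
  · unfold tD
    rw [norm_mul]
    refine (mul_le_of_le_one_left (norm_nonneg _) (lifeBasic_sig _ _)).trans ?_
    beta_reduce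
    split_ifs with hv
    · exact lifeBasic_inc hD hφ ζ hv
    · rw [norm_zero]; linarith [hD.hP]
  · rw [Finset.sum_const, Nat.card_Ico, nsmul_eq_mul, mul_comm]

theorem SS_nonneg (ζ : ℝ) (v : List Bool) : 0 ≤ SS h α ℓ ζ v :=
  Finset.sum_nonneg fun _ _ => norm_nonneg _

theorem lifeBasic_le_sup (hD : Data R P μ h α ℓ A lam Z) (y : Y) (v : List Bool) (t : ℝ) :
    h y v t ≤ Real.exp (3 * R) * P := by
  induction v using List.reverseRecOn with
  | nil => exact hD.sup y t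
  | append_singleton w c ih => exact (hD.dec y w c t).trans ih

theorem lifeBasic_ca_eq {g : ℝ → ℝ} (hg : ∀ t, 0 ≤ g t) (a l : ℝ) :
    ca (fun t => (g t : ℂ)) a l = av g a l := by
  unfold ca av
  congr 1
  refine intervalIntegral.integral_congr fun t _ => ?_
  simp only [Complex.norm_real, Real.norm_of_nonneg (hg t)]

theorem lifeBasic_cu_lip {f : ℝ → ℂ} (hf : Measurable f) {M : ℝ} (hM : ∀ y, ‖f y‖ ≤ M)
    (ξ β a : ℝ) {l : ℝ} (hl : 0 < l) :
    ‖cu f ξ a l‖ ≤ ‖cu f β a l‖ + |ξ - β| * l * ca f a l := by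
  have hi := fun t => lowFamA_int hf hM t a (a + l)
  have hn : IntervalIntegrable (fun y => ‖f y‖) volume a (a + l) :=
    lowFamA_bdd hf.norm.aestronglyMeasurable (M := M) (fun y => by rw [norm_norm]; exact hM y) _ _
  have key : ‖(∫ y in a..a + l, f y * ex ξ y) - ex (ξ - β) a * ∫ y in a..a + l, f y * ex β y‖ ≤
      |ξ - β| * l * ∫ y in a..a + l, ‖f y‖ := by
    rw [← intervalIntegral.integral_const_mul, ← intervalIntegral.integral_sub (hi ξ)
      ((hi β).const_mul _), ← intervalIntegral.integral_const_mul]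
    refine intervalIntegral.norm_integral_le_of_norm_le (by linarith)
      (Filter.Eventually.of_forall fun y hy => ?_) (hn.const_mul _)
    have e : f y * ex ξ y - ex (ξ - β) a * (f y * ex β y) =
        f y * (ex ξ y - ex (ξ - β) a * ex β y) := by ring
    rw [e, norm_mul, mul_comm]
    refine mul_le_mul_of_nonneg_right ((famA_ex_sub ξ β y a).trans ?_) (norm_nonneg _)
    refine mul_le_mul_of_nonneg_left ?_ (abs_nonneg _)
    rw [abs_le]
    constructor <;> linarith [hy.1, hy.2]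
  have h2 : ‖∫ y in a..a + l, f y * ex ξ y‖ ≤
      ‖∫ y in a..a + l, f y * ex β y‖ + |ξ - β| * l * ∫ y in a..a + l, ‖f y‖ := by
    have h3 := norm_sub_norm_le (∫ y in a..a + l, f y * ex ξ y)
      (ex (ξ - β) a * ∫ y in a..a + l, f y * ex β y)
    rw [norm_mul, famA_norm_ex, one_mul] at h3
    linarith
  unfold cu ca
  rw [norm_div, norm_div, Complex.norm_real, Real.norm_of_nonneg hl.le, ← mul_div_assoc,
    ← add_div]
  exact div_le_div_of_nonneg_right h2 hl.le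

theorem SS_le (hD : Data R P μ h α ℓ A lam Z) (ζ : ℝ) {v : List Bool} (hv : A v) :
    SS h α ℓ ζ v ≤ P := by
  refine le_trans (Finset.sum_le_sum fun y _ => ?_) (hD.mass v hv)
  unfold cf ms U
  rw [← lifeBasic_ca_eq (hD.nn y v)]
  exact lowFamA_cu_le _ _ _ (lowFamA_ln_pos hD.hl v)

theorem SS_lip (hD : Data R P μ h α ℓ A lam Z) (ζ ζ' : ℝ) {v : List Bool} (hv : A v) :
    SS h α ℓ ζ v ≤ SS h α ℓ ζ' v + |ζ - ζ'| * ln ℓ v * P := by
  have hl := lowFamA_ln_pos hD.hl v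
  have h1 : SS h α ℓ ζ v ≤ SS h α ℓ ζ' v + |ζ - ζ'| * ln ℓ v * ∑ y, ms h α ℓ y v v := by
    unfold SS
    rw [Finset.mul_sum, ← Finset.sum_add_distrib]
    refine Finset.sum_le_sum fun y _ => ?_
    unfold cf ms U
    rw [← lifeBasic_ca_eq (hD.nn y v)]
    refine lifeBasic_cu_lip (Complex.measurable_ofReal.comp (hD.meas y v))
      (M := Real.exp (3 * R) * P) (fun t => ?_) _ _ _ hl
    rw [Function.comp_apply, Complex.norm_real, Real.norm_of_nonneg (hD.nn y v t)]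
    exact lifeBasic_le_sup hD y v t
  have h2 : |ζ - ζ'| * ln ℓ v * ∑ y, ms h α ℓ y v v ≤ |ζ - ζ'| * ln ℓ v * P :=
    mul_le_mul_of_nonneg_left (hD.mass v hv) (mul_nonneg (abs_nonneg _) hl.le)
  linarith

end Crest.Agent.R100.Life
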