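import Crest.Agent.R100.LifeRem
import Crest.Agent.R100.LifeLow2
import Crest.Agent.R100.Cand

/-! # Row 100, LIFE (helper14): candidates of a life -/

set_option autoImplicit false

open MeasureTheory Set

noncomputable section

namespace Crest.Agent.R100.L14

open Crest.Agent.R100 Crest.Agent.R100.Low Crest.Agent.R100.Run Crest.Agent.R100.Life
  Crest.Agent.R100.Life52

theorem U_div (g : ℝ → ℝ) (P α ℓ ξ : ℝ) (v : List Bool) :
    U (fun t => ((g t / P : ℝ) : ℂ)) α ℓ ξ v = U (fun t => (g t : ℂ)) α ℓ ξ v / (P : ℂ) := by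
  unfold U cu
  have : (fun y => ((g y / P : ℝ) : ℂ) * ex ξ y) = fun y => ((g y : ℂ) * ex ξ y) / (P : ℂ) := by
    funext y; push_cast; ring
  rw [this, intervalIntegral.integral_div]
  ring

section
variable {Y Ω : Type} [Fintype Y] [Fintype Ω] {R P μ : ℝ} {h : Y → List Bool → ℝ → ℝ} {α ℓ : ℝ}
  {A : List Bool → Prop} {lam Z : Ω → ℝ}

theorem dec_prefix (hD : Data R P μ h α ℓ A lam Z) (y : Y) (v w : List Bool) (t : ℝ) :
    h y (v ++ w) t ≤ h y v t := by
  induction w using List.reverseRecOn with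
  | nil => simp
  | append_singleton w c ih =>
    rw [← List.append_assoc]
    exact (hD.dec y _ c t).trans ih

theorem cf_le (hD : Data R P μ h α ℓ A lam Z) (ξ : ℝ) (y : Y) (w v : List Bool) :
    ‖cf h α ℓ ξ y w v‖ ≤ ms h α ℓ y w v := by
  refine (lowFamA_cu_le _ _ _ (lowFamA_ln_pos hD.hl v)).trans (le_of_eq ?_)
  unfold ca ms av
  have e : ∀ t, ‖((h y w t : ℝ) : ℂ)‖ = h y w t := fun t => by
    rw [Complex.norm_real, Real.norm_of_nonneg (hD.nn y w t)]
  simp only [e]

theorem root (hD : Data R P μ h α ℓ A lam Z) {v : List Bool} (hv : A v) :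
    ∃ j, j ≤ v.length ∧ Rem h A (v.take j) ∧ ∀ y, h y v = h y (v.take j) := by
  induction v using List.reverseRecOn with
  | nil => exact ⟨0, le_rfl, Or.inl rfl, fun _ => rfl⟩
  | append_singleton v c ih =>
    by_cases h1 : ∀ y, h y (v ++ [c]) = h y v
    · obtain ⟨j, hj, h2, h3⟩ := ih (A_parent hD hv)
      refine ⟨j, by simp; omega, ?_, fun y => ?_⟩
      · rwa [List.take_append_of_le_length hj]
      · rw [List.take_append_of_le_length hj, h1, h3]
    · refine ⟨(v ++ [c]).length, le_rfl, ?_, fun y => by rw [List.take_length]⟩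
      rw [List.take_length]
      exact Or.inr ⟨hv, by simpa using h1⟩

end

theorem cand_life : ∃ C : ℝ, 0 < C ∧ ∀ (Y Ω : Type) [Fintype Y] [Fintype Ω] (R P μ : ℝ)
    (h : Y → List Bool → ℝ → ℝ) (α ℓ : ℝ) (A : List Bool → Prop) (lam Z : Ω → ℝ) (ε : ℝ) (n : ℕ),
    Data R P μ h α ℓ A lam Z → 1 ≤ R → 1 ≤ mm R → 0 < ε → ε ≤ 1 →
    ∃ Cd : List Bool → Prop,
      avg n (Cand.cnt Cd n) ≤ (1 + mm R ^ 30) * (C * (5 * R / ε ^ 2) ^ 4) ∧
      ∀ v, A v → ∀ ζ : ℝ, 6 * ε * P ≤ SS h α ℓ ζ v → ∃ k, k ≤ v.length ∧ Cd (v.take k) ∧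
        ∃ ζ' : ℝ, |ζ - ζ'| * ln ℓ v ≤ 1 / ε ∧
          SS h α ℓ ζ v - 3 * ε * P ≤ SS h α ℓ ζ' (v.take k) := by
  classical
  obtain ⟨C, hC, hc⟩ := Cand.cand
  refine ⟨C, hC, fun Y Ω _ _ R P μ h α ℓ A lam Z ε n hD hR hm hε hε1 => ?_⟩
  have hP := hD.hP
  rcases isEmpty_or_nonempty Y with hY | hY
  · refine ⟨fun _ => False, ?_, fun v _ ζ hζ => ?_⟩
    · have : Cand.cnt (fun _ => False) n = fun _ => 0 := by funext l; simp [Cand.cnt]
      rw [this, avg_const]
      positivity
    · exfalso
      simp only [SS, Finset.univ_eq_empty, Finset.sum_empty] at hζ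
      nlinarith [mul_pos hε hP]
  have hsq : ∀ r w k, (∀ y, h y (r ++ w) = h y r) → ∀ y, h y (r ++ w.take k) = h y r := by
    intro r w k h1 y
    funext t
    refine le_antisymm (dec_prefix hD y r _ t) ?_
    have := dec_prefix hD y (r ++ w.take k) (w.drop k) t
    rw [List.append_assoc, List.take_append_drop, h1] at this
    exact this
  have key := fun r : List Bool => hc Y (fun y t => h y r t / P) (3 * R) ε (nd α ℓ r) (ln ℓ r)
    (fun w => A (r ++ w) ∧ ∀ y, h y (r ++ w) = h y r) (n - r.length) (by linarith) hε hε1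
    (lowFamA_ln_pos hD.hl r) (fun y => (hD.meas y r).div_const P)
    (fun y t => ⟨div_nonneg (hD.nn y r t) hP.le, by
      rw [div_le_iff₀ hP]; exact h_le hD y r t⟩)
    (fun w k hw => ⟨by
      have := hD.her _ (r.length + k) hw.1
      rwa [List.take_length_add_append] at this, hsq r w k hw.2⟩)
    (fun w hw => by
      simp only [U_div, ← U_append, norm_div, Complex.norm_real, Real.norm_of_nonneg hP.le]
      rw [← Finset.sum_div, div_le_one hP]
      refine le_trans (Finset.sum_le_sum fun y _ => ?_) (hD.mass _ hw.1)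
      have := cf_le hD 0 y (r ++ w) (r ++ w)
      unfold cf at this
      rwa [hw.2 y] at this)
  choose Cd h0 h1 h2 using key
  refine ⟨fun v => ∃ j, j ≤ v.length ∧ Rem h A (v.take j) ∧ Cd (v.take j) (v.drop j), ?_, ?_⟩
  · have hB : ∀ w : List Bool, w.length ≤ n → Rem h A w →
        avg (n - w.length) (Cand.cnt (Cd w) (n - w.length)) ≤ C * (5 * R / ε ^ 2) ^ 4 := by
      intro w _ _
      refine (h1 w).trans (mul_le_mul_of_nonneg_left ?_ hC.le)
      have h3 : Real.log (Fintype.card Y) ≤ R :=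
        hD.card.trans (div_le_self (by linarith) (one_le_pow₀ hm))
      have h4 : 0 ≤ Real.log (Fintype.card Y) := Real.log_natCast_nonneg _
      gcongr
      linarith
    have h5 := period_sum n (Rem h A) (fun w x => Cand.cnt (Cd w) (n - w.length) x) hB
    have h6 := rem_cnt hD (by linarith) n
    refine le_trans (avg_mono_len n fun l hl => ?_) (h5.trans ?_)
    · have e : ∀ j ∈ Finset.range (n + 1), (if Rem h A (l.take j) then
          Cand.cnt (Cd (l.take j)) (n - (l.take j).length) (l.drop j) else 0) =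
          ∑ k ∈ Finset.range (n + 1), if j ≤ k ∧ Rem h A (l.take j) ∧
            Cd (l.take j) ((l.take k).drop j) then (1 : ℝ) else 0 := by
        intro j hj
        have hj' : j ≤ n := by simpa [Nat.lt_succ_iff] using hj
        have hlen : (l.take j).length = j := by simp [hl, hj']
        split_ifs with hr
        · rw [hlen, show n + 1 = j + (n - j + 1) by omega, Finset.sum_range_add,
            Finset.sum_eq_zero fun k hk => if_neg fun h => by
              have := Finset.mem_range.1 hk; omega, zero_add]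
          unfold Cand.cnt
          refine Finset.sum_congr rfl fun i _ => ?_
          simp [hr, List.drop_take]
        · simp [hr]
      rw [Finset.sum_congr rfl e, Finset.sum_comm]
      unfold Cand.cnt
      refine Finset.sum_le_sum fun k hk => ?_
      have hk' : k ≤ n := by simpa [Nat.lt_succ_iff] using hk
      split_ifs with hk2
      · obtain ⟨j, hj1, hj2, hj3⟩ := hk2
        have hjk : j ≤ k := by
          simp only [List.length_take, le_min_iff] at hj1
          exact hj1.1
        rw [List.take_take, min_eq_left hjk] at hj2 hj3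
        refine le_trans ?_ (Finset.single_le_sum (f := fun j => if j ≤ k ∧ Rem h A (l.take j) ∧
          Cd (l.take j) ((l.take k).drop j) then (1 : ℝ) else 0)
          (fun i _ => by split_ifs <;> norm_num) (Finset.mem_range.2 (show j < n + 1 by omega)))
        simp only [if_pos (And.intro hjk (And.intro hj2 hj3)), le_refl]
      · exact Finset.sum_nonneg fun i _ => by split_ifs <;> norm_num
    · rw [mul_comm]
      exact mul_le_mul_of_nonneg_right h6 (by positivity)
  · intro v hv ζ hζ
    obtain ⟨j, hj, hr, hh⟩ := root hD hv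
    obtain ⟨r, w, rfl, rfl⟩ : ∃ r w, v = r ++ w ∧ j = r.length :=
      ⟨v.take j, v.drop j, (List.take_append_drop j v).symm, by simp [hj]⟩
    rw [List.take_left] at hr hh
    obtain ⟨k, hk, hCd, -, ζ', φ, hφ1, hφ2, hφ3⟩ := h2 r w ⟨hv, hh⟩ ζ
    have hAk : A (r ++ w.take k) := by
      have := hD.her _ (r.length + k) hv
      rwa [List.take_length_add_append] at this
    have hhk := hsq r w k hh
    have s1 : SS h α ℓ ζ (r ++ w) ≤ ‖φ‖ * SS h α ℓ ζ' (r ++ w.take k) + 3 * ε * P := by
      simp only [U_div, ← U_append, ← mul_div_assoc, ← sub_div, norm_div, Complex.norm_real,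
        Real.norm_of_nonneg hP.le] at hφ3
      rw [← Finset.sum_div, div_le_iff₀ hP] at hφ3
      refine le_trans ?_ (add_le_add le_rfl hφ3)
      unfold SS cf
      rw [Finset.mul_sum, ← Finset.sum_add_distrib]
      refine Finset.sum_le_sum fun y _ => ?_
      rw [hh y, hhk y, ← norm_mul]
      exact norm_le_insert' _ _
    have s2 : SS h α ℓ ζ' (r ++ w.take k) ≤ P :=
      (Finset.sum_le_sum fun y _ => cf_le hD ζ' y _ _).trans (hD.mass _ hAk)
    have s3 : 0 ≤ SS h α ℓ ζ' (r ++ w.take k) := SS_nonneg _ _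
    have s4 : 3 * ε ≤ ‖φ‖ := by
      have : 3 * ε * P ≤ ‖φ‖ * P := by nlinarith [norm_nonneg φ]
      exact le_of_mul_le_mul_right this hP
    refine ⟨r.length + k, by simp; omega, ?_, ζ', ?_, ?_⟩
    · rw [List.take_length_add_append]
      exact ⟨r.length, by simp, by rwa [List.take_left], by rwa [List.take_left, List.drop_left]⟩
    · rw [ln_append, le_div_iff₀ hε]
      have : 0 ≤ |ζ - ζ'| * ln (ln ℓ r) w :=
        mul_nonneg (abs_nonneg _) (lowFamA_ln_pos (lowFamA_ln_pos hD.hl r) w).le
      nlinarith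
    · rw [List.take_length_add_append]
      nlinarith

end Crest.Agent.R100.L14
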