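import Crest.Agent.R100.LowPsi
import Crest.Agent.R100.LowFamA

set_option autoImplicit false

open MeasureTheory Set

noncomputable section

namespace Crest.Agent.R100.Low

open Crest.Agent.R100

/-- the greedy step at one node (add separated tops; reset the list when it gets longer than `K/4`) -/
theorem greedy {f : ℝ → ℂ} (hf : Measurable f) {M : ℝ} (hM1 : 1 ≤ M) (hM : ∀ y, ‖f y‖ ≤ M)
    {d : ℝ} (hd : 0 < d) (hd1 : d ≤ 1) (a : ℝ) {lam : ℝ} (hlam : 0 < lam) (h1 : ca f a lam ≤ 1)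
    (B : Finset ℝ) (L : List (ℝ × ℂ)) (hL : St (16 * M / d ^ 2) B L) :
    ∃ (N : Finset ℝ) (L' : List (ℝ × ℂ)), St (16 * M / d ^ 2) (B ∪ N) L' ∧
      Psi f d L' a lam + d ^ 2 / 4 * N.card ≤ Psi f d L a lam ∧
      ∀ ξ, d ≤ ‖cu f ξ a lam‖ → ∃ β ∈ B ∪ N, |ξ - β| * lam ≤ 16 * M / d ^ 2 := by
  have hd2 : 0 < d ^ 2 := by positivity
  have hK : 0 < 16 * M / d ^ 2 := by positivity
  obtain ⟨j, hj⟩ : ∃ j : ℕ, Psi f d L a lam < j * (d ^ 2 / 4) := by
    obtain ⟨j, hj⟩ := exists_nat_gt (Psi f d L a lam / (d ^ 2 / 4))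
    exact ⟨j, by rwa [div_lt_iff₀ (by positivity)] at hj⟩
  induction j generalizing B L with
  | zero =>
    have := Psi_nonneg f d L a hlam
    simp only [Nat.cast_zero, zero_mul] at hj
    linarith
  | succ j ih =>
    by_cases h : ∀ ξ, d ≤ ‖cu f ξ a lam‖ → ∃ β ∈ B, |ξ - β| * lam ≤ 16 * M / d ^ 2
    · refine ⟨∅, L, by simpa using hL, by simp, fun ξ hξ => by simpa using h ξ hξ⟩
    · push Not at h
      obtain ⟨ξ, hξ, hsep⟩ := h
      obtain ⟨ω, hω, hP⟩ := Psi_add hf hM hd hK L (fun p hp => (hL.1 p hp).1) hL.2 a hlam ξ hξ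
        (fun p hp => (hsep p.1 (hL.1 p hp).2).le)
      obtain ⟨L₁, hL₁, hP₁⟩ : ∃ L₁ : List (ℝ × ℂ), St (16 * M / d ^ 2) (insert ξ B) L₁ ∧
          Psi f d L₁ a lam + d ^ 2 / 4 ≤ Psi f d L a lam := by
        by_cases hlen : ((L.length : ℝ) + 1) ≤ 16 * M / d ^ 2 / 4
        · refine ⟨(ξ, ω) :: L, ⟨fun p hp => ?_, by simpa using hlen⟩, hP⟩
          rcases List.mem_cons.1 hp with rfl | hp
          · exact ⟨hω, Finset.mem_insert_self _ _⟩
          · exact ⟨(hL.1 p hp).1, Finset.mem_insert_of_mem (hL.1 p hp).2⟩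
        · refine ⟨[], ⟨by simp, by simp only [List.length_nil, Nat.cast_zero]; positivity⟩, ?_⟩
          have h2 := Psi_nil hf hM d a hlam h1
          have h3 : d ^ 2 / 4 * ((L.length : ℝ) + 1) ≤ Psi f d ((ξ, ω) :: L) a lam := by
            unfold Psi
            have h : 0 ≤ (∫ y in a..a + lam, ‖f y - (d / 2 : ℝ) * mdl ((ξ, ω) :: L) y‖ ^ 2) / lam :=
              div_nonneg (intervalIntegral.integral_nonneg (by linarith) fun y _ => by positivity)
                hlam.le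
            simp only [List.length_cons, Nat.cast_add, Nat.cast_one]
            linarith
          push Not at hlen
          have h4 : M ≤ d ^ 2 / 4 * ((L.length : ℝ) + 1) := by
            have e : M = d ^ 2 / 4 * (16 * M / d ^ 2 / 4) := by field_simp; ring
            exact e.le.trans (mul_le_mul_of_nonneg_left hlen.le (by positivity))
          linarith
      have hj₁ : Psi f d L₁ a lam < j * (d ^ 2 / 4) := by
        push_cast at hj
        linarith
      obtain ⟨N, L', h2, h3, h4⟩ := ih (insert ξ B) L₁ hL₁ hj₁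
      have e : insert ξ B ∪ N = B ∪ insert ξ N := by
        rw [Finset.insert_union, Finset.union_insert]
      refine ⟨insert ξ N, L', e ▸ h2, ?_, fun ζ hζ => e ▸ h4 ζ hζ⟩
      have h5 : ((insert ξ N).card : ℝ) ≤ N.card + 1 := by
        exact_mod_cast Finset.card_insert_le ξ N
      nlinarith

theorem lowCount_root {f : ℝ → ℂ} {α ℓ : ℝ} {v : List Bool} (h : Alive f α ℓ v) :
    ca f α ℓ ≤ 1 := by
  simpa [nd, ln] using h 0 (Nat.zero_le _)

theorem lowCount_ln (ℓ : ℝ) (c : Bool) (u : List Bool) : ln ℓ (c :: u) = ln (ℓ / 2) u := by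
  simp only [ln, List.length_cons, pow_succ]
  ring

theorem lowCount_child {f : ℝ → ℂ} {α ℓ : ℝ} {c : Bool} {u : List Bool}
    (h : Alive f α ℓ (c :: u)) : Alive f (ch c α ℓ) (ℓ / 2) u := by
  intro k hk
  have := h (k + 1) (by simpa using hk)
  rwa [List.take_succ_cons, lowCount_ln] at this

theorem lowCount_aux {f : ℝ → ℂ} (hf : Measurable f) {M : ℝ} (hM1 : 1 ≤ M) (hM : ∀ y, ‖f y‖ ≤ M)
    {d : ℝ} (hd : 0 < d) (hd1 : d ≤ 1) (n : ℕ) : ∀ (α ℓ : ℝ), 0 < ℓ → ∀ (B : Finset ℝ)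
      (L : List (ℝ × ℂ)), St (16 * M / d ^ 2) B L → ∃ new : List Bool → Finset ℝ,
        d ^ 2 / 4 * avg n (fun l => ∑ k ∈ Finset.range (n + 1), ((new (l.take k)).card : ℝ)) ≤
          Psi f d L α ℓ ∧
        ∀ (v : List Bool) (ξ : ℝ), v.length ≤ n → Alive f α ℓ v → d ≤ ‖U f α ℓ ξ v‖ →
          (∃ β ∈ B, |ξ - β| * ln ℓ v ≤ 16 * M / d ^ 2) ∨
            ∃ k, k ≤ v.length ∧ ∃ β ∈ new (v.take k), |ξ - β| * ln ℓ v ≤ 16 * M / d ^ 2 := by
  induction n with
  | zero =>
    intro α ℓ hℓ B L hL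
    by_cases h1 : ca f α ℓ ≤ 1
    · obtain ⟨N, L', -, h2, h3⟩ := greedy hf hM1 hM hd hd1 α hℓ h1 B L hL
      refine ⟨fun _ => N, ?_, fun v ξ hv _ hξ => ?_⟩
      · have := Psi_nonneg f d L' α hℓ
        simp only [avg, zero_add, Finset.sum_range_one]
        linarith
      · obtain rfl : v = [] := List.length_eq_zero_iff.1 (Nat.le_zero.1 hv)
        have e : ln ℓ [] = ℓ := by simp [ln]
        rw [U, e] at hξ
        obtain ⟨β, hβ, h4⟩ := h3 ξ hξ
        rw [e]
        rcases Finset.mem_union.1 hβ with h | h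
        · exact Or.inl ⟨β, h, h4⟩
        · exact Or.inr ⟨0, le_rfl, β, h, h4⟩
    · refine ⟨fun _ => ∅, ?_, fun v ξ _ hv _ => absurd (lowCount_root hv) h1⟩
      simpa [avg_const] using Psi_nonneg f d L α hℓ
  | succ n ih =>
    intro α ℓ hℓ B L hL
    by_cases h1 : ca f α ℓ ≤ 1
    · obtain ⟨N, L', hL', h2, h3⟩ := greedy hf hM1 hM hd hd1 α hℓ h1 B L hL
      choose nw hw1 hw2 using fun c : Bool => ih (ch c α ℓ) (ℓ / 2) (half_pos hℓ) (B ∪ N) L' hL'
      refine ⟨fun l => List.casesOn l N fun c u => nw c u, ?_, fun v ξ hv hA hξ => ?_⟩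
      · have e : ∀ c : Bool, avg n (fun l => ∑ k ∈ Finset.range (n + 1 + 1),
            ((List.casesOn (motive := fun _ => Finset ℝ) ((c :: l).take k) N
              fun c u => nw c u).card : ℝ)) =
            avg n (fun l => ∑ k ∈ Finset.range (n + 1), ((nw c (l.take k)).card : ℝ)) + N.card := by
          intro c
          rw [← avg_const n (N.card : ℝ), ← avg_add']
          refine avg_congr_len n fun l _ => ?_
          rw [Finset.sum_range_succ']
          simp only [List.take_succ_cons, List.take_zero]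
        have h4 := Psi_mart hf hM d L' α hℓ
        have h5 := hw1 false
        have h6 := hw1 true
        simp only [ch, if_true, Bool.false_eq_true, if_false] at h5 h6
        rw [avg, e false, e true]
        linarith
      · cases v with
        | nil =>
          have e : ln ℓ [] = ℓ := by simp [ln]
          rw [U, e] at hξ
          obtain ⟨β, hβ, h4⟩ := h3 ξ hξ
          rw [e]
          rcases Finset.mem_union.1 hβ with h | h
          · exact Or.inl ⟨β, h, h4⟩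
          · exact Or.inr ⟨0, le_rfl, β, h, h4⟩
        | cons c u =>
          rw [U, lowCount_ln] at hξ
          rw [lowCount_ln]
          rcases hw2 c u ξ (by simpa using hv) (lowCount_child hA) hξ with
            ⟨β, hβ, h4⟩ | ⟨k, hk, β, hβ, h4⟩
          · rcases Finset.mem_union.1 hβ with h | h
            · exact Or.inl ⟨β, h, h4⟩
            · exact Or.inr ⟨0, Nat.zero_le _, β, h, h4⟩
          · exact Or.inr ⟨k + 1, by simpa using hk, β, hβ, h4⟩
    · refine ⟨fun _ => ∅, ?_, fun v ξ _ hv _ => absurd (lowCount_root hv) h1⟩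
      simpa [avg_const] using Psi_nonneg f d L α hℓ

theorem count_U {f : ℝ → ℂ} (hf : Measurable f) {R : ℝ} (hR : 1 ≤ R)
    (hM : ∀ y, ‖f y‖ ≤ Real.exp R) (α : ℝ) {ℓ : ℝ} (hℓ : 0 < ℓ) :
    Count (U f α ℓ) (Alive f α ℓ) ℓ R := by
  intro d n hd hd1
  have hM1 : 1 ≤ Real.exp R := Real.one_le_exp (by linarith)
  by_cases h1 : ca f α ℓ ≤ 1
  · obtain ⟨new, h2, h3⟩ := lowCount_aux hf hM1 hM hd hd1 n α ℓ hℓ ∅ []
      ⟨by simp, by simp only [List.length_nil, Nat.cast_zero]; positivity⟩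
    refine ⟨new, ?_, fun v ξ hv hA hξ => ?_⟩
    · have h4 := h2.trans (Psi_nil hf hM d α hℓ h1)
      rw [le_div_iff₀ (by positivity)]
      linarith
    · rcases h3 v ξ hv hA hξ with ⟨β, hβ, -⟩ | ⟨k, hk, β, hβ, h4⟩
      · simp at hβ
      · refine ⟨k, hk, β, hβ, ?_⟩
        rwa [ln, ← mul_div_assoc, div_le_iff₀ (by positivity)] at h4
  · refine ⟨fun _ => ∅, ?_, fun v ξ _ hv _ => absurd (lowCount_root hv) h1⟩
    simp only [Finset.card_empty, Nat.cast_zero, Finset.sum_const_zero, avg_const]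
    positivity

theorem fam_U {f : ℝ → ℂ} (hf : Measurable f) {R : ℝ} (hR : 1 ≤ R)
    (hM : ∀ y, ‖f y‖ ≤ Real.exp R) (α : ℝ) {ℓ : ℝ} (hℓ : 0 < ℓ) :
    Fam (U f α ℓ) (Alive f α ℓ) ℓ R :=
  ⟨U_mart hf hM α hℓ, alive_take f α ℓ, U_bd hf hM α hℓ, U_lip hf hM α hℓ, count_U hf hR hM α hℓ⟩

end Crest.Agent.R100.Low
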