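import Crest.Agent.R100.LowDefs

set_option autoImplicit false

open MeasureTheory Set

noncomputable section

namespace Crest.Agent.R100.Low

open Crest.Agent.R100

/-- union bound over adapted tops + Jensen -/
theorem union_bound (n : ℕ) (new : List Bool → Finset ℝ) (X : List Bool → ℝ → List Bool → ℝ)
    (Y : List Bool → ℝ) (C0 N : ℝ) (hC0 : 0 ≤ C0)
    (hX : ∀ v β, v.length ≤ n → β ∈ new v →
      avg (n - v.length) (fun w => Real.exp (X v β w)) ≤ C0)
    (hN : avg n (fun l => ∑ k ∈ Finset.range (n + 1), ((new (l.take k)).card : ℝ)) ≤ N)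
    (hY : ∀ l, l.length = n → Y l ≤ 0 ∨
      ∃ k, k ≤ n ∧ ∃ β ∈ new (l.take k), Y l ≤ X (l.take k) β (l.drop k)) :
    avg n Y ≤ Real.log (1 + C0 * N) := by
  have hN0 : 0 ≤ N := (avg_nonneg_len n fun l _ => by positivity).trans hN
  refine avg_le_log n Y (by positivity) ?_
  have h1 : avg n (fun l => Real.exp (Y l)) ≤ avg n (fun l => 1 + ∑ k ∈ Finset.range (n + 1),
      ∑ β ∈ new (l.take k), Real.exp (X (l.take k) β (l.drop k))) := by
    refine avg_mono_len n fun l hl => ?_
    have h0 : ∀ k, 0 ≤ ∑ β ∈ new (l.take k), Real.exp (X (l.take k) β (l.drop k)) := fun k =>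
      Finset.sum_nonneg fun β _ => (Real.exp_pos _).le
    rcases hY l hl with h | ⟨k, hk, β, hβ, h⟩
    · have := Finset.sum_nonneg fun k (_ : k ∈ Finset.range (n + 1)) => h0 k
      have := Real.exp_le_one_iff.2 h
      linarith
    · have h2 := Finset.single_le_sum (fun k (_ : k ∈ Finset.range (n + 1)) => h0 k)
        (Finset.mem_range.2 (Nat.lt_succ_of_le hk))
      have h3 := Finset.single_le_sum
        (f := fun β => Real.exp (X (l.take k) β (l.drop k))) (fun β _ => (Real.exp_pos _).le) hβ
      have := Real.exp_le_exp.2 h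
      linarith
  have h2 : ∀ k ∈ Finset.range (n + 1),
      avg n (fun l => ∑ β ∈ new (l.take k), Real.exp (X (l.take k) β (l.drop k))) ≤
        C0 * avg n (fun l => ((new (l.take k)).card : ℝ)) := by
    intro k hk
    have hk' : k ≤ n := Nat.lt_succ_iff.1 (Finset.mem_range.1 hk)
    rw [avg_take hk' (fun v => ((new v).card : ℝ)), ← avg_mul_left]
    obtain ⟨m, rfl⟩ := Nat.exists_eq_add_of_le hk'
    rw [avg_split]
    refine avg_mono_len k fun v hv => ?_
    subst hv
    simp only [List.take_left', List.drop_left']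
    rw [avg_sum, mul_comm, ← nsmul_eq_mul]
    refine Finset.sum_le_card_nsmul _ _ _ fun β hβ => ?_
    have := hX v β (Nat.le_add_right _ _) hβ
    rwa [Nat.add_sub_cancel_left] at this
  refine h1.trans ?_
  rw [avg_add', avg_const, avg_sum]
  rw [avg_sum] at hN
  have h3 := Finset.sum_le_sum h2
  rw [← Finset.mul_sum] at h3
  have := mul_le_mul_of_nonneg_left hN hC0
  linarith

/-- shifting a term to a subtree -/
theorem tm_shift (e u : List Bool → ℂ) (v w : List Bool) (k : ℕ) :
    tm e u (v ++ w) (v.length + k) = tm (fun x => e (v ++ x)) (fun x => u (v ++ x)) w k := by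
  have h1 : ∀ j, (v ++ w).getD (v.length + j) false = w.getD j false := fun j => by
    rw [List.getD_append_right _ _ _ _ (Nat.le_add_right _ _), Nat.add_sub_cancel_left]
  have h2 : (v ++ w).take (v.length + k) = v ++ w.take k := List.take_length_add_append k
  simp only [tm, add_assoc, h1, h2, List.append_assoc]

theorem win_shift (e u : List Bool → ℂ) (v w : List Bool) (s t : ℕ) (hs : v.length ≤ s) :
    win e u (v ++ w) s t =
      win (fun x => e (v ++ x)) (fun x => u (v ++ x)) w (s - v.length) (t - v.length) := by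
  obtain ⟨j, rfl⟩ := Nat.exists_eq_add_of_le hs
  simp only [win, Finset.sum_Ico_eq_sum_range, Nat.add_sub_cancel_left, Nat.sub_sub, add_assoc,
    tm_shift]

end Crest.Agent.R100.Low
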