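import Crest.Agent.R100.LowSmall
import Crest.Agent.R100.LowCount
import Crest.Agent.R100.LowUnion
import Crest.Agent.R100.RunDefs
import Crest.Agent.R100.CandDefs

/-! # Row 100, LIFE (helper52): periods between removal nodes, LOW with removals -/

set_option autoImplicit false

open MeasureTheory Set

noncomputable section

namespace Crest.Agent.R100.Life52

open Crest.Agent.R100 Crest.Agent.R100.Low Crest.Agent.R100.Run Crest.Agent.R100.Cand

open Classical in
theorem period_sum (n : ℕ) (Rem : List Bool → Prop) (X : List Bool → List Bool → ℝ) {B : ℝ}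
    (hX : ∀ w, w.length ≤ n → Rem w → avg (n - w.length) (X w) ≤ B) :
    avg n (fun l => ∑ k ∈ Finset.range (n + 1),
      if Rem (l.take k) then X (l.take k) (l.drop k) else 0) ≤ B * avg n (cnt Rem n) := by
  unfold cnt
  rw [avg_sum, avg_sum, Finset.mul_sum]
  refine Finset.sum_le_sum fun k hk => ?_
  have hk' : k ≤ n := by simpa [Nat.lt_succ_iff] using hk
  rw [avg_take hk' (fun v => if Rem v then (1 : ℝ) else 0), ← avg_mul_left]
  obtain ⟨m, rfl⟩ := Nat.exists_eq_add_of_le hk'
  rw [avg_split]
  refine avg_mono_len k fun v hv => ?_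
  have h1 : ∀ w : List Bool, (v ++ w).take k = v := fun w => by rw [← hv]; simp
  have h2 : ∀ w : List Bool, (v ++ w).drop k = w := fun w => by rw [← hv]; simp
  simp only [h1, h2]
  split_ifs with h
  · have := hX v (by omega) h
    rw [hv, Nat.add_sub_cancel_left] at this
    simpa using this
  · simp [avg_const]

/-- no marked node strictly below depth `j` on `v` -/
def NoR (Rem : List Bool → Prop) (j : ℕ) (v : List Bool) : Prop :=
  j ≤ v.length ∧ ∀ k, j < k → k ≤ v.length → ¬Rem (v.take k)

theorem exists_last {Rem : List Bool → Prop} (h0 : Rem []) (v : List Bool) :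
    ∃ j, Rem (v.take j) ∧ NoR Rem j v := by
  classical
  refine ⟨Nat.findGreatest (fun k => Rem (v.take k)) v.length, ?_, Nat.findGreatest_le _,
    fun k h1 h2 => Nat.findGreatest_is_greatest h1 h2⟩
  exact Nat.findGreatest_spec (P := fun k => Rem (v.take k)) (Nat.zero_le _) (by simpa using h0)

theorem last_unique {Rem : List Bool → Prop} {v : List Bool} {i j : ℕ} (hi : Rem (v.take i))
    (hi' : NoR Rem i v) (hj : Rem (v.take j)) (hj' : NoR Rem j v) : i = j := by
  rcases lt_trichotomy i j with h | h | h
  · exact absurd hj (hi'.2 j h hj'.1)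
  · exact h
  · exact absurd hi (hj'.2 i h hi'.1)

theorem NoR.take {Rem : List Bool → Prop} {j k : ℕ} {v : List Bool} (h : NoR Rem j v) (hj : j ≤ k) :
    NoR Rem j (v.take k) := by
  refine ⟨by simp [hj, h.1], fun i h1 h2 => ?_⟩
  simp only [List.length_take, le_min_iff] at h2
  rw [List.take_take, min_eq_left h2.1]
  exact h.2 i h1 h2.2

theorem const_of_NoR {β : Type*} {Rem : List Bool → Prop} {f : List Bool → β}
    (hf : ∀ v c, ¬Rem (v ++ [c]) → f (v ++ [c]) = f v) {j : ℕ} {v : List Bool} (h : NoR Rem j v) :
    ∀ k, j ≤ k → k ≤ v.length → f (v.take k) = f (v.take j) := by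
  intro k hk
  induction k, hk using Nat.le_induction with
  | base => intro _; rfl
  | succ k hk ih =>
    intro h2
    have h3 : k < v.length := h2
    have e : v.take (k + 1) = v.take k ++ [v[k]] := by
      rw [List.take_add_one, List.getElem?_eq_getElem h3]; rfl
    rw [e, hf _ _ (by rw [← e]; exact h.2 _ (by omega) h2), ih h3.le]

theorem const_of_NoR' {β : Type*} {Rem : List Bool → Prop} {f : List Bool → β}
    (hf : ∀ v c, ¬Rem (v ++ [c]) → f (v ++ [c]) = f v) {j : ℕ} {v : List Bool} (h : NoR Rem j v) :
    f v = f (v.take j) := by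
  have := const_of_NoR hf h v.length h.1 le_rfl
  rwa [List.take_length] at this

theorem ln_append (ℓ : ℝ) (w x : List Bool) : ln ℓ (w ++ x) = ln (ln ℓ w) x := by
  simp only [ln, List.length_append, pow_add]; field_simp

theorem U_append (F : ℝ → ℂ) (α ℓ ξ : ℝ) (w x : List Bool) :
    U F α ℓ ξ (w ++ x) = U F (nd α ℓ w) (ln ℓ w) ξ x := by
  unfold U; rw [famA_nd_append, ln_append]

/-- the increments of the process with removals -/
def Dr (e : List Bool → ℂ) (f : List Bool → ℝ → ℂ) (α ℓ ξ : ℝ) (v : List Bool) : ℂ :=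
  e v * (U (f v) α ℓ ξ (v ++ [false]) - U (f v) α ℓ ξ v)

open Classical in
/-- the multiplier of the period that starts at depth `j` -/
def eP (Rem : List Bool → Prop) (e : List Bool → ℂ) (j : ℕ) (v : List Bool) : ℂ :=
  if NoR Rem j v then e v else 0

open Classical in
theorem wD_periods {Rem : List Bool → Prop} (h0 : Rem []) {f : List Bool → ℝ → ℂ}
    (hf : ∀ v c, ¬Rem (v ++ [c]) → f (v ++ [c]) = f v) (e : List Bool → ℂ) (α ℓ ξ : ℝ)
    (l : List Bool) (s t : ℕ) (ht : t ≤ l.length) :
    wD (Dr e f α ℓ ξ) l s t = ∑ j ∈ Finset.range (l.length + 1), if Rem (l.take j) then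
      win (eP Rem e j) (U (f (l.take j)) α ℓ ξ) l (max s j) t else 0 := by
  have h1 : ∀ j, (if Rem (l.take j) then
      win (eP Rem e j) (U (f (l.take j)) α ℓ ξ) l (max s j) t else 0) =
      ∑ k ∈ Finset.Ico s t, if Rem (l.take j) then
        tm (eP Rem e j) (U (f (l.take j)) α ℓ ξ) l k else 0 := by
    intro j
    split_ifs with h
    · unfold win
      refine Finset.sum_subset (fun k hk => ?_) fun k hk hk' => ?_
      · simp only [Finset.mem_Ico] at hk ⊢; omega
      · simp only [Finset.mem_Ico] at hk hk'
        have : ¬NoR Rem j (l.take k) := fun h2 => by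
          have := h2.1
          simp only [List.length_take, le_min_iff] at this
          omega
        simp [tm, eP, this]
    · simp
  simp_rw [h1]
  rw [Finset.sum_comm]
  unfold wD
  refine Finset.sum_congr rfl fun k hk => ?_
  have hk' : k ≤ l.length := by simp only [Finset.mem_Ico] at hk; omega
  obtain ⟨j, hj1, hj2⟩ := exists_last h0 (l.take k)
  have hjk : j ≤ k := by
    have := hj2.1
    simp only [List.length_take, le_min_iff] at this
    exact this.1
  have htt : ∀ i, i ≤ k → (l.take k).take i = l.take i := fun i hi => by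
    rw [List.take_take, min_eq_left hi]
  rw [Finset.sum_eq_single j]
  · rw [htt j hjk] at hj1
    rw [if_pos hj1]
    have := const_of_NoR' hf hj2
    rw [htt j hjk] at this
    simp only [tD, tm, Dr, eP, if_pos hj2, this]
  · intro i _ hij
    split_ifs with h
    · have : ¬NoR Rem i (l.take k) := fun h2 => by
        have hik : i ≤ k := by
          have := h2.1
          simp only [List.length_take, le_min_iff] at this
          exact this.1
        exact hij (last_unique (by rwa [htt i hik]) h2 hj1 hj2)
      simp [tm, eP, this]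
    · rfl
  · intro h; exact absurd (Finset.mem_range.2 (by omega)) h

/-- **LOW with removals.** -/
theorem low_rem {f : List Bool → ℝ → ℂ} (hm : ∀ v, Measurable (f v)) {R : ℝ} (hR : 1 ≤ R)
    (hM : ∀ v y, ‖f v y‖ ≤ Real.exp R) (α : ℝ) {ℓ : ℝ} (hℓ : 0 < ℓ) {Rem : List Bool → Prop}
    (h0 : Rem []) (hf : ∀ v c, ¬Rem (v ++ [c]) → f (v ++ [c]) = f v) (e : List Bool → ℂ)
    (he : ∀ v, ‖e v‖ ≤ 1)
    (hA : ∀ v, e v ≠ 0 → ∀ k, k ≤ v.length →
      ca (f (v.take k)) (nd α ℓ (v.take k)) (ln ℓ (v.take k)) ≤ 1)
    {c : ℝ} (hc : 0 < c) (hc2 : c ≤ 2) (n : ℕ) (ξ : List Bool → ℝ) (s t : List Bool → ℕ)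
    (ht : ∀ l, l.length = n → t l ≤ n - 1)
    (hsm : ∀ l, l.length = n → ∀ k, s l ≤ k → k < t l → tD (Dr e f α ℓ (ξ l)) l k ≠ 0 →
      ‖U (f (l.take k)) α ℓ (ξ l) (l.take k)‖ ≤ c ∧
        ‖U (f (l.take k)) α ℓ (ξ l) (l.take (k + 1))‖ ≤ c) :
    avg n (fun l => ‖wD (Dr e f α ℓ (ξ l)) l (s l) (t l)‖) ≤
      20000 * √c * (R + Real.log (2 / c) + 1) * avg n (cnt Rem n) := by
  classical
  set X : List Bool → List Bool → ℝ := fun w x =>
    ‖win (eP Rem e w.length) (U (f w) α ℓ (ξ (w ++ x))) (w ++ x) (max (s (w ++ x)) w.length)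
      (t (w ++ x))‖ with hXd
  refine le_trans (avg_mono_len n fun l hl => ?_) (period_sum n Rem X fun w hw _ => ?_)
  · rw [wD_periods h0 hf e α ℓ (ξ l) l (s l) (t l) (by have := ht l hl; omega), hl]
    refine (norm_sum_le _ _).trans (Finset.sum_le_sum fun j hj => ?_)
    have hj' : j ≤ n := by simpa [Nat.lt_succ_iff] using hj
    split_ifs with h
    · have : (l.take j).length = j := by simp [hl, hj']
      simp only [hXd, List.take_append_drop, this, le_refl]
    · simp
  · have hl' : 0 < ln ℓ w := lowFamA_ln_pos hℓ w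
    have hF := fam_U (hm w) hR (hM w) (nd α ℓ w) hl'
    have htk : ∀ (x : List Bool) (k : ℕ), (w ++ x).take (w.length + k) = w ++ x.take k :=
      fun x k => List.take_length_add_append k
    have key := small hF hR hl' (fun x => eP Rem e w.length (w ++ x))
      (fun x => by unfold eP; split_ifs; exacts [he _, by simp])
      (fun x hx k hk => by
        have h1 : NoR Rem w.length (w ++ x) := by
          by_contra h; simp [eP, h] at hx
        have h2 : e (w ++ x) ≠ 0 := by simpa [eP, h1] using hx
        have h3 := hA _ h2 (w.length + k) (by simp; omega)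
        have h4 := const_of_NoR hf h1 (w.length + k) (by omega) (by simp; omega)
        rw [h4, htk, famA_nd_append, ln_append] at h3
        simpa using h3)
      c hc hc2 (n - w.length) (fun x => ξ (w ++ x))
      (fun x => max (s (w ++ x)) w.length - w.length) (fun x => t (w ++ x) - w.length)
      (fun x hx => by have := ht (w ++ x) (by simp; omega); omega)
      (fun x hx k hk1 hk2 hk3 => by
        have hlen : (w ++ x).length = n := by simp; omega
        have h5 := ht (w ++ x) hlen
        have h1 : NoR Rem w.length (w ++ x.take k) := by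
          by_contra h; simp [tm, eP, h] at hk3
        have h4 : f (w ++ x.take k) = f w := by simpa using const_of_NoR' hf h1
        have h6 := hsm (w ++ x) hlen (w.length + k) (by omega) (by omega) (by
          intro h7
          apply hk3
          have h8 := tm_shift (eP Rem e w.length) (U (f w) α ℓ (ξ (w ++ x))) w x k
          simp only [U_append] at h8
          rw [← h8, ← h7]
          simp only [tm, tD, Dr, htk, eP, if_pos h1, h4])
        rw [add_assoc, htk, htk, h4, U_append, U_append] at h6
        exact h6)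
    refine le_trans (le_of_eq (avg_congr_len _ fun x _ => ?_)) key
    simp only [hXd]
    rw [win_shift _ _ _ _ _ _ (le_max_right _ _)]
    simp only [U_append]

end Crest.Agent.R100.Life52
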