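import Crest.Agent.R100.LifeDefs

set_option autoImplicit false

noncomputable section

namespace Crest.Agent.R100.Life

/-- the information of the stage `j` -/
def tauj (R : ℝ) (j : ℕ) : ℝ :=
  if (2 : ℝ) ^ (j + 2) ≤ mm R ^ 3 then 4 * (2 : ℝ) ^ (((j + 2 : ℕ) : ℝ) / 4) * (R / mm R) else 5 * R

/-- the size of the stage `j` -/
def epsj (j : ℕ) : ℝ := √(1 / 2 ^ j)

/-- the number of candidates -/
def MM (C0 R : ℝ) : ℝ := 1 + (1 + mm R ^ 30) * (C0 * (5 * R / ((mm R ^ 66)⁻¹) ^ 2) ^ 4)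

theorem num_par : ∃ R₀ : ℝ, ∀ R, R₀ ≤ R → 1 ≤ R ∧ 4 ≤ mm R ∧ 128 * mm R ^ 198 ≤ Real.exp R ∧
    ∃ i1 : ℕ, mm R ^ 64 ≤ 2 ^ (i1 + 1) ∧ (2 : ℝ) ^ (i1 + 1) ≤ 2 * mm R ^ 64 ∧
      ((i1 : ℝ) + 1) * (mm R ^ 66 + 1) / 2 ^ (3 * (i1 + 1)) ≤ 1 / 2 := by
  obtain ⟨F, hF0, hF⟩ : ∃ F : ℝ, 0 < F ∧ ∀ x : ℝ, 0 ≤ x → x ^ 199 / F ≤ Real.exp x :=
    ⟨(Nat.factorial 199 : ℕ), by exact_mod_cast Nat.factorial_pos 199,
      fun x hx => Real.pow_div_factorial_le_exp x hx 199⟩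
  refine ⟨max (Real.exp (Real.exp 4)) (128 * F), fun R hR => ?_⟩
  have h1 : Real.exp (Real.exp 4) ≤ R := (le_max_left _ _).trans hR
  have h2 : 128 * F ≤ R := (le_max_right _ _).trans hR
  have hR1 : 1 ≤ R := (Real.one_le_exp (Real.exp_pos _).le).trans h1
  have hlog : Real.exp 4 ≤ Real.log R := by
    rw [Real.le_log_iff_exp_le (by linarith)]; exact h1
  have he4 : 0 < Real.exp 4 := Real.exp_pos _
  have hm4 : 4 ≤ mm R := by
    unfold mm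
    rw [Real.le_log_iff_exp_le (by linarith)]; linarith
  have hmR : mm R ≤ R := by
    unfold mm
    have a1 := Real.log_le_sub_one_of_pos (x := 2 + Real.log R) (by linarith)
    have a2 := Real.log_le_sub_one_of_pos (x := R) (by linarith)
    linarith
  refine ⟨hR1, hm4, ?_, ?_⟩
  · have a1 : mm R ^ 198 ≤ R ^ 198 := pow_le_pow_left₀ (by linarith) hmR 198
    have a2 := hF R (by linarith)
    have a3 : 0 ≤ R ^ 198 := pow_nonneg (by linarith) 198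
    have a4 : 128 * R ^ 198 ≤ R ^ 199 / F := by
      rw [le_div_iff₀ hF0, pow_succ R 198]
      calc 128 * R ^ 198 * F = R ^ 198 * (128 * F) := by ring
        _ ≤ R ^ 198 * R := mul_le_mul_of_nonneg_left h2 a3
    linarith
  · generalize mm R = m at hm4
    have hm1 : (1 : ℝ) ≤ m := by linarith
    obtain ⟨k, hk1, hk2⟩ := exists_nat_pow_near (x := m ^ 64) (y := (2 : ℝ))
      (one_le_pow₀ hm1) (by norm_num)
    refine ⟨k, hk2.le, by rw [pow_succ]; linarith, ?_⟩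
    have b1 : ((k : ℝ) + 1) ≤ 2 ^ (k + 1) := by
      have : k + 1 ≤ 2 ^ (k + 1) := (Nat.lt_two_pow_self).le
      exact_mod_cast this
    have e : (2 : ℝ) ^ (3 * (k + 1)) = 2 ^ (k + 1) * (2 ^ (k + 1) * 2 ^ (k + 1)) := by ring
    rw [e]
    generalize (2 : ℝ) ^ (k + 1) = T at hk2 b1
    have c1 : (1 : ℝ) ≤ m ^ 66 := one_le_pow₀ hm1
    have c2 : (4 : ℝ) ≤ m ^ 62 := hm4.trans (le_self_pow₀ hm1 (by norm_num))
    have c0 : (0 : ℝ) < m ^ 64 := by positivity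
    have c3 : m ^ 64 * m ^ 64 ≤ T * T := mul_le_mul hk2.le hk2.le c0.le (by linarith)
    have c4 : m ^ 64 * m ^ 64 = m ^ 66 * m ^ 62 := by ring
    have c5 : m ^ 66 * 4 ≤ m ^ 66 * m ^ 62 := mul_le_mul_of_nonneg_left c2 (by linarith)
    have c6 : m ^ 66 + 1 ≤ T * T / 2 := by linarith
    have hT : 0 < T := by linarith
    rw [div_le_iff₀ (by positivity)]
    calc ((k : ℝ) + 1) * (m ^ 66 + 1) ≤ T * (T * T / 2) :=
          mul_le_mul b1 c6 (by linarith) hT.le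
      _ = 1 / 2 * (T * (T * T)) := by ring

theorem num_low_mm : ∃ R₀ : ℝ, ∀ R, R₀ ≤ R → 1 ≤ R ∧ 1 ≤ mm R ∧ 4 * mm R ^ 64 ≤ R := by
  have h := (Real.isLittleO_pow_log_id_atTop (n := 64)).def (c := 1 / (4 * 2 ^ 64)) (by positivity)
  obtain ⟨R₁, hR₁⟩ := Filter.eventually_atTop.1 h
  refine ⟨max R₁ 3, fun R hR => ?_⟩
  have h3 : 3 ≤ R := (le_max_right _ _).trans hR
  have h1 := hR₁ R ((le_max_left _ _).trans hR)
  have hl : 1 ≤ Real.log R := by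
    rw [Real.le_log_iff_exp_le (by linarith)]
    linarith [Real.exp_one_lt_d9]
  have hm1 : 1 ≤ mm R := by
    unfold mm
    rw [Real.le_log_iff_exp_le (by linarith)]
    linarith [Real.exp_one_lt_d9]
  have hm2 : mm R ≤ 2 * Real.log R := by
    unfold mm
    have := Real.log_le_sub_one_of_pos (show 0 < 2 + Real.log R by linarith)
    linarith
  refine ⟨by linarith, hm1, ?_⟩
  have h4 : mm R ^ 64 ≤ (2 * Real.log R) ^ 64 := pow_le_pow_left₀ (by linarith) hm2 _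
  rw [Real.norm_of_nonneg (by positivity), id, Real.norm_of_nonneg (by linarith)] at h1
  rw [mul_pow] at h4
  have h5 : (2 : ℝ) ^ 64 * Real.log R ^ 64 ≤ 2 ^ 64 * (1 / (4 * 2 ^ 64) * R) :=
    mul_le_mul_of_nonneg_left h1 (by positivity)
  have h6 : (2 : ℝ) ^ 64 * (1 / (4 * 2 ^ 64) * R) = R / 4 := by field_simp
  linarith

theorem num_low : ∃ C R₀ : ℝ, ∀ R, R₀ ≤ R → ∀ i1 : ℕ, mm R ^ 64 ≤ 2 ^ (i1 + 1) →
    (2 : ℝ) ^ (i1 + 1) ≤ 2 * mm R ^ 64 →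
    (2 + mm R ^ 30) * (20000 * √(1 / 2 ^ (i1 + 1)) *
      (4 * R + Real.log (2 / (1 / 2 ^ (i1 + 1))) + 1) + 6) ≤ C * (R / mm R) := by
  obtain ⟨R₀, h⟩ := num_low_mm
  refine ⟨360018, R₀, fun R hR i1 h1 h2 => ?_⟩
  obtain ⟨hR1, hm1, hm⟩ := h R hR
  set m := mm R with hmdef
  set x : ℝ := 2 ^ (i1 + 1) with hx
  have m0 : 0 < m := by linarith
  have x0 : 0 < x := by positivity
  have hs : √(1 / x) ≤ 1 / m ^ 32 := by
    rw [Real.sqrt_le_left (by positivity), div_pow, one_pow, ← pow_mul]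
    exact one_div_le_one_div_of_le (by positivity) h1
  have hl : Real.log (2 / (1 / x)) ≤ R := by
    have := Real.log_le_sub_one_of_pos (show 0 < 2 / (1 / x) by positivity)
    have e : 2 / (1 / x) = 2 * x := by field_simp
    rw [e] at this ⊢
    linarith
  have hl0 : 0 ≤ Real.log (2 / (1 / x)) := by
    refine Real.log_nonneg ?_
    have e : 2 / (1 / x) = 2 * x := by field_simp
    have : 1 ≤ m ^ 64 := one_le_pow₀ hm1
    rw [e]; linarith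
  have h30 : 1 ≤ m ^ 30 := one_le_pow₀ hm1
  have a1 : 20000 * √(1 / x) * (4 * R + Real.log (2 / (1 / x)) + 1) ≤
      20000 * (1 / m ^ 32) * (6 * R) :=
    mul_le_mul (by linarith) (by linarith) (by linarith) (by positivity)
  have a0 : 0 ≤ 20000 * √(1 / x) * (4 * R + Real.log (2 / (1 / x)) + 1) := by positivity
  have a2 : (2 + m ^ 30) * (20000 * √(1 / x) * (4 * R + Real.log (2 / (1 / x)) + 1) + 6) ≤
      (3 * m ^ 30) * (20000 * (1 / m ^ 32) * (6 * R) + 6) :=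
    mul_le_mul (by linarith) (by linarith) (by linarith) (by positivity)
  have a3 : (3 * m ^ 30) * (20000 * (1 / m ^ 32) * (6 * R) + 6) =
      360000 * (R / m) / m + 18 * m ^ 30 := by field_simp; ring
  have a4 : 360000 * (R / m) / m ≤ 360000 * (R / m) := div_le_self (by positivity) hm1
  have a5 : m ^ 30 ≤ R / m := by
    rw [le_div_iff₀ m0, ← pow_succ]
    have : m ^ (30 + 1) ≤ m ^ 64 := pow_le_pow_right₀ hm1 (by norm_num)
    have : 0 < m ^ 64 := by positivity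
    linarith
  linarith

theorem num_tau_term {a R : ℝ} (ha : a = (2 : ℝ) ^ ((1 : ℝ) / 12)) (hR : 1 ≤ R) (j : ℕ) :
    epsj j * tauj R j ≤ 10 * ((a ^ 2)⁻¹) ^ j * (R / mm R) := by
  have ha1 : 1 ≤ a := ha ▸ Real.one_le_rpow (by norm_num) (by norm_num)
  have h12 : a ^ 12 = 2 := by
    rw [ha, ← Real.rpow_natCast, ← Real.rpow_mul (by norm_num)]
    norm_num
  have hm : 0 < mm R := Real.log_pos (by linarith [Real.log_nonneg hR])
  have hy1 : 1 ≤ a ^ j := one_le_pow₀ ha1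
  have hy : (a ^ j) ^ 12 = 2 ^ j := by rw [← pow_mul, mul_comm, pow_mul, h12]
  have he : epsj j = ((a ^ j) ^ 6)⁻¹ := by
    rw [epsj, ← hy, one_div, Real.sqrt_inv, show (a ^ j) ^ 12 = ((a ^ j) ^ 6) ^ 2 by ring,
      Real.sqrt_sq (by positivity)]
  have ht : (2 : ℝ) ^ (((j + 2 : ℕ) : ℝ) / 4) = (a ^ j) ^ 3 * a ^ 6 := by
    rw [← pow_mul, ← pow_add, ha, ← Real.rpow_natCast, ← Real.rpow_mul (by norm_num)]
    congr 1
    push_cast
    ring
  have h6 : a ^ 6 ≤ 2 := h12 ▸ pow_le_pow_right₀ ha1 (by norm_num)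
  have hq : ((a ^ 2)⁻¹) ^ j = ((a ^ j) ^ 2)⁻¹ := by
    rw [inv_pow, ← pow_mul, ← pow_mul, mul_comm]
  rw [he, hq, tauj, ht, pow_add (2 : ℝ) j 2, ← hy]
  have h60 : 0 ≤ a ^ 6 := by positivity
  generalize a ^ 6 = b at *
  generalize a ^ j = y at *
  have hy0 : 0 < y := by linarith
  have hρ : 0 ≤ R / mm R := by positivity
  split_ifs with h
  · have e1 : (y ^ 6)⁻¹ * (4 * (y ^ 3 * b)) ≤ 10 * (y ^ 2)⁻¹ := by
      rw [inv_mul_le_iff₀ (by positivity),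
        show y ^ 6 * (10 * (y ^ 2)⁻¹) = y ^ 3 * (10 * y) by field_simp]
      nlinarith [mul_le_mul_of_nonneg_left (show 4 * b ≤ 10 * y by linarith) (pow_pos hy0 3).le]
    rw [← mul_assoc]
    exact mul_le_mul_of_nonneg_right e1 hρ
  · have e1 : mm R ≤ 2 * y ^ 4 := by
      refine le_of_not_gt fun hc => h ?_
      have := pow_le_pow_left₀ (by positivity) hc.le 3
      nlinarith [pow_pos hy0 12]
    have e2 : (y ^ 6)⁻¹ * (5 * mm R) ≤ 10 * (y ^ 2)⁻¹ := by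
      rw [inv_mul_le_iff₀ (by positivity),
        show y ^ 6 * (10 * (y ^ 2)⁻¹) = 10 * y ^ 4 by field_simp]
      linarith
    calc (y ^ 6)⁻¹ * (5 * R) = (y ^ 6)⁻¹ * (5 * mm R) * (R / mm R) := by field_simp
      _ ≤ _ := mul_le_mul_of_nonneg_right e2 hρ

theorem num_tau : ∃ C R₀ : ℝ, ∀ R, R₀ ≤ R → ∀ i1 : ℕ,
    ∑ j ∈ Finset.range (i1 + 1), epsj j * tauj R j ≤ C * (R / mm R) := by
  obtain ⟨a, ha⟩ : ∃ a : ℝ, a = (2 : ℝ) ^ ((1 : ℝ) / 12) := ⟨_, rfl⟩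
  have ha1 : 1 < a := ha ▸ Real.one_lt_rpow (by norm_num) (by norm_num)
  have hq0 : 0 ≤ (a ^ 2)⁻¹ := by positivity
  have hq1 : (a ^ 2)⁻¹ < 1 := inv_lt_one_of_one_lt₀ (by nlinarith)
  refine ⟨10 * (1 - (a ^ 2)⁻¹)⁻¹, 1, fun R hR i1 => ?_⟩
  have hm : 0 < mm R := Real.log_pos (by linarith [Real.log_nonneg hR])
  refine (Finset.sum_le_sum fun j _ => num_tau_term ha hR j).trans ?_
  rw [← Finset.sum_mul, ← Finset.mul_sum]
  refine mul_le_mul_of_nonneg_right (mul_le_mul_of_nonneg_left ?_ (by norm_num)) (by positivity)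
  exact sum_le_hasSum _ (fun j _ => pow_nonneg hq0 j) (hasSum_geometric_of_lt_one hq0 hq1)

theorem num_rest (C0 : ℝ) (hC0 : 0 < C0) : ∃ C R₀ : ℝ, ∀ R, R₀ ≤ R → ∀ i1 : ℕ,
    (2 : ℝ) ^ (i1 + 1) ≤ 2 * mm R ^ 64 →
    ∑ j ∈ Finset.range (i1 + 1), (3 * (((3 * (i1 + 1) : ℕ) : ℝ) + 1) +
      1024 * epsj j * (Real.log (MM C0 R) + 2) + 5120 / epsj j * (1 + R / mm R ^ 40) + 3) ≤
        C * (R / mm R) := by
  sorry

end Crest.Agent.R100.Life
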