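import Crest.Agent.R100.LifeStage
import Crest.Agent.R100.LifeCand
import Crest.Agent.R100.LifeBes
import Crest.Agent.R100.LifeNum
import Crest.Agent.R100.Stage88

set_option autoImplicit false

open MeasureTheory Set

noncomputable section

namespace Crest.Agent.R100.Life

open Crest.Agent.R100 Crest.Agent.R100.Low Crest.Agent.R100.Run

variable {Y Ω : Type} [Fintype Y] [Fintype Ω] {R P μ : ℝ} {h : Y → List Bool → ℝ → ℝ} {α ℓ : ℝ}
  {A : List Bool → Prop} {lam Z : Ω → ℝ}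

theorem main_ln (ℓ : ℝ) {l : List Bool} {k : ℕ} (hk : k ≤ l.length) :
    ln ℓ (l.take k) = ℓ / 2 ^ k := by
  simp [ln, List.length_take, min_eq_left hk]

theorem main_round {κ ℓ : ℝ} (hκ : 0 < κ) (hℓ : 0 < ℓ) (v : List Bool) (ζ : ℝ) :
    ∃ N : ℤ, |ζ - lat κ ℓ v N| * ln ℓ v ≤ κ := by
  have hl := lowFamA_ln_pos hℓ v
  refine ⟨⌊ζ * ln ℓ v / κ⌋, ?_⟩
  have h1 := Int.floor_le (ζ * ln ℓ v / κ)
  have h2 := Int.lt_floor_add_one (ζ * ln ℓ v / κ)
  rw [le_div_iff₀ hκ] at h1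
  rw [div_lt_iff₀ hκ] at h2
  have e : (ζ - lat κ ℓ v ⌊ζ * ln ℓ v / κ⌋) * ln ℓ v =
      ζ * ln ℓ v - (⌊ζ * ln ℓ v / κ⌋ : ℝ) * κ := by
    unfold lat; field_simp
  rw [← abs_of_pos hl, ← abs_mul, abs_of_pos hl, e, abs_le]
  constructor <;> nlinarith

/-- the decomposition of one member into the LOW zone and the stages -/
theorem path_split (hD : Data R P μ h α ℓ A lam Z) {φ : Y → ℂ} (hφ : ∀ y, ‖φ y‖ ≤ 1)
    {Cd : List Bool → Prop} {ε κ : ℝ} (hε : 0 < ε) (hκ : 0 < κ) (hκ1 : κ ≤ 1) (i1 w : ℕ)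
    (h6 : 6 * ε * 2 ^ (i1 + 1) ≤ 1) (h3 : (3 * ε + κ) * 2 ^ (i1 + 2) ≤ 1)
    (hw : ((i1 : ℝ) + 1) * (1 / ε + 1) / 2 ^ w ≤ 1 / 2)
    (hc : ∀ v, A v → ∀ ζ : ℝ, 6 * ε * P ≤ SS h α ℓ ζ v → ∃ k, k ≤ v.length ∧ Cd (v.take k) ∧
        ∃ ζ' : ℝ, |ζ - ζ'| * ln ℓ v ≤ 1 / ε ∧
          SS h α ℓ ζ v - 3 * ε * P ≤ SS h α ℓ ζ' (v.take k))
    (N : ℝ) (l : List Bool) : ∃ (T : ℕ) (J s t : ℕ → ℕ) (z : ℕ → ℝ), T ≤ l.length - 1 ∧
      (∀ k, k < T → A (l.take k) → SS h α ℓ N (l.take k) ≤ 1 / 2 ^ (i1 + 1) * P) ∧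
      ‖Wn h α ℓ A φ N l 0 (l.length - 1)‖ ≤ ‖Wn h α ℓ A φ N l 0 T‖ +
        ∑ j ∈ Finset.range (i1 + 1), (3 * P * (w + 1) + ‖Wn h α ℓ A φ N l (s j) (t j)‖) ∧
      ∀ j, j ≤ i1 → s j < t j →
        J j ≤ s j ∧ t j ≤ l.length - 1 ∧ Cd (l.take (J j)) ∧ A (l.take (J j)) ∧
        (∃ M : ℤ, z j = lat κ ℓ (l.take (J j)) M) ∧
        P / 2 ^ (j + 2) ≤ SS h α ℓ (z j) (l.take (J j)) ∧
        (∀ k, J j ≤ k → k ≤ t j → A (l.take k) → SS h α ℓ (z j) (l.take k) ≤ P / 2 ^ j) ∧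
        |N - z j| * ln ℓ (l.take (s j)) ≤ 1 / 2 := by
  classical
  have hP := hD.hP
  set e := l.length - 1 with he
  let S : ℝ → ℕ → ℝ := fun z k => if A (l.take k) then SS h α ℓ z (l.take k) else 0
  have hSA : ∀ z k x, 0 < x → x ≤ S z k → A (l.take k) ∧ x ≤ SS h α ℓ z (l.take k) := by
    intro z k x hx h1
    by_cases hA : A (l.take k)
    · exact ⟨hA, by simpa [S, hA] using h1⟩
    · simp only [S, hA, if_false] at h1; linarith
  by_cases hex : ∃ T, T ≤ e ∧ P / 2 ^ (i1 + 1) ≤ S N T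
  swap
  · refine ⟨e, fun _ => 0, fun _ => 0, fun _ => 0, fun _ => 0, le_rfl, fun k hk hA => ?_, ?_,
      fun j _ h0 => absurd h0 (lt_irrefl _)⟩
    · have := not_le.1 fun h1 => hex ⟨k, hk.le, h1⟩
      simp only [S, hA, if_true] at this
      rw [one_div_mul_eq_div]; exact this.le
    · exact le_add_of_nonneg_right (Finset.sum_nonneg fun _ _ => by positivity)
  have hT := Nat.find_spec hex
  set T := Nat.find hex with hTd
  obtain ⟨J, s, t, z, h1, h2⟩ := St88.stages S (fun s t => ‖Wn h α ℓ A φ N l s t‖)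
    (fun k => Cd (l.take k)) (fun k z => ∃ M : ℤ, z = lat κ ℓ (l.take k) M)
    (fun i => P / 2 ^ i) (fun i => P / 2 ^ (i + 2)) N ℓ (3 * P) (1 / ε + 1) e w i1 T hD.hl.le
    (by positivity) (by positivity) (fun _ _ => norm_nonneg _)
    (fun s m t h1 h2 _ => by rw [Wn_add φ N l h1 h2]; exact norm_add_le _ _)
    (fun s t h1 _ => by simpa [Nat.cast_sub h1] using Wn_triv hD hφ N l s t)
    (by
      intro i k z hi hk ha
      obtain ⟨hA, ha⟩ := hSA z k _ (by positivity) ha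
      have hkl : k ≤ l.length := by omega
      have p1 : (2 : ℝ) ^ (i + 1) ≤ 2 ^ (i1 + 1) := pow_le_pow_right₀ (by norm_num) (by omega)
      have p2 : (2 : ℝ) ^ (i + 2) ≤ 2 ^ (i1 + 2) := pow_le_pow_right₀ (by norm_num) (by omega)
      have q1 : 6 * ε * P ≤ P / 2 ^ (i + 1) := by
        rw [le_div_iff₀ (by positivity)]
        have : 6 * ε * 2 ^ (i + 1) ≤ 1 := le_trans (by gcongr) h6
        nlinarith
      have q2 : (3 * ε + κ) * P ≤ P / 2 ^ (i + 2) := by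
        rw [le_div_iff₀ (by positivity)]
        have : (3 * ε + κ) * 2 ^ (i + 2) ≤ 1 := le_trans (by gcongr) h3
        nlinarith
      obtain ⟨j, hj, hCd, ζ', g1, g2⟩ := hc _ hA z (q1.trans ha)
      have hjk : j ≤ k := hj.trans (by simp)
      have et : (l.take k).take j = l.take j := by rw [List.take_take, min_eq_left hjk]
      rw [et] at hCd g2
      have hAj : A (l.take j) := et ▸ hD.her _ j hA
      obtain ⟨M, hM⟩ := main_round hκ hD.hl (l.take j) ζ'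
      refine ⟨j, hjk, hCd, lat κ ℓ (l.take j) M, ⟨M, rfl⟩, ?_, ?_⟩
      · have g3 := SS_lip hD ζ' (lat κ ℓ (l.take j) M) hAj
        have g4 : |ζ' - lat κ ℓ (l.take j) M| * ln ℓ (l.take j) * P ≤ κ * P := by gcongr
        have g5 : P / 2 ^ (i + 1) = 2 * (P / 2 ^ (i + 2)) := by field_simp; ring
        simp only [S, hAj, if_true]
        linarith
      · rw [main_ln ℓ hkl] at g1
        rw [main_ln ℓ (hjk.trans hkl)] at hM
        have g3 : ℓ / 2 ^ k ≤ ℓ / 2 ^ j := St88.len_mono hD.hl.le hjk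
        have g4 : |z - lat κ ℓ (l.take j) M| ≤ |z - ζ'| + |ζ' - lat κ ℓ (l.take j) M| :=
          abs_sub_le _ _ _
        have g5 : 0 ≤ ℓ / 2 ^ k := by have := hD.hl; positivity
        have g6 : |ζ' - lat κ ℓ (l.take j) M| * (ℓ / 2 ^ k) ≤ κ := le_trans (by gcongr) hM
        calc _ ≤ (|z - ζ'| + |ζ' - lat κ ℓ (l.take j) M|) * (ℓ / 2 ^ k) := by gcongr
          _ ≤ 1 / ε + 1 := by rw [add_mul]; linarith)
    (by
      intro z k _
      by_cases hA : A (l.take k)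
      · simpa [S, hA] using SS_le hD z hA
      · simp [S, hA, hP.le])
    hT.1 hT.2
  refine ⟨T, J, s, t, z, hT.1, fun k hk hA => ?_, ?_, fun j hj hst => ?_⟩
  · have := not_le.1 fun h1 => Nat.find_min hex hk ⟨hk.le.trans hT.1, h1⟩
    simp only [S, hA, if_true] at this
    rw [one_div_mul_eq_div]; exact this.le
  · rw [Wn_add φ N l (Nat.zero_le T) hT.1]
    exact (norm_add_le _ _).trans (add_le_add le_rfl h1)
  · obtain ⟨g1, -, g3, g4, g5, g6, g7, g8⟩ := h2 j hj hst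
    obtain ⟨g9, g10⟩ := hSA _ _ _ (by positivity) g6
    refine ⟨g1, g3, g4, g9, g5, g10, fun k k1 k2 hA => ?_, ?_⟩
    · simpa [S, hA] using g7 k k1 k2
    · rw [main_ln ℓ (by omega)]
      exact g8.trans hw

theorem main_epsj (j : ℕ) : 0 < epsj j ∧ epsj j ≤ 1 ∧ epsj j ^ 2 = 1 / 2 ^ j := by
  refine ⟨Real.sqrt_pos.2 (by positivity), Real.sqrt_le_one.2 ?_, Real.sq_sqrt (by positivity)⟩
  rw [div_le_one (by positivity)]
  exact one_le_pow₀ (by norm_num)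

/-- the cost of the stage `j` -/
theorem main_stage (hD : Data R P μ h α ℓ A lam Z) (hR : 1 ≤ R) (hm : 4 ≤ mm R)
    (hexp : 128 * mm R ^ 198 ≤ Real.exp R) {φ : Ω → Y → ℂ} (hφ : ∀ ω y, ‖φ ω y‖ ≤ 1)
    (n : ℕ) (ξ : List Bool → ℝ) {Cd : List Bool → Prop} {M : ℝ} (hM1 : 1 ≤ M)
    (hM : avg n (Cand.cnt Cd n) ≤ M) (j : ℕ) (hj : (2 : ℝ) ^ (j + 2) ≤ 4 * mm R ^ 64)
    (J s t : List Bool → Ω → ℕ) (z : List Bool → Ω → ℝ)
    (hst : ∀ l, l.length = n → ∀ ω, s l ω < t l ω →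
      J l ω ≤ s l ω ∧ t l ω ≤ n - 1 ∧ Cd (l.take (J l ω)) ∧ A (l.take (J l ω)) ∧
      (∃ N : ℤ, z l ω = lat (kap R) ℓ (l.take (J l ω)) N) ∧
      P / 2 ^ (j + 2) ≤ SS h α ℓ (z l ω) (l.take (J l ω)) ∧
      (∀ k, J l ω ≤ k → k ≤ t l ω → A (l.take k) → SS h α ℓ (z l ω) (l.take k) ≤ P / 2 ^ j) ∧
      |ξ l + Z ω - z l ω| * ln ℓ (l.take (s l ω)) ≤ 1 / 2) :
    ∑ ω, lam ω * avg n (fun l => ‖Wn h α ℓ A (φ ω) (ξ l + Z ω) l (s l ω) (t l ω)‖) ≤
      P * (1024 * (epsj j * tauj R j) + (1024 * epsj j * (Real.log M + 2) +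
        5120 / epsj j * (1 + R / mm R ^ 40) + 3)) := by
  classical
  obtain ⟨e1, e2, e3⟩ := main_epsj j
  have hP := hD.hP
  have hm0 : 0 < mm R := by linarith
  have hκ : 0 < kap R := by unfold kap; positivity
  have hκ1 : kap R ≤ 1 := inv_le_one_of_one_le₀ (one_le_pow₀ (by linarith))
  have hτ : 0 ≤ tauj R j := by
    unfold tauj; split_ifs <;> positivity
  have e4 : epsj j ^ 2 * P = P / 2 ^ j := by rw [e3]; ring
  have key : ∃ μ' : ℝ, 0 < μ' ∧ (∀ v, A v → ∀ a : ℝ,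
      ∑ ω, (if a ≤ Z ω ∧ Z ω ≤ a + 1 / ln ℓ v then lam ω else 0) ≤ μ') ∧
      ∀ v, A v → ∀ F : Finset ℤ, (∀ N ∈ F, P / 2 ^ (j + 2) ≤ SS h α ℓ (lat (kap R) ℓ v N) v) →
        (F.card : ℝ) ≤ Real.exp (tauj R j) / μ' := by
    by_cases hc : (2 : ℝ) ^ (j + 2) ≤ mm R ^ 3
    · refine ⟨μ, hD.hμ, hD.bin, fun v hv F hF => ?_⟩
      rw [tauj, if_pos hc]
      exact hD.cnt v hv (j + 2) hc F hF
    · refine ⟨1, one_pos, fun v _ a => ?_, fun v hv F hF => ?_⟩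
      · rw [← hD.lone]
        exact Finset.sum_le_sum fun ω _ => by split_ifs <;> simp [hD.lnn ω]
      · rw [tauj, if_neg hc, div_one]
        have h1 := bes hD hκ hκ1 (b := 1 / 2 ^ (j + 2)) (by positivity) hv F
          (fun N hN => by rw [one_div_mul_eq_div]; exact hF N hN)
        have h2 : (Fintype.card Y : ℝ) ≤ Real.exp R := by
          rcases Nat.eq_zero_or_pos (Fintype.card Y) with h0 | h0
          · rw [h0]; simpa using (Real.exp_pos R).le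
          · rw [← Real.log_le_iff_le_exp (by exact_mod_cast h0)]
            exact hD.card.trans (div_le_self (by linarith) (one_le_pow₀ (by linarith)))
        have h3 : 8 / kap R / (1 / 2 ^ (j + 2)) ^ 2 ≤ Real.exp R := by
          have : 8 / kap R / (1 / 2 ^ (j + 2)) ^ 2 = 8 * mm R ^ 70 * (2 ^ (j + 2)) ^ 2 := by
            unfold kap; field_simp
          rw [this]
          calc _ ≤ 8 * mm R ^ 70 * (4 * mm R ^ 64) ^ 2 := by gcongr
            _ = 128 * mm R ^ 198 := by ring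
            _ ≤ _ := hexp
        calc _ ≤ _ := h1
          _ = Fintype.card Y * (8 / kap R / (1 / 2 ^ (j + 2)) ^ 2) * Real.exp (3 * R) := by ring
          _ ≤ Real.exp R * Real.exp R * Real.exp (3 * R) := by gcongr
          _ = Real.exp (5 * R) := by rw [← Real.exp_add, ← Real.exp_add]; ring_nf
  obtain ⟨μ', k1, k2, k3⟩ := key
  have h1 := stage_cost hD hφ n ξ hM1 hM hκ e1 e2 hτ k1 k2 k3 J s t z (by
    simpa only [e4] using hst)
  have h2 : 5120 / epsj j * P * (1 + Real.log (Fintype.card Y)) ≤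
      5120 / epsj j * P * (1 + R / mm R ^ 40) := by
    have := hD.card
    gcongr
  linarith

/-- **LIFE** -/
theorem life : LIFE := by
  classical
  obtain ⟨C0, hC0, hcand⟩ := cand_life
  obtain ⟨R₀, hpar⟩ := num_par
  obtain ⟨C1, R₁, hlow⟩ := num_low
  obtain ⟨C2, R₂, htau⟩ := num_tau
  obtain ⟨C3, R₃, hrest⟩ := num_rest C0 hC0
  refine ⟨C1 + 1024 * C2 + C3, max (max R₀ R₁) (max R₂ R₃), ?_⟩
  intro R P μ Y Ω _ _ h α ℓ A lam Z φ n ξ hR hD hφ
  simp only [max_le_iff] at hR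
  obtain ⟨hR1, hm, hexp, i1, hi1, hi2, hw⟩ := hpar R hR.1.1
  have hP := hD.hP
  have hm0 : 0 < mm R := by linarith
  have hm1 : 1 ≤ mm R := by linarith
  set ε : ℝ := (mm R ^ 66)⁻¹ with hε
  have hε0 : 0 < ε := by positivity
  have hε1 : ε ≤ 1 := inv_le_one_of_one_le₀ (one_le_pow₀ hm1)
  have hκ : 0 < kap R := by unfold kap; positivity
  have hκ1 : kap R ≤ 1 := inv_le_one_of_one_le₀ (one_le_pow₀ hm1)
  have hκε : kap R ≤ ε := inv_anti₀ (by positivity) (pow_le_pow_right₀ hm1 (by norm_num))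
  have h16 : 16 * mm R ^ 64 * ε ≤ 1 := by
    rw [hε, ← div_eq_mul_inv, div_le_one (by positivity)]
    calc 16 * mm R ^ 64 ≤ mm R ^ 2 * mm R ^ 64 := by gcongr; nlinarith
      _ = _ := by ring
  have hi3 : (2 : ℝ) ^ (i1 + 2) ≤ 4 * mm R ^ 64 := by rw [pow_succ]; linarith
  obtain ⟨Cd, hCd, hc⟩ := hcand Y Ω R P μ h α ℓ A lam Z ε n hD hR1 hm1 hε0 hε1
  have hsplit := fun (l : List Bool) (ω : Ω) => path_split hD (hφ ω) hε0 hκ hκ1 i1 (3 * (i1 + 1))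
    (by
      calc 6 * ε * 2 ^ (i1 + 1) ≤ 6 * ε * (2 * mm R ^ 64) := by gcongr
        _ ≤ 1 := by nlinarith [mul_pos hε0 (pow_pos hm0 64)])
    (by
      calc (3 * ε + kap R) * 2 ^ (i1 + 2) ≤ (3 * ε + ε) * (4 * mm R ^ 64) := by gcongr
        _ ≤ 1 := by nlinarith)
    (by rw [hε, one_div, inv_inv]; exact hw) hc (ξ l + Z ω) l
  choose T J s t z hT hsm hle hst using hsplit
  have hM1 : 1 ≤ MM C0 R := le_add_of_nonneg_right (by positivity)
  have hM : avg n (Cand.cnt Cd n) ≤ MM C0 R := hCd.trans (le_add_of_nonneg_left zero_le_one)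
  have hc1 : (1 : ℝ) / 2 ^ (i1 + 1) ≤ 1 := by
    rw [div_le_one (by positivity)]; exact one_le_pow₀ (by norm_num)
  have hL : ∀ ω, avg n (fun l => ‖Wn h α ℓ A (φ ω) (ξ l + Z ω) l 0 (T l ω)‖) ≤
      P * (C1 * (R / mm R)) := by
    intro ω
    have h1 := low_Wn hD hR1 hm1 (hφ ω) (c := 1 / 2 ^ (i1 + 1)) (by positivity) hc1 n
      (fun l => ξ l + Z ω) (fun l => T l ω) (fun l hl => hl ▸ hT l ω) (fun l _ => hsm l ω)
    have h2 := mul_le_mul_of_nonneg_left (hlow R hR.1.2 i1 hi1 hi2) hP.le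
    linarith
  have hS : ∀ j ∈ Finset.range (i1 + 1),
      ∑ ω, lam ω * avg n (fun l => ‖Wn h α ℓ A (φ ω) (ξ l + Z ω) l (s l ω j) (t l ω j)‖) ≤
      P * (1024 * (epsj j * tauj R j) + (1024 * epsj j * (Real.log (MM C0 R) + 2) +
        5120 / epsj j * (1 + R / mm R ^ 40) + 3)) := by
    intro j hj
    have hj' : j ≤ i1 := Nat.lt_succ_iff.1 (Finset.mem_range.1 hj)
    refine main_stage hD hR1 hm hexp hφ n ξ hM1 hM j
      ((pow_le_pow_right₀ (by norm_num) (by omega)).trans hi3) (fun l ω => J l ω j)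
      (fun l ω => s l ω j) (fun l ω => t l ω j) (fun l ω => z l ω j) fun l hl ω h0 => ?_
    have := hst l ω j hj' h0
    rwa [hl] at this
  have hω : ∀ ω, avg n (fun l => ‖Wn h α ℓ A (φ ω) (ξ l + Z ω) l 0 (n - 1)‖) ≤
      P * (C1 * (R / mm R)) + ∑ j ∈ Finset.range (i1 + 1), (3 * P * (((3 * (i1 + 1) : ℕ) : ℝ) + 1) +
        avg n (fun l => ‖Wn h α ℓ A (φ ω) (ξ l + Z ω) l (s l ω j) (t l ω j)‖)) := by
    intro ω
    refine (avg_mono_len n fun l hl => by simpa only [hl] using hle l ω).trans ?_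
    rw [avg_add', avg_sum]
    refine add_le_add (hL ω) (Finset.sum_le_sum fun j _ => ?_)
    rw [avg_add', avg_const]
  have h1 : ∑ ω, lam ω * avg n (fun l => ‖Wn h α ℓ A (φ ω) (ξ l + Z ω) l 0 (n - 1)‖) ≤
      P * (C1 * (R / mm R)) + ∑ j ∈ Finset.range (i1 + 1),
        (3 * P * (((3 * (i1 + 1) : ℕ) : ℝ) + 1) + ∑ ω, lam ω *
          avg n (fun l => ‖Wn h α ℓ A (φ ω) (ξ l + Z ω) l (s l ω j) (t l ω j)‖)) := by
    refine (Finset.sum_le_sum fun ω _ => mul_le_mul_of_nonneg_left (hω ω) (hD.lnn ω)).trans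
      (le_of_eq ?_)
    have gen : ∀ (a b : ℝ) (X : Ω → ℕ → ℝ), ∑ ω, lam ω * (a + ∑ j ∈ Finset.range (i1 + 1),
        (b + X ω j)) = a + ∑ j ∈ Finset.range (i1 + 1), (b + ∑ ω, lam ω * X ω j) := by
      intro a b X
      simp only [mul_add, Finset.mul_sum, Finset.sum_add_distrib]
      rw [← Finset.sum_mul, hD.lone, one_mul, Finset.sum_comm (s := Finset.univ)
        (f := fun ω j => lam ω * X ω j), Finset.sum_comm (s := Finset.univ)]
      simp only [← Finset.sum_mul, hD.lone, one_mul]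
    exact gen _ _ _
  have h2 := mul_le_mul_of_nonneg_left (htau R hR.2.1 i1) hP.le
  have h3 := mul_le_mul_of_nonneg_left (hrest R hR.2.2 i1 hi2) hP.le
  have h4 : ∑ j ∈ Finset.range (i1 + 1),
        (3 * P * (((3 * (i1 + 1) : ℕ) : ℝ) + 1) + ∑ ω, lam ω *
          avg n (fun l => ‖Wn h α ℓ A (φ ω) (ξ l + Z ω) l (s l ω j) (t l ω j)‖)) ≤
      1024 * (P * ∑ j ∈ Finset.range (i1 + 1), epsj j * tauj R j) +
      P * ∑ j ∈ Finset.range (i1 + 1), (3 * (((3 * (i1 + 1) : ℕ) : ℝ) + 1) +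
        1024 * epsj j * (Real.log (MM C0 R) + 2) + 5120 / epsj j * (1 + R / mm R ^ 40) + 3) := by
    rw [Finset.mul_sum, Finset.mul_sum, Finset.mul_sum, ← Finset.sum_add_distrib]
    refine Finset.sum_le_sum fun j hj => ?_
    have := hS j hj
    linarith
  linarith

end Crest.Agent.R100.Life
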