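import Crest.Agent.R100.LifeDefs
import Crest.Agent.R100.RunLoc
import Crest.Agent.R100.Pen
import Crest.Agent.R100.LowFamA

/-! # Row 100, LIFE (helper96): the run estimate for one life -/

set_option autoImplicit false
set_option linter.unusedSectionVars false

open MeasureTheory Set

noncomputable section

namespace Crest.Agent.R100.Life

open Crest.Agent.R100 Crest.Agent.R100.Low Crest.Agent.R100.Run

variable {Y Ω : Type} [Fintype Y] [Fintype Ω] {R P μ : ℝ} {h : Y → List Bool → ℝ → ℝ} {α ℓ : ℝ}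
  {A : List Bool → Prop} {lam Z : Ω → ℝ}

theorem Data.h96_sup (hD : Data R P μ h α ℓ A lam Z) (y : Y) (v : List Bool) (t : ℝ) :
    h y v t ≤ Real.exp (3 * R) * P := by
  induction v using List.reverseRecOn with
  | nil => exact hD.sup y t
  | append_singleton v c ih => exact le_trans (hD.dec y v c t) ih

theorem Data.h96_norm (hD : Data R P μ h α ℓ A lam Z) (y : Y) (v : List Bool) (t : ℝ) :
    ‖(h y v t : ℂ)‖ ≤ Real.exp (3 * R) * P := by
  rw [Complex.norm_real, Real.norm_of_nonneg (hD.nn y v t)]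
  exact hD.h96_sup y v t

theorem Data.h96_meas (hD : Data R P μ h α ℓ A lam Z) (y : Y) (v : List Bool) :
    Measurable fun t => (h y v t : ℂ) :=
  Complex.measurable_ofReal.comp (hD.meas y v)

theorem Data.h96_int (hD : Data R P μ h α ℓ A lam Z) (y : Y) (v : List Bool) (a b : ℝ) :
    IntervalIntegrable (h y v) volume a b :=
  lowFamA_bdd (hD.meas y v).aestronglyMeasurable (M := Real.exp (3 * R) * P)
    (fun t => by rw [Real.norm_of_nonneg (hD.nn y v t)]; exact hD.h96_sup y v t) a b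

theorem h96_ms_cast (h : Y → List Bool → ℝ → ℝ) (α ℓ : ℝ) (y : Y) (w v : List Bool) :
    (ms h α ℓ y w v : ℂ) = cf h α ℓ 0 y w v := by
  unfold ms cf U cu av ex
  simp [intervalIntegral.integral_ofReal]

theorem Data.h96_cf_mart (hD : Data R P μ h α ℓ A lam Z) (ξ : ℝ) (y : Y) (w v : List Bool) :
    cf h α ℓ ξ y w v = (cf h α ℓ ξ y w (v ++ [false]) + cf h α ℓ ξ y w (v ++ [true])) / 2 :=
  U_mart (hD.h96_meas y w) (hD.h96_norm y w) α hD.hl ξ v

theorem Data.h96_ms_mart (hD : Data R P μ h α ℓ A lam Z) (y : Y) (w v : List Bool) :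
    ms h α ℓ y w v = (ms h α ℓ y w (v ++ [false]) + ms h α ℓ y w (v ++ [true])) / 2 := by
  have := hD.h96_cf_mart 0 y w v
  rw [← h96_ms_cast, ← h96_ms_cast, ← h96_ms_cast] at this
  exact_mod_cast this

theorem Data.h96_ms_nn (hD : Data R P μ h α ℓ A lam Z) (y : Y) (w v : List Bool) :
    0 ≤ ms h α ℓ y w v := by
  have hl := lowFamA_ln_pos hD.hl v
  exact div_nonneg (intervalIntegral.integral_nonneg (by linarith) fun t _ => hD.nn y w t) hl.le

theorem Data.h96_cf_le (hD : Data R P μ h α ℓ A lam Z) (ξ : ℝ) (y : Y) (w v : List Bool) :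
    ‖cf h α ℓ ξ y w v‖ ≤ ms h α ℓ y w v := by
  refine le_trans (lowFamA_cu_le _ ξ _ (lowFamA_ln_pos hD.hl v)) (le_of_eq ?_)
  unfold ca ms av
  congr 1
  refine intervalIntegral.integral_congr fun t _ => ?_
  simp only [Complex.norm_real, Real.norm_of_nonneg (hD.nn y w t)]

theorem Data.h96_cf_sub (hD : Data R P μ h α ℓ A lam Z) (ξ : ℝ) (y : Y) {w w' : List Bool}
    (hw : ∀ t, h y w' t ≤ h y w t) (v : List Bool) :
    ‖cf h α ℓ ξ y w v - cf h α ℓ ξ y w' v‖ ≤ ms h α ℓ y w v - ms h α ℓ y w' v := by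
  have e1 : cf h α ℓ ξ y w v - cf h α ℓ ξ y w' v =
      cu (fun t => ((h y w t - h y w' t : ℝ) : ℂ)) ξ (nd α ℓ v) (ln ℓ v) := by
    unfold cf U cu
    rw [← sub_div, ← intervalIntegral.integral_sub
      (lowFamA_int (hD.h96_meas y w) (hD.h96_norm y w) ξ _ _)
      (lowFamA_int (hD.h96_meas y w') (hD.h96_norm y w') ξ _ _)]
    congr 1
    refine intervalIntegral.integral_congr fun t _ => ?_
    push_cast
    ring
  rw [e1]
  refine le_trans (lowFamA_cu_le _ ξ _ (lowFamA_ln_pos hD.hl v)) (le_of_eq ?_)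
  unfold ca ms av
  rw [← sub_div, ← intervalIntegral.integral_sub (hD.h96_int y w _ _) (hD.h96_int y w' _ _)]
  congr 1
  refine intervalIntegral.integral_congr fun t _ => ?_
  simp only [Complex.norm_real, Real.norm_of_nonneg (sub_nonneg.2 (hw t))]

open Classical in
/-- the masses of the run, after the removals -/
def pA (h : Y → List Bool → ℝ → ℝ) (α ℓ : ℝ) (A : List Bool → Prop) (y : Y) (v : List Bool) : ℝ :=
  if A v then ms h α ℓ y v v else 0

open Classical in
/-- the masses of the run, before the removals -/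
def pcA (h : Y → List Bool → ℝ → ℝ) (α ℓ : ℝ) (A : List Bool → Prop) (y : Y) (v : List Bool) : ℝ :=
  if v = [] then pA h α ℓ A y [] else if A v.dropLast then ms h α ℓ y v.dropLast v else 0

open Classical in
/-- the coefficients of the run, after the removals -/
def uA (h : Y → List Bool → ℝ → ℝ) (α ℓ : ℝ) (A : List Bool → Prop) (ξ : ℝ) (y : Y)
    (v : List Bool) : ℂ :=
  if A v then cf h α ℓ ξ y v v else 0

open Classical in
/-- the coefficients of the run, before the removals -/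
def ucA (h : Y → List Bool → ℝ → ℝ) (α ℓ : ℝ) (A : List Bool → Prop) (ξ : ℝ) (y : Y)
    (v : List Bool) : ℂ :=
  if v = [] then uA h α ℓ A ξ y [] else if A v.dropLast then cf h α ℓ ξ y v.dropLast v else 0

open Classical in
theorem pcA_snoc (y : Y) (v : List Bool) (c : Bool) :
    pcA h α ℓ A y (v ++ [c]) = if A v then ms h α ℓ y v (v ++ [c]) else 0 := by
  simp [pcA]

open Classical in
theorem ucA_snoc (ξ : ℝ) (y : Y) (v : List Bool) (c : Bool) :
    ucA h α ℓ A ξ y (v ++ [c]) = if A v then cf h α ℓ ξ y v (v ++ [c]) else 0 := by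
  simp [ucA]

theorem Data.h96_par (hD : Data R P μ h α ℓ A lam Z) {v : List Bool} {c : Bool}
    (hA : A (v ++ [c])) : A v := by
  simpa using hD.her _ v.length hA

theorem Data.ruA (hD : Data R P μ h α ℓ A lam Z) (ξ : ℝ) :
    RU 1 (pA h α ℓ A) (pcA h α ℓ A) (uA h α ℓ A ξ) (ucA h α ℓ A ξ) := by
  refine ⟨fun y v => ?_, fun y v => ?_, fun y v => ?_⟩
  · rw [ucA_snoc, ucA_snoc, uA]
    split_ifs
    · exact hD.h96_cf_mart ξ y v v
    · simp
  · rw [uA, pA, one_mul]
    split_ifs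
    · exact hD.h96_cf_le ξ y v v
    · simp
  · rcases List.eq_nil_or_concat' v with rfl | ⟨w, c, rfl⟩
    · simp [ucA, pcA]
    · rw [ucA_snoc, pcA_snoc, uA, pA, one_mul]
      by_cases h1 : A (w ++ [c])
      · simp only [if_pos h1, if_pos (hD.h96_par h1)]
        exact hD.h96_cf_sub ξ y (hD.dec y w c) _
      · simp only [if_neg h1, sub_zero]
        split_ifs
        · exact hD.h96_cf_le ξ y _ _
        · simp

theorem Data.rpA (hD : Data R P μ h α ℓ A lam Z) : RP (pA h α ℓ A) (pcA h α ℓ A) := by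
  refine ⟨fun y v => ?_, fun y v => ?_, fun y v => ?_⟩
  · rw [pA]
    split_ifs
    · exact hD.h96_ms_nn y v v
    · exact le_rfl
  · have := le_trans (norm_nonneg _) ((hD.ruA 0).rem y v)
    linarith
  · rw [pcA_snoc, pcA_snoc, pA]
    split_ifs
    · exact hD.h96_ms_mart y v v
    · simp

theorem Data.pA_sum (hD : Data R P μ h α ℓ A lam Z) (v : List Bool) :
    ∑ y, pA h α ℓ A y v ≤ P := by
  by_cases h1 : A v
  · simp only [pA, if_pos h1]; exact hD.mass v h1
  · simp only [pA, if_neg h1]; simpa using hD.hP.le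

theorem Data.Sz_le (hD : Data R P μ h α ℓ A lam Z) (ξ : ℝ) (v : List Bool) {b : ℝ} (hb : 0 ≤ b)
    (hS : A v → SS h α ℓ ξ v ≤ b) : Sz (pA h α ℓ A) (uA h α ℓ A ξ) v ≤ b := by
  by_cases h1 : A v
  · refine le_trans (Finset.sum_le_sum fun y _ => ?_) (hS h1)
    simp only [pA, uA, if_pos h1]
    have h2 := hD.h96_cf_le ξ y v v
    have h3 := norm_nonneg (cf h α ℓ ξ y v v)
    refine div_le_of_le_mul₀ (hD.h96_ms_nn y v v) h3 ?_
    nlinarith
  · simpa [Sz, uA, if_neg h1] using hb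

open Classical in
/-- the increments of one cell -/
def dA (h : Y → List Bool → ℝ → ℝ) (α ℓ : ℝ) (A : List Bool → Prop) (ξ : ℝ) (y : Y)
    (v : List Bool) : ℂ :=
  if A v then dd h α ℓ ξ y v else 0

theorem Wn_eq (φ : Y → ℂ) (ζ : ℝ) (l : List Bool) (s t : ℕ) :
    Wn h α ℓ A φ ζ l s t = ∑ y, φ y * wD (dA h α ℓ A ζ y) l s t := by
  unfold Wn wD tD dA
  simp only [Finset.mul_sum]
  rw [Finset.sum_comm]
  refine Finset.sum_congr rfl fun k _ => ?_
  split_ifs
  · rw [Finset.mul_sum]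
    exact Finset.sum_congr rfl fun y _ => by ring
  · simp

theorem Wn_le {φ : Y → ℂ} (hφ : ∀ y, ‖φ y‖ ≤ 1) (ζ : ℝ) (l : List Bool) (s t : ℕ) :
    ‖Wn h α ℓ A φ ζ l s t‖ ≤ ∑ y, ‖wD (dA h α ℓ A ζ y) l s t‖ := by
  rw [Wn_eq]
  refine le_trans (norm_sum_le _ _) (Finset.sum_le_sum fun y _ => ?_)
  rw [norm_mul]
  exact mul_le_of_le_one_left (norm_nonneg _) (hφ y)

open Classical in
/-- **RUN for one life.** The active members `(l, ω)` carry a label `lab l ω` with root `ρ` and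
frequency `ζ`; the size of `ζ` is at most `ε² P` from the root to the end of the window; the law of
the label given the path is at most `e^τ q`. -/
theorem life_run (hD : Data R P μ h α ℓ A lam Z) {ι : Type} (J : Finset ι) (ρ : ι → List Bool)
    (ζ : ι → ℝ) {ε M τ : ℝ} (hε : 0 < ε) (hε1 : ε ≤ 1) (hM : 1 ≤ M) (hτ : 0 ≤ τ)
    (φ : Ω → Y → ℂ) (hφ : ∀ ω y, ‖φ ω y‖ ≤ 1) (n : ℕ) (act : List Bool → Ω → Prop)
    (lab : List Bool → Ω → ι) (s t : List Bool → Ω → ℕ) (q : ι → ℝ) (hq : ∀ j ∈ J, 0 ≤ q j)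
    (hq1 : ∑ j ∈ J, q j / 2 ^ (ρ j).length ≤ M)
    (hact : ∀ l, l.length = n → ∀ ω, act l ω → lab l ω ∈ J ∧ ρ (lab l ω) <+: l ∧
      (s l ω < t l ω → (ρ (lab l ω)).length ≤ s l ω ∧ t l ω ≤ n ∧
        ∀ k, (ρ (lab l ω)).length ≤ k → k ≤ t l ω → A (l.take k) →
          SS h α ℓ (ζ (lab l ω)) (l.take k) ≤ ε ^ 2 * P))
    (hw : ∀ l, l.length = n → ∀ j ∈ J,
      ∑ ω, (if act l ω ∧ lab l ω = j then lam ω else 0) ≤ Real.exp τ * q j) :
    ∑ ω, lam ω * avg n (fun l =>
        if act l ω then ‖Wn h α ℓ A (φ ω) (ζ (lab l ω)) l (s l ω) (t l ω)‖ else 0) ≤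
      1024 * ε * P * (τ + Real.log M + 2) +
        5120 / ε * P * (1 + Real.log (Fintype.card Y)) := by
  have hP := hD.hP
  set w : List Bool → ι → ℝ := fun l j => ∑ ω, if act l ω ∧ lab l ω = j then lam ω else 0 with hwd
  set G : List Bool → ι → Ω → ℝ := fun l j ω => ∑ y, ‖wD (dA h α ℓ A (ζ j) y) l (s l ω) (t l ω)‖
    with hG
  have hch : ∀ l j, ∃ st : ℕ × ℕ,
      (w l j ≠ 0 → ∃ ω, act l ω ∧ lab l ω = j ∧ st = (s l ω, t l ω)) ∧
      ∀ ω, act l ω → lab l ω = j →
        G l j ω ≤ ∑ y, ‖wD (dA h α ℓ A (ζ j) y) l st.1 st.2‖ := by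
    intro l j
    by_cases hne : (Finset.univ.filter fun ω => act l ω ∧ lab l ω = j).Nonempty
    · obtain ⟨ω, h1, h2⟩ := Finset.exists_max_image _ (G l j) hne
      have h1' := (Finset.mem_filter.1 h1).2
      exact ⟨(s l ω, t l ω), fun _ => ⟨ω, h1'.1, h1'.2, rfl⟩,
        fun ω' a b => h2 ω' (Finset.mem_filter.2 ⟨Finset.mem_univ _, a, b⟩)⟩
    · have hno : ∀ ω, ¬(act l ω ∧ lab l ω = j) := fun ω hh =>
        hne ⟨ω, Finset.mem_filter.2 ⟨Finset.mem_univ _, hh⟩⟩
      refine ⟨(0, 0), fun h0 => absurd ?_ h0, fun ω a b => absurd ⟨a, b⟩ (hno ω)⟩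
      exact Finset.sum_eq_zero fun ω _ => if_neg (hno ω)
  choose st hst1 hst2 using hch
  have hw0 : ∀ l j, 0 ≤ w l j := fun l j => Finset.sum_nonneg fun ω _ => by
    split_ifs
    · exact hD.lnn ω
    · exact le_rfl
  have key := run_tau J ρ (K := 1) le_rfl hε hε1 hP hM hτ hD.rpA
    (u := fun j => uA h α ℓ A (ζ j)) (uc := fun j => ucA h α ℓ A (ζ j)) (fun j _ => hD.ruA (ζ j))
    (fun j => dA h α ℓ A (ζ j)) (fun j _ y v => by
      rw [ucA_snoc, uA, dA]
      split_ifs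
      · exact le_rfl
      · simp) n (fun l j => (st l j).1) (fun l j => (st l j).2) w q
    (fun l hl j _ h0 => by
      obtain ⟨ω, a, b, e⟩ := hst1 l j h0
      obtain ⟨-, h2, h3⟩ := hact l hl ω a
      rw [b] at h2 h3
      rw [e]
      refine ⟨h2, fun hlt => ?_⟩
      obtain ⟨h4, h5, h6⟩ := h3 hlt
      refine ⟨h4, h5, fun k k1 k2 => ⟨hD.Sz_le _ _ (by positivity) (h6 k k1 k2), ?_⟩⟩
      linarith [hD.pA_sum (l.take k)])
    (fun l _ j _ => hw0 l j) hq hw (fun l _ => by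
      simp only [hwd]
      rw [Finset.sum_comm, ← hD.lone]
      refine Finset.sum_le_sum fun ω _ => ?_
      by_cases hj : lab l ω ∈ J
      · rw [Finset.sum_eq_single_of_mem _ hj fun j _ hne => if_neg fun hh => hne hh.2.symm]
        split_ifs
        · exact le_rfl
        · exact hD.lnn ω
      · rw [Finset.sum_eq_zero fun j hj' => if_neg fun hh => hj (by rw [hh.2]; exact hj')]
        exact hD.lnn ω) hq1
  have hpen := pen_le hD.rpA hD.pA_sum n
  have h1 : ∑ ω, lam ω * avg n (fun l =>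
        if act l ω then ‖Wn h α ℓ A (φ ω) (ζ (lab l ω)) l (s l ω) (t l ω)‖ else 0) ≤
      avg n (fun l => ∑ j ∈ J, w l j * ∑ y, ‖wD (dA h α ℓ A (ζ j) y) l (st l j).1 (st l j).2‖) := by
    rw [Finset.sum_congr rfl fun ω _ => (avg_mul_left n (lam ω) _).symm, ← avg_sum]
    refine avg_mono_len n fun l hl => ?_
    simp only [hwd, Finset.sum_mul]
    rw [Finset.sum_comm]
    refine Finset.sum_le_sum fun ω _ => ?_
    by_cases ha : act l ω
    · rw [if_pos ha, Finset.sum_eq_single_of_mem _ (hact l hl ω ha).1 fun j _ hne => by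
        rw [if_neg fun hh => hne hh.2.symm, zero_mul], if_pos ⟨ha, rfl⟩]
      exact mul_le_mul_of_nonneg_left
        (le_trans (Wn_le (hφ ω) _ l _ _) (hst2 l _ ω ha rfl)) (hD.lnn ω)
    · simp [ha]
  have h2 : 512 * (1 : ℝ) ^ 2 / ε * avg n (pen (pA h α ℓ A) (pcA h α ℓ A) n) ≤
      5120 / ε * P * (1 + Real.log (Fintype.card Y)) := by
    refine le_trans (mul_le_mul_of_nonneg_left hpen (by positivity)) (le_of_eq ?_)
    ring
  linarith

end Crest.Agent.R100.Life
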