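import Crest.Agent.R100.LifeRun

/-! # Row 100, LIFE (helper42): RUN for a life, weighted labels -/

set_option autoImplicit false

open MeasureTheory Set

noncomputable section

namespace Crest.Agent.R100.Life

open Crest.Agent.R100 Crest.Agent.R100.Low Crest.Agent.R100.Run

variable {Y Ω : Type} [Fintype Y] [Fintype Ω] {R P μ : ℝ} {h : Y → List Bool → ℝ → ℝ} {α ℓ : ℝ}
  {A : List Bool → Prop} {lam Z : Ω → ℝ}

theorem dA_eq42 (ξ : ℝ) (y : Y) (v : List Bool) :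
    dA h α ℓ A ξ y v = ucA h α ℓ A ξ y (v ++ [false]) - uA h α ℓ A ξ y v := by
  rw [ucA_snoc, uA, dA]
  split_ifs
  · rfl
  · simp

/-- **RUN for a life** (cellwise form) -/
theorem run_life' (hd : Data R P μ h α ℓ A lam Z) {ι : Type*} (J : Finset ι) (ρ : ι → List Bool)
    (z : ι → ℝ) {ε M τ : ℝ} (hε : 0 < ε) (hε1 : ε ≤ 1) (hM : 1 ≤ M) (hτ : 0 ≤ τ) (n : ℕ)
    (s t : List Bool → ι → ℕ) (w : List Bool → ι → ℝ) (q : ι → ℝ)
    (hst : ∀ l, l.length = n → ∀ j ∈ J, w l j ≠ 0 → ρ j <+: l ∧ (s l j < t l j →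
      (ρ j).length ≤ s l j ∧ t l j ≤ n ∧ ∀ k, (ρ j).length ≤ k → k ≤ t l j →
        A (l.take k) → SS h α ℓ (z j) (l.take k) ≤ ε ^ 2 * P))
    (hw : ∀ l, l.length = n → ∀ j ∈ J, 0 ≤ w l j) (hq : ∀ j ∈ J, 0 ≤ q j)
    (hwq : ∀ l, l.length = n → ∀ j ∈ J, w l j ≤ Real.exp τ * q j)
    (hw1 : ∀ l, l.length = n → ∑ j ∈ J, w l j ≤ 1)
    (hq1 : ∑ j ∈ J, q j / 2 ^ (ρ j).length ≤ M) :
    avg n (fun l => ∑ j ∈ J, w l j * ∑ y, ‖wD (dA h α ℓ A (z j) y) l (s l j) (t l j)‖) ≤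
      1024 * ε * P * (τ + Real.log M + 2) + 5120 / ε * P * (1 + Real.log (Fintype.card Y)) := by
  have hP := hd.hP
  refine le_trans (run_tau J ρ le_rfl hε hε1 hP hM hτ hd.rpA (u := fun j => uA h α ℓ A (z j))
    (uc := fun j => ucA h α ℓ A (z j)) (fun j _ => hd.ruA (z j)) (fun j => dA h α ℓ A (z j))
    (fun j _ y v => by rw [dA_eq42]) n s t w q (fun l hl j hj hw0 => ?_) hw hq hwq hw1 hq1) ?_
  · obtain ⟨h1, h2⟩ := hst l hl j hj hw0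
    refine ⟨h1, fun hlt => ?_⟩
    obtain ⟨h3, h4, h5⟩ := h2 hlt
    refine ⟨h3, h4, fun k hk hk' => ⟨hd.Sz_le _ _ (by positivity) (h5 k hk hk'), ?_⟩⟩
    linarith [hd.pA_sum (l.take k)]
  · have h1 := mul_le_mul_of_nonneg_left (pen_le hd.rpA hd.pA_sum n) (show 0 ≤ 512 * 1 ^ 2 / ε by positivity)
    have e : 512 * 1 ^ 2 / ε * (10 * P * (1 + Real.log (Fintype.card Y))) =
        5120 / ε * P * (1 + Real.log (Fintype.card Y)) := by ring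
    linarith

/-- **RUN for a life** -/
theorem run_life (hd : Data R P μ h α ℓ A lam Z) {ι : Type*} (J : Finset ι) (ρ : ι → List Bool)
    (z : ι → ℝ) {ε M τ : ℝ} (hε : 0 < ε) (hε1 : ε ≤ 1) (hM : 1 ≤ M) (hτ : 0 ≤ τ) (n : ℕ)
    (s t : List Bool → ι → ℕ) (w : List Bool → ι → ℝ) (q : ι → ℝ) (φ : List Bool → ι → Y → ℂ)
    (hφ : ∀ l j y, ‖φ l j y‖ ≤ 1)
    (hst : ∀ l, l.length = n → ∀ j ∈ J, w l j ≠ 0 → ρ j <+: l ∧ (s l j < t l j →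
      (ρ j).length ≤ s l j ∧ t l j ≤ n ∧ ∀ k, (ρ j).length ≤ k → k ≤ t l j →
        A (l.take k) → SS h α ℓ (z j) (l.take k) ≤ ε ^ 2 * P))
    (hw : ∀ l, l.length = n → ∀ j ∈ J, 0 ≤ w l j) (hq : ∀ j ∈ J, 0 ≤ q j)
    (hwq : ∀ l, l.length = n → ∀ j ∈ J, w l j ≤ Real.exp τ * q j)
    (hw1 : ∀ l, l.length = n → ∑ j ∈ J, w l j ≤ 1)
    (hq1 : ∑ j ∈ J, q j / 2 ^ (ρ j).length ≤ M) :
    avg n (fun l => ∑ j ∈ J, w l j * ‖Wn h α ℓ A (φ l j) (z j) l (s l j) (t l j)‖) ≤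
      1024 * ε * P * (τ + Real.log M + 2) + 5120 / ε * P * (1 + Real.log (Fintype.card Y)) :=
  le_trans (avg_mono_len n fun l hl => Finset.sum_le_sum fun j hj =>
    mul_le_mul_of_nonneg_left (Wn_le (hφ l j) _ _ _ _) (hw l hl j hj))
    (run_life' hd J ρ z hε hε1 hM hτ n s t w q hst hw hq hwq hw1 hq1)

end Crest.Agent.R100.Life
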