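import Crest.Agent.R100.LowMax

set_option autoImplicit false

open MeasureTheory Set

noncomputable section

namespace Crest.Agent.R100.Low

open Crest.Agent.R100

/-- the pointwise Gibbs inequality -/
theorem lowDV_pt {p q F B : ℝ} (hp : 0 ≤ p) (hq : 0 ≤ q) (hpq : q = 0 → p = 0) (hB : 0 < B) :
    p * F ≤ p * Real.log (p / q) + p * Real.log B + B⁻¹ * (q * Real.exp F) - p := by
  rcases hp.eq_or_lt with h0 | h0
  · subst h0
    have : 0 ≤ B⁻¹ * (q * Real.exp F) := by positivity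
    simpa using this
  have hq0 : 0 < q := lt_of_le_of_ne hq (fun h => h0.ne' (hpq h.symm))
  have h1 := Real.add_one_le_exp (F - Real.log (p / q) - Real.log B)
  rw [Real.exp_sub, Real.exp_sub, Real.exp_log hB, Real.exp_log (div_pos h0 hq0)] at h1
  have h2 := mul_le_mul_of_nonneg_left h1 hp
  have h3 : p * (Real.exp F / (p / q) / B) = B⁻¹ * (q * Real.exp F) := by
    field_simp
  rw [h3] at h2
  nlinarith

/-- Donsker–Varadhan / Gibbs on a finite set: `E_p F ≤ KL(p‖q) + log E_q e^F` -/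
theorem dv_fin {ι : Type*} (s : Finset ι) (p q F : ι → ℝ) (hp : ∀ i ∈ s, 0 ≤ p i)
    (hq : ∀ i ∈ s, 0 ≤ q i) (hpq : ∀ i ∈ s, q i = 0 → p i = 0) (hp1 : ∑ i ∈ s, p i = 1)
    {B : ℝ} (hB : 0 < B) (hF : ∑ i ∈ s, q i * Real.exp (F i) ≤ B) :
    ∑ i ∈ s, p i * F i ≤ ∑ i ∈ s, p i * Real.log (p i / q i) + Real.log B := by
  have h1 : ∑ i ∈ s, p i * F i ≤ ∑ i ∈ s, (p i * Real.log (p i / q i) + p i * Real.log B +
      B⁻¹ * (q i * Real.exp (F i)) - p i) :=
    Finset.sum_le_sum fun i hi => lowDV_pt (hp i hi) (hq i hi) (hpq i hi) hB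
  rw [Finset.sum_sub_distrib, Finset.sum_add_distrib, Finset.sum_add_distrib, ← Finset.sum_mul,
    ← Finset.mul_sum, hp1] at h1
  have h2 : B⁻¹ * ∑ i ∈ s, q i * Real.exp (F i) ≤ 1 := by
    rw [inv_mul_le_iff₀ hB]; linarith
  linarith

/-- Donsker–Varadhan on (path, label): the label `i` has law `p l ·` given the path `l`, the
reference law of the label is `q` -/
theorem dv_path {ι : Type*} (s : Finset ι) (n : ℕ) (p : List Bool → ι → ℝ) (q : ι → ℝ)
    (F : List Bool → ι → ℝ) (hp : ∀ l, l.length = n → ∀ i ∈ s, 0 ≤ p l i)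
    (hq : ∀ i ∈ s, 0 ≤ q i) (hpq : ∀ l, l.length = n → ∀ i ∈ s, q i = 0 → p l i = 0)
    (hp1 : ∀ l, l.length = n → ∑ i ∈ s, p l i = 1)
    {B : ℝ} (hB : 0 < B) (hF : ∑ i ∈ s, q i * avg n (fun l => Real.exp (F l i)) ≤ B) :
    avg n (fun l => ∑ i ∈ s, p l i * F l i) ≤
      avg n (fun l => ∑ i ∈ s, p l i * Real.log (p l i / q i)) + Real.log B := by
  have h1 : avg n (fun l => ∑ i ∈ s, p l i * F l i) ≤
      avg n (fun l => (∑ i ∈ s, p l i * Real.log (p l i / q i) + (Real.log B - 1)) +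
        B⁻¹ * ∑ i ∈ s, q i * Real.exp (F l i)) := by
    refine avg_mono_len n fun l hl => ?_
    have h1 : ∑ i ∈ s, p l i * F l i ≤ ∑ i ∈ s, (p l i * Real.log (p l i / q i) +
        p l i * Real.log B + B⁻¹ * (q i * Real.exp (F l i)) - p l i) :=
      Finset.sum_le_sum fun i hi => lowDV_pt (hp l hl i hi) (hq i hi) (hpq l hl i hi) hB
    rw [Finset.sum_sub_distrib, Finset.sum_add_distrib, Finset.sum_add_distrib, ← Finset.sum_mul,
      ← Finset.mul_sum, hp1 l hl] at h1
    linarith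
  rw [avg_add', avg_add', avg_const, avg_mul_left,
    avg_sum n s (fun i l => q i * Real.exp (F l i))] at h1
  simp only [avg_mul_left] at h1
  have h2 : B⁻¹ * ∑ i ∈ s, q i * avg n (fun l => Real.exp (F l i)) ≤ 1 := by
    rw [inv_mul_le_iff₀ hB]; linarith
  linarith

/-- Donsker–Varadhan for a density `p` on the paths -/
theorem dv_dens (n : ℕ) (p F : List Bool → ℝ) (hp : ∀ l, l.length = n → 0 ≤ p l)
    (hp1 : avg n p = 1) {B : ℝ} (hB : 0 < B) (hF : avg n (fun l => Real.exp (F l)) ≤ B) :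
    avg n (fun l => p l * F l) ≤ avg n (fun l => p l * Real.log (p l)) + Real.log B := by
  have h1 : avg n (fun l => p l * F l) ≤ avg n (fun l => (p l * Real.log (p l) +
      (Real.log B - 1) * p l) + B⁻¹ * Real.exp (F l)) := by
    refine avg_mono_len n fun l hl => ?_
    have := lowDV_pt (F := F l) (hp l hl) zero_le_one (fun h => absurd h one_ne_zero) hB
    rw [div_one, one_mul] at this
    linarith
  rw [avg_add', avg_add', avg_mul_left, avg_mul_left, hp1] at h1
  have h2 : B⁻¹ * avg n (fun l => Real.exp (F l)) ≤ 1 := by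
    rw [inv_mul_le_iff₀ hB]; linarith
  linarith

/-- Cauchy–Schwarz -/
theorem avg_cs (n : ℕ) (F G : List Bool → ℝ) :
    avg n (fun l => F l * G l) ≤ √(avg n (fun l => F l ^ 2)) * √(avg n (fun l => G l ^ 2)) := by
  have hA : 0 ≤ avg n (fun l => F l ^ 2) := avg_nonneg_len n fun l _ => sq_nonneg _
  have hq : ∀ x : ℝ, 0 ≤ avg n (fun l => F l ^ 2) * (x * x) +
      (-2 * avg n (fun l => F l * G l)) * x + avg n (fun l => G l ^ 2) := fun x => by
    have h := avg_nonneg_len n (F := fun l => ((x * x) * F l ^ 2 + (-2 * x) * (F l * G l)) +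
      G l ^ 2) (fun l _ => by nlinarith [sq_nonneg (x * F l - G l)])
    rw [avg_add', avg_add', avg_mul_left, avg_mul_left] at h
    linarith
  have hd := discrim_le_zero hq
  unfold discrim at hd
  rw [← Real.sqrt_mul hA]
  apply Real.le_sqrt_of_sq_le
  nlinarith

theorem lowDV_tm_take (e u : List Bool → ℂ) (l : List Bool) {m j : ℕ} (h : j + 1 < m) :
    tm e u (l.take m) j = tm e u l j := by
  unfold tm
  have h1 : (l.take m).getD j false = l.getD j false := by
    simp only [List.getD_eq_getElem?_getD, List.getElem?_take]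
    rw [if_pos (by omega)]
  have h2 : (l.take m).getD (j + 1) false = l.getD (j + 1) false := by
    simp only [List.getD_eq_getElem?_getD, List.getElem?_take]
    rw [if_pos h]
  have h3 : (l.take m).take j = l.take j := by
    rw [List.take_take, min_eq_left (by omega)]
  rw [h1, h2, h3]

theorem lowDV_tm_snoc (e u : List Bool → ℂ) (v : List Bool) (c : Bool) {j : ℕ}
    (h : j + 1 < v.length) : tm e u (v ++ [c]) j = tm e u v j := by
  have := lowDV_tm_take e u (v ++ [c]) h
  rw [List.take_left'  rfl] at this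
  exact this.symm

theorem lowDV_tm_last (e u : List Bool → ℂ) (v : List Bool) {j : ℕ} (h : j + 1 = v.length) :
    tm e u (v ++ [true]) j = - tm e u (v ++ [false]) j := by
  unfold tm
  have h1 : ∀ c : Bool, (v ++ [c]).getD j false = v.getD j false := fun c => by
    simp only [List.getD_eq_getElem?_getD]
    rw [List.getElem?_append_left (by omega)]
  have h2 : ∀ c : Bool, (v ++ [c]).getD (j + 1) false = c := fun c => by
    simp only [List.getD_eq_getElem?_getD]
    rw [h, List.getElem?_append_right le_rfl]; simp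
  have h3 : ∀ c : Bool, (v ++ [c]).take j = v.take j := fun c => by
    rw [List.take_append_of_le_length (by omega)]
  rw [h1, h1, h2, h2, h3, h3]
  cases v.getD j false <;> simp [sig]

/-- the exponential supermartingale -/
def lowDV_Z (e u : List Bool → ℂ) (θ : ℝ) (z : ℂ) (v : List Bool) : ℝ :=
  Real.exp (8 * θ * (z * ∑ j ∈ Finset.range (v.length - 1), tm e u v j).re -
    32 * θ ^ 2 * ∑ j ∈ Finset.range (v.length - 1), ‖tm e u v j‖ ^ 2)

theorem lowDV_Z_super (e u : List Bool → ℂ) (θ : ℝ) (z : ℂ) (hz : ‖z‖ = 1) (v : List Bool) :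
    (lowDV_Z e u θ z (v ++ [false]) + lowDV_Z e u θ z (v ++ [true])) / 2 ≤ lowDV_Z e u θ z v := by
  rcases Nat.eq_zero_or_pos v.length with h0 | hpos
  · unfold lowDV_Z
    simp [h0]
  obtain ⟨j, hj⟩ : ∃ j, j + 1 = v.length := ⟨v.length - 1, by omega⟩
  have hl : ∀ c : Bool, (v ++ [c]).length - 1 = j + 1 := fun c => by simp; omega
  have hv : v.length - 1 = j := by omega
  have hs1 : ∀ c : Bool, ∑ i ∈ Finset.range j, tm e u (v ++ [c]) i =
      ∑ i ∈ Finset.range j, tm e u v i := fun c =>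
    Finset.sum_congr rfl fun i hi => lowDV_tm_snoc e u v c (by
      have := Finset.mem_range.1 hi; omega)
  have hs2 : ∀ c : Bool, ∑ i ∈ Finset.range j, ‖tm e u (v ++ [c]) i‖ ^ 2 =
      ∑ i ∈ Finset.range j, ‖tm e u v i‖ ^ 2 := fun c =>
    Finset.sum_congr rfl fun i hi => by
      rw [lowDV_tm_snoc e u v c (by have := Finset.mem_range.1 hi; omega)]
  unfold lowDV_Z
  rw [hl, hl, hv]
  simp only [Finset.sum_range_succ, hs1, hs2, lowDV_tm_last e u v hj, norm_neg]
  set q := tm e u (v ++ [false]) j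
  set A := ∑ i ∈ Finset.range j, tm e u v i
  set B := ∑ i ∈ Finset.range j, ‖tm e u v i‖ ^ 2
  set x := 8 * θ * (z * q).re with hx
  set y := 32 * θ ^ 2 * ‖q‖ ^ 2 with hy
  set w := 8 * θ * (z * A).re - 32 * θ ^ 2 * B with hw
  have e1 : 8 * θ * (z * (A + q)).re - 32 * θ ^ 2 * (B + ‖q‖ ^ 2) = w + (-y) + x := by
    rw [mul_add, Complex.add_re]; simp only [hx, hy, hw]; ring
  have e2 : 8 * θ * (z * (A + -q)).re - 32 * θ ^ 2 * (B + ‖q‖ ^ 2) = w + (-y) + (-x) := by
    rw [mul_add, Complex.add_re, mul_neg, Complex.neg_re]; simp only [hx, hy, hw]; ring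
  rw [e1, e2]
  have hre : (z * q).re ^ 2 ≤ ‖q‖ ^ 2 := by
    have h1 : |(z * q).re| ≤ ‖q‖ := by
      have := Complex.abs_re_le_norm (z * q)
      rwa [norm_mul, hz, one_mul] at this
    exact sq_le_sq' (abs_le.1 h1).1 (abs_le.1 h1).2
  have hxy : x ^ 2 / 2 ≤ y := by
    simp only [hx, hy]; nlinarith [sq_nonneg θ]
  have hc := Real.cosh_le_exp_half_sq x
  rw [Real.cosh_eq] at hc
  have h3 : Real.exp (x ^ 2 / 2) ≤ Real.exp y := Real.exp_le_exp.2 hxy
  have h4 : Real.exp (-y) * Real.exp y = 1 := by rw [← Real.exp_add]; simp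
  simp only [Real.exp_add]
  have hw0 := Real.exp_pos w
  have hy0 := Real.exp_pos (-y)
  have h5 : Real.exp (-y) * ((Real.exp x + Real.exp (-x)) / 2) ≤ 1 := by
    rw [← h4]; exact mul_le_mul_of_nonneg_left (hc.trans h3) hy0.le
  nlinarith

theorem lowDV_one (u e : List Bool → ℂ) (W θ : ℝ) (n : ℕ) (hn : 1 ≤ n)
    (hW : ∀ l, l.length = n → ∑ k ∈ Finset.range n, ‖tm e u l k‖ ^ 2 ≤ W) (z : ℂ) (hz : ‖z‖ = 1)
    (τ : List Bool → ℕ) (hτ : ∀ l, l.length = n → τ l ≤ n - 1) :
    avg n (fun l => Real.exp (4 * θ * (z * ∑ k ∈ Finset.range (τ l), tm e u l k).re)) ≤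
      2 * Real.exp (16 * θ ^ 2 * W) := by
  have hm := max_sqrt (lowDV_Z e u θ z) (fun v => (Real.exp_pos _).le)
    (lowDV_Z_super e u θ z hz) (by unfold lowDV_Z; simp) n (fun l => τ l + 1)
  have h1 : avg n (fun l => Real.exp (4 * θ * (z * ∑ k ∈ Finset.range (τ l), tm e u l k).re)) ≤
      avg n (fun l => Real.exp (16 * θ ^ 2 * W) * √(lowDV_Z e u θ z (l.take (τ l + 1)))) := by
    refine avg_mono_len n fun l hl => ?_
    have ht := hτ l hl
    have hlen : (l.take (τ l + 1)).length - 1 = τ l := by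
      rw [List.length_take, hl, min_eq_left (by omega)]; simp
    have hs1 : ∑ i ∈ Finset.range (τ l), tm e u (l.take (τ l + 1)) i =
        ∑ i ∈ Finset.range (τ l), tm e u l i :=
      Finset.sum_congr rfl fun i hi => lowDV_tm_take e u l (by
        have := Finset.mem_range.1 hi; omega)
    have hs2 : ∑ i ∈ Finset.range (τ l), ‖tm e u (l.take (τ l + 1)) i‖ ^ 2 =
        ∑ i ∈ Finset.range (τ l), ‖tm e u l i‖ ^ 2 :=
      Finset.sum_congr rfl fun i hi => by
        rw [lowDV_tm_take e u l (by have := Finset.mem_range.1 hi; omega)]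
    have hQ : ∑ i ∈ Finset.range (τ l), ‖tm e u l i‖ ^ 2 ≤ W :=
      (Finset.sum_le_sum_of_subset_of_nonneg (Finset.range_subset_range.2 (by omega))
        (fun _ _ _ => sq_nonneg _)).trans (hW l hl)
    unfold lowDV_Z
    rw [hlen, hs1, hs2, ← Real.exp_half, ← Real.exp_add]
    apply Real.exp_le_exp.2
    nlinarith [sq_nonneg θ]
  rw [avg_mul_left] at h1
  have := Real.exp_pos (16 * θ ^ 2 * W)
  nlinarith

theorem lowDV_norm_le (θ : ℝ) (hθ : 0 ≤ θ) (M : ℂ) :
    Real.exp (2 * θ * ‖M‖) ≤ Real.exp (4 * θ * ((1 : ℂ) * M).re) +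
      Real.exp (4 * θ * ((-1 : ℂ) * M).re) + Real.exp (4 * θ * (Complex.I * M).re) +
        Real.exp (4 * θ * ((-Complex.I) * M).re) := by
  have h := Complex.norm_le_abs_re_add_abs_im M
  have p1 := Real.exp_pos (4 * θ * ((1 : ℂ) * M).re)
  have p2 := Real.exp_pos (4 * θ * ((-1 : ℂ) * M).re)
  have p3 := Real.exp_pos (4 * θ * (Complex.I * M).re)
  have p4 := Real.exp_pos (4 * θ * ((-Complex.I) * M).re)
  have e1 : ((1 : ℂ) * M).re = M.re := by simp
  have e2 : ((-1 : ℂ) * M).re = -M.re := by simp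
  have e3 : (Complex.I * M).re = -M.im := by simp
  have e4 : ((-Complex.I) * M).re = M.im := by simp
  have key : ∀ a : ℝ, ‖M‖ ≤ 2 * a → Real.exp (2 * θ * ‖M‖) ≤ Real.exp (4 * θ * a) := fun a ha =>
    Real.exp_le_exp.2 (by nlinarith)
  rcases le_total |M.im| |M.re| with h1 | h1
  · rcases abs_cases M.re with h2 | h2
    · have := key ((1 : ℂ) * M).re (by rw [e1]; linarith [h2.1]); linarith
    · have := key ((-1 : ℂ) * M).re (by rw [e2]; linarith [h2.1]); linarith
  · rcases abs_cases M.im with h2 | h2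
    · have := key ((-Complex.I) * M).re (by rw [e4]; linarith [h2.1]); linarith
    · have := key (Complex.I * M).re (by rw [e3]; linarith [h2.1]); linarith

theorem lowDV_two (u e : List Bool → ℂ) (W θ : ℝ) (hθ : 0 ≤ θ) (n : ℕ) (hn : 1 ≤ n)
    (hW : ∀ l, l.length = n → ∑ k ∈ Finset.range n, ‖tm e u l k‖ ^ 2 ≤ W)
    (τ : List Bool → ℕ) (hτ : ∀ l, l.length = n → τ l ≤ n - 1) :
    avg n (fun l => Real.exp (2 * θ * ‖∑ k ∈ Finset.range (τ l), tm e u l k‖)) ≤
      8 * Real.exp (16 * θ ^ 2 * W) := by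
  have h1 := lowDV_one u e W θ n hn hW 1 (by simp) τ hτ
  have h2 := lowDV_one u e W θ n hn hW (-1) (by simp) τ hτ
  have h3 := lowDV_one u e W θ n hn hW Complex.I (by simp) τ hτ
  have h4 := lowDV_one u e W θ n hn hW (-Complex.I) (by simp) τ hτ
  have h5 := avg_mono_len n (fun l (_ : l.length = n) =>
    lowDV_norm_le θ hθ (∑ k ∈ Finset.range (τ l), tm e u l k))
  rw [avg_add', avg_add', avg_add'] at h5
  linarith

/-- sub-Gaussian form of ONE top: a martingale with `QV ≤ W` on every path -/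
theorem subg_exp (u e : List Bool → ℂ) (W θ : ℝ) (hθ : 0 ≤ θ) (n : ℕ)
    (hW : ∀ l, l.length = n → ∑ k ∈ Finset.range n, ‖tm e u l k‖ ^ 2 ≤ W)
    (s t : List Bool → ℕ) (ht : ∀ l, l.length = n → t l ≤ n - 1) :
    avg n (fun l => Real.exp (θ * ‖win e u l (s l) (t l)‖)) ≤ 16 * Real.exp (16 * θ ^ 2 * W) := by
  rcases Nat.eq_zero_or_pos n with rfl | hn
  · have h1 := ht [] rfl
    have h2 := hW [] rfl
    have h3 : t [] = 0 := by omega
    simp only [avg, win, h3]
    simp only [Finset.range_zero, Finset.sum_empty] at h2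
    have : 1 ≤ Real.exp (16 * θ ^ 2 * W) := Real.one_le_exp (by positivity)
    simp
    linarith
  have h1 := lowDV_two u e W θ hθ n hn hW t ht
  have h2 := lowDV_two u e W θ hθ n hn hW (fun l => min (s l) (t l))
    (fun l hl => (min_le_right _ _).trans (ht l hl))
  have h3 : avg n (fun l => Real.exp (θ * ‖win e u l (s l) (t l)‖)) ≤
      avg n (fun l => Real.exp (2 * θ * ‖∑ k ∈ Finset.range (t l), tm e u l k‖) +
        Real.exp (2 * θ * ‖∑ k ∈ Finset.range (min (s l) (t l)), tm e u l k‖)) := by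
    refine avg_mono_len n fun l _ => ?_
    have hw : win e u l (s l) (t l) = ∑ k ∈ Finset.range (t l), tm e u l k -
        ∑ k ∈ Finset.range (min (s l) (t l)), tm e u l k := by
      unfold win
      rcases le_total (s l) (t l) with h | h
      · rw [min_eq_left h, Finset.sum_Ico_eq_sub _ h]
      · rw [min_eq_right h, Finset.Ico_eq_empty_of_le h]; simp
    rw [hw]
    set a := ∑ k ∈ Finset.range (t l), tm e u l k
    set b := ∑ k ∈ Finset.range (min (s l) (t l)), tm e u l k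
    have hab := norm_sub_le a b
    have p1 := Real.exp_pos (2 * θ * ‖a‖)
    have p2 := Real.exp_pos (2 * θ * ‖b‖)
    rcases le_total ‖a‖ ‖b‖ with h | h
    · have : Real.exp (θ * ‖a - b‖) ≤ Real.exp (2 * θ * ‖b‖) := Real.exp_le_exp.2 (by nlinarith)
      linarith
    · have : Real.exp (θ * ‖a - b‖) ≤ Real.exp (2 * θ * ‖a‖) := Real.exp_le_exp.2 (by nlinarith)
      linarith
  rw [avg_add'] at h3
  linarith

end Crest.Agent.R100.Low
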