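import Crest.Agent.R100.LowOne
import Crest.Agent.R100.LowUnion

set_option autoImplicit false

open MeasureTheory Set

noncomputable section

namespace Crest.Agent.R100.Low

open Crest.Agent.R100

theorem lowLevel_sig_le (c c' : Bool) : ‖(sig c c' : ℂ)‖ ≤ 1 := by
  cases c <;> cases c' <;> simp [sig]

theorem lowLevel_take_succ (e u : List Bool → ℂ) (l : List Bool) (k : ℕ) (hk : k < l.length)
    (h : tm e u l k ≠ 0) : l.take (k + 1) = l.take k ++ [false] := by
  have h1 : l.getD k false = false := by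
    by_contra h2
    apply h
    have h3 : l.getD k false = true := by simpa using h2
    simp only [tm, h3, sig]
    simp
  rw [List.take_add_one]
  have h4 : l[k]? = some false := by
    rw [List.getD_eq_getElem?_getD, List.getElem?_eq_getElem hk] at h1
    rw [List.getElem?_eq_getElem hk]
    simpa using h1
  rw [h4]; rfl

theorem lowLevel_tm_le (e u : List Bool → ℂ) (he : ∀ v, ‖e v‖ ≤ 1) (l : List Bool) (k : ℕ) :
    ‖tm e u l k‖ ≤ ‖u (l.take k ++ [false]) - u (l.take k)‖ := by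
  unfold tm
  rw [norm_mul, norm_mul]
  have h1 := lowLevel_sig_le (l.getD k false) (l.getD (k + 1) false)
  have h2 := he (l.take k)
  have h3 := norm_nonneg (u (l.take k ++ [false]) - u (l.take k))
  have h4 := norm_nonneg (e (l.take k))
  calc _ ≤ 1 * (1 * ‖u (l.take k ++ [false]) - u (l.take k)‖) := by gcongr
    _ = _ := by ring

theorem lowLevel_head (e u : List Bool → ℂ) (l : List Bool) (s t L : ℕ) (b : ℝ) (hb : 0 ≤ b)
    (h : ∀ k, s ≤ k → k < t → ‖tm e u l k‖ ≤ b) :
    ‖win e u l s t‖ ≤ b * L + ‖win e u l (s + L) t‖ := by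
  have key : ∀ m, m ≤ t → m ≤ s + L → ‖win e u l s m‖ ≤ b * L := by
    intro m hm hm'
    unfold win
    calc _ ≤ ∑ k ∈ Finset.Ico s m, ‖tm e u l k‖ := norm_sum_le _ _
      _ ≤ ∑ k ∈ Finset.Ico s m, b := Finset.sum_le_sum fun k hk => by
          rw [Finset.mem_Ico] at hk
          exact h k hk.1 (by omega)
      _ = ((m - s : ℕ) : ℝ) * b := by simp
      _ ≤ (L : ℝ) * b := by
          gcongr
          omega
      _ = b * L := by ring
  rcases le_total t (s + L) with h1 | h1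
  · have := key t le_rfl h1
    have := norm_nonneg (win e u l (s + L) t)
    linarith
  · have h2 : win e u l s t = win e u l s (s + L) + win e u l (s + L) t := by
      unfold win
      rw [Finset.sum_Ico_consecutive _ (by omega) h1]
    rw [h2]
    have := key (s + L) h1 le_rfl
    have := norm_add_le (win e u l s (s + L)) (win e u l (s + L) t)
    linarith

theorem lowLevel_tail (e u e' u' : List Bool → ℂ) (ω : ℂ) (hω : ‖ω‖ = 1) (l : List Bool)
    (a t : ℕ) (b : ℝ) (hb : 0 ≤ b)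
    (h : ∀ k, a ≤ k → k < t → ‖tm e u l k - ω * tm e' u' l k‖ ≤ b * (1 / 2) ^ (k - a)) :
    ‖win e u l a t‖ ≤ 2 * b + ‖win e' u' l a t‖ := by
  have h1 : win e u l a t = ∑ k ∈ Finset.Ico a t, (tm e u l k - ω * tm e' u' l k) +
      ω * win e' u' l a t := by
    unfold win
    rw [Finset.sum_sub_distrib, Finset.mul_sum]; ring
  have h2 : ‖∑ k ∈ Finset.Ico a t, (tm e u l k - ω * tm e' u' l k)‖ ≤ 2 * b := by
    calc _ ≤ ∑ k ∈ Finset.Ico a t, ‖tm e u l k - ω * tm e' u' l k‖ := norm_sum_le _ _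
      _ ≤ ∑ k ∈ Finset.Ico a t, b * (1 / 2) ^ (k - a) := Finset.sum_le_sum fun k hk => by
          rw [Finset.mem_Ico] at hk
          exact h k hk.1 hk.2
      _ = b * ∑ i ∈ Finset.range (t - a), (1 / 2 : ℝ) ^ i := by
          rw [Finset.sum_Ico_eq_sum_range, Finset.mul_sum]
          refine Finset.sum_congr rfl fun i _ => ?_
          rw [Nat.add_sub_cancel_left]
      _ ≤ b * 2 := by
          gcongr
          exact sum_geometric_two_le _
      _ = 2 * b := by ring
  rw [h1]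
  have h3 := norm_add_le (∑ k ∈ Finset.Ico a t, (tm e u l k - ω * tm e' u' l k))
    (ω * win e' u' l a t)
  rw [norm_mul, hω, one_mul] at h3
  linarith

open Classical in
/-- the truncated multiplier -/
def lowLevelE (e u : List Bool → ℂ) (b : ℝ) (v : List Bool) : ℂ :=
  if ‖u v‖ ≤ b ∧ ‖u (v ++ [false])‖ ≤ b then e v else 0

theorem lowLevel_cmp (e u u' : List Bool → ℂ) (he : ∀ v, ‖e v‖ ≤ 1) (ω : ℂ) (hω : ‖ω‖ = 1)
    (l : List Bool) (k : ℕ) (δ ε : ℝ) (hε0 : 0 ≤ ε) (hε : ε ≤ δ / 2)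
    (hlip : e (l.take k) ≠ 0 → ‖u (l.take k) - ω * u' (l.take k)‖ ≤ ε ∧
      ‖u (l.take k ++ [false]) - ω * u' (l.take k ++ [false])‖ ≤ 2 * ε)
    (hsm : tm e u l k ≠ 0 → ‖u (l.take k)‖ ≤ δ ∧ ‖u (l.take k ++ [false])‖ ≤ δ) :
    ‖tm e u l k - ω * tm (lowLevelE e u' (2 * δ)) u' l k‖ ≤ 3 * ε := by
  by_cases h0 : e (l.take k) = 0
  · have h1 : tm e u l k = 0 := by simp [tm, h0]
    have h2 : tm (lowLevelE e u' (2 * δ)) u' l k = 0 := by simp [tm, lowLevelE, h0]
    rw [h1, h2]; simp; linarith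
  obtain ⟨h1, h2⟩ := hlip h0
  by_cases hi : ‖u' (l.take k)‖ ≤ 2 * δ ∧ ‖u' (l.take k ++ [false])‖ ≤ 2 * δ
  · have h3 : tm e u l k - ω * tm (lowLevelE e u' (2 * δ)) u' l k =
        tm e (fun x => u x - ω * u' x) l k := by
      simp only [tm, lowLevelE, if_pos hi]; ring
    rw [h3]
    refine (lowLevel_tm_le e _ he l k).trans ?_
    refine (norm_sub_le _ _).trans ?_
    linarith
  · have h3 : tm (lowLevelE e u' (2 * δ)) u' l k = 0 := by
      simp only [tm, lowLevelE, if_neg hi]; simp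
    have h4 : tm e u l k = 0 := by
      by_contra h5
      obtain ⟨h6, h7⟩ := hsm h5
      apply hi
      have k1 : ∀ x y : ℂ, ‖y‖ ≤ ‖x‖ + ‖x - ω * y‖ := fun x y => by
        have := norm_sub_le x (x - ω * y)
        rw [sub_sub_cancel, norm_mul, hω, one_mul] at this
        exact this
      have := k1 (u (l.take k)) (u' (l.take k))
      have := k1 (u (l.take k ++ [false])) (u' (l.take k ++ [false]))
      constructor <;> linarith
    rw [h3, h4]; simp; linarith

theorem lowLevel_L (R δ : ℝ) (hR : 1 ≤ R) (hδ : 0 < δ) (hδ2 : δ ≤ 2) :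
    ∃ L : ℕ, 1 ≤ L ∧ (L : ℝ) ≤ 9 + 2 * R + 6 * Real.log (2 / δ) ∧
      32 * Real.exp R * (2 / δ) ^ 3 ≤ 2 ^ L := by
  have h1 : 1 ≤ 2 / δ := by rw [le_div_iff₀ hδ]; linarith
  have hl : 0 ≤ Real.log (2 / δ) := Real.log_nonneg h1
  refine ⟨⌈2 * (4 + R + 3 * Real.log (2 / δ))⌉₊, ?_, ?_, ?_⟩
  · rw [Nat.one_le_ceil_iff]; positivity
  · have := Nat.ceil_lt_add_one (a := 2 * (4 + R + 3 * Real.log (2 / δ))) (by positivity)
    linarith
  · set L := ⌈2 * (4 + R + 3 * Real.log (2 / δ))⌉₊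
    have h2 : 2 * (4 + R + 3 * Real.log (2 / δ)) ≤ L := Nat.le_ceil _
    have h3 : (2 : ℝ) ^ L = Real.exp (L * Real.log 2) := by
      rw [Real.exp_nat_mul, Real.exp_log (by norm_num)]
    have h4 : (1 / 2 : ℝ) ≤ Real.log 2 := by have := Real.log_two_gt_d9; linarith
    have h5 : 4 + R + 3 * Real.log (2 / δ) ≤ L * Real.log 2 := by
      have : (0 : ℝ) ≤ L := Nat.cast_nonneg _
      nlinarith
    have h6 : (2 / δ) ^ 3 = Real.exp (3 * Real.log (2 / δ)) := by
      rw [show (3 : ℝ) = ((3 : ℕ) : ℝ) by norm_num, Real.exp_nat_mul, Real.exp_log (by positivity)]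
    have h7 : (32 : ℝ) ≤ Real.exp 4 := by
      have h8 : Real.exp 4 = Real.exp 1 ^ 4 := by
        rw [← Real.exp_nat_mul]; norm_num
      have h9 := Real.exp_one_gt_d9
      rw [h8]
      calc (32 : ℝ) ≤ 2.7 ^ 4 := by norm_num
        _ ≤ Real.exp 1 ^ 4 := by gcongr; linarith
    rw [h3, h6]
    calc 32 * Real.exp R * Real.exp (3 * Real.log (2 / δ))
        ≤ Real.exp 4 * Real.exp R * Real.exp (3 * Real.log (2 / δ)) := by gcongr
      _ = Real.exp (4 + R + 3 * Real.log (2 / δ)) := by rw [Real.exp_add, Real.exp_add]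
      _ ≤ _ := Real.exp_le_exp.2 h5

theorem lowLevel_log (R δ : ℝ) (hR : 1 ≤ R) (hδ : 0 < δ) (hδ2 : δ ≤ 2) :
    Real.log (1 + 16 * (4 * Real.exp R / (δ / 2) ^ 2)) ≤ 5 + R + 2 * Real.log (2 / δ) := by
  have h1 : 1 ≤ 2 / δ := by rw [le_div_iff₀ hδ]; linarith
  have h6 : (2 / δ) ^ 2 = Real.exp (2 * Real.log (2 / δ)) := by
    rw [show (2 : ℝ) * Real.log (2 / δ) = ((2 : ℕ) : ℝ) * Real.log (2 / δ) by norm_num,
      Real.exp_nat_mul, Real.exp_log (by positivity)]
  have h7 : (65 : ℝ) ≤ Real.exp 5 := by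
    have h8 : Real.exp 5 = Real.exp 1 ^ 5 := by
      rw [← Real.exp_nat_mul]; norm_num
    have h9 := Real.exp_one_gt_d9
    rw [h8]
    calc (65 : ℝ) ≤ 2.7 ^ 5 := by norm_num
      _ ≤ Real.exp 1 ^ 5 := by gcongr; linarith
  have h2 : 4 * Real.exp R / (δ / 2) ^ 2 = 4 * (Real.exp R * (2 / δ) ^ 2) := by
    field_simp
  have h3 : 1 ≤ Real.exp R := Real.one_le_exp (by linarith)
  have h4 : 1 ≤ Real.exp R * (2 / δ) ^ 2 := one_le_mul_of_one_le_of_one_le h3 (one_le_pow₀ h1)
  rw [Real.log_le_iff_le_exp (by positivity), h2, Real.exp_add, Real.exp_add, ← h6]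
  nlinarith

/-- one level `δ`: the window has size `≤ δ` and the frequency was detected at size `≥ δ/2` -/
theorem level {V : ℝ → List Bool → ℂ} {A : List Bool → Prop} {ℓ R : ℝ} (hV : Fam V A ℓ R)
    (hR : 1 ≤ R) (hℓ : 0 < ℓ) (e : List Bool → ℂ) (he : ∀ v, ‖e v‖ ≤ 1) (he' : ∀ v, e v ≠ 0 → A v)
    (δ : ℝ) (hδ : 0 < δ) (hδ2 : δ ≤ 2) (n : ℕ) (ξ : List Bool → ℝ) (s t : List Bool → ℕ)
    (ht : ∀ l, l.length = n → t l ≤ n - 1)
    (hsm : ∀ l, l.length = n → ∀ k, s l ≤ k → k < t l → tm e (V (ξ l)) l k ≠ 0 →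
      ‖V (ξ l) (l.take k)‖ ≤ δ ∧ ‖V (ξ l) (l.take (k + 1))‖ ≤ δ)
    (hdet : ∀ l, l.length = n → s l < t l →
      ∃ k', k' ≤ s l + 1 ∧ δ / 2 ≤ ‖V (ξ l) (l.take k')‖) :
    avg n (fun l => ‖win e (V (ξ l)) l (s l) (t l)‖) ≤
      1000 * √δ * (R + Real.log (2 / δ) + 1) := by
  obtain ⟨new, hN, hnew⟩ := hV.count (δ / 2) n (by positivity) (by linarith)
  obtain ⟨L, hL1, hL2, hL3⟩ := lowLevel_L R δ hR hδ hδ2
  have hsq : 0 < 40 * √(2 * δ) := by positivity
  have h1 : 1 ≤ 2 / δ := by rw [le_div_iff₀ hδ]; linarith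
  have hl : 0 ≤ Real.log (2 / δ) := Real.log_nonneg h1
  have hub := union_bound n new
    (fun v β w => ‖win (fun x => lowLevelE e (V β) (2 * δ) (v ++ x)) (fun x => V β (v ++ x)) w
      (s (v ++ w) + L - v.length) (t (v ++ w) - v.length)‖ / (40 * √(2 * δ)))
    (fun l => (‖win e (V (ξ l)) l (s l) (t l)‖ - (2 * δ * L + 3 * δ)) / (40 * √(2 * δ)))
    16 (4 * Real.exp R / (δ / 2) ^ 2) (by norm_num) ?_ hN ?_
  · have h2 := hub.trans (lowLevel_log R δ hR hδ hδ2)
    have h3 : avg n (fun l => ‖win e (V (ξ l)) l (s l) (t l)‖) =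
        40 * √(2 * δ) * avg n (fun l => (‖win e (V (ξ l)) l (s l) (t l)‖ -
          (2 * δ * L + 3 * δ)) / (40 * √(2 * δ))) + (2 * δ * L + 3 * δ) := by
      rw [← avg_mul_left, ← avg_const n (2 * δ * L + 3 * δ), ← avg_add']
      refine avg_congr_len n fun l _ => ?_
      rw [avg_const]
      field_simp
      ring
    rw [h3]
    have h4 : √(2 * δ) ≤ 3 / 2 * √δ := by
      rw [Real.sqrt_mul (by norm_num)]
      gcongr
      rw [Real.sqrt_le_iff]; norm_num
    have h5 : δ ≤ 3 / 2 * √δ := by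
      have h6 : √δ ≤ 3 / 2 := by rw [Real.sqrt_le_iff]; constructor <;> linarith
      have h7 := Real.mul_self_sqrt hδ.le
      have h8 := Real.sqrt_nonneg δ
      nlinarith
    have h8 := Real.sqrt_nonneg δ
    have h9 : 40 * √(2 * δ) * avg n (fun l => (‖win e (V (ξ l)) l (s l) (t l)‖ -
          (2 * δ * L + 3 * δ)) / (40 * √(2 * δ))) ≤
        40 * (3 / 2 * √δ) * (5 + R + 2 * Real.log (2 / δ)) := by
      calc _ ≤ 40 * √(2 * δ) * (5 + R + 2 * Real.log (2 / δ)) := by gcongr
        _ ≤ _ := by gcongr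
    have h10 : 2 * δ * L + 3 * δ ≤ (3 / 2 * √δ) * (21 + 4 * R + 12 * Real.log (2 / δ)) := by
      calc 2 * δ * L + 3 * δ = δ * (2 * L + 3) := by ring
        _ ≤ (3 / 2 * √δ) * (21 + 4 * R + 12 * Real.log (2 / δ)) :=
          mul_le_mul h5 (by linarith) (by positivity) (by positivity)
    nlinarith [mul_nonneg h8 hl, mul_nonneg h8 (by linarith : (0 : ℝ) ≤ R)]
  · intro v β hv _
    refine one_exp (fun x => V β (v ++ x)) (fun x => lowLevelE e (V β) (2 * δ) (v ++ x))
      (fun x => A (v ++ x)) (2 * δ) (by positivity) (by linarith) ?_ ?_ ?_ ?_ ?_ (n - v.length)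
      (fun w => s (v ++ w) + L - v.length) (fun w => t (v ++ w) - v.length) ?_
    · intro x
      have := hV.mart β (v ++ x)
      simpa only [List.append_assoc] using this
    · intro x k hx
      have := hV.her _ (v.length + k) hx
      rwa [List.take_length_add_append] at this
    · intro x hx
      obtain ⟨h2, h3⟩ := hV.bd β _ hx
      refine ⟨by linarith, fun c => ?_⟩
      have := h3 c
      simpa only [List.append_assoc] using this
    · intro x
      simp only [lowLevelE]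
      split_ifs
      · exact he _
      · simp
    · intro x hx
      simp only [lowLevelE] at hx
      split_ifs at hx with h2
      · refine ⟨he' _ hx, h2.1, ?_⟩
        have := h2.2
        simpa only [List.append_assoc] using this
      · exact absurd rfl hx
    · intro w hw
      have := ht (v ++ w) (by simp [hw]; omega)
      omega
  · intro l hl'
    have htl := ht l hl'
    have hsm' : ∀ k, s l ≤ k → k < t l → tm e (V (ξ l)) l k ≠ 0 →
        ‖V (ξ l) (l.take k)‖ ≤ δ ∧ ‖V (ξ l) (l.take k ++ [false])‖ ≤ δ := by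
      intro k hk1 hk2 hk3
      have := hsm l hl' k hk1 hk2 hk3
      rwa [lowLevel_take_succ e _ l k (by omega) hk3] at this
    have hhead := lowLevel_head e (V (ξ l)) l (s l) (t l) L (2 * δ) (by positivity) (by
      intro k hk1 hk2
      by_cases h0 : tm e (V (ξ l)) l k = 0
      · rw [h0]; simp; positivity
      · obtain ⟨h2, h3⟩ := hsm' k hk1 hk2 h0
        refine (lowLevel_tm_le e _ he l k).trans ((norm_sub_le _ _).trans ?_)
        linarith)
    by_cases hz : ∀ k ∈ Finset.Ico (s l + L) (t l), tm e (V (ξ l)) l k = 0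
    · left
      have h2 : win e (V (ξ l)) l (s l + L) (t l) = 0 := Finset.sum_eq_zero hz
      rw [h2, norm_zero] at hhead
      apply div_nonpos_of_nonpos_of_nonneg _ hsq.le
      linarith
    · right
      push Not at hz
      obtain ⟨k1, hk1, hk1'⟩ := hz
      rw [Finset.mem_Ico] at hk1
      have hA1 : A (l.take k1) := he' _ fun h0 => hk1' (by simp [tm, h0])
      obtain ⟨k', hk', hk''⟩ := hdet l hl' (by omega)
      have hA2 : A (l.take k') := by
        have := hV.her _ k' hA1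
        rwa [List.take_take, min_eq_left (by omega)] at this
      have hlen : (l.take k').length = k' := by
        rw [List.length_take]; omega
      obtain ⟨k0, hk0, β, hβ, hβ'⟩ := hnew (l.take k') (ξ l) (by omega) hA2 hk''
      rw [hlen] at hk0 hβ'
      rw [List.take_take, min_eq_left hk0] at hβ
      refine ⟨k0, by omega, β, hβ, ?_⟩
      obtain ⟨ω, hω, hlip⟩ := hV.lip (ξ l) β l
      have hlen0 : (l.take k0).length = k0 := by
        rw [List.length_take]; omega
      have hsh := win_shift (lowLevelE e (V β) (2 * δ)) (V β) (l.take k0) (l.drop k0) (s l + L)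
        (t l) (by omega)
      simp only [List.take_append_drop] at hsh ⊢
      rw [← hsh]
      have htail := lowLevel_tail e (V (ξ l)) (lowLevelE e (V β) (2 * δ)) (V β) ω hω l (s l + L)
        (t l) (3 * (δ / 2)) (by positivity) (by
          intro k hk2 hk3
          have hε : |ξ l - β| * ℓ / 2 ^ k ≤ δ / 2 * (1 / 2) ^ (k - (s l + L)) := by
            obtain ⟨j, rfl⟩ := Nat.exists_eq_add_of_le hk2
            rw [Nat.add_sub_cancel_left, div_le_iff₀ (by positivity)]
            have h2 : (2 : ℝ) ^ k' ≤ 2 ^ (s l + 1) := pow_le_pow_right₀ (by norm_num) hk'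
            have h3 : δ / 2 * (1 / 2) ^ j * 2 ^ (s l + L + j) = δ / 2 * 2 ^ L * 2 ^ (s l) := by
              rw [pow_add, pow_add, one_div, inv_pow]; field_simp
            rw [h3]
            calc |ξ l - β| * ℓ ≤ 16 * Real.exp R / (δ / 2) ^ 2 * 2 ^ k' := hβ'
              _ ≤ 16 * Real.exp R / (δ / 2) ^ 2 * 2 ^ (s l + 1) := by gcongr
              _ = δ / 2 * (32 * Real.exp R * (2 / δ) ^ 3) * 2 ^ (s l) := by
                  rw [pow_succ]; field_simp; ring
              _ ≤ δ / 2 * 2 ^ L * 2 ^ (s l) := by gcongr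
          have hp : ((1 : ℝ) / 2) ^ (k - (s l + L)) ≤ 1 := pow_le_one₀ (by norm_num) (by norm_num)
          have hp0 : (0 : ℝ) ≤ ((1 : ℝ) / 2) ^ (k - (s l + L)) := by positivity
          have := lowLevel_cmp e (V (ξ l)) (V β) he ω hω l k δ
            (δ / 2 * (1 / 2) ^ (k - (s l + L))) (by positivity) (by nlinarith) (by
              intro h0
              obtain ⟨h2, h3⟩ := hlip k (by omega) (he' _ h0)
              constructor <;> linarith) (hsm' k (by omega) hk3)
          linarith)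
      gcongr
      linarith

end Crest.Agent.R100.Low
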