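import Crest.Agent.R100.LowDefs

set_option autoImplicit false

open MeasureTheory Set

noncomputable section

namespace Crest.Agent.R100.Low

open Crest.Agent.R100

theorem LowMax_aux : ∀ (n : ℕ) (Z : List Bool → ℝ), (∀ v, 0 ≤ Z v) →
    (∀ v, (Z (v ++ [false]) + Z (v ++ [true])) / 2 ≤ Z v) → ∀ (m : ℝ), 1 ≤ m →
    √(Z []) ≤ m → ∀ τ : List Bool → ℕ,
    avg n (fun l => max m (√(Z (l.take (τ l))))) ≤ m + Z [] / m
  | 0, Z, h0, _, m, hm, hz, τ => by
    simp only [avg, List.take_nil]
    have : 0 ≤ Z [] / m := div_nonneg (h0 _) (by linarith)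
    rw [max_eq_left hz]; linarith
  | n + 1, Z, h0, hs, m, hm, hz, τ => by
    have hm0 : 0 < m := by linarith
    have key : ∀ c : Bool, avg n (fun l => max m (√(Z ((c :: l).take (τ (c :: l)))))) ≤
        m + Z [c] / m := by
      intro c
      have ih := LowMax_aux n (fun v => Z (c :: v)) (fun v => h0 _)
        (fun v => by simpa using hs (c :: v)) (max m (√(Z [c]))) (le_trans hm (le_max_left _ _))
        (le_max_right _ _) (fun l => τ (c :: l) - 1)
      have h1 : avg n (fun l => max m (√(Z ((c :: l).take (τ (c :: l)))))) ≤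
          avg n (fun l => max (max m (√(Z [c]))) (√(Z (c :: l.take (τ (c :: l) - 1))))) := by
        refine avg_mono_len n fun l _ => ?_
        rcases hτ : τ (c :: l) with _ | k
        · simp only [List.take_zero]
          rw [max_eq_left hz]
          exact le_trans (le_max_left _ _) (le_max_left _ _)
        · simp only [List.take_succ_cons, Nat.add_sub_cancel]
          exact max_le_max (le_max_left _ _) le_rfl
      refine h1.trans (ih.trans ?_)
      rcases le_total (√(Z [c])) m with h | h
      · rw [max_eq_left h]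
      · rw [max_eq_right h]
        have hs0 : 0 < √(Z [c]) := by linarith
        have hsq : √(Z [c]) * √(Z [c]) = Z [c] := Real.mul_self_sqrt (h0 _)
        have e1 : Z [c] / √(Z [c]) = √(Z [c]) := by
          rw [div_eq_iff hs0.ne']; exact hsq.symm
        rw [e1]
        have e2 : 2 * √(Z [c]) - m ≤ Z [c] / m := by
          rw [le_div_iff₀ hm0]
          nlinarith [sq_nonneg (√(Z [c]) - m)]
        linarith
    have h2 := hs []
    simp only [List.nil_append] at h2
    have h3 : (Z [false] / m + Z [true] / m) / 2 ≤ Z [] / m := by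
      have := div_le_div_of_nonneg_right h2 hm0.le
      calc (Z [false] / m + Z [true] / m) / 2 = (Z [false] + Z [true]) / 2 / m := by ring
        _ ≤ _ := this
    have hf := key false
    have ht := key true
    simp only [avg]
    linarith

/-- maximal inequality `E sup √Z ≤ 2` for a nonnegative supermartingale started below `1` -/
theorem max_sqrt (Z : List Bool → ℝ) (h0 : ∀ v, 0 ≤ Z v)
    (hs : ∀ v, (Z (v ++ [false]) + Z (v ++ [true])) / 2 ≤ Z v) (h1 : Z [] ≤ 1) (n : ℕ)
    (τ : List Bool → ℕ) : avg n (fun l => √(Z (l.take (τ l)))) ≤ 2 := by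
  have h := LowMax_aux n Z h0 hs 1 le_rfl (Real.sqrt_le_one.mpr h1) τ
  have h2 : avg n (fun l => √(Z (l.take (τ l)))) ≤
      avg n (fun l => max 1 (√(Z (l.take (τ l))))) :=
    avg_mono_len n fun l _ => le_max_right _ _
  rw [div_one] at h
  linarith

end Crest.Agent.R100.Low
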