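import Crest.Agent.R100.LowDefs

set_option autoImplicit false

open MeasureTheory Set

noncomputable section

namespace Crest.Agent.R100.Low

open Crest.Agent.R100

/-- the truncated square -/
def lowQV_psi (δ : ℝ) (u : ℂ) : ℝ := if ‖u‖ ≤ 3 * δ then ‖u‖ ^ 2 else 6 * δ * ‖u‖ - 9 * δ ^ 2

theorem lowQV_ge {δ : ℝ} (u w : ℂ) (hw : ‖w‖ ≤ 3 * δ) :
    2 * ((starRingEnd ℂ) w * u).re - ‖w‖ ^ 2 ≤ lowQV_psi δ u := by
  have h1 : ((starRingEnd ℂ) w * u).re ≤ ‖w‖ * ‖u‖ := by
    refine (Complex.re_le_norm _).trans ?_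
    rw [norm_mul, Complex.norm_conj]
  unfold lowQV_psi
  split_ifs with h
  · nlinarith [sq_nonneg (‖w‖ - ‖u‖)]
  · push Not at h
    nlinarith [mul_nonneg (sub_nonneg.2 hw) (by linarith : 0 ≤ 2 * ‖u‖ - 3 * δ - ‖w‖)]

theorem lowQV_re_self (u : ℂ) : ((starRingEnd ℂ) u * u).re = ‖u‖ ^ 2 := by
  rw [Complex.conj_mul', ← Complex.ofReal_pow, Complex.ofReal_re]

theorem lowQV_eq {δ : ℝ} (hδ : 0 < δ) (u : ℂ) : ∃ w : ℂ, ‖w‖ ≤ 3 * δ ∧
    lowQV_psi δ u = 2 * ((starRingEnd ℂ) w * u).re - ‖w‖ ^ 2 := by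
  unfold lowQV_psi
  split_ifs with h
  · exact ⟨u, h, by rw [lowQV_re_self]; ring⟩
  · push Not at h
    have hu : 0 < ‖u‖ := by linarith
    have hn : ‖((3 * δ / ‖u‖ : ℝ) : ℂ) * u‖ = 3 * δ := by
      rw [norm_mul, Complex.norm_real, Real.norm_of_nonneg (by positivity)]
      field_simp
    refine ⟨((3 * δ / ‖u‖ : ℝ) : ℂ) * u, hn.le, ?_⟩
    rw [hn, map_mul, Complex.conj_ofReal, mul_assoc _ ((starRingEnd ℂ) u), Complex.re_ofReal_mul, lowQV_re_self]
    field_simp
    ring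

theorem lowQV_mid {δ : ℝ} (hδ : 0 < δ) (a b : ℂ) :
    lowQV_psi δ ((a + b) / 2) ≤ (lowQV_psi δ a + lowQV_psi δ b) / 2 := by
  obtain ⟨w, hw, he⟩ := lowQV_eq hδ ((a + b) / 2)
  have h1 := lowQV_ge a w hw
  have h2 := lowQV_ge b w hw
  have h3 : ((starRingEnd ℂ) w * ((a + b) / 2)).re =
      (((starRingEnd ℂ) w * a).re + ((starRingEnd ℂ) w * b).re) / 2 := by
    rw [← mul_div_assoc, mul_add, ← Complex.add_re]
    simp
  rw [he, h3]
  linarith

theorem lowQV_nonneg {δ : ℝ} (hδ : 0 < δ) (u : ℂ) : 0 ≤ lowQV_psi δ u := by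
  have := lowQV_ge (δ := δ) u 0 (by simp; positivity)
  simpa using this

theorem lowQV_le {δ : ℝ} (hδ : 0 < δ) {u : ℂ} (hu : ‖u‖ ≤ 2) : lowQV_psi δ u ≤ 12 * δ := by
  unfold lowQV_psi
  split_ifs with h
  · nlinarith [norm_nonneg u]
  · nlinarith

theorem lowQV_dead (u e : List Bool → ℂ) (δ : ℝ) (he : ∀ v, e v = 0) (n : ℕ) :
    avg n (fun l => Real.exp ((∑ k ∈ Finset.range n, ‖tm e u l k‖ ^ 2) / (24 * δ))) = 1 := by
  simp [tm, he, avg_const]

theorem lowQV_ind (δ : ℝ) (hδ : 0 < δ) (hδ4 : δ ≤ 4) (n : ℕ) :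
    ∀ (u e : List Bool → ℂ) (A : List Bool → Prop), Mart u → (∀ v k, A v → A (v.take k)) →
    (∀ v, A v → ‖u v‖ ≤ 2 ∧ ∀ c, ‖u (v ++ [c])‖ ≤ 2) → (∀ v, ‖e v‖ ≤ 1) →
    (∀ v, e v ≠ 0 → A v ∧ ‖u v‖ ≤ δ ∧ ‖u (v ++ [false])‖ ≤ δ) → ‖u []‖ ≤ 2 →
    avg n (fun l => Real.exp ((∑ k ∈ Finset.range n, ‖tm e u l k‖ ^ 2) / (24 * δ))) ≤
      2 - lowQV_psi δ (u []) / (12 * δ) := by
  have hone : ∀ x : ℂ, ‖x‖ ≤ 2 → 1 ≤ 2 - lowQV_psi δ x / (12 * δ) := by
    intro x hx
    have : lowQV_psi δ x / (12 * δ) ≤ 1 := by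
      rw [div_le_one (by positivity)]; exact lowQV_le hδ hx
    linarith
  induction n with
  | zero =>
    intro u e A hu hA hb he he' h0
    simpa [avg] using hone _ h0
  | succ n ih =>
    intro u e A hu hA hb he he' h0
    by_cases hA0 : A []
    swap
    · rw [lowQV_dead u e δ (fun v => by
        by_contra h
        exact hA0 (by simpa using hA v 0 (he' v h).1))]
      exact hone _ h0
    have hch : ∀ c, avg n (fun l => Real.exp ((∑ k ∈ Finset.range n,
        ‖tm (fun v => e (c :: v)) (fun v => u (c :: v)) l k‖ ^ 2) / (24 * δ))) ≤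
        2 - lowQV_psi δ (u [c]) / (12 * δ) := by
      intro c
      refine ih (fun v => u (c :: v)) (fun v => e (c :: v)) (fun v => A (c :: v))
        (fun v => hu (c :: v)) (fun v k hv => ?_) (fun v hv => hb (c :: v) hv)
        (fun v => he (c :: v)) (fun v hv => he' (c :: v) hv) ?_
      · simpa using hA (c :: v) (k + 1) hv
      · simpa using (hb [] hA0).2 c
    have hsh : ∀ c l k, tm e u (c :: l) (k + 1) =
        tm (fun v => e (c :: v)) (fun v => u (c :: v)) l k := by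
      intro c l k
      simp [tm]
    have ht : ∀ l, ‖tm e u (true :: l) 0‖ = 0 := by
      intro l
      simp [tm, sig]
    have hf : ∀ l, ‖tm e u (false :: l) 0‖ = ‖e [] * (u [false] - u [])‖ := by
      intro l
      unfold tm sig
      rw [norm_mul]
      simp only [List.getD_cons_zero, List.take_zero, List.nil_append]
      split_ifs <;> simp_all
    set x : ℝ := ‖e [] * (u [false] - u [])‖ ^ 2 / (24 * δ) with hx
    have e1 : avg n (fun l => Real.exp ((∑ k ∈ Finset.range (n + 1),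
        ‖tm e u (false :: l) k‖ ^ 2) / (24 * δ))) = Real.exp x * avg n (fun l => Real.exp
        ((∑ k ∈ Finset.range n,
        ‖tm (fun v => e (false :: v)) (fun v => u (false :: v)) l k‖ ^ 2) / (24 * δ))) := by
      rw [← avg_mul_left]
      refine avg_congr_len n fun l _ => ?_
      rw [Finset.sum_range_succ', hf, add_div, Real.exp_add, mul_comm]
      simp only [hsh, hx]
    have e2 : avg n (fun l => Real.exp ((∑ k ∈ Finset.range (n + 1),
        ‖tm e u (true :: l) k‖ ^ 2) / (24 * δ))) = avg n (fun l => Real.exp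
        ((∑ k ∈ Finset.range n,
        ‖tm (fun v => e (true :: v)) (fun v => u (true :: v)) l k‖ ^ 2) / (24 * δ))) := by
      refine avg_congr_len n fun l _ => ?_
      rw [Finset.sum_range_succ', ht]
      simp only [hsh]
      simp
    simp only [avg]
    rw [e1, e2]
    have h1 := hch false
    have h2 := hch true
    have hm : u [] = (u [false] + u [true]) / 2 := by simpa using hu []
    have hp : (0 : ℝ) < 12 * δ := by positivity
    by_cases he0 : e [] = 0
    · have hx0 : x = 0 := by simp [hx, he0]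
      rw [hx0, Real.exp_zero, one_mul]
      have h3 := lowQV_mid hδ (u [false]) (u [true])
      rw [← hm] at h3
      have h4 : lowQV_psi δ (u []) / (12 * δ) ≤
          (lowQV_psi δ (u [false]) / (12 * δ) + lowQV_psi δ (u [true]) / (12 * δ)) / 2 := by
        rw [← add_div, div_right_comm]
        exact div_le_div_of_nonneg_right h3 hp.le
      linarith
    · obtain ⟨-, b1, b2⟩ := he' [] he0
      simp only [List.nil_append] at b2
      set D : ℂ := u [false] - u [] with hD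
      have hDn : ‖D‖ ≤ 2 * δ := (norm_sub_le _ _).trans (by linarith)
      have hut : u [true] = u [] - D := by rw [hD]; linear_combination (-2 : ℂ) * hm
      have huf : u [false] = u [] + D := by rw [hD]; ring
      have b3 : ‖u [true]‖ ≤ 3 * δ := by
        rw [hut]; exact (norm_sub_le _ _).trans (by linarith)
      have p0 : lowQV_psi δ (u []) = ‖u []‖ ^ 2 := if_pos (by linarith)
      have p1 : lowQV_psi δ (u [false]) = ‖u [false]‖ ^ 2 := if_pos (by linarith)
      have p2 : lowQV_psi δ (u [true]) = ‖u [true]‖ ^ 2 := if_pos b3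
      have par : ‖u [false]‖ ^ 2 + ‖u [true]‖ ^ 2 = 2 * (‖u []‖ ^ 2 + ‖D‖ ^ 2) := by
        rw [hut, huf]
        have := parallelogram_law_with_norm ℝ (u []) D
        nlinarith
      have hx0 : 0 ≤ x := by positivity
      have hxD : x ≤ ‖D‖ ^ 2 / (24 * δ) := by
        refine div_le_div_of_nonneg_right ?_ (by positivity)
        rw [norm_mul]
        have : ‖e []‖ * ‖D‖ ≤ ‖D‖ := mul_le_of_le_one_left (norm_nonneg _) (he [])
        exact pow_le_pow_left₀ (by positivity) this 2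
      have hx1 : ‖D‖ ^ 2 / (24 * δ) ≤ 1 := by
        rw [div_le_one (by positivity)]
        nlinarith [norm_nonneg D]
      have hexp : Real.exp x ≤ 1 + 2 * x := by
        have := Real.abs_exp_sub_one_le (x := x) (by rw [abs_of_nonneg hx0]; linarith)
        rw [abs_of_nonneg hx0] at this
        linarith [le_abs_self (Real.exp x - 1)]
      have hφ0 : 0 ≤ lowQV_psi δ (u [false]) / (12 * δ) :=
        div_nonneg (lowQV_nonneg hδ _) hp.le
      have hφ1 := hone (u [false]) (by simpa using (hb [] hA0).2 false)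
      have h5 := mul_le_mul hexp h1 (avg_nonneg_len n fun l _ => (Real.exp_pos _).le)
        (by linarith)
      have h6 : lowQV_psi δ (u [false]) / (12 * δ) + lowQV_psi δ (u [true]) / (12 * δ) =
          2 * (lowQV_psi δ (u []) / (12 * δ)) + 4 * (‖D‖ ^ 2 / (24 * δ)) := by
        rw [p0, p1, p2, ← add_div, par]
        field_simp
        ring
      nlinarith [mul_nonneg hx0 hφ0]

/-- exponential moment of the quadratic variation spent in the `δ`-ball -/
theorem qv_exp (u e : List Bool → ℂ) (A : List Bool → Prop) (δ : ℝ) (hδ : 0 < δ) (hδ4 : δ ≤ 4)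
    (hu : Mart u) (hA : ∀ v k, A v → A (v.take k))
    (hb : ∀ v, A v → ‖u v‖ ≤ 2 ∧ ∀ c, ‖u (v ++ [c])‖ ≤ 2)
    (he : ∀ v, ‖e v‖ ≤ 1)
    (he' : ∀ v, e v ≠ 0 → A v ∧ ‖u v‖ ≤ δ ∧ ‖u (v ++ [false])‖ ≤ δ) (n : ℕ) :
    avg n (fun l => Real.exp ((∑ k ∈ Finset.range n, ‖tm e u l k‖ ^ 2) / (24 * δ))) ≤ 2 := by
  by_cases hA0 : A []
  · have h := lowQV_ind δ hδ hδ4 n u e A hu hA hb he he' (hb [] hA0).1
    have : 0 ≤ lowQV_psi δ (u []) / (12 * δ) := div_nonneg (lowQV_nonneg hδ _) (by positivity)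
    linarith
  · rw [lowQV_dead u e δ (fun v => by
      by_contra h
      exact hA0 (by simpa using hA v 0 (he' v h).1))]
    norm_num

end Crest.Agent.R100.Low
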