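import Crest.Agent.R100.LowMax
import Crest.Agent.R100.LowQV

set_option autoImplicit false

open MeasureTheory Set

noncomputable section

namespace Crest.Agent.R100.Low

open Crest.Agent.R100

theorem lowOne_tm_take (e u : List Bool → ℂ) (l : List Bool) {j m : ℕ} (h : j + 2 ≤ m) :
    tm e u (l.take m) j = tm e u l j := by
  unfold tm
  have h1 : (l.take m).getD j false = l.getD j false := by
    simp only [List.getD_eq_getElem?_getD, List.getElem?_take]
    rw [if_pos (by omega)]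
  have h2 : (l.take m).getD (j + 1) false = l.getD (j + 1) false := by
    simp only [List.getD_eq_getElem?_getD, List.getElem?_take]
    rw [if_pos (by omega)]
  have h3 : (l.take m).take j = l.take j := by
    rw [List.take_take, min_eq_left (by omega)]
  rw [h1, h2, h3]

theorem lowOne_tm_append (e u : List Bool → ℂ) (v w : List Bool) {j : ℕ} (h : j + 2 ≤ v.length) :
    tm e u (v ++ w) j = tm e u v j := by
  rw [← lowOne_tm_take e u (v ++ w) h, List.take_left']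
  rfl

theorem lowOne_tm_last (e u : List Bool → ℂ) (v : List Bool) {m : ℕ} (h : v.length = m + 1) :
    tm e u (v ++ [true]) m = - tm e u (v ++ [false]) m := by
  unfold tm
  have h1 : ∀ c : Bool, (v ++ [c]).getD m false = v.getD m false := fun c => by
    simp only [List.getD_eq_getElem?_getD]
    rw [List.getElem?_append_left (by omega)]
  have h2 : ∀ c : Bool, (v ++ [c]).getD (m + 1) false = c := fun c => by
    simp only [List.getD_eq_getElem?_getD]
    rw [List.getElem?_append_right (by omega)]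
    simp [h]
  have h3 : ∀ c : Bool, (v ++ [c]).take m = v.take m := fun c => by
    rw [List.take_append_of_le_length (by omega)]
  rw [h1, h1, h2, h2, h3, h3]
  cases v.getD m false <;> simp [sig]

/-- the exponential supermartingale -/
def lowOneZ (e u : List Bool → ℂ) (z : ℂ) (θ : ℝ) (v : List Bool) : ℝ :=
  Real.exp (θ * (z * ∑ j ∈ Finset.range (v.length - 1), tm e u v j).re -
    θ ^ 2 / 2 * ∑ j ∈ Finset.range (v.length - 1), ‖tm e u v j‖ ^ 2)

theorem lowOneZ_super (e u : List Bool → ℂ) (z : ℂ) (hz : ‖z‖ ≤ 1) (θ : ℝ) (v : List Bool) :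
    (lowOneZ e u z θ (v ++ [false]) + lowOneZ e u z θ (v ++ [true])) / 2 ≤ lowOneZ e u z θ v := by
  rcases Nat.eq_zero_or_pos v.length with h0 | hpos
  · have : v = [] := List.length_eq_zero_iff.mp h0
    subst this
    simp [lowOneZ]
  obtain ⟨m, hm⟩ : ∃ m, v.length = m + 1 := ⟨v.length - 1, by omega⟩
  have hl : ∀ c : Bool, (v ++ [c]).length - 1 = m + 1 := fun c => by simp [hm]
  have hv : v.length - 1 = m := by omega
  have hS : ∀ c : Bool, ∑ j ∈ Finset.range m, tm e u (v ++ [c]) j =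
      ∑ j ∈ Finset.range m, tm e u v j := fun c =>
    Finset.sum_congr rfl fun j hj => lowOne_tm_append e u v _ (by
      have := Finset.mem_range.mp hj; omega)
  have hQ : ∀ c : Bool, ∑ j ∈ Finset.range m, ‖tm e u (v ++ [c]) j‖ ^ 2 =
      ∑ j ∈ Finset.range m, ‖tm e u v j‖ ^ 2 := fun c =>
    Finset.sum_congr rfl fun j hj => by
      rw [lowOne_tm_append e u v _ (by have := Finset.mem_range.mp hj; omega)]
  unfold lowOneZ
  rw [hl, hl, hv]
  simp only [Finset.sum_range_succ, hS, hQ, lowOne_tm_last e u v hm, norm_neg]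
  set p := tm e u (v ++ [false]) m
  set S := ∑ j ∈ Finset.range m, tm e u v j
  set Q := ∑ j ∈ Finset.range m, ‖tm e u v j‖ ^ 2
  set x := θ * (z * p).re with hx
  have e1 : θ * (z * (S + p)).re - θ ^ 2 / 2 * (Q + ‖p‖ ^ 2) =
      (θ * (z * S).re - θ ^ 2 / 2 * Q) + (-(θ ^ 2 / 2 * ‖p‖ ^ 2)) + x := by
    rw [mul_add, Complex.add_re, hx]; ring
  have e2 : θ * (z * (S + -p)).re - θ ^ 2 / 2 * (Q + ‖p‖ ^ 2) =
      (θ * (z * S).re - θ ^ 2 / 2 * Q) + (-(θ ^ 2 / 2 * ‖p‖ ^ 2)) + -x := by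
    rw [mul_add, Complex.add_re, mul_neg, Complex.neg_re, hx]; ring
  rw [e1, e2, Real.exp_add, Real.exp_add, Real.exp_add _ (-x), Real.exp_add]
  have hc := Real.cosh_le_exp_half_sq x
  rw [Real.cosh_eq] at hc
  have hre : |(z * p).re| ≤ ‖p‖ := by
    refine (Complex.abs_re_le_norm _).trans ?_
    rw [norm_mul]
    exact mul_le_of_le_one_left (norm_nonneg _) hz
  have hsq : (z * p).re ^ 2 ≤ ‖p‖ ^ 2 := by
    rw [← sq_abs]
    exact pow_le_pow_left₀ (abs_nonneg _) hre 2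
  have hx2 : x ^ 2 / 2 ≤ θ ^ 2 / 2 * ‖p‖ ^ 2 := by
    rw [hx, mul_pow]
    nlinarith [sq_nonneg θ]
  have h1 : Real.exp (-(θ ^ 2 / 2 * ‖p‖ ^ 2)) * ((Real.exp x + Real.exp (-x)) / 2) ≤ 1 := by
    calc _ ≤ Real.exp (-(θ ^ 2 / 2 * ‖p‖ ^ 2)) * Real.exp (θ ^ 2 / 2 * ‖p‖ ^ 2) :=
          mul_le_mul_of_nonneg_left (hc.trans (Real.exp_le_exp.mpr hx2)) (Real.exp_pos _).le
      _ = 1 := by rw [← Real.exp_add]; simp
  have h2 := Real.exp_pos (θ * (z * S).re - θ ^ 2 / 2 * Q)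
  nlinarith

theorem lowOne_max (e u : List Bool → ℂ) (z : ℂ) (hz : ‖z‖ ≤ 1) (θ : ℝ) (n : ℕ)
    (τ : List Bool → ℕ) (hτ : ∀ l, l.length = n → τ l ≤ n - 1) :
    avg n (fun l => Real.exp (θ * (z * ∑ j ∈ Finset.range (τ l), tm e u l j).re / 2 -
      θ ^ 2 / 4 * ∑ j ∈ Finset.range (τ l), ‖tm e u l j‖ ^ 2)) ≤ 2 := by
  have h := max_sqrt (lowOneZ e u z θ) (fun v => (Real.exp_pos _).le)
    (lowOneZ_super e u z hz θ) (by simp [lowOneZ]) n (fun l => τ l + 1)
  refine le_trans (avg_congr_len n fun l hl => ?_).le h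
  have h1 := hτ l hl
  have hlen : (l.take (τ l + 1)).length - 1 = τ l := by
    rw [List.length_take]; omega
  have hS : ∑ j ∈ Finset.range (τ l), tm e u (l.take (τ l + 1)) j =
      ∑ j ∈ Finset.range (τ l), tm e u l j :=
    Finset.sum_congr rfl fun j hj => lowOne_tm_take e u l (by
      have := Finset.mem_range.mp hj; omega)
  have hQ : ∑ j ∈ Finset.range (τ l), ‖tm e u (l.take (τ l + 1)) j‖ ^ 2 =
      ∑ j ∈ Finset.range (τ l), ‖tm e u l j‖ ^ 2 :=
    Finset.sum_congr rfl fun j hj => by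
      rw [lowOne_tm_take e u l (by have := Finset.mem_range.mp hj; omega)]
  unfold lowOneZ
  rw [hlen, hS, hQ, ← Real.exp_half]
  congr 1
  ring

theorem lowOne_pair (e u : List Bool → ℂ) (z : ℂ) (hz : ‖z‖ ≤ 1) (θ K : ℝ) (hK : θ ^ 2 / 4 ≤ K)
    (n : ℕ) (τ : List Bool → ℕ) (hτ : ∀ l, l.length = n → τ l ≤ n - 1)
    (hq : avg n (fun l => Real.exp (K * ∑ k ∈ Finset.range n, ‖tm e u l k‖ ^ 2)) ≤ 2) :
    avg n (fun l => Real.exp (θ * (z * ∑ j ∈ Finset.range (τ l), tm e u l j).re / 4)) ≤ 2 := by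
  have h := lowOne_max e u z hz θ n τ hτ
  have h2 : avg n (fun l => Real.exp (θ * (z * ∑ j ∈ Finset.range (τ l), tm e u l j).re / 4)) ≤
      avg n (fun l => (1 / 2 : ℝ) * (Real.exp (θ * (z * ∑ j ∈ Finset.range (τ l), tm e u l j).re / 2 -
      θ ^ 2 / 4 * ∑ j ∈ Finset.range (τ l), ‖tm e u l j‖ ^ 2) +
        Real.exp (K * ∑ k ∈ Finset.range n, ‖tm e u l k‖ ^ 2))) := by
    refine avg_mono_len n fun l hl => ?_
    have h1 := hτ l hl
    set x := θ * (z * ∑ j ∈ Finset.range (τ l), tm e u l j).re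
    set Q := ∑ j ∈ Finset.range (τ l), ‖tm e u l j‖ ^ 2 with hQ
    have hQ0 : 0 ≤ Q := Finset.sum_nonneg fun j _ => sq_nonneg _
    have hQV : Q ≤ ∑ k ∈ Finset.range n, ‖tm e u l k‖ ^ 2 :=
      Finset.sum_le_sum_of_subset_of_nonneg (Finset.range_subset_range.mpr (by omega))
        fun j _ _ => sq_nonneg _
    have hK0 : 0 ≤ K := le_trans (by positivity) hK
    have h3 : Real.exp (θ ^ 2 / 4 * Q) ≤ Real.exp (K * ∑ k ∈ Finset.range n, ‖tm e u l k‖ ^ 2) :=
      Real.exp_le_exp.mpr (mul_le_mul hK hQV hQ0 hK0)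
    have ha : Real.exp (x / 2 - θ ^ 2 / 4 * Q) = Real.exp (x / 4 - θ ^ 2 / 8 * Q) ^ 2 := by
      rw [sq (Real.exp _), ← Real.exp_add]; congr 1; ring
    have hb : Real.exp (θ ^ 2 / 4 * Q) = Real.exp (θ ^ 2 / 8 * Q) ^ 2 := by
      rw [sq (Real.exp _), ← Real.exp_add]; congr 1; ring
    have hc : Real.exp (x / 4) = Real.exp (x / 4 - θ ^ 2 / 8 * Q) * Real.exp (θ ^ 2 / 8 * Q) := by
      rw [← Real.exp_add]; congr 1; ring
    rw [hc, ha]
    rw [hb] at h3
    nlinarith [sq_nonneg (Real.exp (x / 4 - θ ^ 2 / 8 * Q) - Real.exp (θ ^ 2 / 8 * Q))]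
  rw [avg_mul_left, avg_add'] at h2
  linarith

theorem lowOne_win (e u : List Bool → ℂ) (l : List Bool) (s t : ℕ) :
    win e u l s t = ∑ j ∈ Finset.range t, tm e u l j - ∑ j ∈ Finset.range (min s t), tm e u l j := by
  unfold win
  rcases le_total s t with h | h
  · rw [min_eq_left h, Finset.sum_Ico_eq_sub _ h]
  · rw [min_eq_right h, Finset.Ico_eq_empty_of_le h]; simp

theorem lowOne_abs (θ : ℝ) (a : ℝ) :
    Real.exp (θ * |a| / 4) ≤ Real.exp (θ * a / 4) + Real.exp (θ * (-a) / 4) := by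
  rcases abs_choice a with h | h <;> rw [h]
  · linarith [Real.exp_pos (θ * (-a) / 4)]
  · linarith [Real.exp_pos (θ * a / 4)]

theorem lowOne_eight (θ : ℝ) (hθ : 0 ≤ θ) (M N : ℂ) :
    Real.exp (θ * ‖M - N‖ / 16) ≤
      (Real.exp (θ * (1 * M).re / 4) + Real.exp (θ * (-1 * M).re / 4) +
        (Real.exp (θ * (-Complex.I * M).re / 4) + Real.exp (θ * (Complex.I * M).re / 4))) +
      (Real.exp (θ * (1 * N).re / 4) + Real.exp (θ * (-1 * N).re / 4) +
        (Real.exp (θ * (-Complex.I * N).re / 4) + Real.exp (θ * (Complex.I * N).re / 4))) := by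
  have e1 : ∀ P : ℂ, (1 * P).re = P.re := fun P => by simp
  have e2 : ∀ P : ℂ, (-1 * P).re = -P.re := fun P => by simp
  have e3 : ∀ P : ℂ, (-Complex.I * P).re = P.im := fun P => by simp
  have e4 : ∀ P : ℂ, (Complex.I * P).re = -P.im := fun P => by simp
  simp only [e1, e2, e3, e4]
  have a1 := lowOne_abs θ M.re
  have a2 := lowOne_abs θ M.im
  have a3 := lowOne_abs θ N.re
  have a4 := lowOne_abs θ N.im
  have hn : ‖M - N‖ ≤ |M.re| + |M.im| + (|N.re| + |N.im|) :=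
    (norm_sub_le _ _).trans (add_le_add (Complex.norm_le_abs_re_add_abs_im M)
      (Complex.norm_le_abs_re_add_abs_im N))
  have hn' := mul_le_mul_of_nonneg_left hn hθ
  have p1 := Real.exp_pos (θ * |M.re| / 4)
  have p2 := Real.exp_pos (θ * |M.im| / 4)
  have p3 := Real.exp_pos (θ * |N.re| / 4)
  have p4 := Real.exp_pos (θ * |N.im| / 4)
  have hor : θ * ‖M - N‖ / 16 ≤ θ * |M.re| / 4 ∨ θ * ‖M - N‖ / 16 ≤ θ * |M.im| / 4 ∨
      θ * ‖M - N‖ / 16 ≤ θ * |N.re| / 4 ∨ θ * ‖M - N‖ / 16 ≤ θ * |N.im| / 4 := by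
    by_contra hc
    simp only [not_or, not_le] at hc
    obtain ⟨c1, c2, c3, c4⟩ := hc
    nlinarith
  rcases hor with h | h | h | h <;> have := Real.exp_le_exp.mpr h <;> linarith

/-- ONE top: exponential moment of the shift over a free window -/
theorem one_exp (u e : List Bool → ℂ) (A : List Bool → Prop) (δ : ℝ) (hδ : 0 < δ) (hδ4 : δ ≤ 4)
    (hu : Mart u) (hA : ∀ v k, A v → A (v.take k))
    (hb : ∀ v, A v → ‖u v‖ ≤ 2 ∧ ∀ c, ‖u (v ++ [c])‖ ≤ 2)
    (he : ∀ v, ‖e v‖ ≤ 1)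
    (he' : ∀ v, e v ≠ 0 → A v ∧ ‖u v‖ ≤ δ ∧ ‖u (v ++ [false])‖ ≤ δ) (n : ℕ)
    (s t : List Bool → ℕ) (ht : ∀ l, l.length = n → t l ≤ n - 1) :
    avg n (fun l => Real.exp (‖win e u l (s l) (t l)‖ / (40 * √δ))) ≤ 16 := by
  have hs : 0 < √δ := Real.sqrt_pos.mpr hδ
  set θ : ℝ := 2 / (5 * √δ) with hθ
  have hθ0 : 0 ≤ θ := by positivity
  have hK : θ ^ 2 / 4 ≤ 1 / (24 * δ) := by
    have : θ ^ 2 / 4 = 1 / (25 * δ) := by
      rw [hθ, div_pow, mul_pow, Real.sq_sqrt hδ.le]; field_simp; norm_num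
    rw [this]
    exact one_div_le_one_div_of_le (by positivity) (by linarith)
  have hq : avg n (fun l => Real.exp (1 / (24 * δ) * ∑ k ∈ Finset.range n, ‖tm e u l k‖ ^ 2)) ≤ 2 := by
    refine le_trans (avg_congr_len n fun l _ => ?_).le (qv_exp u e A δ hδ hδ4 hu hA hb he he' n)
    congr 1; ring
  have hm : ∀ l, l.length = n → min (s l) (t l) ≤ n - 1 := fun l hl =>
    (min_le_right _ _).trans (ht l hl)
  have P := fun (z : ℂ) (hz : ‖z‖ ≤ 1) (τ : List Bool → ℕ) (hτ : ∀ l, l.length = n → τ l ≤ n - 1) =>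
    lowOne_pair e u z hz θ _ hK n τ hτ hq
  have b1 := P 1 (by simp) t ht
  have b2 := P (-1) (by simp) t ht
  have b3 := P (-Complex.I) (by simp) t ht
  have b4 := P Complex.I (by simp) t ht
  have c1 := P 1 (by simp) _ hm
  have c2 := P (-1) (by simp) _ hm
  have c3 := P (-Complex.I) (by simp) _ hm
  have c4 := P Complex.I (by simp) _ hm
  have h : avg n (fun l => Real.exp (‖win e u l (s l) (t l)‖ / (40 * √δ))) ≤
      avg n (fun l =>
      (Real.exp (θ * (1 * ∑ j ∈ Finset.range (t l), tm e u l j).re / 4) +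
        Real.exp (θ * (-1 * ∑ j ∈ Finset.range (t l), tm e u l j).re / 4) +
        (Real.exp (θ * (-Complex.I * ∑ j ∈ Finset.range (t l), tm e u l j).re / 4) +
          Real.exp (θ * (Complex.I * ∑ j ∈ Finset.range (t l), tm e u l j).re / 4))) +
      (Real.exp (θ * (1 * ∑ j ∈ Finset.range (min (s l) (t l)), tm e u l j).re / 4) +
        Real.exp (θ * (-1 * ∑ j ∈ Finset.range (min (s l) (t l)), tm e u l j).re / 4) +
        (Real.exp (θ * (-Complex.I * ∑ j ∈ Finset.range (min (s l) (t l)), tm e u l j).re / 4) +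
          Real.exp (θ * (Complex.I * ∑ j ∈ Finset.range (min (s l) (t l)), tm e u l j).re / 4)))) := by
    refine avg_mono_len n fun l _ => ?_
    have h1 := lowOne_eight θ hθ0 (∑ j ∈ Finset.range (t l), tm e u l j)
      (∑ j ∈ Finset.range (min (s l) (t l)), tm e u l j)
    rw [← lowOne_win] at h1
    have h2 : ‖win e u l (s l) (t l)‖ / (40 * √δ) = θ * ‖win e u l (s l) (t l)‖ / 16 := by
      rw [hθ]; field_simp; ring
    rw [h2]
    exact h1
  rw [avg_add', avg_add', avg_add', avg_add', avg_add', avg_add', avg_add'] at h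
  linarith

end Crest.Agent.R100.Low
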