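import Crest.Agent.R100.LowLevel

set_option autoImplicit false

open MeasureTheory Set

noncomputable section

namespace Crest.Agent.R100.Low

open Crest.Agent.R100

theorem lowSmall_tm_le {e u : List Bool → ℂ} (he : ∀ v, ‖e v‖ ≤ 1) (l : List Bool) (k : ℕ)
    (hk : k < l.length) {c : ℝ} (hc : 0 ≤ c)
    (h : tm e u l k ≠ 0 → ‖u (l.take k)‖ ≤ c ∧ ‖u (l.take (k + 1))‖ ≤ c) :
    ‖tm e u l k‖ ≤ 2 * c := by
  by_cases h0 : tm e u l k = 0
  · rw [h0, norm_zero]; linarith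
  obtain ⟨h1, h2⟩ := h h0
  have hb : l.getD k false = false := by
    by_contra hb
    have hb' : l.getD k false = true := by simpa using hb
    apply h0
    unfold tm
    rw [hb']
    simp [sig]
  have hk' : l[k] = false := by
    rw [← hb, List.getD_eq_getElem _ _ hk]
  have ht : l.take (k + 1) = l.take k ++ [false] := by
    rw [List.take_add_one, List.getElem?_eq_getElem hk, hk']; rfl
  rw [ht] at h2
  have hs : ‖((sig (l.getD k false) (l.getD (k + 1) false) : ℝ) : ℂ)‖ ≤ 1 := by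
    rw [Complex.norm_real]
    unfold sig
    split_ifs <;> simp
  unfold tm
  rw [norm_mul, norm_mul]
  have h3 : ‖u (l.take k ++ [false]) - u (l.take k)‖ ≤ 2 * c :=
    (norm_sub_le _ _).trans (by linarith)
  have h4 : ‖e (l.take k)‖ * ‖u (l.take k ++ [false]) - u (l.take k)‖ ≤ 1 * (2 * c) :=
    mul_le_mul (he _) h3 (norm_nonneg _) zero_le_one
  calc _ ≤ 1 * (1 * (2 * c)) := mul_le_mul hs h4 (by positivity) zero_le_one
    _ = 2 * c := by ring

theorem lowSmall_split (e u : List Bool → ℂ) (l : List Bool) (s t : ℕ) (d : ℝ) :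
    ∃ m : ℕ, m ≤ t ∧ win e u l s t = win e u l s m + win e u l m t ∧
      (∀ k, s ≤ k → k < m → tm e u l k ≠ 0 → ‖u (l.take k)‖ ≤ d ∧ ‖u (l.take (k + 1))‖ ≤ d) ∧
      (m < t → s ≤ m) ∧ (m < t → ∃ k', k' ≤ m + 1 ∧ d ≤ ‖u (l.take k')‖) := by
  classical
  by_cases h : ∃ k, s ≤ k ∧ k < t ∧ (d < ‖u (l.take k)‖ ∨ d < ‖u (l.take (k + 1))‖)
  · obtain ⟨h1, h2, h3⟩ := Nat.find_spec h
    refine ⟨Nat.find h, h2.le, ?_, ?_, fun _ => h1, fun _ => ?_⟩
    · unfold win
      rw [Finset.sum_Ico_consecutive _ h1 h2.le]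
    · intro k hk hkm _
      have := Nat.find_min h hkm
      push Not at this
      exact this hk (hkm.trans h2)
    · rcases h3 with h3 | h3
      · exact ⟨_, Nat.le_succ _, h3.le⟩
      · exact ⟨_, le_rfl, h3.le⟩
  · push Not at h
    refine ⟨t, le_rfl, ?_, fun k hk hkt _ => h k hk hkt, fun h' => absurd h' (lt_irrefl _),
      fun h' => absurd h' (lt_irrefl _)⟩
    simp [win]

theorem lowSmall_ind {V : ℝ → List Bool → ℂ} {A : List Bool → Prop} {ℓ R : ℝ} (hV : Fam V A ℓ R)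
    (hR : 1 ≤ R) (hℓ : 0 < ℓ) (e : List Bool → ℂ) (he : ∀ v, ‖e v‖ ≤ 1) (he' : ∀ v, e v ≠ 0 → A v)
    (n : ℕ) (ξ : List Bool → ℝ) (J : ℕ) : ∀ (c : ℝ) (_ : 0 < c) (_ : c ≤ 2)
    (s t : List Bool → ℕ) (_ : ∀ l, l.length = n → t l ≤ n - 1)
    (_ : ∀ l, l.length = n → ∀ k, s l ≤ k → k < t l → tm e (V (ξ l)) l k ≠ 0 →
      ‖V (ξ l) (l.take k)‖ ≤ c ∧ ‖V (ξ l) (l.take (k + 1))‖ ≤ c),
    avg n (fun l => ‖win e (V (ξ l)) l (s l) (t l)‖) ≤
      √c * (4000 * (R + Real.log (2 / c) + 1) + 7000) + 2 * n * c / 2 ^ J := by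
  induction J with
  | zero =>
    intro c hc hc2 s t ht hsm
    have hlog : 0 ≤ Real.log (2 / c) := Real.log_nonneg (by rw [le_div_iff₀ hc]; linarith)
    have h1 : avg n (fun l => ‖win e (V (ξ l)) l (s l) (t l)‖) ≤ avg n (fun _ => 2 * n * c) := by
      refine avg_mono_len n fun l hl => ?_
      unfold win
      have htl := ht l hl
      calc _ ≤ ∑ k ∈ Finset.Ico (s l) (t l), ‖tm e (V (ξ l)) l k‖ := norm_sum_le _ _
        _ ≤ ∑ _k ∈ Finset.Ico (s l) (t l), 2 * c := by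
          refine Finset.sum_le_sum fun k hk => ?_
          rw [Finset.mem_Ico] at hk
          exact lowSmall_tm_le he l k (by omega) hc.le (hsm l hl k hk.1 hk.2)
        _ = ((t l - s l : ℕ) : ℝ) * (2 * c) := by simp
        _ ≤ (n : ℝ) * (2 * c) := by
          refine mul_le_mul_of_nonneg_right ?_ (by linarith)
          exact_mod_cast (by omega : t l - s l ≤ n)
        _ = 2 * n * c := by ring
    rw [avg_const] at h1
    have : 0 ≤ √c * (4000 * (R + Real.log (2 / c) + 1) + 7000) := by positivity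
    simp only [pow_zero, div_one]
    linarith
  | succ J ih =>
    intro c hc hc2 s t ht hsm
    have hlog : 0 ≤ Real.log (2 / c) := Real.log_nonneg (by rw [le_div_iff₀ hc]; linarith)
    choose m hm1 hm2 hm3 hm4 hm5 using
      fun l => lowSmall_split e (V (ξ l)) l (s l) (t l) (c / 2)
    have h1 := ih (c / 2) (by linarith) (by linarith) s m
      (fun l hl => (hm1 l).trans (ht l hl)) (fun l _ k h1 h2 h3 => hm3 l k h1 h2 h3)
    have h2 := level hV hR hℓ e he he' c hc hc2 n ξ m t ht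
      (fun l hl k h1 h2 h3 => hsm l hl k ((hm4 l (lt_of_le_of_lt h1 h2)).trans h1) h2 h3)
      (fun l _ h => hm5 l h)
    have h3 : avg n (fun l => ‖win e (V (ξ l)) l (s l) (t l)‖) ≤
        avg n (fun l => ‖win e (V (ξ l)) l (s l) (m l)‖ + ‖win e (V (ξ l)) l (m l) (t l)‖) := by
      refine avg_mono_len n fun l _ => ?_
      rw [hm2 l]
      exact norm_add_le _ _
    rw [avg_add'] at h3
    have hl2 : Real.log (2 / (c / 2)) ≤ Real.log (2 / c) + 0.7 := by
      have : (2 : ℝ) / (c / 2) = 2 / c * 2 := by field_simp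
      rw [this, Real.log_mul (by positivity) (by norm_num)]
      have := Real.log_two_lt_d9
      linarith
    have hs : √(c / 2) ≤ 0.71 * √c := by
      rw [Real.sqrt_le_iff]
      refine ⟨by positivity, ?_⟩
      rw [mul_pow, Real.sq_sqrt hc.le]
      nlinarith
    have hs0 : 0 ≤ √c := Real.sqrt_nonneg _
    have h4 : √(c / 2) * (4000 * (R + Real.log (2 / (c / 2)) + 1) + 7000) ≤
        (0.71 * √c) * (4000 * (R + (Real.log (2 / c) + 0.7) + 1) + 7000) := by
      refine mul_le_mul hs (by linarith) ?_ (by positivity)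
      have : 0 ≤ Real.log (2 / (c / 2)) :=
        Real.log_nonneg (by rw [le_div_iff₀ (by linarith)]; linarith)
      positivity
    have h5 : 2 * (n : ℝ) * (c / 2) / 2 ^ J = 2 * n * c / 2 ^ (J + 1) := by
      rw [pow_succ]; field_simp
    have h6 : 0 ≤ √c * (R + Real.log (2 / c) + 1) := by positivity
    nlinarith

/-- **SMALL LEMMA**: any window on which the coefficients have size `≤ c` -/
theorem small {V : ℝ → List Bool → ℂ} {A : List Bool → Prop} {ℓ R : ℝ} (hV : Fam V A ℓ R)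
    (hR : 1 ≤ R) (hℓ : 0 < ℓ) (e : List Bool → ℂ) (he : ∀ v, ‖e v‖ ≤ 1) (he' : ∀ v, e v ≠ 0 → A v)
    (c : ℝ) (hc : 0 < c) (hc2 : c ≤ 2) (n : ℕ) (ξ : List Bool → ℝ) (s t : List Bool → ℕ)
    (ht : ∀ l, l.length = n → t l ≤ n - 1)
    (hsm : ∀ l, l.length = n → ∀ k, s l ≤ k → k < t l → tm e (V (ξ l)) l k ≠ 0 →
      ‖V (ξ l) (l.take k)‖ ≤ c ∧ ‖V (ξ l) (l.take (k + 1))‖ ≤ c) :
    avg n (fun l => ‖win e (V (ξ l)) l (s l) (t l)‖) ≤
      20000 * √c * (R + Real.log (2 / c) + 1) := by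
  have h := lowSmall_ind hV hR hℓ e he he' n ξ n c hc hc2 s t ht hsm
  have hlog : 0 ≤ Real.log (2 / c) := Real.log_nonneg (by rw [le_div_iff₀ hc]; linarith)
  have hs0 : 0 ≤ √c := Real.sqrt_nonneg _
  have hn : (n : ℝ) ≤ 2 ^ n := by exact_mod_cast Nat.lt_two_pow_self.le
  have h1 : 2 * (n : ℝ) * c / 2 ^ n ≤ 2 * c := by
    rw [div_le_iff₀ (by positivity)]
    nlinarith
  have h2 : c ≤ 2 * √c := by
    have h3 : √c ≤ 2 := by
      rw [Real.sqrt_le_iff]; constructor <;> linarith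
    have h4 : √c * √c = c := Real.mul_self_sqrt hc.le
    nlinarith
  have h5 : 0 ≤ √c * (R - 1) := mul_nonneg hs0 (by linarith)
  have h6 : 0 ≤ √c * Real.log (2 / c) := mul_nonneg hs0 hlog
  nlinarith

end Crest.Agent.R100.Low
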