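import Crest.Agent.R100.LowCount
import Crest.Agent.R100.LowSmall

set_option autoImplicit false

open MeasureTheory Set

noncomputable section

namespace Crest.Agent.R100.Low

open Crest.Agent.R100

open Classical in
/-- the indicator of the unstopped nodes -/
def eA (f : ℝ → ℂ) (α ℓ : ℝ) (v : List Bool) : ℂ := if Alive f α ℓ v then 1 else 0

theorem eA_norm (f : ℝ → ℂ) (α ℓ : ℝ) (v : List Bool) : ‖eA f α ℓ v‖ ≤ 1 := by
  unfold eA; split_ifs <;> simp

theorem eA_alive (f : ℝ → ℂ) (α ℓ : ℝ) (v : List Bool) (h : eA f α ℓ v ≠ 0) : Alive f α ℓ v := by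
  unfold eA at h; by_contra h'; simp [h'] at h

/-- the normalised function -/
def nrm (g : ℝ → ℝ) (b : ℝ) (y : ℝ) : ℂ := ((g y / b : ℝ) : ℂ)

theorem lowTs_ln (ℓ : ℝ) (c : Bool) (u : List Bool) : ln ℓ (c :: u) = ln (ℓ / 2) u := by
  unfold ln
  rw [List.length_cons, pow_succ]
  ring

theorem lowTs_U (f : ℝ → ℂ) (α ℓ ξ : ℝ) (c : Bool) (u : List Bool) :
    U f α ℓ ξ (c :: u) = U f (ch c α ℓ) (ℓ / 2) ξ u := by
  unfold U
  rw [lowTs_ln]
  rfl

theorem lowTs_root {f : ℝ → ℂ} {α ℓ : ℝ} {u : List Bool} (h : Alive f α ℓ u) : ca f α ℓ ≤ 1 := by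
  simpa [nd, ln] using h 0 (Nat.zero_le _)

theorem lowTs_alive {f : ℝ → ℂ} {α ℓ : ℝ} (h : ca f α ℓ ≤ 1) (c : Bool) (u : List Bool) :
    Alive f α ℓ (c :: u) ↔ Alive f (ch c α ℓ) (ℓ / 2) u := by
  constructor
  · intro H k hk
    have := H (k + 1) (by simpa using hk)
    rwa [List.take_succ_cons, lowTs_ln] at this
  · intro H k hk
    cases k with
    | zero => simpa [nd, ln] using h
    | succ k =>
      rw [List.take_succ_cons, lowTs_ln]
      exact H k (by simpa using hk)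

theorem lowTs_ca {g : ℝ → ℝ} (h0 : ∀ y, 0 ≤ g y) {b : ℝ} (hb : 0 < b) (α ℓ : ℝ) :
    ca (nrm g b) α ℓ = av g α ℓ / b := by
  unfold ca av nrm
  have e : ∀ y, ‖((g y / b : ℝ) : ℂ)‖ = g y / b := fun y => by
    rw [Complex.norm_real, Real.norm_eq_abs, abs_of_nonneg (div_nonneg (h0 y) hb.le)]
  simp only [e]
  rw [intervalIntegral.integral_div]
  ring

theorem lowTs_meas {g : ℝ → ℝ} (hg : Measurable g) (b : ℝ) : Measurable (nrm g b) :=
  Complex.measurable_ofReal.comp (hg.div_const b)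

theorem lowTs_bd {g : ℝ → ℝ} {M : ℝ} (h0 : ∀ y, 0 ≤ g y ∧ g y ≤ M) {b : ℝ} (hb : 0 < b) (y : ℝ) :
    ‖nrm g b y‖ ≤ M / b := by
  unfold nrm
  rw [Complex.norm_real, Real.norm_eq_abs, abs_of_nonneg (div_nonneg (h0 y).1 hb.le)]
  exact div_le_div_of_nonneg_right (h0 y).2 hb.le

theorem lowTs_D {g : ℝ → ℝ} (hg : Measurable g) {M : ℝ} (h0 : ∀ y, 0 ≤ g y ∧ g y ≤ M) {b : ℝ}
    (hb : 0 < b) (ξ α : ℝ) {ℓ : ℝ} (hℓ : 0 < ℓ) :
    D g ξ α ℓ = (b : ℂ) * (U (nrm g b) α ℓ ξ [false] - U (nrm g b) α ℓ ξ []) := by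
  rw [U_mart (lowTs_meas hg b) (lowTs_bd h0 hb) α hℓ ξ []]
  have e : ∀ x y : ℝ, ∫ t in x..y, nrm g b t * ex ξ t = Fi g ξ x y / b := fun x y => by
    unfold Fi nrm
    rw [← intervalIntegral.integral_div]
    refine intervalIntegral.integral_congr fun t _ => ?_
    push_cast
    ring
  have hb' : (b : ℂ) ≠ 0 := Complex.ofReal_ne_zero.2 hb.ne'
  have hl' : (ℓ : ℂ) ≠ 0 := Complex.ofReal_ne_zero.2 hℓ.ne'
  have e2 : α + ℓ / 2 + ℓ / 2 = α + ℓ := by ring
  simp only [U, cu, nd, ln, ch, List.nil_append, List.length_singleton, pow_one, e, D, e2,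
    Bool.false_eq_true, if_false, if_true]
  push_cast
  field_simp
  ring

theorem lowTs_tm (e u : List Bool → ℂ) (c : Bool) (l : List Bool) (k : ℕ) :
    tm e u (c :: l) (k + 1) = tm (fun v => e (c :: v)) (fun v => u (c :: v)) l k := by
  simp [tm]

/-- bridge to the interface `SL` -/
theorem Ts_eq {g : ℝ → ℝ} (hg : Measurable g) {M : ℝ} (h0 : ∀ y, 0 ≤ g y ∧ g y ≤ M) {b : ℝ}
    (hb : 0 < b) (ξ α : ℝ) {ℓ : ℝ} (hℓ : 0 < ℓ) (l : List Bool) :
    Ts g ξ b α ℓ l =
      (b : ℂ) * win (eA (nrm g b) α ℓ) (U (nrm g b) α ℓ ξ) l 0 (l.length - 1) := by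
  induction l generalizing α ℓ with
  | nil => simp [Ts, win]
  | cons c l ih =>
    cases l with
    | nil => simp [Ts, win]
    | cons c' l =>
      have hca := lowTs_ca (fun y => (h0 y).1) hb α ℓ
      have hlen : (c :: c' :: l).length - 1 = l.length + 1 := by simp
      rw [hlen, Ts]
      split_ifs with h
      · have h1 : ca (nrm g b) α ℓ ≤ 1 := by rw [hca, div_le_one hb]; exact h
        have he : (fun v => eA (nrm g b) α ℓ (c :: v)) = eA (nrm g b) (ch c α ℓ) (ℓ / 2) := by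
          funext v
          unfold eA
          rw [lowTs_alive h1 c v]
        have hu : (fun v => U (nrm g b) α ℓ ξ (c :: v)) = U (nrm g b) (ch c α ℓ) (ℓ / 2) ξ :=
          funext fun v => lowTs_U _ _ _ _ _ _
        have h2 : eA (nrm g b) α ℓ [] = 1 := by
          unfold eA
          rw [if_pos]
          intro k _
          simpa [nd, ln] using h1
        rw [ih (ch c α ℓ) (half_pos hℓ), lowTs_D hg h0 hb ξ α hℓ]
        unfold win
        simp only [List.length_cons, Nat.add_sub_cancel, ← Finset.range_eq_Ico]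
        rw [Finset.sum_range_succ']
        simp only [lowTs_tm, he, hu]
        simp only [tm, List.take_zero, List.nil_append, h2, List.getD_cons_zero, zero_add,
          List.getD_cons_succ]
        ring
      · have h1 : ∀ v, eA (nrm g b) α ℓ v = 0 := fun v => by
          unfold eA
          rw [if_neg]
          intro H
          have := lowTs_root H
          rw [hca, div_le_one hb] at this
          exact h this
        simp [win, tm, h1]

/-- reduction of `SL` to the normalised tree statement -/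
theorem SL_of {G : ℝ → ℝ}
    (h : ∀ (R : ℝ) (g : ℝ → ℝ) (n : ℕ) (α ℓ : ℝ) (ξ : List Bool → ℝ), 1 ≤ R → Measurable g →
      (∀ y, 0 ≤ g y ∧ g y ≤ Real.exp R) → 0 < ℓ →
      avg n (fun l => ‖win (eA (fun y => (g y : ℂ)) α ℓ) (U (fun y => (g y : ℂ)) α ℓ (ξ l)) l 0
        (n - 1)‖) ≤ G R) : SL G := by
  intro R b g n α ℓ ξ hR hb hg h0 hℓ
  have h1 := h R (fun y => g y / b) n α ℓ ξ hR (hg.div_const b)
    (fun y => ⟨div_nonneg (h0 y).1 hb.le, by rw [div_le_iff₀ hb]; exact (h0 y).2⟩) hℓ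
  refine le_trans (le_of_eq ?_) (mul_le_mul_of_nonneg_left h1 hb.le)
  rw [← avg_mul_left]
  refine avg_congr_len n fun l hl => ?_
  rw [Ts_eq hg h0 hb (ξ l) α hℓ l, norm_mul, Complex.norm_real, Real.norm_eq_abs, abs_of_pos hb, hl]
  rfl

/-- sanity check: the classical gain -/
theorem SL_lin : SL (fun R => 60000 * R) := by
  refine SL_of fun R g n α ℓ ξ hR hg h0 hℓ => ?_
  have hm : Measurable fun y => (g y : ℂ) := Complex.measurable_ofReal.comp hg
  have hM : ∀ y, ‖(g y : ℂ)‖ ≤ Real.exp R := fun y => by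
    rw [Complex.norm_real, Real.norm_eq_abs, abs_of_nonneg (h0 y).1]
    exact (h0 y).2
  have h1 := small (fam_U hm hR hM α hℓ) hR hℓ (eA (fun y => (g y : ℂ)) α ℓ) (eA_norm _ α ℓ)
    (eA_alive _ α ℓ) 2 two_pos le_rfl n ξ (fun _ => 0) (fun _ => n - 1) (fun _ _ => le_rfl)
    fun l hl k _ hk hne => by
      have hA : Alive (fun y => (g y : ℂ)) α ℓ (l.take k) := eA_alive _ α ℓ _ fun h => hne (by
        simp [tm, h])
      have h2 := U_bd hm hM α hℓ (ξ l) _ hA
      have hk' : k < l.length := by omega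
      refine ⟨h2.1.trans one_le_two, ?_⟩
      rw [List.take_succ_eq_append_getElem hk']
      exact h2.2 _
  refine h1.trans ?_
  have h3 : √2 ≤ 1.5 := Real.sqrt_le_iff.2 ⟨by norm_num, by norm_num⟩
  have h4 : (0 : ℝ) ≤ √2 := Real.sqrt_nonneg _
  rw [div_self two_ne_zero, Real.log_one]
  nlinarith

end Crest.Agent.R100.Low
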