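import Crest.Agent.R100.OutDefs

/-!
# Row 100, multi-level outer interface (helper84): definitions

`ML` is the multi-level inequality; `R100/Ml.lean` proves that it implies the statement S0132.
-/

set_option autoImplicit false

open MeasureTheory Set
open scoped ENNReal

noncomputable section

namespace Crest.Agent.R100

/-- **The multi-level inequality**: top average at most `b`, stopping level
`B ≤ 16 (1 + log R)² b`, `g ≤ e^R b`, total cost `C R b`; only large `R` is needed. -/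
def ML : Prop :=
  ∃ C R₀ : ℝ, ∀ (R b B : ℝ) (g : ℝ → ℝ) (n : ℕ) (α ℓ : ℝ) (ξ : List Bool → ℝ), 1 ≤ R → R₀ ≤ R →
    0 < b → b ≤ B → B ≤ 16 * (1 + Real.log R) ^ 2 * b → Measurable g →
    (∀ y, 0 ≤ g y ∧ g y ≤ Real.exp R * b) → 0 < ℓ → av g α ℓ ≤ b →
      avg n (fun l => ‖Ts g (ξ l) B α ℓ l‖) ≤ C * R * b

open Classical in
/-- the weak form: only the paths along which all averages are at most `B` count -/
def MLw : Prop :=
  ∃ C R₀ : ℝ, ∀ (R b B : ℝ) (g : ℝ → ℝ) (n : ℕ) (α ℓ : ℝ) (ξ : List Bool → ℝ), 1 ≤ R → R₀ ≤ R →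
    0 < b → b ≤ B → B ≤ 16 * (1 + Real.log R) ^ 2 * b → Measurable g →
    (∀ y, 0 ≤ g y ∧ g y ≤ Real.exp R * b) → 0 < ℓ → av g α ℓ ≤ b →
      avg n (fun l => if good g B α ℓ l then ‖Tf g (ξ l) α ℓ l‖ else 0) ≤ C * R * b

end Crest.Agent.R100
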