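import Crest.Agent.R100.RunDefs
import Crest.Agent.R100.LowFamA

/-!
# Row 100, LIFE tools (helper7): cells with removals as functions on the line
`g y v` is the active part of the cell `y` at the node `v`, AFTER the removals made at `v`.
-/

set_option autoImplicit false

open MeasureTheory Set

noncomputable section

namespace Crest.Agent.R100.Msk

open Crest.Agent.R100 Crest.Agent.R100.Low Crest.Agent.R100.Run

variable {Y : Type} [Fintype Y]

/-- the increment at the node `v` of the time dependent function `f` -/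
def DF (f : List Bool → ℝ → ℂ) (α ℓ ξ : ℝ) (v : List Bool) : ℂ :=
  U (f v) α ℓ ξ (v ++ [false]) - U (f v) α ℓ ξ v

/-- the cell as a complex function -/
def cg (g : Y → List Bool → ℝ → ℝ) (y : Y) (v : List Bool) (t : ℝ) : ℂ := (g y v t : ℂ)

/-- the phased sum of the cells -/
def mf (g : Y → List Bool → ℝ → ℝ) (φ : Y → ℂ) (v : List Bool) (t : ℝ) : ℂ :=
  ∑ y, φ y * cg g y v t

def uu (g : Y → List Bool → ℝ → ℝ) (α ℓ ξ : ℝ) (y : Y) (v : List Bool) : ℂ :=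
  U (cg g y v) α ℓ ξ v

def uc (g : Y → List Bool → ℝ → ℝ) (α ℓ ξ : ℝ) (y : Y) (v : List Bool) : ℂ :=
  U (cg g y v.dropLast) α ℓ ξ v

def pp (g : Y → List Bool → ℝ → ℝ) (α ℓ : ℝ) (y : Y) (v : List Bool) : ℝ :=
  ca (cg g y v) (nd α ℓ v) (ln ℓ v)

def pc (g : Y → List Bool → ℝ → ℝ) (α ℓ : ℝ) (y : Y) (v : List Bool) : ℝ :=
  ca (cg g y v.dropLast) (nd α ℓ v) (ln ℓ v)

/-- the size -/
def SS (g : Y → List Bool → ℝ → ℝ) (α ℓ ξ : ℝ) (v : List Bool) : ℝ := ∑ y, ‖uu g α ℓ ξ y v‖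

/-- cells decreasing along paths, of mass at most `P` at EVERY node (put `g = 0` after death) -/
structure Cells (g : Y → List Bool → ℝ → ℝ) (α ℓ M P : ℝ) : Prop where
  meas : ∀ y v, Measurable (g y v)
  nn : ∀ y v t, 0 ≤ g y v t
  bd : ∀ v t, ∑ y, g y v t ≤ M
  mono : ∀ y v c t, g y (v ++ [c]) t ≤ g y v t
  mass : ∀ v, ∑ y, pp g α ℓ y v ≤ P

variable {g : Y → List Bool → ℝ → ℝ} {α ℓ M P : ℝ}

theorem Cells.cmeas (h : Cells g α ℓ M P) (y : Y) (v : List Bool) : Measurable (cg g y v) :=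
  Complex.measurable_ofReal.comp (h.meas y v)

theorem Cells.norm_cg (h : Cells g α ℓ M P) (y : Y) (v : List Bool) (t : ℝ) :
    ‖cg g y v t‖ = g y v t := by
  unfold cg; rw [Complex.norm_real, Real.norm_of_nonneg (h.nn y v t)]

theorem Cells.cbd (h : Cells g α ℓ M P) (y : Y) (v : List Bool) (t : ℝ) : ‖cg g y v t‖ ≤ M := by
  rw [h.norm_cg]
  exact (Finset.single_le_sum (f := fun y => g y v t) (fun y _ => h.nn y v t)
    (Finset.mem_univ y)).trans (h.bd v t)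

theorem Cells.drop_le (h : Cells g α ℓ M P) (y : Y) (v : List Bool) (t : ℝ) :
    g y v t ≤ g y v.dropLast t := by
  rcases List.eq_nil_or_concat v with rfl | ⟨w, c, rfl⟩
  · simp
  · rw [List.concat_eq_append, List.dropLast_concat]; exact h.mono y w c t

theorem ca_nonneg (f : ℝ → ℂ) (a : ℝ) {lam : ℝ} (hl : 0 < lam) : 0 ≤ ca f a lam :=
  div_nonneg (intervalIntegral.integral_nonneg (by linarith) fun _ _ => norm_nonneg _) hl.le

theorem ca_mart {f : ℝ → ℂ} (hf : Measurable f) {B : ℝ} (hB : ∀ y, ‖f y‖ ≤ B) (α : ℝ) {ℓ : ℝ}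
    (hℓ : 0 < ℓ) (v : List Bool) : ca f (nd α ℓ v) (ln ℓ v) =
      (ca f (nd α ℓ (v ++ [false])) (ln ℓ (v ++ [false])) +
        ca f (nd α ℓ (v ++ [true])) (ln ℓ (v ++ [true]))) / 2 := by
  have hl := lowFamA_ln_pos hℓ v
  simp only [ca, nd_snoc, ln_snoc, lowFamA_ch_false, lowFamA_ch_true]
  have hi := fun a b => (famA_int hf hB a b).norm
  have := intervalIntegral.integral_add_adjacent_intervals
    (hi (nd α ℓ v) (nd α ℓ v + ln ℓ v / 2)) (hi (nd α ℓ v + ln ℓ v / 2) (nd α ℓ v + ln ℓ v))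
  rw [← this, show nd α ℓ v + ln ℓ v / 2 + ln ℓ v / 2 = nd α ℓ v + ln ℓ v by ring]
  field_simp

theorem Cells.ca_sub (h : Cells g α ℓ M P) (y : Y) (v w : List Bool)
    (hle : ∀ t, g y v t ≤ g y w t) (a lam : ℝ) :
    ca (fun t => cg g y w t - cg g y v t) a lam = ca (cg g y w) a lam - ca (cg g y v) a lam := by
  unfold ca
  rw [← sub_div, ← intervalIntegral.integral_sub (famA_int (h.cmeas y w) (h.cbd y w) _ _).norm
    (famA_int (h.cmeas y v) (h.cbd y v) _ _).norm]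
  congr 1
  refine intervalIntegral.integral_congr fun t _ => ?_
  simp only [h.norm_cg]
  unfold cg
  rw [← Complex.ofReal_sub, Complex.norm_real, Real.norm_of_nonneg (sub_nonneg.2 (hle t))]

theorem Cells.rp (h : Cells g α ℓ M P) (hℓ : 0 < ℓ) : RP (pp g α ℓ) (pc g α ℓ) := by
  refine ⟨fun y v => ca_nonneg _ _ (lowFamA_ln_pos hℓ v), fun y v => ?_, fun y v => ?_⟩
  · have := h.ca_sub y v v.dropLast (h.drop_le y v) (nd α ℓ v) (ln ℓ v)
    have h2 := ca_nonneg (fun t => cg g y v.dropLast t - cg g y v t) (nd α ℓ v)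
      (lowFamA_ln_pos hℓ v)
    unfold pp pc; linarith
  · unfold pp pc
    simp only [List.dropLast_concat]
    exact ca_mart (h.cmeas y v) (h.cbd y v) α hℓ v

theorem U_sub {f f' : ℝ → ℂ} (hf : Measurable f) (hf' : Measurable f') {B : ℝ}
    (hB : ∀ y, ‖f y‖ ≤ B) (hB' : ∀ y, ‖f' y‖ ≤ B) (α ℓ ξ : ℝ) (v : List Bool) :
    U (fun t => f t - f' t) α ℓ ξ v = U f α ℓ ξ v - U f' α ℓ ξ v := by
  unfold U cu
  rw [← sub_div, ← intervalIntegral.integral_sub (lowFamA_int hf hB _ _ _)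
    (lowFamA_int hf' hB' _ _ _)]
  congr 1
  refine intervalIntegral.integral_congr fun t _ => ?_
  simp only; ring

theorem Cells.ru (h : Cells g α ℓ M P) (hℓ : 0 < ℓ) (ξ : ℝ) :
    RU 1 (pp g α ℓ) (pc g α ℓ) (uu g α ℓ ξ) (uc g α ℓ ξ) := by
  refine ⟨fun y v => ?_, fun y v => ?_, fun y v => ?_⟩
  · unfold uu uc
    simp only [List.dropLast_concat]
    exact U_mart (h.cmeas y v) (h.cbd y v) α hℓ ξ v
  · rw [one_mul]; exact lowFamA_cu_le _ _ _ (lowFamA_ln_pos hℓ v)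
  · rw [one_mul]
    unfold uu uc pp pc
    rw [← U_sub (h.cmeas y _) (h.cmeas y _) (h.cbd y _) (h.cbd y _),
      ← h.ca_sub y v v.dropLast (h.drop_le y v)]
    exact lowFamA_cu_le _ _ _ (lowFamA_ln_pos hℓ v)

omit [Fintype Y] in
theorem DF_cg (g : Y → List Bool → ℝ → ℝ) (α ℓ ξ : ℝ) (y : Y) (v : List Bool) :
    DF (cg g y) α ℓ ξ v = uc g α ℓ ξ y (v ++ [false]) - uu g α ℓ ξ y v := by
  unfold DF uc uu; rw [List.dropLast_concat]

theorem Cells.U_mf (h : Cells g α ℓ M P) (φ : Y → ℂ) (ξ : ℝ) (v w : List Bool) :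
    U (mf g φ v) α ℓ ξ w = ∑ y, φ y * U (cg g y v) α ℓ ξ w := by
  unfold U cu mf
  simp only [Finset.sum_mul, mul_assoc]
  rw [intervalIntegral.integral_finsetSum fun y _ =>
    (lowFamA_int (h.cmeas y v) (h.cbd y v) _ _ _).const_mul _, Finset.sum_div]
  refine Finset.sum_congr rfl fun y _ => ?_
  rw [intervalIntegral.integral_const_mul, mul_div_assoc]

theorem Cells.DF_mf (h : Cells g α ℓ M P) (φ : Y → ℂ) (ξ : ℝ) (v : List Bool) :
    DF (mf g φ) α ℓ ξ v = ∑ y, φ y * DF (cg g y) α ℓ ξ v := by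
  unfold DF
  rw [h.U_mf, h.U_mf, ← Finset.sum_sub_distrib]
  exact Finset.sum_congr rfl fun y _ => by ring

theorem Cells.wD_mf (h : Cells g α ℓ M P) (φ : Y → ℂ) (ξ : ℝ) (l : List Bool) (s t : ℕ) :
    wD (DF (mf g φ) α ℓ ξ) l s t = ∑ y, φ y * wD (DF (cg g y) α ℓ ξ) l s t := by
  unfold wD tD
  simp only [h.DF_mf, Finset.mul_sum]
  rw [Finset.sum_comm]
  exact Finset.sum_congr rfl fun y _ => Finset.sum_congr rfl fun k _ => by ring

theorem Cells.wD_mf_le (h : Cells g α ℓ M P) (φ : Y → ℂ) (hφ : ∀ y, ‖φ y‖ ≤ 1) (ξ : ℝ)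
    (l : List Bool) (s t : ℕ) :
    ‖wD (DF (mf g φ) α ℓ ξ) l s t‖ ≤ ∑ y, ‖wD (DF (cg g y) α ℓ ξ) l s t‖ := by
  rw [h.wD_mf]
  refine (norm_sum_le _ _).trans (Finset.sum_le_sum fun y _ => ?_)
  rw [norm_mul]
  exact mul_le_of_le_one_left (norm_nonneg _) (hφ y)

theorem Cells.Sz_le (h : Cells g α ℓ M P) (hℓ : 0 < ℓ) (ξ : ℝ) (v : List Bool) :
    Sz (pp g α ℓ) (uu g α ℓ ξ) v ≤ SS g α ℓ ξ v := by
  refine Finset.sum_le_sum fun y _ => ?_
  have h1 := (h.ru hℓ ξ).bd y v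
  rw [one_mul] at h1
  rcases ((h.rp hℓ).nn y v).eq_or_lt with h0 | h0
  · rw [← h0, div_zero]; exact norm_nonneg _
  · rw [div_le_iff₀ h0, sq]; exact mul_le_mul_of_nonneg_left h1 (norm_nonneg _)

theorem Cells.SS_le (h : Cells g α ℓ M P) (hℓ : 0 < ℓ) (ξ : ℝ) (v : List Bool) :
    SS g α ℓ ξ v ≤ P :=
  le_trans (Finset.sum_le_sum fun y _ => by simpa using (h.ru hℓ ξ).bd y v) (h.mass v)

theorem Cells.norm_DF (h : Cells g α ℓ M P) (hℓ : 0 < ℓ) (ξ : ℝ) (y : Y) (v : List Bool) :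
    ‖DF (cg g y) α ℓ ξ v‖ ≤ 3 * pp g α ℓ y v := by
  have hl := lowFamA_ln_pos hℓ v
  have h1 : ‖U (cg g y v) α ℓ ξ v‖ ≤ pp g α ℓ y v := lowFamA_cu_le _ _ _ hl
  have h2 : ‖U (cg g y v) α ℓ ξ (v ++ [false])‖ ≤ 2 * pp g α ℓ y v := by
    refine (lowFamA_cu_le _ _ _ (lowFamA_ln_pos hℓ _)).trans ?_
    rw [nd_snoc, ln_snoc]
    exact lowFamA_ca_child (h.cmeas y v) (h.cbd y v) _ hl false
  exact (norm_sub_le _ _).trans (by linarith)

theorem norm_tD_le (D : List Bool → ℂ) (l : List Bool) (k : ℕ) : ‖tD D l k‖ ≤ ‖D (l.take k)‖ := by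
  unfold tD
  rw [norm_mul]
  refine mul_le_of_le_one_left (norm_nonneg _) ?_
  cases l.getD k false <;> cases l.getD (k + 1) false <;> simp [sig]

/-- the trivial bound: every step costs at most `3 P` -/
theorem Cells.triv (h : Cells g α ℓ M P) (hℓ : 0 < ℓ) (ξ : ℝ) (l : List Bool) (s t : ℕ) :
    ∑ y, ‖wD (DF (cg g y) α ℓ ξ) l s t‖ ≤ 3 * P * ((t - s : ℕ) : ℝ) := by
  unfold wD
  refine le_trans (Finset.sum_le_sum fun y _ => norm_sum_le _ _) ?_
  rw [Finset.sum_comm]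
  refine le_trans (Finset.sum_le_sum (g := fun _ => 3 * P) fun k _ => ?_) ?_
  · refine le_trans (Finset.sum_le_sum fun y _ => (norm_tD_le _ l k).trans
      (h.norm_DF hℓ ξ y _)) ?_
    rw [← Finset.mul_sum]
    linarith [h.mass (l.take k)]
  · rw [Finset.sum_const, Nat.card_Ico, nsmul_eq_mul, mul_comm]

theorem lip_core {f : ℝ → ℂ} (hf : Measurable f) {B : ℝ} (hB : ∀ y, ‖f y‖ ≤ B) (ξ β : ℝ)
    {a b lam x : ℝ} (hab : a ≤ b) (hb : b ≤ a + lam) (h1 : a ≤ x) (h2 : x ≤ a + lam) :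
    ‖(∫ y in a..b, f y * ex ξ y) - ex (ξ - β) x * ∫ y in a..b, f y * ex β y‖ ≤
      |ξ - β| * lam * ∫ y in a..a + lam, ‖f y‖ := by
  have hn := (famA_int hf hB a (a + lam)).norm
  have hn' := (famA_int hf hB a b).norm
  have hl : 0 ≤ lam := by linarith
  have h4 : ∫ y in a..b, ‖f y‖ ≤ ∫ y in a..a + lam, ‖f y‖ :=
    intervalIntegral.integral_mono_interval le_rfl hab hb
      (Filter.Eventually.of_forall fun y => norm_nonneg _) hn
  rw [← intervalIntegral.integral_const_mul, ← intervalIntegral.integral_sub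
    (lowFamA_int hf hB _ _ _) ((lowFamA_int hf hB _ _ _).const_mul _)]
  refine (intervalIntegral.norm_integral_le_of_norm_le hab (g := fun y => |ξ - β| * lam * ‖f y‖)
    (Filter.Eventually.of_forall fun y hy => ?_) (hn'.const_mul _)).trans ?_
  · have e : f y * ex ξ y - ex (ξ - β) x * (f y * ex β y) =
        (ex ξ y - ex (ξ - β) x * ex β y) * f y := by ring
    rw [e, norm_mul]
    refine mul_le_mul_of_nonneg_right ((famA_ex_sub ξ β y x).trans ?_) (norm_nonneg _)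
    refine mul_le_mul_of_nonneg_left (abs_le.2 ⟨?_, ?_⟩) (abs_nonneg _) <;> linarith [hy.1, hy.2]
  · rw [intervalIntegral.integral_const_mul]
    exact mul_le_mul_of_nonneg_left h4 (by positivity)

theorem lip_node {f : ℝ → ℂ} (hf : Measurable f) {B : ℝ} (hB : ∀ y, ‖f y‖ ≤ B) (α : ℝ) {ℓ : ℝ}
    (hℓ : 0 < ℓ) (ξ β : ℝ) (v w : List Bool) :
    ‖U f α ℓ ξ v - ex (ξ - β) (nd α ℓ (v ++ w)) * U f α ℓ β v‖ ≤
        |ξ - β| * ln ℓ v * ca f (nd α ℓ v) (ln ℓ v) ∧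
      ‖U f α ℓ ξ (v ++ [false]) - ex (ξ - β) (nd α ℓ (v ++ w)) * U f α ℓ β (v ++ [false])‖ ≤
        2 * (|ξ - β| * ln ℓ v * ca f (nd α ℓ v) (ln ℓ v)) := by
  have hl := lowFamA_ln_pos hℓ v
  have hx := famA_nd_mem w (nd α ℓ v) _ hl
  rw [← famA_nd_append] at hx
  constructor
  · have h := lip_core hf hB ξ β (a := nd α ℓ v) (b := nd α ℓ v + ln ℓ v) (by linarith) le_rfl
      hx.1 hx.2
    unfold U cu ca
    rw [← mul_div_assoc, ← sub_div, norm_div, Complex.norm_real, Real.norm_of_nonneg hl.le,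
      ← mul_div_assoc]
    exact div_le_div_of_nonneg_right h hl.le
  · have h := lip_core hf hB ξ β (a := nd α ℓ v) (b := nd α ℓ v + ln ℓ v / 2) (by linarith)
      (by linarith) hx.1 hx.2
    have hl2 : 0 < ln ℓ v / 2 := by linarith
    unfold U cu ca
    rw [nd_snoc, ln_snoc, lowFamA_ch_false, ← mul_div_assoc, ← sub_div, norm_div,
      Complex.norm_real, Real.norm_of_nonneg hl2.le, div_le_iff₀ hl2]
    refine h.trans (le_of_eq ?_)
    field_simp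

/-- the size is Lipschitz in the frequency -/
theorem Cells.SS_lip (h : Cells g α ℓ M P) (hℓ : 0 < ℓ) (ξ β : ℝ) (v : List Bool) :
    SS g α ℓ ξ v ≤ SS g α ℓ β v + |ξ - β| * ln ℓ v * P := by
  have hl := lowFamA_ln_pos hℓ v
  have h1 : ∀ y, ‖uu g α ℓ ξ y v‖ ≤ ‖uu g α ℓ β y v‖ + |ξ - β| * ln ℓ v * pp g α ℓ y v := by
    intro y
    have h2 := (lip_node (h.cmeas y v) (h.cbd y v) α hℓ ξ β v []).1
    have h3 := norm_add_le (U (cg g y v) α ℓ ξ v - ex (ξ - β) (nd α ℓ (v ++ [])) *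
      U (cg g y v) α ℓ β v) (ex (ξ - β) (nd α ℓ (v ++ [])) * U (cg g y v) α ℓ β v)
    rw [sub_add_cancel, norm_mul, famA_norm_ex, one_mul] at h3
    unfold uu pp; linarith
  refine le_trans (Finset.sum_le_sum fun y _ => h1 y) ?_
  rw [Finset.sum_add_distrib, ← Finset.mul_sum]
  exact add_le_add le_rfl (mul_le_mul_of_nonneg_left (h.mass v) (by positivity))

/-- changing the frequency in a window -/
theorem Cells.win_lip' (h : Cells g α ℓ M P) (hℓ : 0 < ℓ) (ξ β : ℝ) (l : List Bool) (s t : ℕ)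
    (ht : t ≤ l.length) :
    ∑ y, ‖wD (DF (cg g y) α ℓ ξ) l s t - ex (ξ - β) (nd α ℓ l) * wD (DF (cg g y) α ℓ β) l s t‖ ≤
      6 * (|ξ - β| * (ℓ / 2 ^ s)) * P := by
  set ω := ex (ξ - β) (nd α ℓ l) with hω
  have hP : 0 ≤ P := le_trans (Finset.sum_nonneg fun y _ => (h.rp hℓ).nn y []) (h.mass [])
  have h1 : ∀ y k, k < t → ‖tD (DF (cg g y) α ℓ ξ) l k - ω * tD (DF (cg g y) α ℓ β) l k‖ ≤
      3 * (|ξ - β| * (ℓ / 2 ^ k)) * pp g α ℓ y (l.take k) := by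
    intro y k hk
    have hlen : (l.take k).length = k := by simp; omega
    have h2 := lip_node (h.cmeas y (l.take k)) (h.cbd y (l.take k)) α hℓ ξ β (l.take k) (l.drop k)
    rw [List.take_append_drop, ← hω, show ln ℓ (l.take k) = ℓ / 2 ^ k by rw [ln, hlen]] at h2
    have e : tD (DF (cg g y) α ℓ ξ) l k - ω * tD (DF (cg g y) α ℓ β) l k =
        tD (fun v => DF (cg g y) α ℓ ξ v - ω * DF (cg g y) α ℓ β v) l k := by
      unfold tD; ring
    rw [e]
    refine (norm_tD_le _ l k).trans ?_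
    have e2 : DF (cg g y) α ℓ ξ (l.take k) - ω * DF (cg g y) α ℓ β (l.take k) =
        (U (cg g y (l.take k)) α ℓ ξ (l.take k ++ [false]) -
          ω * U (cg g y (l.take k)) α ℓ β (l.take k ++ [false])) -
        (U (cg g y (l.take k)) α ℓ ξ (l.take k) - ω * U (cg g y (l.take k)) α ℓ β (l.take k)) := by
      unfold DF; ring
    rw [e2]
    refine (norm_sub_le _ _).trans ?_
    unfold pp
    rw [show ln ℓ (l.take k) = ℓ / 2 ^ k by rw [ln, hlen]]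
    linarith [h2.1, h2.2]
  have h3 : ∀ y, ‖wD (DF (cg g y) α ℓ ξ) l s t - ω * wD (DF (cg g y) α ℓ β) l s t‖ ≤
      ∑ k ∈ Finset.Ico s t, 3 * (|ξ - β| * (ℓ / 2 ^ k)) * pp g α ℓ y (l.take k) := by
    intro y
    have e : wD (DF (cg g y) α ℓ ξ) l s t - ω * wD (DF (cg g y) α ℓ β) l s t =
        ∑ k ∈ Finset.Ico s t, (tD (DF (cg g y) α ℓ ξ) l k - ω * tD (DF (cg g y) α ℓ β) l k) := by
      unfold wD
      rw [Finset.sum_sub_distrib, Finset.mul_sum]
    rw [e]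
    exact (norm_sum_le _ _).trans
      (Finset.sum_le_sum fun k hk => h1 y k (Finset.mem_Ico.1 hk).2)
  refine le_trans (Finset.sum_le_sum fun y _ => h3 y) ?_
  rw [Finset.sum_comm]
  refine le_trans (Finset.sum_le_sum (g := fun k => 3 * (|ξ - β| * ℓ) * P * (1 / 2) ^ k)
    fun k _ => ?_) ?_
  · rw [← Finset.mul_sum]
    refine (mul_le_mul_of_nonneg_left (h.mass _) (by positivity)).trans (le_of_eq ?_)
    rw [one_div, inv_pow]; ring
  · rw [← Finset.mul_sum]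
    have h5 : ∑ k ∈ Finset.Ico s t, (1 / 2 : ℝ) ^ k ≤ 2 * (1 / 2) ^ s := by
      have := geom_sum_Ico_le_of_lt_one (x := (1 / 2 : ℝ)) (m := s) (n := t) (by norm_num)
        (by norm_num)
      refine this.trans (le_of_eq ?_)
      ring
    refine (mul_le_mul_of_nonneg_left h5 (by positivity)).trans (le_of_eq ?_)
    rw [one_div, inv_pow]; ring

theorem Cells.win_lip (h : Cells g α ℓ M P) (hℓ : 0 < ℓ) (ξ β : ℝ) (l : List Bool) (s t : ℕ)
    (ht : t ≤ l.length) :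
    ∑ y, ‖wD (DF (cg g y) α ℓ ξ) l s t‖ ≤
      ∑ y, ‖wD (DF (cg g y) α ℓ β) l s t‖ + 6 * (|ξ - β| * (ℓ / 2 ^ s)) * P := by
  refine le_trans ?_ (add_le_add le_rfl (h.win_lip' hℓ ξ β l s t ht))
  rw [← Finset.sum_add_distrib]
  refine Finset.sum_le_sum fun y _ => ?_
  have := norm_add_le (ex (ξ - β) (nd α ℓ l) * wD (DF (cg g y) α ℓ β) l s t)
    (wD (DF (cg g y) α ℓ ξ) l s t - ex (ξ - β) (nd α ℓ l) * wD (DF (cg g y) α ℓ β) l s t)
  rwa [add_sub_cancel, norm_mul, famA_norm_ex, one_mul] at this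

theorem Cells.mf_lip (h : Cells g α ℓ M P) (hℓ : 0 < ℓ) (φ : Y → ℂ) (hφ : ∀ y, ‖φ y‖ ≤ 1)
    (ξ β : ℝ) (l : List Bool) (s t : ℕ) (ht : t ≤ l.length) :
    ‖wD (DF (mf g φ) α ℓ ξ) l s t‖ ≤
      ‖wD (DF (mf g φ) α ℓ β) l s t‖ + 6 * (|ξ - β| * (ℓ / 2 ^ s)) * P := by
  refine le_trans ?_ (add_le_add le_rfl (h.win_lip' hℓ ξ β l s t ht))
  have e : wD (DF (mf g φ) α ℓ ξ) l s t = ex (ξ - β) (nd α ℓ l) * wD (DF (mf g φ) α ℓ β) l s t +
      ∑ y, φ y * (wD (DF (cg g y) α ℓ ξ) l s t -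
        ex (ξ - β) (nd α ℓ l) * wD (DF (cg g y) α ℓ β) l s t) := by
    rw [h.wD_mf, h.wD_mf, Finset.mul_sum, ← Finset.sum_add_distrib]
    exact Finset.sum_congr rfl fun y _ => by ring
  rw [e]
  refine (norm_add_le _ _).trans (add_le_add ?_ ((norm_sum_le _ _).trans
    (Finset.sum_le_sum fun y _ => ?_)))
  · rw [norm_mul, famA_norm_ex, one_mul]
  · rw [norm_mul]; exact mul_le_of_le_one_left (norm_nonneg _) (hφ y)

end Crest.Agent.R100.Msk
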