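import Crest.Agent.R100.MskDefs
import Crest.Agent.R100.LifeDefs

/-! # Row 100, LIFE tools (helper7): trivial and Lipschitz bounds on the objects of `LifeDefs` -/

set_option autoImplicit false

open MeasureTheory Set

noncomputable section

namespace Crest.Agent.R100.Msk

open Crest.Agent.R100 Crest.Agent.R100.Low Crest.Agent.R100.Run

variable {Y Ω : Type} [Fintype Y] [Fintype Ω]

open Classical in
/-- the cells, put to zero after death -/
def kil (h : Y → List Bool → ℝ → ℝ) (A : List Bool → Prop) (y : Y) (v : List Bool) (t : ℝ) : ℝ :=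
  if A v then h y v t else 0

variable {R P μ α ℓ : ℝ} {h : Y → List Bool → ℝ → ℝ} {A : List Bool → Prop} {lam Z : Ω → ℝ}

theorem data_le_root (hD : Life.Data R P μ h α ℓ A lam Z) (y : Y) (v : List Bool) (t : ℝ) :
    h y v t ≤ h y [] t := by
  induction v using List.reverseRecOn with
  | nil => exact le_rfl
  | append_singleton v c ih => exact (hD.dec y v c t).trans ih

theorem data_bd (hD : Life.Data R P μ h α ℓ A lam Z) (y : Y) (v : List Bool) (t : ℝ) :
    h y v t ≤ Real.exp (3 * R) * P := (data_le_root hD y v t).trans (hD.sup y t)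

omit [Fintype Y] in
theorem cg_kil {v : List Bool} (hv : A v) (y : Y) :
    cg (kil h A) y v = fun t => (h y v t : ℂ) := by
  funext t; simp [cg, kil, hv]

omit [Fintype Y] in
theorem cg_kil' {v : List Bool} (hv : ¬A v) (y : Y) : cg (kil h A) y v = fun _ => 0 := by
  funext t; simp [cg, kil, hv]

theorem ca_eq_ms (hD : Life.Data R P μ h α ℓ A lam Z) (y : Y) (w v : List Bool) :
    ca (fun t => (h y w t : ℂ)) (nd α ℓ v) (ln ℓ v) = Life.ms h α ℓ y w v := by
  unfold ca Life.ms av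
  congr 1
  refine intervalIntegral.integral_congr fun t _ => ?_
  simp only
  rw [Complex.norm_real, Real.norm_of_nonneg (hD.nn y w t)]

theorem cells_kil (hD : Life.Data R P μ h α ℓ A lam Z) :
    Cells (kil h A) α ℓ (Fintype.card Y * (Real.exp (3 * R) * P)) P := by
  classical
  have hP := hD.hP
  refine ⟨fun y v => ?_, fun y v t => ?_, fun v t => ?_, fun y v c t => ?_, fun v => ?_⟩
  · unfold kil
    by_cases hv : A v
    · simpa [hv] using hD.meas y v
    · simp [hv]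
  · unfold kil; split_ifs; exacts [hD.nn y v t, le_rfl]
  · refine le_trans (Finset.sum_le_sum (g := fun _ => Real.exp (3 * R) * P) fun y _ => ?_) ?_
    · unfold kil; split_ifs; exacts [data_bd hD y v t, by positivity]
    · simp
  · unfold kil
    by_cases h1 : A (v ++ [c])
    · have h2 : A v := by simpa using hD.her _ v.length h1
      rw [if_pos h1, if_pos h2]; exact hD.dec y v c t
    · rw [if_neg h1]; split_ifs; exacts [hD.nn y v t, le_rfl]
  · by_cases hv : A v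
    · refine le_trans (le_of_eq (Finset.sum_congr rfl fun y _ => ?_)) (hD.mass v hv)
      unfold pp; rw [cg_kil hv, ca_eq_ms hD]
    · refine le_trans (le_of_eq (Finset.sum_eq_zero fun y _ => ?_)) hP.le
      unfold pp; rw [cg_kil' hv]; simp [ca]

theorem SS_kil {v : List Bool} (hv : A v) (ξ : ℝ) :
    SS (kil h A) α ℓ ξ v = Life.SS h α ℓ ξ v :=
  Finset.sum_congr rfl fun y _ => by unfold uu Life.cf; rw [cg_kil hv]

theorem SS_kil' {v : List Bool} (hv : ¬A v) (ξ : ℝ) : SS (kil h A) α ℓ ξ v = 0 :=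
  Finset.sum_eq_zero fun y _ => by unfold uu; rw [cg_kil' hv]; simp [U, cu]

theorem Wn_eq (hD : Life.Data R P μ h α ℓ A lam Z) (φ : Y → ℂ) (ζ : ℝ) (l : List Bool)
    (s t : ℕ) : Life.Wn h α ℓ A φ ζ l s t = wD (DF (mf (kil h A) φ) α ℓ ζ) l s t := by
  unfold Life.Wn
  congr 1
  funext v
  rw [(cells_kil hD).DF_mf]
  split_ifs with hv
  · exact Finset.sum_congr rfl fun y _ => by unfold DF Life.dd Life.cf; rw [cg_kil hv]
  · exact (Finset.sum_eq_zero fun y _ => by unfold DF; rw [cg_kil' hv]; simp [U, cu]).symm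

theorem SS_le (hD : Life.Data R P μ h α ℓ A lam Z) (ξ : ℝ) {v : List Bool} (hv : A v) :
    Life.SS h α ℓ ξ v ≤ P := by
  rw [← SS_kil hv]; exact (cells_kil hD).SS_le hD.hl ξ v

theorem SS_lip (hD : Life.Data R P μ h α ℓ A lam Z) (ξ β : ℝ) {v : List Bool} (hv : A v) :
    Life.SS h α ℓ ξ v ≤ Life.SS h α ℓ β v + |ξ - β| * ln ℓ v * P := by
  rw [← SS_kil hv, ← SS_kil hv]; exact (cells_kil hD).SS_lip hD.hl ξ β v

theorem Wn_triv (hD : Life.Data R P μ h α ℓ A lam Z) (φ : Y → ℂ) (hφ : ∀ y, ‖φ y‖ ≤ 1) (ζ : ℝ)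
    (l : List Bool) (s t : ℕ) : ‖Life.Wn h α ℓ A φ ζ l s t‖ ≤ 3 * P * ((t - s : ℕ) : ℝ) := by
  rw [Wn_eq hD]
  exact ((cells_kil hD).wD_mf_le φ hφ ζ l s t).trans ((cells_kil hD).triv hD.hl ζ l s t)

theorem Wn_lip (hD : Life.Data R P μ h α ℓ A lam Z) (φ : Y → ℂ) (hφ : ∀ y, ‖φ y‖ ≤ 1) (ξ β : ℝ)
    (l : List Bool) (s t : ℕ) (ht : t ≤ l.length) :
    ‖Life.Wn h α ℓ A φ ξ l s t‖ ≤
      ‖Life.Wn h α ℓ A φ β l s t‖ + 6 * (|ξ - β| * (ℓ / 2 ^ s)) * P := by
  rw [Wn_eq hD, Wn_eq hD]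
  exact (cells_kil hD).mf_lip hD.hl φ hφ ξ β l s t ht

theorem Wn_add (φ : Y → ℂ) (ζ : ℝ) (l : List Bool) {s m t : ℕ} (h1 : s ≤ m) (h2 : m ≤ t) :
    Life.Wn h α ℓ A φ ζ l s t = Life.Wn h α ℓ A φ ζ l s m + Life.Wn h α ℓ A φ ζ l m t := by
  unfold Life.Wn wD
  rw [Finset.sum_Ico_consecutive _ h1 h2]

theorem Wn_empty (φ : Y → ℂ) (ζ : ℝ) (l : List Bool) {s t : ℕ} (h1 : t ≤ s) :
    Life.Wn h α ℓ A φ ζ l s t = 0 := by
  unfold Life.Wn wD
  rw [Finset.Ico_eq_empty_of_le h1, Finset.sum_empty]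

end Crest.Agent.R100.Msk
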