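import Crest.Agent.R100.LifeDefs

/-! # Row 100: asymptotics of `mm R = log (2 + log R)` (helper13) -/

set_option autoImplicit false

open Filter

noncomputable section

namespace Crest.Agent.R100.N13

open Crest.Agent.R100.Life

theorem tendsto_mm : Tendsto mm atTop atTop :=
  Real.tendsto_log_atTop.comp (tendsto_atTop_add_const_left _ 2 Real.tendsto_log_atTop)

theorem ev_mm (a : ℝ) : ∀ᶠ R in atTop, a ≤ mm R := tendsto_mm.eventually_ge_atTop a

theorem ev_log (a : ℝ) : ∀ᶠ R in atTop, a ≤ Real.log R :=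
  Real.tendsto_log_atTop.eventually_ge_atTop a

/-- `C (log x)^k ≤ x^s` for large `x` -/
theorem ev_log_pow (C : ℝ) (k : ℕ) {s : ℝ} (hs : 0 < s) :
    ∀ᶠ x in atTop, C * Real.log x ^ k ≤ x ^ s := by
  have h := (isLittleO_log_rpow_rpow_atTop (k : ℝ) hs).bound (c := 1 / (|C| + 1)) (by positivity)
  filter_upwards [h, eventually_ge_atTop (1 : ℝ)] with x hx h1
  have hl : 0 ≤ Real.log x := Real.log_nonneg h1
  rw [Real.rpow_natCast, Real.norm_of_nonneg (by positivity),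
    Real.norm_of_nonneg (by positivity)] at hx
  have h2 : 0 ≤ x ^ s := by positivity
  calc C * Real.log x ^ k ≤ (|C| + 1) * Real.log x ^ k := by
        gcongr; linarith [le_abs_self C]
    _ ≤ (|C| + 1) * (1 / (|C| + 1) * x ^ s) := by gcongr
    _ = x ^ s := by field_simp

/-- `C m^k ≤ (log R)^s` for large `R` -/
theorem ev_mm_pow (C : ℝ) (k : ℕ) {s : ℝ} (hs : 0 < s) :
    ∀ᶠ R in atTop, C * mm R ^ k ≤ Real.log R ^ s := by
  have h := (tendsto_atTop_add_const_left _ 2 Real.tendsto_log_atTop).eventually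
    (ev_log_pow (|C| * 2 ^ s) k hs)
  filter_upwards [h, ev_log 2, ev_mm 0] with R hR h2 hm
  have h3 : (2 + Real.log R) ^ s ≤ 2 ^ s * Real.log R ^ s := by
    rw [← Real.mul_rpow (by norm_num) (by linarith)]
    exact Real.rpow_le_rpow (by linarith) (by linarith) hs.le
  have h4 : (0 : ℝ) < 2 ^ s := by positivity
  have h5 : 1 ≤ (2 : ℝ) ^ s := Real.one_le_rpow (by norm_num) hs.le
  have h6 : |C| * 2 ^ s * mm R ^ k ≤ 2 ^ s * Real.log R ^ s := hR.trans h3
  have h7 : |C| * mm R ^ k ≤ Real.log R ^ s := by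
    refine le_of_mul_le_mul_left ?_ h4
    linarith
  exact (mul_le_mul_of_nonneg_right (le_abs_self C) (pow_nonneg hm k)).trans h7

/-- `C m^k ≤ log R` for large `R` -/
theorem ev_mm_le_log (C : ℝ) (k : ℕ) : ∀ᶠ R in atTop, C * mm R ^ k ≤ Real.log R := by
  filter_upwards [ev_mm_pow C k one_pos] with R h
  rwa [Real.rpow_one] at h

/-- `C m^k (log R)^j ≤ R^s` for large `R` -/
theorem ev_mm_log_rpow (C : ℝ) (k j : ℕ) {s : ℝ} (hs : 0 < s) :
    ∀ᶠ R in atTop, C * mm R ^ k * Real.log R ^ j ≤ R ^ s := by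
  filter_upwards [ev_mm_le_log C k, ev_log_pow 1 (j + 1) hs, ev_log 0] with R h1 h2 h3
  calc C * mm R ^ k * Real.log R ^ j ≤ Real.log R * Real.log R ^ j := by gcongr
    _ = 1 * Real.log R ^ (j + 1) := by ring
    _ ≤ _ := h2

/-- `C m^k (log R)^j ≤ R` for large `R` -/
theorem ev_mm_log (C : ℝ) (k j : ℕ) :
    ∀ᶠ R in atTop, C * mm R ^ k * Real.log R ^ j ≤ R := by
  filter_upwards [ev_mm_log_rpow C k j one_pos] with R h
  rwa [Real.rpow_one] at h

/-- `C m^k ≤ R` for large `R` -/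
theorem ev_mm_le (C : ℝ) (k : ℕ) : ∀ᶠ R in atTop, C * mm R ^ k ≤ R := by
  filter_upwards [ev_mm_log C k 0] with R h
  simpa using h

/-- `C R^a m^k ≤ exp (R / m^j)` for large `R` -/
theorem ev_exp (C : ℝ) (a k j : ℕ) :
    ∀ᶠ R in atTop, C * R ^ a * mm R ^ k ≤ Real.exp (R / mm R ^ j) := by
  filter_upwards [ev_mm_le C k, ev_mm_log (a + 1) j 1, ev_mm 1, eventually_ge_atTop (1 : ℝ)]
    with R h1 h2 h3 h4
  have hm : 0 < mm R ^ j := by positivity
  have h5 : ((a : ℝ) + 1) * Real.log R ≤ R / mm R ^ j := by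
    rw [le_div_iff₀ hm]
    calc ((a : ℝ) + 1) * Real.log R * mm R ^ j = (a + 1) * mm R ^ j * Real.log R ^ 1 := by ring
      _ ≤ R := h2
  calc C * R ^ a * mm R ^ k = R ^ a * (C * mm R ^ k) := by ring
    _ ≤ R ^ a * R := by gcongr
    _ = Real.exp (((a : ℝ) + 1) * Real.log R) := by
        rw [← pow_succ, show ((a : ℝ) + 1) = ((a + 1 : ℕ) : ℝ) by push_cast; ring,
          Real.exp_nat_mul, Real.exp_log (by linarith)]
    _ ≤ _ := Real.exp_le_exp.2 h5

/-- `w = (log R)^(1/100)`: `R = exp (w^100)` and `C m^k ≤ w` for large `R` -/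
theorem ev_w (C : ℝ) (k : ℕ) : ∀ᶠ R in atTop, ∃ w : ℝ, 10 ^ 9 ≤ w ∧ R = Real.exp (w ^ 100) ∧
    C * mm R ^ k ≤ w ∧ w = Real.log R ^ (1 / 100 : ℝ) := by
  filter_upwards [ev_mm_pow C k (s := 1 / 100) (by norm_num),
    ev_mm_pow (10 ^ 9) 0 (s := 1 / 100) (by norm_num), ev_log 0, eventually_gt_atTop (0 : ℝ)]
    with R h1 h2 h3 h4
  refine ⟨Real.log R ^ (1 / 100 : ℝ), by simpa using h2, ?_, h1, rfl⟩
  rw [← Real.rpow_natCast, ← Real.rpow_mul h3]
  norm_num
  rw [Real.exp_log h4]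

/-- turn an eventual statement into `∃ R₀` -/
theorem ex_of_ev {p : ℝ → Prop} (h : ∀ᶠ R in atTop, p R) : ∃ R₀ : ℝ, ∀ R, R₀ ≤ R → p R :=
  eventually_atTop.1 h

theorem log_le_exp_mm {R : ℝ} (h : 1 ≤ R) : Real.exp (mm R) = 2 + Real.log R :=
  Real.exp_log (by linarith [Real.log_nonneg h])

end Crest.Agent.R100.N13
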