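import Crest.Agent.R100.LifeDefs

/-! # Row 100 (helper42): eventual inequalities for `mm R = log (2 + log R)` -/

set_option autoImplicit false

open Filter

noncomputable section

namespace Crest.Agent.R100.N42

open Crest.Agent.R100.Life

theorem LL_tendsto : Tendsto (fun R : ℝ => 2 + Real.log R) atTop atTop :=
  tendsto_atTop_add_const_left _ _ Real.tendsto_log_atTop

theorem mm_tendsto : Tendsto mm atTop atTop := Real.tendsto_log_atTop.comp LL_tendsto

theorem ev_mm (C : ℝ) : ∀ᶠ R in atTop, C ≤ mm R := mm_tendsto.eventually_ge_atTop C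

theorem mm_le {R : ℝ} (hR : 1 ≤ R) : mm R ≤ 2 + Real.log R := by
  have := Real.log_nonneg hR
  have := Real.log_le_sub_one_of_pos (show 0 < 2 + Real.log R by linarith)
  unfold mm; linarith

theorem mm_pos {R : ℝ} (hR : 1 ≤ R) : 0 < mm R := by
  have := Real.log_nonneg hR
  exact Real.log_pos (by linarith)

theorem exp_mm {R : ℝ} (hR : 1 ≤ R) : Real.exp (mm R) = 2 + Real.log R := by
  have := Real.log_nonneg hR
  exact Real.exp_log (by linarith)

/-- `C (2 + log R)^a ≤ R` eventually -/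
theorem ev_poly (C : ℝ) (a : ℕ) : ∀ᶠ R in atTop, C * (2 + Real.log R) ^ a ≤ R := by
  have h := (Real.tendsto_exp_div_pow_atTop a).eventually_ge_atTop (|C| * Real.exp 2)
  filter_upwards [LL_tendsto.eventually h, eventually_ge_atTop (1 : ℝ)] with R h1 hR
  have hl := Real.log_nonneg hR
  have hp : 0 < (2 + Real.log R) ^ a := by positivity
  rw [le_div_iff₀ hp, Real.exp_add, Real.exp_log (by linarith)] at h1
  have h2 : |C| * (2 + Real.log R) ^ a ≤ R := by
    have := Real.exp_pos 2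
    refine le_of_mul_le_mul_left ?_ this
    linarith
  exact (mul_le_mul_of_nonneg_right (le_abs_self C) hp.le).trans h2

/-- `C (2 + log R)^a ≤ R / mm R ^ k` eventually -/
theorem ev_main (C : ℝ) (a k : ℕ) : ∀ᶠ R in atTop, C * (2 + Real.log R) ^ a ≤ R / mm R ^ k := by
  filter_upwards [ev_poly |C| (a + k), eventually_ge_atTop (1 : ℝ)] with R h1 hR
  have hm := mm_pos hR
  have hl := Real.log_nonneg hR
  rw [le_div_iff₀ (by positivity)]
  have h2 : mm R ^ k ≤ (2 + Real.log R) ^ k := pow_le_pow_left₀ hm.le (mm_le hR) k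
  calc C * (2 + Real.log R) ^ a * mm R ^ k ≤ |C| * (2 + Real.log R) ^ a * (2 + Real.log R) ^ k :=
        mul_le_mul (mul_le_mul_of_nonneg_right (le_abs_self C) (by positivity)) h2 (by positivity)
          (by positivity)
    _ = |C| * (2 + Real.log R) ^ (a + k) := by ring
    _ ≤ R := h1

/-- `C mm R ^ a ≤ R / mm R ^ k` eventually -/
theorem ev_mm_pow (C : ℝ) (a k : ℕ) : ∀ᶠ R in atTop, C * mm R ^ a ≤ R / mm R ^ k := by
  filter_upwards [ev_main |C| a k, eventually_ge_atTop (1 : ℝ)] with R h1 hR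
  have hm := mm_pos hR
  exact (mul_le_mul (le_abs_self C) (pow_le_pow_left₀ hm.le (mm_le hR) a) (by positivity)
    (abs_nonneg C)).trans h1

/-- `C R^b (2 + log R)^a ≤ exp (R / mm R ^ k)` eventually -/
theorem ev_exp (C : ℝ) (b a k : ℕ) :
    ∀ᶠ R in atTop, C * R ^ b * (2 + Real.log R) ^ a ≤ Real.exp (R / mm R ^ k) := by
  filter_upwards [ev_main ((b : ℝ) + 1) 1 k, ev_poly |C| a, eventually_ge_atTop (1 : ℝ)]
    with R h1 h2 hR
  have hl := Real.log_nonneg hR
  have h3 : C * R ^ b * (2 + Real.log R) ^ a ≤ R ^ (b + 1) := by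
    have : C * (2 + Real.log R) ^ a ≤ R :=
      (mul_le_mul_of_nonneg_right (le_abs_self C) (by positivity)).trans h2
    calc C * R ^ b * (2 + Real.log R) ^ a = R ^ b * (C * (2 + Real.log R) ^ a) := by ring
      _ ≤ R ^ b * R := mul_le_mul_of_nonneg_left this (by positivity)
      _ = R ^ (b + 1) := by ring
  refine h3.trans ?_
  rw [← Real.exp_log (show 0 < R ^ (b + 1) by positivity), Real.log_pow]
  refine Real.exp_le_exp.2 (le_trans ?_ h1)
  push_cast
  have : (0 : ℝ) ≤ b := Nat.cast_nonneg b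
  nlinarith

/-- `C R^b (2 + log R)^a mm R ^ c ≤ exp (R / mm R ^ k)` eventually -/
theorem ev_exp' (C : ℝ) (b a c k : ℕ) :
    ∀ᶠ R in atTop, C * R ^ b * (2 + Real.log R) ^ a * mm R ^ c ≤ Real.exp (R / mm R ^ k) := by
  filter_upwards [ev_exp |C| b (a + c) k, eventually_ge_atTop (1 : ℝ)] with R h1 hR
  have hm := mm_pos hR
  have hl := Real.log_nonneg hR
  refine le_trans ?_ h1
  have h2 : mm R ^ c ≤ (2 + Real.log R) ^ c := pow_le_pow_left₀ hm.le (mm_le hR) c
  calc C * R ^ b * (2 + Real.log R) ^ a * mm R ^ c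
      ≤ |C| * R ^ b * (2 + Real.log R) ^ a * (2 + Real.log R) ^ c :=
        mul_le_mul (mul_le_mul_of_nonneg_right (mul_le_mul_of_nonneg_right (le_abs_self C)
          (by positivity)) (by positivity)) h2 (by positivity) (by positivity)
    _ = _ := by ring

/-- from `∀ᶠ` to `∃ R₀` -/
theorem ex_of_ev {p : ℝ → Prop} (h : ∀ᶠ R in atTop, p R) : ∃ R₀, ∀ R, R₀ ≤ R → p R :=
  eventually_atTop.1 h

theorem div_pow_anti {R : ℝ} (hR : 0 ≤ R) (hm : 1 ≤ mm R) {j k : ℕ} (h : j ≤ k) :
    R / mm R ^ k ≤ R / mm R ^ j :=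
  div_le_div_of_nonneg_left hR (by positivity) (pow_le_pow_right₀ hm h)

end Crest.Agent.R100.N42
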