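import Crest.Agent.R100.OutDir

set_option autoImplicit false

open MeasureTheory Set Filter
open scoped ENNReal Topology

namespace Crest.Agent.R100

variable {T : ℝ} [hT : Fact (0 < T)]

theorem continuous_S (f : AddCircle T → ℂ) (N : ℕ) : Continuous (S f N) := by
  unfold S; fun_prop

/-- one window -/
theorem circ_window {G : ℝ → ℝ} {C : ℝ} (hC : 0 ≤ C)
    (h : ∀ (R b W x₀ : ℝ) (L : ℕ) (g : ℝ → ℝ), 1 ≤ R → 0 < b → 0 < W → Measurable g →
      Integrable g → (∀ y, 0 ≤ g y ∧ g y ≤ Real.exp R * b) → ∫ y, g y ≤ W * b →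
        ∃ E : Set ℝ, MeasurableSet E ∧ volume E ≤ ENNReal.ofReal (C * W / 2 ^ L) ∧
          ∀ (ξ : ℕ → ℝ) (N₀ : ℕ), ∫⁻ x in Ico x₀ (x₀ + W) \ E, ⨆ N ≤ N₀, ‖Dl g (ξ N) x‖ₑ ≤
            ENNReal.ofReal (C * W * b * ((L + 1) * G R + 1)))
    (R b : ℝ) (L : ℕ) (g : AddCircle T → ℝ) (hR : 1 ≤ R) (hb : 0 < b) (hm : Measurable g)
    (h0 : ∀ y, 0 ≤ g y ∧ g y ≤ Real.exp R * b)
    (hint : ∫ y, g y ∂AddCircle.haarAddCircle ≤ b) (x₀ : ℝ) :
    ∃ E : Set ℝ, MeasurableSet E ∧ volume E ≤ ENNReal.ofReal (C * T / 2 ^ L) ∧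
      (1 ≤ (L + 1) * G R + 1 → ∀ N₀ : ℕ, ∫⁻ x in Ico x₀ (x₀ + T / 4) \ E,
        ⨆ N ≤ N₀, ‖S (fun y => (g y : ℂ)) N (x : AddCircle T)‖ₑ ≤
          ENNReal.ofReal (C * T * b * ((L + 1) * G R + 1) + 10 * b * (T / 4))) := by
  have hT0 : 0 < T := hT.out
  have hgm : Measurable fun y : ℝ => g y := hm.comp AddCircle.measurable_mk'
  have hwm : Measurable (win g x₀) := hgm.indicator measurableSet_Ioc
  have hwb : ∀ y, 0 ≤ win g x₀ y ∧ win g x₀ y ≤ Real.exp R * b := fun y => by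
    unfold win
    by_cases hy : y ∈ Ioc (x₀ - 3 / 8 * T) (x₀ - 3 / 8 * T + T)
    · rw [indicator_of_mem hy]; exact h0 _
    · rw [indicator_of_notMem hy]; exact ⟨le_rfl, by positivity⟩
  have hwi : Integrable (win g x₀) := by
    unfold win
    rw [integrable_indicator_iff measurableSet_Ioc]
    refine Measure.integrableOn_of_bounded (M := Real.exp R * b) measure_Ioc_lt_top.ne
      hgm.aestronglyMeasurable (Eventually.of_forall fun y => ?_)
    rw [Real.norm_eq_abs, abs_of_nonneg (h0 _).1]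
    exact (h0 _).2
  have hwI : ∫ y, win g x₀ y ≤ T * b := by
    unfold win
    rw [integral_indicator measurableSet_Ioc, AddCircle.integral_preimage T _ g,
      AddCircle.volume_eq_smul_haarAddCircle, integral_smul_measure,
      ENNReal.toReal_ofReal hT0.le, smul_eq_mul]
    exact mul_le_mul_of_nonneg_left hint hT0.le
  obtain ⟨E, hE, hv, hi⟩ := h R b T x₀ L (win g x₀) hR hb hT0 hwm hwi hwb hwI
  refine ⟨E, hE, hv, fun hK N₀ => ?_⟩
  set ξ : ℕ → ℝ := fun N => (2 * N + 1) * Real.pi / T with hξ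
  have hpt : ∀ x ∈ Ico x₀ (x₀ + T / 4) \ E,
      ⨆ N ≤ N₀, ‖S (fun y => (g y : ℂ)) N (x : AddCircle T)‖ₑ ≤
        (⨆ N ≤ N₀, ‖Dl (win g x₀) (ξ N) x‖ₑ) + ENNReal.ofReal (10 * b) := fun x hx => by
    refine iSup₂_le fun N hN => ?_
    have hd := dirichlet hm h0 N hx.1
    have h1 : ‖S (fun y => (g y : ℂ)) N (x : AddCircle T)‖ₑ ≤
        ‖Dl (win g x₀) (ξ N) x‖ₑ + ENNReal.ofReal (10 * b) := by
      rw [← ofReal_norm, ← ofReal_norm, ← ENNReal.ofReal_add (norm_nonneg _) (by positivity)]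
      refine ENNReal.ofReal_le_ofReal ?_
      rw [Real.norm_eq_abs]
      linarith
    exact h1.trans (add_le_add (le_iSup₂_of_le (f := fun N (_ : N ≤ N₀) =>
      ‖Dl (win g x₀) (ξ N) x‖ₑ) N hN le_rfl) le_rfl)
  have hms : MeasurableSet (Ico x₀ (x₀ + T / 4) \ E) := measurableSet_Ico.diff hE
  refine (setLIntegral_mono' hms hpt).trans ?_
  rw [lintegral_add_right _ measurable_const, setLIntegral_const]
  have hsub : Ico x₀ (x₀ + T / 4) \ E ⊆ Ico x₀ (x₀ + T) \ E :=
    sdiff_subset_sdiff_left (Ico_subset_Ico_right (by linarith))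
  have hvol : volume (Ico x₀ (x₀ + T / 4) \ E) ≤ ENNReal.ofReal (T / 4) := by
    refine (measure_mono sdiff_subset).trans ?_
    rw [Real.volume_Ico, add_sub_cancel_left]
  rw [ENNReal.ofReal_add (by positivity) (by positivity), ENNReal.ofReal_mul (by positivity)
    (p := 10 * b)]
  exact add_le_add ((lintegral_mono_set hsub).trans (hi ξ N₀)) (mul_le_mul' le_rfl hvol)

/-- Four windows `x₀ = i T / 4`, `W = T`; `E` is the preimage of the union of the four sets under
`AddCircle.equivIco T 0`; monotone convergence in `N₀`. -/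
theorem pieceR_of_line {G : ℝ → ℝ} (hG : ∀ R, 1 ≤ R → 0 ≤ G R) (h : LineBound G) : PieceR T G := by
  obtain ⟨C, hC, h⟩ := h
  have hT0 : 0 < T := hT.out
  refine ⟨4 * C + 10, by positivity, fun R b L g hR hb hm h0 hint => ?_⟩
  set K : ℝ := (L + 1) * G R + 1 with hK
  have hK1 : 1 ≤ K := by
    have : 0 ≤ ((L : ℝ) + 1) * G R := mul_nonneg (by positivity) (hG R hR)
    linarith
  choose Ef hEm hEv hEi using fun x₀ : ℝ => circ_window (T := T) hC h R b L g hR hb hm h0 hint x₀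
  set E' : Set ℝ := (Ef 0 ∪ Ef (T / 4)) ∪ (Ef (T / 2) ∪ Ef (3 * T / 4)) with hE'
  have hE'm : MeasurableSet E' := ((hEm _).union (hEm _)).union ((hEm _).union (hEm _))
  set r : AddCircle T → ℝ := fun x => (AddCircle.measurableEquivIoc T 0 x : ℝ) with hr
  have hrm : Measurable r := measurable_subtype_coe.comp (AddCircle.measurableEquivIoc T 0).measurable
  have hrc : ∀ a ∈ Ioc (0 : ℝ) (0 + T), r (a : AddCircle T) = a := fun a ha =>
    AddCircle.equivIoc_coe_of_mem ha
  have hEm' : MeasurableSet (r ⁻¹' E') := hE'm.preimage hrm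
  have hTne : ENNReal.ofReal T ≠ 0 := by simpa using hT0
  have cancel : ∀ {x : ℝ≥0∞} {y : ℝ}, ENNReal.ofReal T * x ≤ ENNReal.ofReal (T * y) →
      x ≤ ENNReal.ofReal y := fun {x y} hxy => by
    rw [ENNReal.ofReal_mul hT0.le] at hxy
    exact (ENNReal.mul_le_mul_iff_right hTne ENNReal.ofReal_ne_top).1 hxy
  have four : ∀ {y z : ℝ}, 0 ≤ y → 4 * y ≤ z → ENNReal.ofReal y + ENNReal.ofReal y +
      (ENNReal.ofReal y + ENNReal.ofReal y) ≤ ENNReal.ofReal z := fun {y z} hy hz => by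
    rw [← ENNReal.ofReal_add hy hy, ← ENNReal.ofReal_add (add_nonneg hy hy) (add_nonneg hy hy)]
    exact ENNReal.ofReal_le_ofReal (by linarith)
  refine ⟨r ⁻¹' E', hEm', cancel ?_, ?_⟩
  · have e1 : ENNReal.ofReal T * AddCircle.haarAddCircle (r ⁻¹' E')
        = (volume : Measure (AddCircle T)) (r ⁻¹' E') := by
      rw [AddCircle.volume_eq_smul_haarAddCircle, Measure.smul_apply, smul_eq_mul]
    rw [e1, AddCircle.add_projection_respects_measure T 0 hEm']
    have hsub : (QuotientAddGroup.mk ⁻¹' (r ⁻¹' E') ∩ Ioc (0 : ℝ) (0 + T)) ⊆ E' := fun a ha => by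
      have := ha.1
      rw [mem_preimage, mem_preimage, hrc a ha.2] at this
      exact this
    refine (measure_mono hsub).trans ((measure_union_le _ _).trans ?_)
    refine (add_le_add ((measure_union_le _ _).trans (add_le_add (hEv _) (hEv _)))
      ((measure_union_le _ _).trans (add_le_add (hEv _) (hEv _)))).trans (four (by positivity) ?_)
    have : 0 ≤ T * (10 / 2 ^ L) := by positivity
    have e : T * ((4 * C + 10) / 2 ^ L) = 4 * (C * T / 2 ^ L) + T * (10 / 2 ^ L) := by ring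
    linarith
  · set F : ℕ → AddCircle T → ℝ≥0∞ :=
      fun N₀ x => ⨆ N ≤ N₀, ‖S (fun y => (g y : ℂ)) N x‖ₑ with hF
    have hFm : ∀ N₀, Measurable (F N₀) := fun N₀ =>
      Measurable.iSup fun N => Measurable.iSup fun _ => (continuous_S _ N).measurable.enorm
    have hFmono : Monotone F := fun N₁ N₂ h12 x =>
      iSup₂_le fun N hN => le_iSup₂_of_le (f := fun N (_ : N ≤ N₂) =>
        ‖S (fun y => (g y : ℂ)) N x‖ₑ) N (hN.trans h12) le_rfl
    have hsup : (fun x => ⨆ N, ‖S (fun y => (g y : ℂ)) N x‖ₑ) = fun x => ⨆ N₀, F N₀ x := by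
      funext x
      refine le_antisymm (iSup_le fun N => le_iSup_of_le N ?_) (iSup_le fun N₀ => iSup₂_le
        fun N _ => le_iSup (fun N => ‖S (fun y => (g y : ℂ)) N x‖ₑ) N)
      exact le_iSup₂_of_le (f := fun N' (_ : N' ≤ N) => ‖S (fun y => (g y : ℂ)) N' x‖ₑ) N le_rfl
        le_rfl
    rw [hsup, lintegral_iSup hFm hFmono]
    refine iSup_le fun N₀ => cancel ?_
    have e1 : ENNReal.ofReal T * ∫⁻ x in (r ⁻¹' E')ᶜ, F N₀ x ∂AddCircle.haarAddCircle
        = ∫⁻ a in Ioc (0 : ℝ) (0 + T), ((r ⁻¹' E')ᶜ).indicator (F N₀) (a : AddCircle T) := by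
      rw [AddCircle.lintegral_preimage T 0 (((r ⁻¹' E')ᶜ).indicator (F N₀)),
        AddCircle.volume_eq_smul_haarAddCircle, lintegral_smul_measure, smul_eq_mul,
        lintegral_indicator hEm'.compl]
    have e2 : ∫⁻ a in Ioc (0 : ℝ) (0 + T), ((r ⁻¹' E')ᶜ).indicator (F N₀) (a : AddCircle T)
        = ∫⁻ a in Ioc (0 : ℝ) (0 + T), (E'ᶜ).indicator (fun a : ℝ => F N₀ a) a := by
      refine setLIntegral_congr_fun measurableSet_Ioc fun a ha => ?_
      by_cases hmem : a ∈ E'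
      · have h1 : (a : AddCircle T) ∉ (r ⁻¹' E')ᶜ := by
          rw [mem_compl_iff, not_not, mem_preimage, hrc a ha]; exact hmem
        have h2 : a ∉ E'ᶜ := by simpa using hmem
        simp only [indicator_of_notMem h1, indicator_of_notMem h2]
      · have h1 : (a : AddCircle T) ∈ (r ⁻¹' E')ᶜ := by
          rw [mem_compl_iff, mem_preimage, hrc a ha]; exact hmem
        have h2 : a ∈ E'ᶜ := hmem
        simp only [indicator_of_mem h1, indicator_of_mem h2]
    rw [e1, e2, ← Measure.restrict_congr_set Ico_ae_eq_Ioc, lintegral_indicator hE'm.compl,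
      Measure.restrict_restrict hE'm.compl]
    have hsub : E'ᶜ ∩ Ico (0 : ℝ) (0 + T) ⊆
        ((Ico 0 (0 + T / 4) \ Ef 0) ∪ (Ico (T / 4) (T / 4 + T / 4) \ Ef (T / 4))) ∪
        ((Ico (T / 2) (T / 2 + T / 4) \ Ef (T / 2)) ∪
          (Ico (3 * T / 4) (3 * T / 4 + T / 4) \ Ef (3 * T / 4))) := by
      rintro a ⟨hn, ha0, ha1⟩
      simp only [hE', mem_compl_iff, mem_union, not_or] at hn
      obtain ⟨⟨n0, n1⟩, n2, n3⟩ := hn
      rcases lt_or_ge a (T / 4) with c1 | c1
      · exact Or.inl (Or.inl ⟨⟨ha0, by linarith⟩, n0⟩)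
      rcases lt_or_ge a (T / 2) with c2 | c2
      · exact Or.inl (Or.inr ⟨⟨c1, by linarith⟩, n1⟩)
      rcases lt_or_ge a (3 * T / 4) with c3 | c3
      · exact Or.inr (Or.inl ⟨⟨c2, by linarith⟩, n2⟩)
      · exact Or.inr (Or.inr ⟨⟨c3, by linarith⟩, n3⟩)
    refine (lintegral_mono_set hsub).trans ((lintegral_union_le _ _ _).trans ?_)
    refine (add_le_add ((lintegral_union_le _ _ _).trans (add_le_add (hEi _ hK1 N₀) (hEi _ hK1 N₀)))
      ((lintegral_union_le _ _ _).trans (add_le_add (hEi _ hK1 N₀) (hEi _ hK1 N₀)))).trans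
      (four (by positivity) ?_)
    have h1 : 0 ≤ T * b * (K - 1) := mul_nonneg (by positivity) (by linarith)
    nlinarith

/-- Positive and negative parts of the real and imaginary parts. -/
theorem pieceC_of_pieceR {G : ℝ → ℝ} (h : PieceR T G) : PieceC T G := by
  obtain ⟨C, hC, h⟩ := h
  refine ⟨4 * C, by positivity, fun R b L g hR hb hg hbd hint => ?_⟩
  let c : Fin 4 → ℂ := ![1, -1, Complex.I, -Complex.I]
  let p : Fin 4 → AddCircle T → ℝ := fun j y => max ((starRingEnd ℂ) (c j) * g y).re 0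
  have hc : ∀ j, ‖c j‖ = 1 := fun j => by fin_cases j <;> simp [c]
  have hp0 : ∀ j y, 0 ≤ p j y := fun j y => le_max_right _ _
  have hp1 : ∀ j y, p j y ≤ ‖g y‖ := fun j y => max_le ((Complex.re_le_norm _).trans_eq (by
    rw [norm_mul, Complex.norm_conj, hc, one_mul])) (norm_nonneg _)
  have hpm : ∀ j, Measurable (p j) := fun j =>
    (Complex.measurable_re.comp (measurable_const.mul hg)).max measurable_const
  have hgi : Integrable (fun y => ‖g y‖) AddCircle.haarAddCircle :=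
    Integrable.of_bound hg.norm.aestronglyMeasurable _
      (Eventually.of_forall fun y => by simpa using hbd y)
  have hpi : ∀ j, Integrable (p j) AddCircle.haarAddCircle := fun j =>
    hgi.mono' (hpm j).aestronglyMeasurable
      (Eventually.of_forall fun y => by rw [Real.norm_of_nonneg (hp0 j y)]; exact hp1 j y)
  have hsum : g = ∑ j, c j • fun y => (p j y : ℂ) := by
    funext y
    simp only [Finset.sum_apply, Pi.smul_apply, smul_eq_mul, Fin.sum_univ_four, p, c]
    apply Complex.ext <;> simp [max_def] <;> split_ifs <;> simp <;> linarith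
  have hS : ∀ N x, S g N x = ∑ j, c j * S (fun y => (p j y : ℂ)) N x := fun N x => by
    unfold S
    simp only [Finset.mul_sum]
    rw [Finset.sum_comm]
    refine Finset.sum_congr rfl fun k _ => ?_
    conv_lhs => rw [hsum]
    rw [fourierCoeff.sum _ _ fun j _ => ((hpi j).ofReal).smul (c j)]
    simp only [Finset.sum_apply, fourierCoeff.const_smul, smul_eq_mul, Finset.sum_mul, mul_assoc]
  choose E hEm hE1 hE2 using fun j => h R b L (p j) hR hb (hpm j)
    (fun y => ⟨hp0 j y, (hp1 j y).trans (hbd y)⟩)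
    ((integral_mono (hpi j) hgi (hp1 j)).trans hint)
  have h4 : ∀ x : ℝ, ∑ _j : Fin 4, ENNReal.ofReal x = ENNReal.ofReal (4 * x) := fun x => by
    rw [ENNReal.ofReal_mul (by norm_num)]
    simp
  refine ⟨⋃ j, E j, MeasurableSet.iUnion hEm, ?_, ?_⟩
  · refine (measure_iUnion_fintype_le _ _).trans ((Finset.sum_le_sum fun j _ => hE1 j).trans_eq ?_)
    rw [h4, mul_div_assoc]
  · calc ∫⁻ x in (⋃ j, E j)ᶜ, ⨆ N, ‖S g N x‖ₑ ∂AddCircle.haarAddCircle
        ≤ ∫⁻ x in (⋃ j, E j)ᶜ, ∑ j, ⨆ N, ‖S (fun y => (p j y : ℂ)) N x‖ₑ ∂AddCircle.haarAddCircle := by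
          refine lintegral_mono fun x => iSup_le fun N => ?_
          rw [hS]
          refine (enorm_sum_le _ _).trans (Finset.sum_le_sum fun j _ => ?_)
          rw [enorm_mul, ← ofReal_norm (c j), hc, ENNReal.ofReal_one, one_mul]
          exact le_iSup (fun N => ‖S (fun y => (p j y : ℂ)) N x‖ₑ) N
      _ = ∑ j, ∫⁻ x in (⋃ j, E j)ᶜ, ⨆ N, ‖S (fun y => (p j y : ℂ)) N x‖ₑ ∂AddCircle.haarAddCircle :=
          lintegral_finsetSum _ fun j _ =>
            Measurable.iSup fun N => (continuous_S _ N).measurable.enorm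
      _ ≤ ∑ _j : Fin 4, ENNReal.ofReal (C * b * ((L + 1) * G R + 1)) :=
          Finset.sum_le_sum fun j _ =>
            (lintegral_mono_set (compl_subset_compl.2 (subset_iUnion E j))).trans (hE2 j)
      _ = _ := by
          rw [h4]
          congr 1
          ring

end Crest.Agent.R100
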