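import Crest.Agent.R100.OutDefs
import Crest.Agent.R100.CarDk

set_option autoImplicit false

open MeasureTheory Set Filter
open scoped ENNReal Topology

namespace Crest.Agent.R100

variable {T : ℝ} [hT : Fact (0 < T)]

/-- the window function -/
noncomputable def win (g : AddCircle T → ℝ) (x₀ : ℝ) : ℝ → ℝ :=
  (Ioc (x₀ - 3 / 8 * T) (x₀ - 3 / 8 * T + T)).indicator fun y => g y

theorem dir_SN_eq {f : AddCircle T → ℂ} (hf : Integrable f AddCircle.haarAddCircle) (N : ℕ)
    (a x : ℝ) : SN f N x = (1 / T : ℝ) * ∫ y in a..a + T, f y * Dk T N (y - x) := by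
  have hi := intervalIntegrable_lift hf a
  unfold SN Dk
  simp_rw [Finset.mul_sum]
  rw [intervalIntegral.integral_finsetSum fun k _ => hi.mul_continuousOn (by fun_prop),
    Finset.mul_sum]
  refine Finset.sum_congr rfl fun k _ => ?_
  rw [fourierCoeff_eq_intervalIntegral f k a, Complex.real_smul, smul_eq_mul, mul_assoc,
    ← intervalIntegral.integral_mul_const]
  congr 1
  refine intervalIntegral.integral_congr fun t _ => ?_
  simp only [fourier_coe_apply, smul_eq_mul]
  rw [mul_comm _ (f _), mul_assoc, ← Complex.exp_add]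
  congr 2
  push_cast
  ring

theorem dir_Dk_approx (N : ℕ) {t : ℝ} (h0 : t ≠ 0) (h1 : |t| ≤ 5 / 8 * T) :
    ‖Dk T N t - (T / Real.pi * (Real.sin (lamN T N * t) / t) : ℝ)‖ ≤ 10 := by
  have hT0 := hT.out
  have hπ := Real.pi_pos
  rcases le_total |t| (T / 2) with h | h
  · exact (Dk_approx N h0 h).trans (by norm_num)
  have key : 3 / 4 ≤ |Real.sin (Real.pi * t / T)| := by
    have hb : ∀ s : ℝ, T / 2 ≤ s → s ≤ 5 / 8 * T → 3 / 4 ≤ Real.sin (Real.pi * s / T) := by
      intro s a b
      have a' : Real.pi / 2 ≤ Real.pi * s / T := by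
        rw [le_div_iff₀ hT0]
        nlinarith
      have b' : Real.pi * s / T ≤ 5 / 8 * Real.pi := by
        rw [div_le_iff₀ hT0]
        nlinarith
      rw [← Real.sin_pi_sub]
      refine le_trans ?_ (Real.mul_le_sin (by linarith) (by linarith))
      rw [div_mul_eq_mul_div, le_div_iff₀ hπ]
      linarith
    rcases le_total 0 t with k | k
    · rw [abs_of_nonneg k] at h h1
      exact (hb t h h1).trans (le_abs_self _)
    · rw [abs_of_nonpos k] at h h1
      have e : Real.pi * t / T = -(Real.pi * -t / T) := by ring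
      rw [e, Real.sin_neg, abs_neg]
      exact (hb _ h h1).trans (le_abs_self _)
  have a1 : ‖Dk T N t‖ ≤ 4 / 3 := by
    have := congrArg norm (Dk_mul_sin (T := T) N t)
    rw [norm_mul, Complex.norm_real, Complex.norm_real, Real.norm_eq_abs, Real.norm_eq_abs] at this
    have h2 := Real.abs_sin_le_one (lamN T N * t)
    nlinarith [norm_nonneg (Dk T N t)]
  have a2 : ‖((T / Real.pi * (Real.sin (lamN T N * t) / t) : ℝ) : ℂ)‖ ≤ 1 := by
    rw [Complex.norm_real, Real.norm_eq_abs, abs_mul, abs_div, abs_div, abs_of_pos hT0,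
      abs_of_pos hπ, div_mul_div_comm, div_le_one (by positivity)]
    have h2 := Real.abs_sin_le_one (lamN T N * t)
    have h3 := Real.pi_gt_three
    nlinarith
  exact (norm_sub_le _ _).trans (by linarith)

/-- Dirichlet kernel `sin ((2 N + 1) u) / sin u`, `u = π (x - y) / T`, `|u| ≤ 5 π / 8`, and
`|1 / sin u - 1 / u| ≤ 10` there. -/
theorem dirichlet {g : AddCircle T → ℝ} (hm : Measurable g) {H : ℝ} (h0 : ∀ y, 0 ≤ g y ∧ g y ≤ H)
    (N : ℕ) {x₀ x : ℝ} (hx : x ∈ Ico x₀ (x₀ + T / 4)) :
    ‖S (fun y => (g y : ℂ)) N (x : AddCircle T)‖ ≤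
      |Dl (win g x₀) ((2 * N + 1) * Real.pi / T) x| + 10 * ∫ y, g y ∂AddCircle.haarAddCircle := by
  have hT0 := hT.out
  have hπ := Real.pi_pos
  obtain ⟨a, ha⟩ : ∃ a, a = x₀ - 3 / 8 * T := ⟨_, rfl⟩
  have hle : a ≤ a + T := by linarith
  have hf : Integrable (fun y => (g y : ℂ)) AddCircle.haarAddCircle :=
    (integrable_const H).mono' (Complex.measurable_ofReal.comp hm).aestronglyMeasurable
      (Eventually.of_forall fun y => by
        rw [Complex.norm_real, Real.norm_of_nonneg (h0 y).1]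
        exact (h0 y).2)
  have hi := intervalIntegrable_lift hf a
  have i1 : IntervalIntegrable (fun y : ℝ => (g y : ℂ) * Dk T N (y - x)) volume a (a + T) :=
    hi.mul_continuousOn ((continuous_Dk N).comp (by fun_prop)).continuousOn
  have hae : ∀ᵐ y : ℝ, y ∈ Ioc a (a + T) → ‖(g y : ℂ) * Dk T N (y - x) -
      (g y : ℂ) * (T / Real.pi * (Real.sin (lamN T N * (y - x)) / (y - x)) : ℝ)‖ ≤
        10 * ‖(g y : ℂ)‖ := by
    filter_upwards [compl_mem_ae_iff.2 (measure_singleton x)] with y hy hm
    rw [← mul_sub, norm_mul, mul_comm]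
    refine mul_le_mul_of_nonneg_right (dir_Dk_approx N (sub_ne_zero.2 hy) (abs_le.2 ⟨?_, ?_⟩))
      (norm_nonneg _)
    · linarith [hm.1, hx.2]
    · linarith [hm.2, hx.1]
  have i2 : IntervalIntegrable (fun y : ℝ =>
      (g y : ℂ) * (T / Real.pi * (Real.sin (lamN T N * (y - x)) / (y - x)) : ℝ)) volume a
      (a + T) := by
    have i3 : IntervalIntegrable (fun y : ℝ => (g y : ℂ) * Dk T N (y - x) -
        (g y : ℂ) * (T / Real.pi * (Real.sin (lamN T N * (y - x)) / (y - x)) : ℝ)) volume a
        (a + T) := by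
      rw [intervalIntegrable_iff_integrableOn_Ioc_of_le hle] at hi i1 ⊢
      refine (hi.norm.const_mul 10).mono' (i1.1.sub (hi.1.mul ?_))
        ((ae_restrict_iff' measurableSet_Ioc).2 hae)
      exact Measurable.aestronglyMeasurable (by fun_prop)
    simpa using i1.sub i3
  have e0 : Dl (win g x₀) ((2 * N + 1) * Real.pi / T) x =
      ∫ y in a..a + T, g y * (Real.sin (lamN T N * (y - x)) / (y - x)) := by
    rw [intervalIntegral.integral_of_le hle, ← integral_indicator measurableSet_Ioc, Dl, win, ← ha]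
    refine integral_congr_ae (Eventually.of_forall fun y => ?_)
    by_cases hy : y ∈ Ioc a (a + T)
    · simp only [indicator_of_mem hy]
      rw [← neg_sub y x, mul_neg, Real.sin_neg, neg_div_neg_eq, lamN]
    · simp only [indicator_of_notMem hy, zero_mul]
  have e : (((1 / Real.pi * Dl (win g x₀) ((2 * N + 1) * Real.pi / T) x : ℝ)) : ℂ) =
      (1 / T : ℝ) * ∫ y in a..a + T,
        (g y : ℂ) * (T / Real.pi * (Real.sin (lamN T N * (y - x)) / (y - x)) : ℝ) := by
    rw [e0, ← intervalIntegral.integral_const_mul, ← intervalIntegral.integral_const_mul,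
      ← intervalIntegral.integral_ofReal]
    refine intervalIntegral.integral_congr fun t _ => ?_
    have : (T : ℂ) ≠ 0 := by exact_mod_cast hT0.ne'
    push_cast
    field_simp
  have e2 : ∫ y in a..a + T, 10 * ‖(g y : ℂ)‖ = 10 * (T * ∫ y, g y ∂AddCircle.haarAddCircle) := by
    rw [intervalIntegral.integral_const_mul, AddCircle.integral_haarAddCircle,
      ← AddCircle.intervalIntegral_preimage T a g, smul_eq_mul, mul_inv_cancel_left₀ hT0.ne']
    congr 1
    refine intervalIntegral.integral_congr fun t _ => ?_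
    simp only [Complex.norm_real, Real.norm_of_nonneg (h0 _).1]
  have key : ‖SN (fun y => (g y : ℂ)) N x -
      ((1 / Real.pi * Dl (win g x₀) ((2 * N + 1) * Real.pi / T) x : ℝ) : ℂ)‖ ≤
        10 * ∫ y, g y ∂AddCircle.haarAddCircle := by
    rw [e, dir_SN_eq hf N a, ← mul_sub, ← intervalIntegral.integral_sub i1 i2, norm_mul,
      Complex.norm_real, Real.norm_of_nonneg (by positivity)]
    have := intervalIntegral.norm_integral_le_of_norm_le hle hae (hi.norm.const_mul 10)
    rw [e2] at this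
    calc _ ≤ 1 / T * (10 * (T * ∫ y, g y ∂AddCircle.haarAddCircle)) := by gcongr
      _ = _ := by field_simp
  have h2 : ‖((1 / Real.pi * Dl (win g x₀) ((2 * N + 1) * Real.pi / T) x : ℝ) : ℂ)‖ ≤
      |Dl (win g x₀) ((2 * N + 1) * Real.pi / T) x| := by
    rw [Complex.norm_real, Real.norm_eq_abs, abs_mul, abs_of_pos (by positivity)]
    refine mul_le_of_le_one_left (abs_nonneg _) ?_
    rw [div_le_one hπ]
    linarith [Real.pi_gt_three]
  have h3 := norm_le_norm_add_norm_sub' (SN (fun y => (g y : ℂ)) N x)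
    ((1 / Real.pi * Dl (win g x₀) ((2 * N + 1) * Real.pi / T) x : ℝ) : ℂ)
  change ‖SN (fun y => (g y : ℂ)) N x‖ ≤ _
  linarith

end Crest.Agent.R100
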