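import Crest.Agent.R100.OutPath

set_option autoImplicit false

open MeasureTheory Set Filter
open scoped ENNReal Topology

noncomputable section

namespace Crest.Agent.R100

/-- the primitive of the Haar function -/
def tent (v : ℝ) : ℝ := max 0 (min v (1 - v))

theorem continuous_tent : Continuous tent := by unfold tent; fun_prop

theorem tent_nonneg (v : ℝ) : 0 ≤ tent v := le_max_left _ _

theorem tent_le (v : ℝ) : tent v ≤ 1 / 2 := by
  unfold tent
  refine max_le (by norm_num) ?_
  rcases le_total v (1 / 2) with h | h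
  · exact (min_le_left _ _).trans h
  · exact (min_le_right _ _).trans (by linarith)

theorem tent_of_nonpos {v : ℝ} (h : v ≤ 0) : tent v = 0 :=
  max_eq_left ((min_le_left _ _).trans h)

theorem tent_of_one_le {v : ℝ} (h : 1 ≤ v) : tent v = 0 :=
  max_eq_left ((min_le_right _ _).trans (by linarith))

theorem tent_left {v : ℝ} (h0 : 0 ≤ v) (h : v ≤ 1 / 2) : tent v = v := by
  unfold tent
  rw [min_eq_left (by linarith), max_eq_right h0]

theorem tent_right {v : ℝ} (h0 : 1 / 2 ≤ v) (h : v ≤ 1) : tent v = 1 - v := by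
  unfold tent
  rw [min_eq_right (by linarith), max_eq_right (by linarith)]

theorem abs_hh_le (v : ℝ) : |hh v| ≤ 1 := by
  unfold hh; split_ifs <;> simp

theorem abs_aa_le (v : ℝ) : |aa v| ≤ 1 := by
  unfold aa; split_ifs <;> simp

theorem measurable_hh : Measurable hh := by
  unfold hh
  refine Measurable.ite ?_ measurable_const (Measurable.ite ?_ measurable_const measurable_const)
  · exact measurableSet_Ioc (a := (0 : ℝ)) (b := 1 / 2)
  · exact measurableSet_Ioc (a := (1 / 2 : ℝ)) (b := 1)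

theorem measurable_aa : Measurable aa := by
  unfold aa
  refine Measurable.ite ?_ measurable_const (Measurable.ite ?_ measurable_const measurable_const)
  · exact measurableSet_Iio (a := (1 / 4 : ℝ))
  · exact measurableSet_Iio (a := (1 / 2 : ℝ))

theorem ii_of_bdd {f : ℝ → ℝ} (hf : Measurable f) {M : ℝ} (hM : ∀ v, |f v| ≤ M) (a b : ℝ) :
    IntervalIntegrable f volume a b :=
  (intervalIntegrable_const (c := M)).mono_fun hf.aestronglyMeasurable
    (Eventually.of_forall fun v => by
      simp only [Real.norm_eq_abs]; exact (hM v).trans (le_abs_self _))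

theorem integral_hh (a b : ℝ) : ∫ v in a..b, hh v = tent b - tent a := by
  refine integral_eq_of_hasDerivAt_off_countable tent hh (s := {0, 1 / 2, 1})
    (Set.toFinite _).countable continuous_tent.continuousOn (fun v hv => ?_)
    (ii_of_bdd measurable_hh abs_hh_le a b)
  have hv' := hv.2
  simp only [mem_insert_iff, mem_singleton_iff, not_or] at hv'
  obtain ⟨h0, h1, h2⟩ := hv'
  rcases lt_or_gt_of_ne h0 with h0 | h0
  · have : hh v = 0 := by
      unfold hh; rw [if_neg (fun h => by linarith [h.1]), if_neg (fun h => by linarith [h.1])]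
    rw [this]
    refine (hasDerivAt_const v (0 : ℝ)).congr_of_eventuallyEq ?_
    filter_upwards [Iio_mem_nhds h0] with w hw using tent_of_nonpos (le_of_lt hw)
  rcases lt_or_gt_of_ne h1 with h1 | h1
  · have : hh v = 1 := by unfold hh; rw [if_pos ⟨h0, h1.le⟩]
    rw [this]
    refine (hasDerivAt_id v).congr_of_eventuallyEq ?_
    filter_upwards [Ioo_mem_nhds h0 h1] with w hw using tent_left hw.1.le hw.2.le
  rcases lt_or_gt_of_ne h2 with h2 | h2
  · have : hh v = -1 := by
      unfold hh; rw [if_neg (fun h => by linarith [h.2]), if_pos ⟨h1, h2.le⟩]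
    rw [this]
    refine ((hasDerivAt_id v).const_sub 1).congr_of_eventuallyEq ?_
    filter_upwards [Ioo_mem_nhds h1 h2] with w hw using tent_right hw.1.le hw.2.le
  · have : hh v = 0 := by
      unfold hh; rw [if_neg (fun h => by linarith [h.2]), if_neg (fun h => by linarith [h.2])]
    rw [this]
    refine (hasDerivAt_const v (0 : ℝ)).congr_of_eventuallyEq ?_
    filter_upwards [Ioi_mem_nhds h2] with w hw using tent_of_one_le (le_of_lt hw)

/-- the averaged kernel at one scale -/
def phi (τ : ℝ) : ℝ := 2 * tent (1 / 4 - τ) - tent (-τ) - tent (1 / 2 - τ)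

theorem continuous_phi : Continuous phi := by
  unfold phi
  have := continuous_tent
  fun_prop

theorem abs_phi_le (τ : ℝ) : |phi τ| ≤ 1 := by
  unfold phi
  have := tent_le (1 / 4 - τ); have := tent_le (-τ); have := tent_le (1 / 2 - τ)
  have := tent_nonneg (1 / 4 - τ); have := tent_nonneg (-τ); have := tent_nonneg (1 / 2 - τ)
  rw [abs_le]; constructor <;> linarith

theorem integral_aa_hh (τ : ℝ) : ∫ u in (0 : ℝ)..1, aa u * hh (u - τ) = phi τ := by
  have hm : Measurable fun u => aa u * hh (u - τ) :=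
    measurable_aa.mul (measurable_hh.comp (measurable_id.sub_const τ))
  have hb : ∀ u, |aa u * hh (u - τ)| ≤ 1 := fun u => by
    rw [abs_mul]; exact mul_le_one₀ (abs_aa_le _) (abs_nonneg _) (abs_hh_le _)
  have hi := ii_of_bdd hm hb
  rw [← intervalIntegral.integral_add_adjacent_intervals (hi 0 (1 / 4)) (hi (1 / 4) 1),
    ← intervalIntegral.integral_add_adjacent_intervals (hi (1 / 4) (1 / 2)) (hi (1 / 2) 1)]
  have e1 : ∫ u in (0 : ℝ)..1 / 4, aa u * hh (u - τ) = ∫ u in (0 : ℝ)..1 / 4, hh (u - τ) := by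
    refine intervalIntegral.integral_congr_ae ?_
    have : ∀ᵐ u : ℝ, u ≠ 1 / 4 := by simp [ae_iff]
    filter_upwards [this] with u hu hu'
    rw [uIoc_of_le (by norm_num)] at hu'
    unfold aa
    rw [if_pos (lt_of_le_of_ne hu'.2 hu), one_mul]
  have e2 : ∫ u in (1 / 4 : ℝ)..1 / 2, aa u * hh (u - τ) =
      ∫ u in (1 / 4 : ℝ)..1 / 2, -hh (u - τ) := by
    refine intervalIntegral.integral_congr_ae ?_
    have : ∀ᵐ u : ℝ, u ≠ 1 / 2 := by simp [ae_iff]
    filter_upwards [this] with u hu hu'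
    rw [uIoc_of_le (by norm_num)] at hu'
    unfold aa
    rw [if_neg (not_lt.2 hu'.1.le), if_pos (lt_of_le_of_ne hu'.2 hu), neg_one_mul]
  have e3 : ∫ u in (1 / 2 : ℝ)..1, aa u * hh (u - τ) = ∫ u in (1 / 2 : ℝ)..1, (0 : ℝ) := by
    refine intervalIntegral.integral_congr_ae (Eventually.of_forall fun u hu' => ?_)
    rw [uIoc_of_le (by norm_num)] at hu'
    unfold aa
    rw [if_neg (by linarith [hu'.1]), if_neg (not_lt.2 hu'.1.le), zero_mul]
  rw [e1, e2, e3, intervalIntegral.integral_neg, intervalIntegral.integral_comp_sub_right,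
    intervalIntegral.integral_comp_sub_right, integral_hh, integral_hh]
  simp only [phi, zero_sub, intervalIntegral.integral_zero]
  ring

/-- the primitive of the tent -/
def tent2 (v : ℝ) : ℝ := ∫ w in (0 : ℝ)..v, tent w

theorem tent2_of_nonpos {v : ℝ} (h : v ≤ 0) : tent2 v = 0 := by
  unfold tent2
  rw [intervalIntegral.integral_congr (g := fun _ => (0 : ℝ)), intervalIntegral.integral_zero]
  intro w hw
  rw [uIcc_of_ge h] at hw
  exact tent_of_nonpos hw.2

theorem tent2_left {v : ℝ} (h0 : 0 ≤ v) (h : v ≤ 1 / 2) : tent2 v = v ^ 2 / 2 := by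
  unfold tent2
  rw [intervalIntegral.integral_congr (g := fun w => w), integral_id]
  · ring
  intro w hw
  rw [uIcc_of_le h0] at hw
  exact tent_left hw.1 (hw.2.trans h)

theorem tent2_of_one_le {v : ℝ} (h : 1 ≤ v) : tent2 v = 1 / 4 := by
  have hi := continuous_tent.intervalIntegrable (μ := volume)
  have e1 := tent2_left (v := 1 / 2) (by norm_num) le_rfl
  unfold tent2 at *
  rw [← intervalIntegral.integral_add_adjacent_intervals (hi 0 (1 / 2)) (hi (1 / 2) v),
    ← intervalIntegral.integral_add_adjacent_intervals (hi (1 / 2) 1) (hi 1 v), e1]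
  have e2 : ∫ w in (1 / 2 : ℝ)..1, tent w = ∫ w in (1 / 2 : ℝ)..1, (1 - w) := by
    refine intervalIntegral.integral_congr fun w hw => ?_
    rw [uIcc_of_le (by norm_num)] at hw
    exact tent_right hw.1 hw.2
  have e3 : ∫ w in (1 : ℝ)..v, tent w = ∫ w in (1 : ℝ)..v, (0 : ℝ) := by
    refine intervalIntegral.integral_congr fun w hw => ?_
    rw [uIcc_of_le h] at hw
    exact tent_of_one_le hw.1
  rw [e2, e3, intervalIntegral.integral_sub (by simp) (by simp), integral_id]
  norm_num

/-- the primitive of `phi` -/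
def Psi (u : ℝ) : ℝ := ∫ τ in (0 : ℝ)..u, phi τ

theorem hasDerivAt_Psi (u : ℝ) : HasDerivAt Psi (phi u) u :=
  (continuous_phi.integral_hasStrictDerivAt 0 u).hasDerivAt

theorem abs_Psi_le (u : ℝ) : |Psi u| ≤ |u| := by
  have := intervalIntegral.norm_integral_le_of_norm_le_const (a := 0) (b := u) (C := 1) (f := phi)
    (fun τ _ => abs_phi_le τ)
  simpa [Psi] using this

theorem integral_tent_sub (d u : ℝ) : ∫ τ in (0 : ℝ)..u, tent (d - τ) = tent2 d - tent2 (d - u) := by
  have hi := continuous_tent.intervalIntegrable (μ := volume)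
  rw [intervalIntegral.integral_comp_sub_left, sub_zero]
  unfold tent2
  rw [intervalIntegral.integral_interval_sub_left (hi _ _) (hi _ _)]

theorem Psi_eq (u : ℝ) : Psi u = 2 * (tent2 (1 / 4) - tent2 (1 / 4 - u)) -
    (tent2 0 - tent2 (0 - u)) - (tent2 (1 / 2) - tent2 (1 / 2 - u)) := by
  have hc : ∀ d : ℝ, IntervalIntegrable (fun τ => tent (d - τ)) volume 0 u := fun d =>
    (continuous_tent.comp (continuous_const.sub continuous_id)).intervalIntegrable _ _
  rw [← integral_tent_sub, ← integral_tent_sub, ← integral_tent_sub,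
    ← intervalIntegral.integral_const_mul,
    ← intervalIntegral.integral_sub ((hc _).const_mul 2) (hc 0),
    ← intervalIntegral.integral_sub (((hc _).const_mul 2).sub (hc 0)) (hc _)]
  simp only [Psi, phi, zero_sub]

theorem Psi_far {u : ℝ} (h : 1 ≤ |u|) : Psi u = -1 / 16 := by
  have e1 := tent2_left (v := 1 / 4) (by norm_num) (by norm_num)
  have e2 := tent2_left (v := 1 / 2) (by norm_num) le_rfl
  have e0 := tent2_of_nonpos (v := 0) le_rfl
  rw [Psi_eq, e1, e2, e0]
  rcases le_abs'.1 h with h | h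
  · rw [tent2_of_one_le (v := 1 / 4 - u) (by linarith), tent2_of_one_le (v := 0 - u) (by linarith),
      tent2_of_one_le (v := 1 / 2 - u) (by linarith)]
    norm_num
  · rw [tent2_of_nonpos (v := 1 / 4 - u) (by linarith), tent2_of_nonpos (v := 0 - u) (by linarith),
      tent2_of_nonpos (v := 1 / 2 - u) (by linarith)]
    norm_num

theorem integral_kn (x y : ℝ) : ∀ (n : ℕ) {ℓ : ℝ}, 0 < ℓ →
    ∫ α in x - ℓ..x, kn n α ℓ x y = ∑ k ∈ Finset.range n, 2 ^ k * phi ((x - y) * 2 ^ k / ℓ)
  | 0, ℓ, _ => by simp [kn]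
  | n + 1, ℓ, hℓ => by
    have ih := integral_kn x y n (ℓ := ℓ / 2) (by linarith)
    have hm1 : Measurable fun α : ℝ => aa ((x - α) / ℓ) * hh ((y - α) / ℓ) / ℓ :=
      ((measurable_aa.comp (by fun_prop)).mul (measurable_hh.comp (by fun_prop))).div_const ℓ
    have hb1 : ∀ α : ℝ, |aa ((x - α) / ℓ) * hh ((y - α) / ℓ) / ℓ| ≤ 1 / ℓ := fun α => by
      rw [abs_div, abs_of_pos hℓ, abs_mul]
      exact div_le_div_of_nonneg_right
        (mul_le_one₀ (abs_aa_le _) (abs_nonneg _) (abs_hh_le _)) hℓ.le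
    have hm2 : Measurable fun α : ℝ =>
        kn n (if α + ℓ / 2 ≤ x then α + ℓ / 2 else α) (ℓ / 2) x y :=
      measurable_kn n (Measurable.ite (measurableSet_le (by fun_prop) measurable_const)
        (by fun_prop) measurable_id) measurable_const measurable_const measurable_const
    have hi2 := ii_of_bdd hm2 (fun α => abs_kn_le n _ (by linarith : 0 < ℓ / 2) x y)
    simp only [kn]
    rw [intervalIntegral.integral_add (ii_of_bdd hm1 hb1 _ _) (hi2 _ _),
      ← intervalIntegral.integral_add_adjacent_intervals (hi2 (x - ℓ) (x - ℓ / 2))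
        (hi2 (x - ℓ / 2) x)]
    have e1 : ∫ α in x - ℓ..x, aa ((x - α) / ℓ) * hh ((y - α) / ℓ) / ℓ = phi ((x - y) / ℓ) := by
      have := intervalIntegral.integral_comp_sub_div (a := x - ℓ) (b := x)
        (fun u => aa u * hh (u - (x - y) / ℓ)) hℓ.ne' (x / ℓ)
      rw [intervalIntegral.integral_div, ← integral_aa_hh, div_eq_iff hℓ.ne']
      rw [sub_self, show x / ℓ - (x - ℓ) / ℓ = 1 by field_simp; ring, smul_eq_mul] at this
      rw [mul_comm, ← this]
      refine intervalIntegral.integral_congr fun α _ => ?_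
      congr 2 <;> ring
    have e2 : ∫ α in x - ℓ..x - ℓ / 2, kn n (if α + ℓ / 2 ≤ x then α + ℓ / 2 else α) (ℓ / 2) x y =
        ∫ α in x - ℓ / 2..x, kn n α (ℓ / 2) x y := by
      have := intervalIntegral.integral_comp_add_right (a := x - ℓ) (b := x - ℓ / 2)
        (fun α => kn n α (ℓ / 2) x y) (ℓ / 2)
      rw [show x - ℓ + ℓ / 2 = x - ℓ / 2 by ring, sub_add_cancel] at this
      rw [← this]
      refine intervalIntegral.integral_congr fun α hα => ?_
      rw [uIcc_of_le (by linarith)] at hα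
      rw [if_pos (by linarith [hα.2])]
    have e3 : ∫ α in x - ℓ / 2..x, kn n (if α + ℓ / 2 ≤ x then α + ℓ / 2 else α) (ℓ / 2) x y =
        ∫ α in x - ℓ / 2..x, kn n α (ℓ / 2) x y := by
      refine intervalIntegral.integral_congr_ae (Eventually.of_forall fun α hα => ?_)
      rw [uIoc_of_le (by linarith)] at hα
      rw [if_neg (by linarith [hα.1])]
    rw [e1, e2, e3, ih, Finset.sum_range_succ', ← two_mul, Finset.mul_sum, add_comm]
    congr 1
    · refine Finset.sum_congr rfl fun k _ => ?_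
      rw [show (x - y) * 2 ^ k / (ℓ / 2) = (x - y) * 2 ^ (k + 1) / ℓ by field_simp; ring]
      ring
    · simp

theorem mul_KK {A : ℝ} (hA : 0 < A) (n : ℕ) (x y : ℝ) :
    (x - y) * KK n A x y = Psi ((x - y) * 2 ^ n / (2 * A)) - Psi ((x - y) / (2 * A)) := by
  set t := x - y with ht
  have e1 : t * KK n A x y =
      ∫ ℓ in A..2 * A, ∑ k ∈ Finset.range n, phi (t * 2 ^ k / ℓ) * (t * 2 ^ k / ℓ ^ 2) := by
    unfold KK
    rw [← intervalIntegral.integral_const_mul]
    refine intervalIntegral.integral_congr fun ℓ hℓ => ?_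
    rw [uIcc_of_le (by linarith)] at hℓ
    rw [integral_kn x y n (by linarith [hℓ.1]), Finset.sum_div, Finset.mul_sum]
    refine Finset.sum_congr rfl fun k _ => ?_
    ring
  have e2 : ∫ ℓ in A..2 * A, ∑ k ∈ Finset.range n, phi (t * 2 ^ k / ℓ) * (t * 2 ^ k / ℓ ^ 2) =
      (∑ k ∈ Finset.range n, -Psi (t * 2 ^ k / (2 * A))) -
        ∑ k ∈ Finset.range n, -Psi (t * 2 ^ k / A) := by
    refine intervalIntegral.integral_eq_sub_of_hasDerivAt
      (f := fun ℓ => ∑ k ∈ Finset.range n, -Psi (t * 2 ^ k / ℓ)) (fun ℓ hℓ => ?_) ?_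
    · rw [uIcc_of_le (by linarith)] at hℓ
      have h0 : ℓ ≠ 0 := by linarith [hℓ.1] |> ne_of_gt
      refine HasDerivAt.fun_sum fun k _ => ?_
      have h1 : HasDerivAt (fun ℓ : ℝ => t * 2 ^ k / ℓ) (-(t * 2 ^ k / ℓ ^ 2)) ℓ := by
        have := (hasDerivAt_inv h0).const_mul (t * 2 ^ k)
        exact (this.congr_deriv (by ring)).congr_of_eventuallyEq
          (Eventually.of_forall fun z => div_eq_mul_inv _ _)
      have := ((hasDerivAt_Psi (t * 2 ^ k / ℓ)).comp ℓ h1).neg
      exact this.congr_deriv (by ring)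
    · refine ContinuousOn.intervalIntegrable ?_
      rw [uIcc_of_le (by linarith)]
      refine continuousOn_finsetSum _ fun k _ => ?_
      have h0 : ∀ ℓ ∈ Icc A (2 * A), ℓ ≠ 0 := fun ℓ hℓ => by linarith [hℓ.1] |> ne_of_gt
      refine ContinuousOn.mul (continuous_phi.comp_continuousOn
        (continuousOn_const.div continuousOn_id h0)) (continuousOn_const.div (by fun_prop) ?_)
      exact fun ℓ hℓ => pow_ne_zero 2 (h0 ℓ hℓ)
  rw [e1, e2, ← Finset.sum_sub_distrib]
  have := Finset.sum_range_sub (fun k => Psi (t * 2 ^ k / (2 * A))) n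
  simp only [pow_zero, mul_one] at this
  rw [← this]
  refine Finset.sum_congr rfl fun k _ => ?_
  rw [show t * 2 ^ (k + 1) / (2 * A) = t * 2 ^ k / A by field_simp; ring]
  ring

theorem ker_approx {A : ℝ} (hA : 0 < A) (n : ℕ) (ξ x y : ℝ) :
    |Real.sin (ξ * (x - y)) / (x - y) + 16 * (Real.sin (ξ * (x - y)) * KK (n + 1) A x y)| ≤
      32 / A + if |x - y| ≤ A / 2 ^ n then 100 * |ξ| else 0 := by
  have hK := mul_KK hA (n + 1) x y
  set t := x - y with ht
  have hif : (0 : ℝ) ≤ if |t| ≤ A / 2 ^ n then 100 * |ξ| else 0 := by split_ifs <;> positivity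
  by_cases h0 : t = 0
  · rw [h0] at hif ⊢
    simp only [mul_zero, Real.sin_zero, zero_div, zero_mul, add_zero, abs_zero] at hif ⊢
    positivity
  have ht0 : 0 < |t| := abs_pos.2 h0
  rw [show t * 2 ^ (n + 1) / (2 * A) = t * 2 ^ n / A by field_simp; ring] at hK
  have e : Real.sin (ξ * t) / t + 16 * (Real.sin (ξ * t) * KK (n + 1) A x y) =
      Real.sin (ξ * t) / t * (1 + 16 * Psi (t * 2 ^ n / A)) -
        16 * Real.sin (ξ * t) * (Psi (t / (2 * A)) / t) := by
    have : KK (n + 1) A x y = (Psi (t * 2 ^ n / A) - Psi (t / (2 * A))) / t := by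
      rw [← hK]; field_simp
    rw [this]; field_simp; ring
  have b1 : |16 * Real.sin (ξ * t) * (Psi (t / (2 * A)) / t)| ≤ 32 / A := by
    have h1 : |Psi (t / (2 * A)) / t| ≤ 1 / (2 * A) := by
      rw [abs_div, div_le_iff₀ ht0]
      refine (abs_Psi_le _).trans (le_of_eq ?_)
      rw [abs_div, abs_of_pos (by linarith : 0 < 2 * A)]; ring
    have h2 := Real.abs_sin_le_one (ξ * t)
    rw [abs_mul, abs_mul, abs_of_pos (by norm_num : (0 : ℝ) < 16)]
    calc 16 * |Real.sin (ξ * t)| * |Psi (t / (2 * A)) / t| ≤ 16 * 1 * (1 / (2 * A)) := by gcongr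
      _ = 8 / A := by field_simp; ring
      _ ≤ 32 / A := by gcongr; norm_num
  have b2 : |Real.sin (ξ * t) / t * (1 + 16 * Psi (t * 2 ^ n / A))| ≤
      if |t| ≤ A / 2 ^ n then 100 * |ξ| else 0 := by
    have hu : |t * 2 ^ n / A| = |t| * 2 ^ n / A := by
      rw [abs_div, abs_mul, abs_of_pos hA, abs_of_pos (by positivity : (0 : ℝ) < 2 ^ n)]
    split_ifs with h
    · have h1 : |Real.sin (ξ * t) / t| ≤ |ξ| := by
        rw [abs_div, div_le_iff₀ ht0, ← abs_mul]; exact Real.abs_sin_le_abs
      have h2 : |Psi (t * 2 ^ n / A)| ≤ 1 := by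
        refine (abs_Psi_le _).trans ?_
        rw [hu, div_le_one hA]
        rwa [le_div_iff₀ (by positivity)] at h
      have h3 : |1 + 16 * Psi (t * 2 ^ n / A)| ≤ 100 := by
        rw [abs_le] at h2 ⊢; constructor <;> linarith [h2.1, h2.2]
      rw [abs_mul, mul_comm 100]
      gcongr
    · rw [Psi_far (u := t * 2 ^ n / A)]
      · norm_num
      · rw [hu, le_div_iff₀ hA]
        rw [not_le, div_lt_iff₀ (by positivity)] at h
        linarith
  rw [e]
  refine (abs_sub _ _).trans ?_
  linarith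

end Crest.Agent.R100
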