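import Crest.Agent.R100.OutDefs

set_option autoImplicit false

open MeasureTheory Set Filter
open scoped ENNReal Topology

namespace Crest.Agent.R100

theorem avg_mono : ∀ (n : ℕ) {F F' : List Bool → ℝ}, (∀ l, F l ≤ F' l) → avg n F ≤ avg n F'
  | 0, _, _, h => h []
  | n + 1, F, F', h => by
    have h1 := avg_mono n (F := fun l => F (false :: l)) (F' := fun l => F' (false :: l))
      (fun l => h _)
    have h2 := avg_mono n (F := fun l => F (true :: l)) (F' := fun l => F' (true :: l))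
      (fun l => h _)
    simp only [avg]; linarith

theorem avg_add : ∀ (n : ℕ) (F F' : List Bool → ℝ),
    avg n (fun l => F l + F' l) = avg n F + avg n F'
  | 0, _, _ => rfl
  | n + 1, F, F' => by
    simp only [avg]
    rw [avg_add n (fun l => F (false :: l)) (fun l => F' (false :: l)),
      avg_add n (fun l => F (true :: l)) (fun l => F' (true :: l))]
    ring

theorem SL.nonneg {G : ℝ → ℝ} (h : SL G) {R : ℝ} (hR : 1 ≤ R) : 0 ≤ G R := by
  have := h R 1 (fun _ => 0) 0 0 1 (fun _ => 0) hR one_pos measurable_const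
    (fun _ => ⟨le_rfl, by positivity⟩) one_pos
  simpa [avg, Ts] using this

/-- the rest of the shift after the first large average -/
noncomputable def Tr (g : ℝ → ℝ) (ξ b : ℝ) : ℝ → ℝ → List Bool → ℂ
  | _, _, [] => 0
  | α, ℓ, c :: l => if av g α ℓ ≤ b then Tr g ξ b (ch c α ℓ) (ℓ / 2) l else Tf g ξ α ℓ (c :: l)

theorem Tf_eq (g : ℝ → ℝ) (ξ b : ℝ) : ∀ (l : List Bool) (α ℓ : ℝ),
    Tf g ξ α ℓ l = Ts g ξ b α ℓ l + Tr g ξ b α ℓ l
  | [], α, ℓ => by simp [Tf, Ts, Tr]
  | [c], α, ℓ => by simp [Tf, Ts, Tr]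
  | c :: c' :: l, α, ℓ => by
    have ih := Tf_eq g ξ b (c' :: l) (ch c α ℓ) (ℓ / 2)
    by_cases h : av g α ℓ ≤ b
    · rw [Tf, Ts, if_pos h, Tr, if_pos h, ih]; ring
    · rw [Ts, if_neg h, Tr, if_neg h, zero_add]

theorem Tf_eq_of_good (g : ℝ → ℝ) (ξ b : ℝ) : ∀ (l : List Bool) (α ℓ : ℝ), good g b α ℓ l →
    Tf g ξ α ℓ l = Ts g ξ b α ℓ l
  | [], α, ℓ, _ => by simp [Tf, Ts]
  | [c], α, ℓ, _ => by simp [Tf, Ts]
  | c :: c' :: l, α, ℓ, h => by
    have ih := Tf_eq_of_good g ξ b (c' :: l) (ch c α ℓ) (ℓ / 2) h.2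
    rw [Tf, Ts, if_pos h.1, ih]

open Classical in
theorem stage' {G : ℝ → ℝ} (h : SL G) {R : ℝ} (hR : 1 ≤ R) {g : ℝ → ℝ} (hg : Measurable g) (L : ℕ) :
    ∀ {b : ℝ}, 0 < b → (∀ y, 0 ≤ g y ∧ g y ≤ Real.exp R * b) → ∀ (n : ℕ) {α ℓ : ℝ},
    0 < ℓ → ∀ ξ : List Bool → ℝ,
    ℓ * avg n (fun l => if good g (2 ^ L * b) α ℓ l then ‖Tf g (ξ l) α ℓ l‖ else 0) ≤
      (ℓ * b + 2 * L * ∫ y in α..α + ℓ, g y) * G R := by
  have hG := h.nonneg hR
  induction L with
  | zero =>
    intro b hb hg' n α ℓ hℓ ξ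
    have h1 := h R b g n α ℓ ξ hR hb hg hg' hℓ
    have h2 : avg n (fun l => if good g (2 ^ 0 * b) α ℓ l then ‖Tf g (ξ l) α ℓ l‖ else 0) ≤
        avg n (fun l => ‖Ts g (ξ l) b α ℓ l‖) := by
      refine avg_mono n fun l => ?_
      split_ifs with hl
      · rw [Tf_eq_of_good g (ξ l) b l α ℓ (by simpa using hl)]
      · positivity
    have h3 := mul_le_mul_of_nonneg_left (h2.trans h1) hℓ.le
    simpa [mul_assoc] using h3
  | succ L ih =>
    intro b hb hg' n α ℓ hℓ ξ
    have hint : ∀ a c : ℝ, IntervalIntegrable g volume a c := by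
      intro a c
      refine (intervalIntegrable_const (c := Real.exp R * b)).mono_fun
        hg.aestronglyMeasurable (Eventually.of_forall fun y => ?_)
      simp only [Real.norm_eq_abs]
      rw [abs_of_nonneg (hg' y).1]
      exact (hg' y).2.trans (le_abs_self _)
    have hpos : ∀ a c : ℝ, a ≤ c → 0 ≤ ∫ y in a..c, g y := fun a c hac =>
      intervalIntegral.integral_nonneg hac fun y _ => (hg' y).1
    have tree : ∀ (n : ℕ) (α ℓ : ℝ), 0 < ℓ → ∀ ξ : List Bool → ℝ,
        ℓ * avg n (fun l => if good g (2 ^ (L + 1) * b) α ℓ l then ‖Tr g (ξ l) b α ℓ l‖ else 0) ≤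
          (2 + 2 * L) * (∫ y in α..α + ℓ, g y) * G R := by
      intro n
      induction n with
      | zero =>
        intro α ℓ hℓ ξ
        have := hpos α (α + ℓ) (by linarith)
        simp only [avg, Tr, norm_zero, ite_self, mul_zero]
        positivity
      | succ n ihn =>
        intro α ℓ hℓ ξ
        by_cases hav : av g α ℓ ≤ b
        · have hc : ∀ c : Bool, avg n (fun l => if good g (2 ^ (L + 1) * b) α ℓ (c :: l) then
              ‖Tr g (ξ (c :: l)) b α ℓ (c :: l)‖ else 0) ≤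
              avg n (fun l => if good g (2 ^ (L + 1) * b) (ch c α ℓ) (ℓ / 2) l then
                ‖Tr g (ξ (c :: l)) b (ch c α ℓ) (ℓ / 2) l‖ else 0) := by
            intro c
            refine avg_mono n fun l => ?_
            by_cases hl : good g (2 ^ (L + 1) * b) α ℓ (c :: l)
            · rw [if_pos hl, if_pos hl.2, Tr, if_pos hav]
            · rw [if_neg hl]; split_ifs <;> positivity
          have h0 := ihn (ch false α ℓ) (ℓ / 2) (by linarith) (fun l => ξ (false :: l))
          have h1 := ihn (ch true α ℓ) (ℓ / 2) (by linarith) (fun l => ξ (true :: l))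
          have e0 : ch false α ℓ = α := by simp [ch]
          have e1 : ch true α ℓ = α + ℓ / 2 := by simp [ch]
          have hc0 := mul_le_mul_of_nonneg_left (hc false) (by linarith : 0 ≤ ℓ / 2)
          have hc1 := mul_le_mul_of_nonneg_left (hc true) (by linarith : 0 ≤ ℓ / 2)
          have hsum : (∫ y in ch false α ℓ..ch false α ℓ + ℓ / 2, g y) +
              ∫ y in ch true α ℓ..ch true α ℓ + ℓ / 2, g y = ∫ y in α..α + ℓ, g y := by
            rw [e0, e1, show α + ℓ / 2 + ℓ / 2 = α + ℓ by ring]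
            exact intervalIntegral.integral_add_adjacent_intervals (hint _ _) (hint _ _)
          rw [← hsum]
          simp only [avg]
          nlinarith
        · rw [not_le] at hav
          have hI : ℓ * b ≤ ∫ y in α..α + ℓ, g y := by
            unfold av at hav
            rw [lt_div_iff₀ hℓ] at hav
            linarith
          have h2 := ih (b := 2 * b) (by linarith) (fun y => ⟨(hg' y).1, (hg' y).2.trans
            (mul_le_mul_of_nonneg_left (by linarith) (Real.exp_pos R).le)⟩) (n + 1) (α := α) hℓ ξ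
          have e : (2 : ℝ) ^ L * (2 * b) = 2 ^ (L + 1) * b := by ring
          rw [e] at h2
          have h3 : avg (n + 1) (fun l => if good g (2 ^ (L + 1) * b) α ℓ l then
              ‖Tr g (ξ l) b α ℓ l‖ else 0) ≤ avg (n + 1) (fun l => if good g (2 ^ (L + 1) * b) α ℓ l then
              ‖Tf g (ξ l) α ℓ l‖ else 0) := by
            refine avg_mono _ fun l => ?_
            split_ifs
            · cases l with
              | nil => simp [Tr]
              | cons c l => rw [Tr, if_neg (not_le.2 hav)]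
            · exact le_rfl
          have h4 := mul_le_mul_of_nonneg_left h3 hℓ.le
          have h5 : (ℓ * (2 * b) + 2 * L * ∫ y in α..α + ℓ, g y) * G R ≤
              (2 + 2 * L) * (∫ y in α..α + ℓ, g y) * G R := by
            refine mul_le_mul_of_nonneg_right ?_ hG
            linarith
          linarith
    have h1 := h R b g n α ℓ ξ hR hb hg hg' hℓ
    have h2 := tree n α ℓ hℓ ξ
    have h3 : avg n (fun l => if good g (2 ^ (L + 1) * b) α ℓ l then ‖Tf g (ξ l) α ℓ l‖ else 0) ≤
        avg n (fun l => ‖Ts g (ξ l) b α ℓ l‖ +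
          if good g (2 ^ (L + 1) * b) α ℓ l then ‖Tr g (ξ l) b α ℓ l‖ else 0) := by
      refine avg_mono n fun l => ?_
      split_ifs
      · rw [Tf_eq g (ξ l) b l α ℓ]; exact norm_add_le _ _
      · positivity
    rw [avg_add] at h3
    have h4 := mul_le_mul_of_nonneg_left h3 hℓ.le
    have h5 := mul_le_mul_of_nonneg_left h1 hℓ.le
    push_cast
    nlinarith

open Classical in
/-- Stages. -/
theorem stage {G : ℝ → ℝ} (h : SL G) {R : ℝ} (hR : 1 ≤ R) {g : ℝ → ℝ} (hg : Measurable g) (L : ℕ)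
    {b : ℝ} (hb : 0 < b) (hg' : ∀ y, 0 ≤ g y ∧ g y ≤ Real.exp R * b) (n : ℕ) {α ℓ : ℝ}
    (hℓ : 0 < ℓ) (ξ : List Bool → ℝ) :
    ℓ * avg n (fun l => if good g (2 ^ L * b) α ℓ l then ‖Tf g (ξ l) α ℓ l‖ else 0) ≤
      (ℓ * b + 2 * L * ∫ y in α..α + ℓ, g y) * G R :=
  stage' h hR hg L hb hg' n hℓ ξ

end Crest.Agent.R100
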