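import Crest.Agent.R100.OutRep
import Crest.Agent.R100.OutStage
import Crest.Agent.R100.OutMax

set_option autoImplicit false

open MeasureTheory Set Filter
open scoped ENNReal Topology

namespace Crest.Agent.R100

/-- the bound on one grid -/
theorem grid_bound {G : ℝ → ℝ} (h : SL G) {R b : ℝ} (hR : 1 ≤ R) (hb : 0 < b) {g : ℝ → ℝ}
    (hm : Measurable g) (hg : Integrable g) (h0 : ∀ y, 0 ≤ g y ∧ g y ≤ Real.exp R * b) (L : ℕ)
    {E : Set ℝ} (hE : MeasurableSet E)
    (hE' : ∀ x ∉ E, ∀ α ℓ : ℝ, 0 < ℓ → α ≤ x → x ≤ α + ℓ → av g α ℓ ≤ 2 ^ L * b)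
    (ξ : ℕ → ℝ) (N₀ n : ℕ) (α : ℝ) {ℓ : ℝ} (hℓ : 0 < ℓ) :
    ∫⁻ x in Ico α (α + ℓ) \ E, ⨆ N ≤ N₀, ‖Tx g (ξ N) n α ℓ x‖ₑ ≤
      ENNReal.ofReal ((ℓ * b + 2 * L * ∫ y, g y) * G R) := by
  classical
  have hmax : ∀ l : List Bool, ∃ N, ∀ N' ≤ N₀, ‖Tf g (ξ N') α ℓ l‖ ≤ ‖Tf g (ξ N) α ℓ l‖ := by
    intro l
    obtain ⟨N, -, hN⟩ := Finset.exists_max_image (Finset.range (N₀ + 1))
      (fun N => ‖Tf g (ξ N) α ℓ l‖) ⟨0, by simp⟩
    exact ⟨N, fun N' hN' => hN N' (Finset.mem_range.2 (Nat.lt_succ_of_le hN'))⟩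
  choose Ns hNs using hmax
  set Φ : List Bool → ℝ := fun l =>
    if good g (2 ^ L * b) α ℓ l then ‖Tf g (ξ (Ns l)) α ℓ l‖ else 0 with hΦ
  have hΦ0 : ∀ l, 0 ≤ Φ l := fun l => by
    simp only [hΦ]; split_ifs <;> positivity
  have h1 := stage h hR hm L hb h0 (n + 1) (α := α) hℓ (fun l => ξ (Ns l))
  have h2 : ∫ y in α..α + ℓ, g y ≤ ∫ y, g y := by
    rw [intervalIntegral.integral_of_le (by linarith)]
    exact setIntegral_le_integral hg (Eventually.of_forall fun y => (h0 y).1)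
  calc ∫⁻ x in Ico α (α + ℓ) \ E, ⨆ N ≤ N₀, ‖Tx g (ξ N) n α ℓ x‖ₑ
      ≤ ∫⁻ x in Ico α (α + ℓ) \ E, ENNReal.ofReal (Φ (path (n + 1) α ℓ x)) := by
        refine setLIntegral_mono' (measurableSet_Ico.diff hE) fun x hx => ?_
        refine iSup₂_le fun N hN => ?_
        rw [← Tf_path hg (ξ N) n hℓ hx.1, ← ofReal_norm]
        refine ENNReal.ofReal_le_ofReal ?_
        simp only [hΦ]
        rw [if_pos (good_path (hE' x hx.2) (n + 1) hℓ hx.1)]
        exact hNs _ N hN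
    _ ≤ ∫⁻ x in Ico α (α + ℓ), ENNReal.ofReal (Φ (path (n + 1) α ℓ x)) :=
        lintegral_mono_set sdiff_subset
    _ = ENNReal.ofReal (ℓ * avg (n + 1) Φ) := lintegral_path hΦ0 _ _ hℓ
    _ ≤ _ := by
        refine ENNReal.ofReal_le_ofReal (h1.trans ?_)
        have := h.nonneg hR
        gcongr

/-- Tonelli -/
theorem tonelli_grid {U : ℝ × ℝ × ℝ → ℝ≥0∞} (hU : Measurable U) {E : Set ℝ} (hE : MeasurableSet E)
    (x₀ : ℝ) {W : ℝ} (_hW : 0 < W) {c : ℝ≥0∞}
    (hc : ∀ α, ∀ ℓ ∈ Ioc W (2 * W), ∫⁻ x in Ico α (α + ℓ) \ E, U (α, ℓ, x) ≤ c) :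
    ∫⁻ x in Ico x₀ (x₀ + W) \ E, ∫⁻ ℓ in Ioc W (2 * W), ∫⁻ α in Ioc (x - ℓ) x, U (α, ℓ, x) ≤
      c * ENNReal.ofReal (3 * W) * ENNReal.ofReal W := by
  set V : ℝ × ℝ × ℝ → ℝ≥0∞ := {p : ℝ × ℝ × ℝ | p.2.2 - p.2.1 < p.1 ∧ p.1 ≤ p.2.2}.indicator U with hV
  have hVm : Measurable V := hU.indicator
    ((measurableSet_lt (f := fun p : ℝ × ℝ × ℝ => p.2.2 - p.2.1) (g := fun p => p.1)
      (by fun_prop) (by fun_prop)).inter
      (measurableSet_le (f := fun p : ℝ × ℝ × ℝ => p.1) (g := fun p => p.2.2)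
        (by fun_prop) (by fun_prop)))
  have e1 : ∀ x ℓ : ℝ, ∫⁻ α in Ioc (x - ℓ) x, U (α, ℓ, x) = ∫⁻ α, V (α, ℓ, x) := by
    intro x ℓ
    rw [← lintegral_indicator measurableSet_Ioc]
    rfl
  simp_rw [e1]
  have hm1 : Measurable fun q : ℝ × ℝ => ∫⁻ α, V (α, q.2, q.1) :=
    Measurable.lintegral_prod_right' (f := fun p : (ℝ × ℝ) × ℝ => V (p.2, p.1.2, p.1.1))
      (hVm.comp (by fun_prop))
  rw [lintegral_lintegral_swap hm1.aemeasurable]
  calc ∫⁻ ℓ in Ioc W (2 * W), ∫⁻ x in Ico x₀ (x₀ + W) \ E, ∫⁻ α, V (α, ℓ, x)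
      ≤ ∫⁻ _ℓ in Ioc W (2 * W), c * ENNReal.ofReal (3 * W) := by
        refine setLIntegral_mono' measurableSet_Ioc fun ℓ hℓ => ?_
        have hm2 : Measurable fun q : ℝ × ℝ => V (q.2, ℓ, q.1) := hVm.comp (by fun_prop)
        rw [lintegral_lintegral_swap hm2.aemeasurable]
        calc ∫⁻ α, ∫⁻ x in Ico x₀ (x₀ + W) \ E, V (α, ℓ, x)
            ≤ ∫⁻ α, (Ioc (x₀ - 2 * W) (x₀ + W)).indicator (fun _ => c) α := by
              refine lintegral_mono fun α => ?_
              by_cases hα : α ∈ Ioc (x₀ - 2 * W) (x₀ + W)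
              · rw [indicator_of_mem hα]
                refine le_trans ?_ (hc α ℓ hℓ)
                rw [← lintegral_indicator (measurableSet_Ico.diff hE),
                  ← lintegral_indicator (measurableSet_Ico.diff hE)]
                refine lintegral_mono fun x => ?_
                by_cases hx : x ∈ Ico x₀ (x₀ + W) \ E
                · rw [indicator_of_mem hx]
                  by_cases hp : x - ℓ < α ∧ α ≤ x
                  · rw [indicator_of_mem (show x ∈ Ico α (α + ℓ) \ E from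
                      ⟨⟨hp.2, by linarith [hp.1]⟩, hx.2⟩)]
                    exact indicator_le_self _ _ _
                  · exact (indicator_of_notMem (a := (α, ℓ, x)) hp U).trans_le zero_le
                · rw [indicator_of_notMem hx]; exact zero_le
              · rw [indicator_of_notMem hα]
                refine le_of_eq (setLIntegral_eq_zero (measurableSet_Ico.diff hE) fun x hx => ?_)
                refine indicator_of_notMem (fun hp => hα ⟨?_, ?_⟩) _
                · have := hp.1; simp only at this; linarith [hx.1.1, hℓ.2]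
                · have := hp.2; simp only at this; linarith [hx.1.2]
          _ = c * ENNReal.ofReal (3 * W) := by
              rw [lintegral_indicator_const measurableSet_Ioc, Real.volume_Ioc]
              congr 2; ring
    _ = _ := by
        rw [setLIntegral_const, Real.volume_Ioc]
        congr 2; ring

theorem line_of_SL {G : ℝ → ℝ} (h : SL G) : LineBound G := by
  refine ⟨96, by norm_num, fun R b W x₀ L g hR hb hW hm hg h0 hint => ?_⟩
  have hG := h.nonneg hR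
  obtain ⟨E, hE, hvol, hE'⟩ := hl_weak hg (fun y => (h0 y).1) (s := 2 ^ L * b) (by positivity)
  refine ⟨E, hE, hvol.trans (ENNReal.ofReal_le_ofReal ?_), fun ξ N₀ => ?_⟩
  · rw [div_le_div_iff₀ (by positivity) (by positivity)]
    have : (0 : ℝ) < 2 ^ L := by positivity
    have : 0 < W * b := by positivity
    nlinarith
  set H := Real.exp R * b with hH
  have hH0 : 0 < H := by positivity
  set M : ℝ := ∑ N ∈ Finset.range (N₀ + 1), |ξ N| with hM
  have hM0 : 0 ≤ M := Finset.sum_nonneg fun _ _ => abs_nonneg _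
  have hMN : ∀ N ≤ N₀, |ξ N| ≤ M := fun N hN =>
    Finset.single_le_sum (f := fun N => |ξ N|) (fun _ _ => abs_nonneg _)
      (Finset.mem_range.2 (Nat.lt_succ_of_le hN))
  have key : ∀ n : ℕ, ∫⁻ x in Ico x₀ (x₀ + W) \ E, ⨆ N ≤ N₀, ‖Dl g (ξ N) x‖ₑ ≤
      ENNReal.ofReal (W * (32 * b + 200 * M * H * W / 2 ^ n) + 96 * W * b * ((L + 1) * G R)) := by
    intro n
    set U : ℝ × ℝ × ℝ → ℝ≥0∞ := fun p => ⨆ N ≤ N₀, ‖Tx g (ξ N) (n + 1) p.1 p.2.1 p.2.2‖ₑ with hU
    have hUm : Measurable U :=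
      Measurable.iSup fun N => Measurable.iSup fun _ => (measurable_Tx hm (ξ N) (n + 1)).enorm
    have hc : ∀ α, ∀ ℓ ∈ Ioc W (2 * W), ∫⁻ x in Ico α (α + ℓ) \ E, U (α, ℓ, x) ≤
        ENNReal.ofReal (2 * W * b * ((L + 1) * G R)) := by
      intro α ℓ hℓ
      refine (grid_bound h hR hb hm hg h0 L hE hE' ξ N₀ (n + 1) α (hW.trans hℓ.1)).trans
        (ENNReal.ofReal_le_ofReal ?_)
      have h1 : ℓ * b ≤ 2 * W * b := mul_le_mul_of_nonneg_right hℓ.2 hb.le
      have h2 : 2 * (L : ℝ) * ∫ y, g y ≤ 2 * L * (W * b) := by gcongr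
      calc _ ≤ (2 * W * b + 2 * L * (W * b)) * G R := by gcongr
        _ = _ := by ring
    have hT := tonelli_grid hUm hE x₀ hW hc
    calc ∫⁻ x in Ico x₀ (x₀ + W) \ E, ⨆ N ≤ N₀, ‖Dl g (ξ N) x‖ₑ
        ≤ ∫⁻ x in Ico x₀ (x₀ + W) \ E, (ENNReal.ofReal (32 * b + 200 * M * H * W / 2 ^ n) +
          ENNReal.ofReal (16 / W ^ 2) *
            ∫⁻ ℓ in Ioc W (2 * W), ∫⁻ α in Ioc (x - ℓ) x, U (α, ℓ, x)) := by
          refine lintegral_mono fun x => iSup₂_le fun N hN => ?_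
          refine (rep_bound hm hg h0 hW n (ξ N) x).trans (add_le_add ?_ ?_)
          · refine ENNReal.ofReal_le_ofReal (add_le_add ?_ ?_)
            · rw [div_mul_eq_mul_div, div_le_iff₀ hW]; linarith
            · have := hMN N hN
              gcongr
          · refine mul_le_mul_right (lintegral_mono fun ℓ => lintegral_mono fun α => ?_) _
            exact le_iSup₂_of_le (f := fun N (_ : N ≤ N₀) => ‖Tx g (ξ N) (n + 1) α ℓ x‖ₑ) N hN le_rfl
      _ = ENNReal.ofReal (32 * b + 200 * M * H * W / 2 ^ n) * volume (Ico x₀ (x₀ + W) \ E) +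
          ENNReal.ofReal (16 / W ^ 2) * ∫⁻ x in Ico x₀ (x₀ + W) \ E,
            ∫⁻ ℓ in Ioc W (2 * W), ∫⁻ α in Ioc (x - ℓ) x, U (α, ℓ, x) := by
          rw [lintegral_add_left measurable_const, setLIntegral_const,
            lintegral_const_mul' _ _ ENNReal.ofReal_ne_top]
      _ ≤ ENNReal.ofReal (32 * b + 200 * M * H * W / 2 ^ n) * ENNReal.ofReal W +
          ENNReal.ofReal (16 / W ^ 2) * (ENNReal.ofReal (2 * W * b * ((L + 1) * G R)) *
            ENNReal.ofReal (3 * W) * ENNReal.ofReal W) := by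
          gcongr
          refine (measure_mono sdiff_subset).trans ?_
          rw [Real.volume_Ico]; simp
      _ = _ := by
          rw [← ENNReal.ofReal_mul (by positivity), ← ENNReal.ofReal_mul (by positivity),
            ← ENNReal.ofReal_mul (by positivity), ← ENNReal.ofReal_mul (by positivity),
            ← ENNReal.ofReal_add (by positivity) (by positivity)]
          congr 1
          field_simp
          ring
  obtain ⟨n, hn⟩ := pow_unbounded_of_one_lt (200 * M * H * W / b) (by norm_num : (1 : ℝ) < 2)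
  refine (key n).trans (ENNReal.ofReal_le_ofReal ?_)
  have h1 : 200 * M * H * W / 2 ^ n ≤ b := by
    rw [div_lt_iff₀ hb] at hn
    rw [div_le_iff₀ (by positivity)]; linarith
  have h2 : W * (32 * b + 200 * M * H * W / 2 ^ n) ≤ W * (96 * b) := by
    gcongr; linarith
  nlinarith

end Crest.Agent.R100
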