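import Crest.Agent.R100.OutKer

set_option autoImplicit false

open MeasureTheory Set Filter
open scoped ENNReal Topology

namespace Crest.Agent.R100

theorem rep_measurable_ex (ξ : ℝ) : Measurable (ex ξ) := by
  unfold ex; fun_prop

theorem rep_norm_ex (ξ y : ℝ) : ‖ex ξ y‖ = 1 := by
  unfold ex
  rw [← Complex.ofReal_neg, Complex.norm_exp_ofReal_mul_I]

theorem measurable_Tx {g : ℝ → ℝ} (hg : Measurable g) (ξ : ℝ) (n : ℕ) :
    Measurable fun p : ℝ × ℝ × ℝ => Tx g ξ n p.1 p.2.1 p.2.2 := by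
  have hk : Measurable fun q : (ℝ × ℝ × ℝ) × ℝ => kn n q.1.1 q.1.2.1 q.1.2.2 q.2 :=
    measurable_kn n (by fun_prop) (by fun_prop) (by fun_prop) (by fun_prop)
  have he := rep_measurable_ex ξ
  have hm : Measurable fun q : (ℝ × ℝ × ℝ) × ℝ =>
      (g q.2 : ℂ) * ex ξ q.2 * (kn n q.1.1 q.1.2.1 q.1.2.2 q.2 : ℂ) := by
    refine Measurable.mul (Measurable.mul ?_ ?_) ?_
    · exact Complex.measurable_ofReal.comp (hg.comp measurable_snd)
    · exact he.comp measurable_snd
    · exact Complex.measurable_ofReal.comp hk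
  exact (hm.stronglyMeasurable.integral_prod_right' (ν := (volume : Measure ℝ))).measurable

/-- Fubini for an integrable function times a bounded kernel -/
theorem rep_swap {G : ℝ → ℝ} (hG : Integrable G) {a b : ℝ} {F : ℝ → ℝ → ℝ}
    (hF : Measurable fun p : ℝ × ℝ => F p.1 p.2) {C : ℝ} (hC : ∀ y, ∀ t ∈ Ioc a b, |F y t| ≤ C) :
    Integrable (fun y => G y * ∫ t in Ioc a b, F y t) ∧
      ∫ y, G y * ∫ t in Ioc a b, F y t = ∫ t in Ioc a b, ∫ y, G y * F y t := by
  have hI : Integrable (fun p : ℝ × ℝ => G p.1 * F p.1 p.2)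
      (volume.prod (volume.restrict (Ioc a b))) := by
    have h1 : Integrable (fun p : ℝ × ℝ => ‖G p.1‖ * C)
        (volume.prod (volume.restrict (Ioc a b))) :=
      hG.norm.mul_prod (integrable_const C)
    refine h1.mono' (hG.aestronglyMeasurable.comp_fst.mul hF.aestronglyMeasurable) ?_
    have h2 : ∀ᵐ p : ℝ × ℝ ∂(volume.prod (volume.restrict (Ioc a b))), p.2 ∈ Ioc a b :=
      Measure.quasiMeasurePreserving_snd.ae (ae_restrict_mem measurableSet_Ioc)
    filter_upwards [h2] with p hp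
    rw [norm_mul]
    exact mul_le_mul_of_nonneg_left (hC _ _ hp) (norm_nonneg _)
  simp_rw [← integral_const_mul]
  exact ⟨hI.integral_prod_left, integral_integral_swap hI⟩

theorem rep_im {g : ℝ → ℝ} (hg : Integrable g) (ξ : ℝ) (n : ℕ) (α : ℝ) {ℓ : ℝ} (hℓ : 0 < ℓ)
    (x : ℝ) : ‖∫ y, g y * Real.sin (ξ * (x - y)) * kn n α ℓ x y‖ ≤ ‖Tx g ξ n α ℓ x‖ := by
  have hk : Measurable fun y : ℝ => kn n α ℓ x y :=
    measurable_kn n measurable_const measurable_const measurable_const measurable_id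
  have hI : Integrable fun y => (g y : ℂ) * ex ξ y * (kn n α ℓ x y : ℂ) := by
    have h1 : Integrable fun y => (g y : ℂ) := hg.ofReal
    refine (h1.mul_bdd (c := 1) (rep_measurable_ex ξ).aestronglyMeasurable
      (Eventually.of_forall fun y => (rep_norm_ex ξ y).le)).mul_bdd (c := 2 ^ n / ℓ)
      (Complex.measurable_ofReal.comp hk).aestronglyMeasurable (Eventually.of_forall fun y => ?_)
    rw [Complex.norm_real]
    exact abs_kn_le n α hℓ x y
  have h2 : ∫ y, g y * Real.sin (ξ * (x - y)) * kn n α ℓ x y =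
      (ex ξ (-x) * Tx g ξ n α ℓ x).im := by
    unfold Tx
    rw [← integral_const_mul]
    have h3 := integral_im (𝕜 := ℂ) (hI.const_mul (ex ξ (-x)))
    simp only [RCLike.im_to_complex] at h3
    rw [← h3]
    refine integral_congr_ae (Eventually.of_forall fun y => ?_)
    have h4 : ex ξ (-x) * ((g y : ℂ) * ex ξ y * (kn n α ℓ x y : ℂ)) =
        ((g y * kn n α ℓ x y : ℝ) : ℂ) * Complex.exp (((ξ * (x - y) : ℝ) : ℂ) * Complex.I) := by
      have h5 : Complex.exp (((ξ * (x - y) : ℝ) : ℂ) * Complex.I) = ex ξ (-x) * ex ξ y := by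
        unfold ex
        rw [← Complex.exp_add]
        congr 1
        push_cast
        ring
      rw [h5]
      push_cast
      ring
    show _ = (ex ξ (-x) * ((g y : ℂ) * ex ξ y * (kn n α ℓ x y : ℂ))).im
    rw [h4, Complex.im_ofReal_mul, Complex.exp_ofReal_mul_I_im]
    ring
  rw [h2, Real.norm_eq_abs]
  refine (Complex.abs_im_le_norm _).trans ?_
  rw [norm_mul, rep_norm_ex, one_mul]

theorem rep_Q {g : ℝ → ℝ} (hg : Integrable g) {A : ℝ} (hA : 0 < A) (n : ℕ) (ξ x : ℝ) :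
    Integrable (fun y => g y * Real.sin (ξ * (x - y)) * KK n A x y) ∧
      ‖∫ y, g y * Real.sin (ξ * (x - y)) * KK n A x y‖ₑ ≤ ENNReal.ofReal (1 / A ^ 2) *
        ∫⁻ ℓ in Ioc A (2 * A), ∫⁻ α in Ioc (x - ℓ) x, ‖Tx g ξ n α ℓ x‖ₑ := by
  set G : ℝ → ℝ := fun y => g y * Real.sin (ξ * (x - y)) with hGdef
  have hG : Integrable G :=
    hg.mul_bdd (c := 1) (by fun_prop) (Eventually.of_forall fun y => Real.abs_sin_le_one _)
  set F : ℝ → ℝ → ℝ := fun y ℓ => (∫ α in Ioc (x - ℓ) x, kn n α ℓ x y) / ℓ ^ 2 with hFdef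
  have hK : ∀ y, KK n A x y = ∫ ℓ in Ioc A (2 * A), F y ℓ := by
    intro y
    unfold KK
    rw [intervalIntegral.integral_of_le (by linarith)]
    refine setIntegral_congr_fun measurableSet_Ioc fun ℓ hℓ => ?_
    have : x - ℓ ≤ x := by linarith [hℓ.1]
    simp only [hFdef]
    rw [intervalIntegral.integral_of_le this]
  have hFm : Measurable fun p : ℝ × ℝ => F p.1 p.2 := by
    have hk : Measurable fun q : (ℝ × ℝ) × ℝ => kn n q.2 q.1.2 x q.1.1 :=
      measurable_kn n (by fun_prop) (by fun_prop) (by fun_prop) (by fun_prop)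
    have hS : MeasurableSet {q : (ℝ × ℝ) × ℝ | x - q.1.2 < q.2 ∧ q.2 ≤ x} :=
      (measurableSet_lt (f := fun q : (ℝ × ℝ) × ℝ => x - q.1.2) (g := fun q => q.2)
        (by fun_prop) (by fun_prop)).inter
        (measurableSet_le (f := fun q : (ℝ × ℝ) × ℝ => q.2) (g := fun _ => x)
          (by fun_prop) (by fun_prop))
    have h1 := ((hk.indicator hS).stronglyMeasurable.integral_prod_right'
      (ν := (volume : Measure ℝ))).measurable
    have h2 : (fun p : ℝ × ℝ => ∫ α in Ioc (x - p.2) x, kn n α p.2 x p.1) = fun p : ℝ × ℝ =>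
        ∫ α, {q : (ℝ × ℝ) × ℝ | x - q.1.2 < q.2 ∧ q.2 ≤ x}.indicator
          (fun q : (ℝ × ℝ) × ℝ => kn n q.2 q.1.2 x q.1.1) (p, α) := by
      funext p
      rw [← integral_indicator measurableSet_Ioc]
      rfl
    have h3 : Measurable fun p : ℝ × ℝ => ∫ α in Ioc (x - p.2) x, kn n α p.2 x p.1 := by
      rw [h2]; exact h1
    exact h3.div (by fun_prop)
  have hFb : ∀ y, ∀ ℓ ∈ Ioc A (2 * A), |F y ℓ| ≤ 2 ^ n / A ^ 2 := by
    intro y ℓ hℓ
    have hℓ0 : 0 < ℓ := hA.trans hℓ.1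
    have h1 : ‖∫ α in Ioc (x - ℓ) x, kn n α ℓ x y‖ ≤ 2 ^ n / ℓ * volume.real (Ioc (x - ℓ) x) :=
      norm_setIntegral_le_of_norm_le_const (by simp) fun α _ => abs_kn_le n α hℓ0 x y
    rw [Real.volume_real_Ioc_of_le (by linarith), Real.norm_eq_abs] at h1
    have h2 : (2 : ℝ) ^ n / ℓ * (x - (x - ℓ)) = 2 ^ n := by field_simp; ring
    rw [h2] at h1
    simp only [hFdef]
    rw [abs_div, abs_of_pos (pow_pos hℓ0 2)]
    exact div_le_div₀ (by positivity) h1 (by positivity) (by gcongr; exact hℓ.1.le)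
  obtain ⟨hI, hE⟩ := rep_swap hG hFm hFb
  simp_rw [hK]
  refine ⟨hI, ?_⟩
  show ‖∫ y, G y * ∫ ℓ in Ioc A (2 * A), F y ℓ‖ₑ ≤ _
  rw [hE, ← lintegral_const_mul' _ _ ENNReal.ofReal_ne_top]
  refine (enorm_integral_le_lintegral_enorm _).trans ?_
  refine setLIntegral_mono' measurableSet_Ioc fun ℓ hℓ => ?_
  have hℓ0 : 0 < ℓ := hA.trans hℓ.1
  have hk : Measurable fun p : ℝ × ℝ => kn n p.2 ℓ x p.1 :=
    measurable_kn n (by fun_prop) (by fun_prop) (by fun_prop) (by fun_prop)
  obtain ⟨-, hE2⟩ := rep_swap (a := x - ℓ) (b := x) (F := fun y α => kn n α ℓ x y) hG hk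
    fun y α _ => abs_kn_le n α hℓ0 x y
  have h1 : ∫ y, G y * F y ℓ = (1 / ℓ ^ 2) * ∫ α in Ioc (x - ℓ) x, ∫ y, G y * kn n α ℓ x y := by
    rw [← hE2, ← integral_const_mul]
    refine integral_congr_ae (Eventually.of_forall fun y => ?_)
    simp only [hFdef]
    ring
  rw [h1, enorm_mul]
  refine mul_le_mul' ?_ ?_
  · rw [Real.enorm_eq_ofReal (by positivity)]
    refine ENNReal.ofReal_le_ofReal ?_
    exact one_div_le_one_div_of_le (by positivity) (by gcongr; exact hℓ.1.le)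
  · refine (enorm_integral_le_lintegral_enorm _).trans (lintegral_mono fun α => ?_)
    have := rep_im hg ξ n α hℓ0 x
    rw [← ofReal_norm, ← ofReal_norm]
    exact ENNReal.ofReal_le_ofReal this

theorem rep_abs_sin_div (ξ t : ℝ) : |Real.sin (ξ * t) / t| ≤ |ξ| := by
  rcases eq_or_ne t 0 with rfl | ht
  · simp
  · rw [abs_div, div_le_iff₀ (abs_pos.2 ht), ← abs_mul]
    exact Real.abs_sin_le_abs

/-- Fubini (`|kn| ≤ 2 ^ n / A`, `g` integrable), `sin (ξ (x - y)) = im (e^{i ξ x} ex ξ y)` and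
`ker_approx`. -/
theorem rep_bound {g : ℝ → ℝ} (hm : Measurable g) (hg : Integrable g) {H : ℝ}
    (h0 : ∀ y, 0 ≤ g y ∧ g y ≤ H) {A : ℝ} (hA : 0 < A) (n : ℕ) (ξ x : ℝ) :
    ‖Dl g ξ x‖ₑ ≤ ENNReal.ofReal (32 / A * (∫ y, g y) + 200 * |ξ| * H * A / 2 ^ n) +
      ENNReal.ofReal (16 / A ^ 2) *
        ∫⁻ ℓ in Ioc A (2 * A), ∫⁻ α in Ioc (x - ℓ) x, ‖Tx g ξ (n + 1) α ℓ x‖ₑ := by
  obtain ⟨hQ, hQb⟩ := rep_Q hg hA (n + 1) ξ x
  have hD : Integrable fun y => g y * (Real.sin (ξ * (x - y)) / (x - y)) :=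
    hg.mul_bdd (c := |ξ|) (Measurable.aestronglyMeasurable (by fun_prop))
      (Eventually.of_forall fun y => rep_abs_sin_div ξ (x - y))
  set P : ℝ → ℝ := fun y => g y * (Real.sin (ξ * (x - y)) / (x - y)) +
    16 * (g y * Real.sin (ξ * (x - y)) * KK (n + 1) A x y) with hPdef
  have hsplit : Dl g ξ x =
      (∫ y, P y) + (-16) * ∫ y, g y * Real.sin (ξ * (x - y)) * KK (n + 1) A x y := by
    simp only [hPdef]
    rw [integral_add hD (hQ.const_mul 16), integral_const_mul]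
    unfold Dl
    ring
  have hr : 0 < A / 2 ^ n := by positivity
  have hP : ‖∫ y, P y‖ ≤ 32 / A * (∫ y, g y) + 200 * |ξ| * H * A / 2 ^ n := by
    have hB2 : Integrable ((Icc (x - A / 2 ^ n) (x + A / 2 ^ n)).indicator
        fun _ : ℝ => H * (100 * |ξ|)) :=
      (integrable_indicator_iff measurableSet_Icc).2 (integrableOn_const (by simp))
    have h1 := norm_integral_le_of_norm_le (f := P) ((hg.const_mul (32 / A)).add hB2)
      (Eventually.of_forall fun y => by
        have h2 : P y = g y * (Real.sin (ξ * (x - y)) / (x - y) +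
            16 * (Real.sin (ξ * (x - y)) * KK (n + 1) A x y)) := by
          simp only [hPdef]; ring
        rw [h2, Real.norm_eq_abs, abs_mul, abs_of_nonneg (h0 y).1]
        refine (mul_le_mul_of_nonneg_left (ker_approx hA n ξ x y) (h0 y).1).trans ?_
        simp only [Pi.add_apply]
        rw [mul_add, mul_comm (g y) (32 / A)]
        gcongr
        by_cases h3 : |x - y| ≤ A / 2 ^ n
        · have h4 : y ∈ Icc (x - A / 2 ^ n) (x + A / 2 ^ n) := by
            rw [abs_le] at h3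
            constructor <;> linarith [h3.1, h3.2]
          rw [if_pos h3, indicator_of_mem h4]
          exact mul_le_mul_of_nonneg_right (h0 y).2 (by positivity)
        · rw [if_neg h3, mul_zero]
          refine indicator_nonneg (fun _ _ => ?_) _
          have : 0 ≤ H := (h0 0).1.trans (h0 0).2
          positivity)
    refine h1.trans (le_of_eq ?_)
    simp only [Pi.add_apply]
    rw [integral_add (hg.const_mul (32 / A)) hB2, integral_const_mul,
      integral_indicator measurableSet_Icc, setIntegral_const,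
      Real.volume_real_Icc_of_le (by linarith), smul_eq_mul]
    ring
  rw [hsplit]
  refine (enorm_add_le _ _).trans (add_le_add ?_ ?_)
  · rw [← ofReal_norm]
    exact ENNReal.ofReal_le_ofReal hP
  · rw [enorm_mul]
    refine (mul_le_mul' le_rfl hQb).trans (le_of_eq ?_)
    rw [← mul_assoc, ← ofReal_norm, ← ENNReal.ofReal_mul (norm_nonneg _)]
    congr 2
    rw [norm_neg, Real.norm_eq_abs, abs_of_pos (by norm_num : (0 : ℝ) < 16)]
    ring

end Crest.Agent.R100
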