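import Crest.Agent.R100.RunB

/-! # Row 100, RUN (helper42): the run estimate -/

set_option autoImplicit false

noncomputable section

namespace Crest.Agent.R100.Run

open Crest.Agent.R100 Crest.Agent.R100.Low

variable {Y : Type*} [Fintype Y]

theorem pen_nonneg {p pc : Y → List Bool → ℝ} (hp : RP p pc) (n : ℕ) (l : List Bool) :
    0 ≤ pen p pc n l :=
  Finset.sum_nonneg fun _ _ => add_nonneg (Vl_nonneg hp _) (Rm_nonneg hp _)

theorem pen_mono {p pc : Y → List Bool → ℝ} (hp : RP p pc) {t n : ℕ} (h : t ≤ n) (l : List Bool) :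
    pen p pc t l ≤ pen p pc n l :=
  Finset.sum_le_sum_of_subset_of_nonneg (Finset.range_mono h)
    fun _ _ _ => add_nonneg (Vl_nonneg hp _) (Rm_nonneg hp _)

theorem run_pt {K ε P : ℝ} (hK : 1 ≤ K) (hε : 0 < ε) (hε1 : ε ≤ 1) (hP : 0 < P)
    {p pc : Y → List Bool → ℝ} {u uc : Y → List Bool → ℂ} (hp : RP p pc)
    (D : Y → List Bool → ℂ) {Gd : List Bool → Prop} (hG : GoodSet ε P p u Gd) {n t : ℕ}
    (l : List Bool) (hl : l.length = n) (ht : t ≤ n) (hg : Gd (l.take t)) :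
    Real.exp ((∑ y, ‖∑ j ∈ Finset.range t, tD (D y) l j‖) / (512 * ε * P) -
      K ^ 2 * pen p pc n l / (2 * ε ^ 2 * P)) ≤
      3 / 2 * √((Z1 ε P p pc u uc D Gd (l.take t) + Z2 K ε P p pc u uc Gd (l.take t)) / 2) := by
  classical
  have htl : t ≤ l.length := hl ▸ ht
  have hB : 0 < ε ^ 2 * P := by positivity
  set a := (∑ y, ‖∑ j ∈ Finset.range t, tD (D y) l j‖) / (512 * ε * P) -
      K ^ 2 * pen p pc n l / (2 * ε ^ 2 * P) with ha
  set z1 := Z1 ε P p pc u uc D Gd (l.take t) with hz1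
  set z2 := Z2 K ε P p pc u uc Gd (l.take t) with hz2
  have n1 : 0 ≤ z1 := Z1_nonneg D Gd _
  have n2 : 0 ≤ z2 := Z2_nonneg hε hP hp hG _
  set SW := ∑ k ∈ Finset.range t, Wq p u uc (l.take k) with hSW
  set SV := ∑ k ∈ Finset.range t, Vl p pc (l.take k) with hSV
  set SR := ∑ k ∈ Finset.range t, Rm p pc (l.take (k + 1)) with hSR
  have hSV0 : 0 ≤ SV := Finset.sum_nonneg fun _ _ => Vl_nonneg hp _
  have hSR0 : 0 ≤ SR := Finset.sum_nonneg fun _ _ => Rm_nonneg hp _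
  have hpen : SV + SR ≤ pen p pc n l := by
    rw [hSV, hSR, ← Finset.sum_add_distrib]; exact pen_mono hp ht l
  have e1 : z1 = Real.exp (Phi ε p D (l.take t) / (64 * ε * P) - 1 / 32 +
      3 / 2 * Wp D (l.take t) / (64 * ε * P) ^ 2 - (SW / (128 * (ε ^ 2 * P)) + SV / P)) := by
    rw [hz1, Z1, if_pos hg, psum_take _ _ l htl]
    simp only [add_zero]
    rw [Finset.sum_add_distrib, ← Finset.sum_div, ← Finset.sum_div]
  have e2 : 3 / 4 * Real.exp (SW / (128 * (ε ^ 2 * P)) - K ^ 2 * (SV + SR) / (ε ^ 2 * P)) ≤ z2 := by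
    rw [hz2, Z2, if_pos hg, psum_take _ _ l htl]
    refine mul_le_mul (h_bounds hε hP hp hG hg).1 (le_of_eq ?_) (Real.exp_pos _).le
      (by linarith [(h_bounds hε hP hp hG hg).1])
    congr 1
    rw [Finset.sum_add_distrib, Finset.sum_sub_distrib, Finset.sum_neg_distrib, ← Finset.sum_div,
      ← Finset.sum_div, ← Finset.sum_div, ← Finset.mul_sum, ← Finset.mul_sum]
    ring
  have hX : ∑ y, ‖∑ j ∈ Finset.range t, tD (D y) l j‖ ≤ 2 * Phi ε p D (l.take t) := by
    rw [Phi, Finset.mul_sum]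
    refine Finset.sum_le_sum fun y _ => (sum_tD_le (D y) l htl).trans ?_
    obtain ⟨-, k2, k3⟩ := le_n3 (ε * p y (l.take t)) ‖MM (D y) (l.take t)‖ ‖Pd (D y) (l.take t)‖
    linarith
  have hWp : 0 ≤ 3 / 2 * Wp D (l.take t) / (64 * ε * P) ^ 2 := by unfold Wp; positivity
  have hKe : SV / P ≤ K ^ 2 * (SV + SR) / (ε ^ 2 * P) := by
    rw [div_le_div_iff₀ hP hB]
    have h1 : ε ^ 2 ≤ 1 := pow_le_one₀ hε.le hε1
    have h2 : 1 ≤ K ^ 2 := one_le_pow₀ hK
    have h3 : SV * ε ^ 2 ≤ K ^ 2 * (SV + SR) := by nlinarith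
    nlinarith
  have h4a : 4 * a ≤ Phi ε p D (l.take t) / (64 * ε * P) -
      2 * (K ^ 2 * (SV + SR) / (ε ^ 2 * P)) := by
    have h1 : 4 * ((∑ y, ‖∑ j ∈ Finset.range t, tD (D y) l j‖) / (512 * ε * P)) ≤
        Phi ε p D (l.take t) / (64 * ε * P) := by
      have : Phi ε p D (l.take t) / (64 * ε * P) =
          4 * (2 * Phi ε p D (l.take t) / (512 * ε * P)) := by field_simp; ring
      rw [this]; gcongr
    have h2 : 2 * (K ^ 2 * (SV + SR) / (ε ^ 2 * P)) ≤
        4 * (K ^ 2 * pen p pc n l / (2 * ε ^ 2 * P)) := by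
      have : 4 * (K ^ 2 * pen p pc n l / (2 * ε ^ 2 * P)) =
          2 * (K ^ 2 * pen p pc n l / (ε ^ 2 * P)) := by field_simp; ring
      rw [this]; gcongr
    rw [ha]; linarith
  have h5 : Real.exp (4 * a) ≤ Real.exp (1 / 32) * (z1 * (4 / 3 * z2)) := by
    have h1 : Real.exp (SW / (128 * (ε ^ 2 * P)) - K ^ 2 * (SV + SR) / (ε ^ 2 * P)) ≤
        4 / 3 * z2 := by linarith
    refine le_trans ?_ (mul_le_mul_of_nonneg_left (mul_le_mul_of_nonneg_left h1 n1)
      (Real.exp_pos _).le)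
    rw [e1, ← Real.exp_add, ← Real.exp_add]
    exact Real.exp_le_exp.2 (by linarith)
  have h6 : Real.exp (1 / 32) ≤ 2 := by
    have := Real.add_one_le_exp (-(1 / 32 : ℝ))
    rw [Real.exp_neg] at this
    have hpos := Real.exp_pos (1 / 32 : ℝ)
    have h2 := mul_le_mul_of_nonneg_left this hpos.le
    rw [mul_inv_cancel₀ hpos.ne'] at h2
    linarith
  set Z := (z1 + z2) / 2 with hZ
  have hZ0 : 0 ≤ Z := by positivity
  have h7 : Real.exp a ^ 4 ≤ (3 / 2 * √Z) ^ 4 := by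
    rw [← Real.exp_nat_mul, mul_pow, show (√Z) ^ 4 = ((√Z) ^ 2) ^ 2 by ring, Real.sq_sqrt hZ0]
    have h8 : z1 * z2 ≤ Z ^ 2 := by rw [hZ]; nlinarith [sq_nonneg (z1 - z2)]
    have h9 : Real.exp (1 / 32) * (z1 * (4 / 3 * z2)) ≤ 2 * (z1 * (4 / 3 * z2)) :=
      mul_le_mul_of_nonneg_right h6 (by positivity)
    push_cast
    nlinarith [mul_nonneg n1 n2]
  exact le_of_pow_le_pow_left₀ (by norm_num) (by positivity) h7

/-- exponential moment for ONE label; free start and end of the window -/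
theorem run_exp {K ε P : ℝ} (hK : 1 ≤ K) (hε : 0 < ε) (hε1 : ε ≤ 1) (hP : 0 < P)
    {p pc : Y → List Bool → ℝ} {u uc : Y → List Bool → ℂ} (hp : RP p pc) (hu : RU K p pc u uc)
    (D : Y → List Bool → ℂ) (hD : ∀ y v, ‖D y v‖ ≤ ‖uc y (v ++ [false]) - u y v‖)
    {Gd : List Bool → Prop} (hG : GoodSet ε P p u Gd) (n : ℕ) (s t : List Bool → ℕ)
    (hst : ∀ l, l.length = n → s l < t l → t l ≤ n ∧ Gd (l.take (t l))) :
    avg n (fun l => Real.exp ((∑ y, ‖wD (D y) l (s l) (t l)‖) / (1024 * ε * P) -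
      K ^ 2 * pen p pc n l / (2 * ε ^ 2 * P))) ≤ 4 := by
  set Z : List Bool → ℝ := fun v => (Z1 ε P p pc u uc D Gd v + Z2 K ε P p pc u uc Gd v) / 2 with hZ
  have hm : ∀ τ : List Bool → ℕ, avg n (fun l => √(Z (l.take (τ l)))) ≤ 2 := fun τ =>
    max_sqrt Z (fun v => by
        have := Z1_nonneg (ε := ε) (P := P) (p := p) (pc := pc) (u := u) (uc := uc) D Gd v
        have := Z2_nonneg (K := K) (uc := uc) hε hP hp hG v
        simp only [hZ]; positivity)
      (fun v => by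
        have := Z1_super hε hε1 hP hp hu D hD hG v
        have := Z2_super (by linarith) hε hP hp hu hG v
        simp only [hZ]; linarith)
      (by
        have := Z1_nil (uc := uc) hε hP hp D hG
        have := Z2_nil (K := K) (uc := uc) hε hP hp hG
        simp only [hZ]; linarith) n τ
  have h1 : avg n (fun l => Real.exp ((∑ y, ‖wD (D y) l (s l) (t l)‖) / (1024 * ε * P) -
      K ^ 2 * pen p pc n l / (2 * ε ^ 2 * P))) ≤
      avg n (fun l => 1 + (3 / 4 * √(Z (l.take (t l))) + 3 / 4 * √(Z (l.take (s l))))) := by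
    refine avg_mono_len n fun l hl => ?_
    have hpen : 0 ≤ K ^ 2 * pen p pc n l / (2 * ε ^ 2 * P) := by
      have := pen_nonneg hp n l; positivity
    have q1 := Real.sqrt_nonneg (Z (l.take (t l)))
    have q2 := Real.sqrt_nonneg (Z (l.take (s l)))
    rcases lt_or_ge (s l) (t l) with h | h
    · obtain ⟨htn, hg⟩ := hst l hl h
      have hgs : Gd (l.take (s l)) := by
        have := hG.her _ (s l) hg
        rwa [List.take_take, min_eq_left h.le] at this
      have r1 := run_pt (uc := uc) hK hε hε1 hP hp D hG l hl htn hg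
      have r2 := run_pt (uc := uc) hK hε hε1 hP hp D hG l hl (h.le.trans htn) hgs
      set Xt := ∑ y, ‖∑ j ∈ Finset.range (t l), tD (D y) l j‖
      set Xs := ∑ y, ‖∑ j ∈ Finset.range (s l), tD (D y) l j‖
      have hw : ∑ y, ‖wD (D y) l (s l) (t l)‖ ≤ Xt + Xs := by
        rw [← Finset.sum_add_distrib]
        refine Finset.sum_le_sum fun y _ => ?_
        rw [wD, Finset.sum_Ico_eq_sub _ h.le]
        exact norm_sub_le _ _
      set c := K ^ 2 * pen p pc n l / (2 * ε ^ 2 * P)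
      have e : (∑ y, ‖wD (D y) l (s l) (t l)‖) / (1024 * ε * P) - c ≤
          ((Xt / (512 * ε * P) - c) + (Xs / (512 * ε * P) - c)) / 2 := by
        have : ((Xt / (512 * ε * P) - c) + (Xs / (512 * ε * P) - c)) / 2 =
            (Xt + Xs) / (1024 * ε * P) - c := by field_simp; ring
        rw [this]; gcongr
      have cv : ∀ a b : ℝ, Real.exp ((a + b) / 2) ≤ (Real.exp a + Real.exp b) / 2 := fun a b => by
        have ea : Real.exp a = Real.exp (a / 2) ^ 2 := by rw [← Real.exp_nat_mul]; congr 1; ring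
        have eb : Real.exp b = Real.exp (b / 2) ^ 2 := by rw [← Real.exp_nat_mul]; congr 1; ring
        rw [add_div, Real.exp_add, ea, eb]
        nlinarith [sq_nonneg (Real.exp (a / 2) - Real.exp (b / 2))]
      have := (Real.exp_le_exp.2 e).trans (cv _ _)
      simp only [hZ] at q1 q2 ⊢
      linarith
    · have : ∑ y, ‖wD (D y) l (s l) (t l)‖ = 0 := by
        simp [wD, Finset.Ico_eq_empty_of_le h]
      rw [this, zero_div]
      have : Real.exp (0 - K ^ 2 * pen p pc n l / (2 * ε ^ 2 * P)) ≤ 1 :=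
        Real.exp_le_one_iff.2 (by linarith)
      linarith
  rw [avg_add', avg_add', avg_const, avg_mul_left, avg_mul_left] at h1
  linarith [hm t, hm s]

/-- **RUN**: joint DV. The label `j` (masked frequency) has law `w l ·` given the path `l`, prior `q`. -/
theorem run_dv {ι : Type*} (J : Finset ι) {K ε P : ℝ} (hK : 1 ≤ K) (hε : 0 < ε) (hε1 : ε ≤ 1)
    (hP : 0 < P) {p pc : Y → List Bool → ℝ} {u uc : ι → Y → List Bool → ℂ} (hp : RP p pc)
    (hu : ∀ j ∈ J, RU K p pc (u j) (uc j)) (D : ι → Y → List Bool → ℂ)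
    (hD : ∀ j ∈ J, ∀ y v, ‖D j y v‖ ≤ ‖uc j y (v ++ [false]) - u j y v‖)
    {Gd : ι → List Bool → Prop} (hG : ∀ j ∈ J, GoodSet ε P p (u j) (Gd j)) (n : ℕ)
    (s t : List Bool → ι → ℕ)
    (hst : ∀ l, l.length = n → ∀ j ∈ J, s l j < t l j → t l j ≤ n ∧ Gd j (l.take (t l j)))
    (w : List Bool → ι → ℝ) (q : ι → ℝ) (hw : ∀ l, l.length = n → ∀ j ∈ J, 0 ≤ w l j)
    (hq : ∀ j ∈ J, 0 ≤ q j) (hwq : ∀ l, l.length = n → ∀ j ∈ J, q j = 0 → w l j = 0)
    (hw1 : ∀ l, l.length = n → ∑ j ∈ J, w l j = 1) (hq1 : ∑ j ∈ J, q j ≤ 1) :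
    avg n (fun l => ∑ j ∈ J, w l j * ∑ y, ‖wD (D j y) l (s l j) (t l j)‖) ≤
      1024 * ε * P * (avg n (fun l => ∑ j ∈ J, w l j * Real.log (w l j / q j)) + 2) +
        512 * K ^ 2 / ε * avg n (pen p pc n) := by
  have hc : 0 < 1024 * ε * P := by positivity
  have key := dv_path J n w q (fun l j => (∑ y, ‖wD (D j y) l (s l j) (t l j)‖) / (1024 * ε * P) -
      K ^ 2 * pen p pc n l / (2 * ε ^ 2 * P)) hw hq hwq hw1 (B := 4) (by norm_num) (by
    calc _ ≤ ∑ j ∈ J, q j * 4 := Finset.sum_le_sum fun j hj => mul_le_mul_of_nonneg_left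
          (run_exp hK hε hε1 hP hp (hu j hj) (D j) (hD j hj) (hG j hj) n (fun l => s l j)
            (fun l => t l j) (fun l hl => hst l hl j hj)) (hq j hj)
      _ ≤ 4 := by rw [← Finset.sum_mul]; linarith)
  have e : avg n (fun l => ∑ j ∈ J, w l j * ((∑ y, ‖wD (D j y) l (s l j) (t l j)‖) /
      (1024 * ε * P) - K ^ 2 * pen p pc n l / (2 * ε ^ 2 * P))) =
      (1024 * ε * P)⁻¹ * avg n (fun l => ∑ j ∈ J, w l j * ∑ y, ‖wD (D j y) l (s l j) (t l j)‖) -
        K ^ 2 / (2 * ε ^ 2 * P) * avg n (pen p pc n) := by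
    rw [← avg_mul_left, ← avg_mul_left, ← avg_sub]
    refine avg_congr_len n fun l hl => ?_
    simp only [mul_sub]
    rw [Finset.sum_sub_distrib, ← Finset.sum_mul, hw1 l hl, Finset.mul_sum]
    congr 1
    · exact Finset.sum_congr rfl fun j _ => by ring
    · ring
  rw [e] at key
  have hl : Real.log 4 ≤ 2 := by
    have h2 : Real.log 4 = 2 * Real.log 2 := by
      rw [show (4 : ℝ) = 2 ^ 2 by norm_num, Real.log_pow]; norm_num
    have := Real.log_two_lt_d9
    linarith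
  set A := avg n (fun l => ∑ j ∈ J, w l j * ∑ y, ‖wD (D j y) l (s l j) (t l j)‖)
  set I := avg n (fun l => ∑ j ∈ J, w l j * Real.log (w l j / q j))
  set N := avg n (pen p pc n)
  have h1 : (1024 * ε * P)⁻¹ * A ≤ I + 2 + K ^ 2 / (2 * ε ^ 2 * P) * N := by linarith
  have h2 := mul_le_mul_of_nonneg_left h1 hc.le
  rw [← mul_assoc, mul_inv_cancel₀ hc.ne', one_mul] at h2
  have e2 : 1024 * ε * P * (I + 2 + K ^ 2 / (2 * ε ^ 2 * P) * N) =
      1024 * ε * P * (I + 2) + 512 * K ^ 2 / ε * N := by field_simp; ring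
  linarith

end Crest.Agent.R100.Run
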