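import Crest.Agent.R100.RunDefs

/-! # Row 100, RUN (helper42): scalar lemmas and the size supermartingale -/

set_option autoImplicit false

noncomputable section

namespace Crest.Agent.R100.Run

open Crest.Agent.R100 Crest.Agent.R100.Low

theorem psi_one {p a K : ℝ} {u x : ℂ} (hp : 0 < p) (ha : 0 ≤ a) (hap : a ≤ 2 * p)
    (hx : ‖x‖ ≤ K * a) :
    2 * ((starRingEnd ℂ) (u / p) * x).re - ‖u / p‖ ^ 2 * a + ‖x - u / p * a‖ ^ 2 / (2 * p) ≤
      ‖x‖ ^ 2 / a := by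
  rcases eq_or_lt_of_le ha with h | h
  · subst h
    have : x = 0 := by simpa using hx
    subst this; simp
  · set r : ℂ := u / p
    have e : ‖x - r * a‖ ^ 2 = ‖x‖ ^ 2 - 2 * a * ((starRingEnd ℂ) r * x).re + ‖r‖ ^ 2 * a ^ 2 := by
      simp only [Complex.sq_norm, Complex.normSq_apply, Complex.sub_re, Complex.sub_im,
        Complex.mul_re, Complex.mul_im, Complex.ofReal_re, Complex.ofReal_im, Complex.conj_re,
        Complex.conj_im]
      ring
    have h1 : ‖x - r * a‖ ^ 2 / (2 * p) ≤ ‖x - r * a‖ ^ 2 / a :=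
      div_le_div_of_nonneg_left (by positivity) h hap
    have h2 : ‖x - r * a‖ ^ 2 / a = ‖x‖ ^ 2 / a - 2 * ((starRingEnd ℂ) r * x).re + ‖r‖ ^ 2 * a := by
      rw [e]; field_simp
    linarith

theorem psi_conv {p a b K : ℝ} {u x z : ℂ} (ha : 0 ≤ a) (hb : 0 ≤ b) (hp : p = (a + b) / 2)
    (hu : u = (x + z) / 2) (hup : ‖u‖ ≤ K * p) (hx : ‖x‖ ≤ K * a) (hz : ‖z‖ ≤ K * b) :
    ‖u‖ ^ 2 / p + ‖x - u‖ ^ 2 / p / 4 - K ^ 2 * ((a - p) ^ 2 / p) / 2 ≤
      (‖x‖ ^ 2 / a + ‖z‖ ^ 2 / b) / 2 := by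
  have hp0 : 0 ≤ p := by linarith
  rcases eq_or_lt_of_le hp0 with h | h
  · rw [← h]
    simp only [div_zero, zero_div, mul_zero, add_zero, sub_zero]
    positivity
  have h1 := psi_one (u := u) h ha (by linarith) hx
  have h2 := psi_one (u := u) h hb (by linarith) hz
  set r : ℂ := u / p with hr
  have hpc : (p : ℂ) ≠ 0 := by exact_mod_cast h.ne'
  have hur : u = r * p := by rw [hr]; field_simp
  have hrn : ‖r‖ ≤ K := by
    rw [hr, norm_div, Complex.norm_real, Real.norm_of_nonneg hp0, div_le_iff₀ h]; exact hup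
  have e1 : ((starRingEnd ℂ) r * x).re + ((starRingEnd ℂ) r * z).re = 2 * (‖r‖ ^ 2 * p) := by
    have : x + z = 2 * (r * p) := by rw [← hur, hu]; ring
    rw [← Complex.add_re, ← mul_add, this]
    simp only [Complex.sq_norm, Complex.normSq_apply, Complex.mul_re, Complex.mul_im,
      Complex.ofReal_re, Complex.ofReal_im, Complex.conj_re, Complex.conj_im, Complex.re_ofNat,
      Complex.im_ofNat]
    ring
  have e2 : ‖u‖ ^ 2 / p = ‖r‖ ^ 2 * p := by
    rw [hur, norm_mul, Complex.norm_real, Real.norm_of_nonneg hp0]; field_simp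
  have e3 : z - r * b = -(x - r * a) := by
    have hb' : (b : ℂ) = 2 * p - a := by
      have : b = 2 * p - a := by linarith
      rw [this]; push_cast; ring
    have hz' : z = 2 * (r * p) - x := by rw [← hur, hu]; ring
    rw [hb', hz']; ring
  rw [e3, norm_neg] at h2
  have e4 : ‖x - u‖ ≤ ‖x - r * a‖ + K * |a - p| := by
    have : x - u = (x - r * a) + r * ((a - p : ℝ) : ℂ) := by rw [hur]; push_cast; ring
    rw [this]
    refine (norm_add_le _ _).trans ?_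
    rw [norm_mul, Complex.norm_real, Real.norm_eq_abs]
    have := mul_le_mul_of_nonneg_right hrn (abs_nonneg (a - p))
    linarith
  have e5 : ‖x - u‖ ^ 2 ≤ 2 * ‖x - r * a‖ ^ 2 + 2 * (K ^ 2 * (a - p) ^ 2) := by
    have h3 : ‖x - u‖ ^ 2 ≤ (‖x - r * a‖ + K * |a - p|) ^ 2 :=
      pow_le_pow_left₀ (norm_nonneg _) e4 2
    have h4 : (K * |a - p|) ^ 2 = K ^ 2 * (a - p) ^ 2 := by rw [mul_pow, sq_abs]
    nlinarith [sq_nonneg (‖x - r * a‖ - K * |a - p|)]
  have e6 : ‖x - u‖ ^ 2 / p / 4 - K ^ 2 * ((a - p) ^ 2 / p) / 2 ≤ ‖x - r * a‖ ^ 2 / (2 * p) := by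
    have : ‖x - u‖ ^ 2 / p / 4 - K ^ 2 * ((a - p) ^ 2 / p) / 2 =
        (‖x - u‖ ^ 2 / 2 - K ^ 2 * (a - p) ^ 2) / (2 * p) := by field_simp; ring
    rw [this]
    exact div_le_div_of_nonneg_right (by linarith) (by positivity)
  have e7 : ‖r‖ ^ 2 * a + ‖r‖ ^ 2 * b = 2 * (‖r‖ ^ 2 * p) := by rw [hp]; ring
  linarith

theorem psi_rem {p a K : ℝ} {u x : ℂ} (hK : 0 ≤ K) (hp : 0 ≤ p) (hpa : p ≤ a)
    (hu : ‖u‖ ≤ K * p) (hx : ‖x - u‖ ≤ K * (a - p)) :
    ‖x‖ ^ 2 / a ≤ ‖u‖ ^ 2 / p + K ^ 2 * (a - p) := by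
  have h0 : ‖x‖ ≤ ‖u‖ + K * (a - p) := by
    have : x = u + (x - u) := by ring
    calc ‖x‖ = ‖u + (x - u)‖ := by rw [← this]
      _ ≤ _ := (norm_add_le _ _).trans (by linarith)
  have hq : 0 ≤ a - p := by linarith
  rcases eq_or_lt_of_le (hp.trans hpa) with h | h
  · rw [← h, div_zero]
    have : p = 0 := by linarith
    rw [this]; simp
  rw [div_le_iff₀ h]
  have h1 : ‖x‖ ^ 2 ≤ (‖u‖ + K * (a - p)) ^ 2 := pow_le_pow_left₀ (norm_nonneg _) h0 2
  rcases eq_or_lt_of_le hp with h2 | h2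
  · have hu0 : ‖u‖ = 0 := le_antisymm (by rw [← h2] at hu; simpa using hu) (norm_nonneg _)
    rw [hu0] at h1 ⊢
    rw [← h2] at h1 ⊢
    simp only [div_zero, zero_add, sub_zero] at h1 ⊢
    nlinarith
  · obtain ⟨s, hs⟩ : ∃ s, ‖u‖ = s * p := ⟨‖u‖ / p, by field_simp⟩
    have e : ‖u‖ ^ 2 / p = s ^ 2 * p := by rw [hs]; field_simp
    rw [e]
    rw [hs] at h1
    have : (s * p + K * (a - p)) ^ 2 ≤ (s ^ 2 * p + K ^ 2 * (a - p)) * a := by
      have : (s ^ 2 * p + K ^ 2 * (a - p)) * a - (s * p + K * (a - p)) ^ 2 =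
          p * (a - p) * (s - K) ^ 2 := by ring
      have h5 : 0 ≤ p * (a - p) * (s - K) ^ 2 := by positivity
      linarith
    linarith

theorem psi_W {p a K : ℝ} {u x : ℂ} (ha : 0 ≤ a) (hap : a ≤ 2 * p) (hx : ‖x‖ ≤ K * a) :
    ‖x - u‖ ^ 2 / p ≤ 4 * (‖x‖ ^ 2 / a) + 2 * (‖u‖ ^ 2 / p) := by
  have hp0 : 0 ≤ p := by linarith
  rcases eq_or_lt_of_le hp0 with h | h
  · rw [← h]; simp only [div_zero, mul_zero, add_zero]; positivity
  have h1 : ‖x - u‖ ^ 2 ≤ 2 * ‖x‖ ^ 2 + 2 * ‖u‖ ^ 2 := by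
    have h3 : ‖x - u‖ ^ 2 ≤ (‖x‖ + ‖u‖) ^ 2 := pow_le_pow_left₀ (norm_nonneg _) (norm_sub_le _ _) 2
    nlinarith [sq_nonneg (‖x‖ - ‖u‖)]
  have h2 : ‖x‖ ^ 2 / p ≤ 2 * (‖x‖ ^ 2 / a) := by
    rcases eq_or_lt_of_le ha with h4 | h4
    · have : ‖x‖ = 0 := le_antisymm (by rw [← h4] at hx; simpa using hx) (norm_nonneg _)
      rw [this]; simp
    · have := div_le_div_of_nonneg_left (sq_nonneg ‖x‖) h4 hap
      have e : ‖x‖ ^ 2 / p = 2 * (‖x‖ ^ 2 / (2 * p)) := by field_simp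
      linarith
  have h3 : ‖x - u‖ ^ 2 / p ≤ (2 * ‖x‖ ^ 2 + 2 * ‖u‖ ^ 2) / p := div_le_div_of_nonneg_right h1 hp0
  have e : (2 * ‖x‖ ^ 2 + 2 * ‖u‖ ^ 2) / p = 2 * (‖x‖ ^ 2 / p) + 2 * (‖u‖ ^ 2 / p) := by ring
  linarith

variable {Y : Type*} [Fintype Y]

/-- the Hilbert quadratic variation at the node `v` -/
def Wq (p : Y → List Bool → ℝ) (u uc : Y → List Bool → ℂ) (v : List Bool) : ℝ :=
  ∑ y, ‖uc y (v ++ [false]) - u y v‖ ^ 2 / p y v

variable {K ε P : ℝ} {p pc : Y → List Bool → ℝ} {u uc : Y → List Bool → ℂ}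

omit [Fintype Y] in
theorem RP.cnn (hp : RP p pc) (y : Y) (v : List Bool) : 0 ≤ pc y v := (hp.nn y v).trans (hp.le y v)

omit [Fintype Y] in
theorem RP.c2 (hp : RP p pc) (y : Y) (v : List Bool) (c : Bool) : pc y (v ++ [c]) ≤ 2 * p y v := by
  have h := hp.mp y v
  have h0 := hp.cnn y (v ++ [false])
  have h1 := hp.cnn y (v ++ [true])
  cases c <;> linarith

omit [Fintype Y] in
theorem RU.cbd (hu : RU K p pc u uc) (y : Y) (v : List Bool) : ‖uc y v‖ ≤ K * pc y v := by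
  have h1 := hu.bd y v
  have h2 := hu.rem y v
  have : ‖uc y v‖ ≤ ‖u y v‖ + ‖uc y v - u y v‖ := by
    calc ‖uc y v‖ = ‖u y v + (uc y v - u y v)‖ := by ring_nf
      _ ≤ _ := norm_add_le _ _
  linarith

theorem Vl_nonneg (hp : RP p pc) (v : List Bool) : 0 ≤ Vl p pc v :=
  Finset.sum_nonneg fun y _ => div_nonneg (sq_nonneg _) (hp.nn y v)

theorem Rm_nonneg (hp : RP p pc) (v : List Bool) : 0 ≤ Rm p pc v :=
  Finset.sum_nonneg fun y _ => sub_nonneg.2 (hp.le y v)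

theorem Wq_nonneg (hp : RP p pc) (v : List Bool) : 0 ≤ Wq p u uc v :=
  Finset.sum_nonneg fun y _ => div_nonneg (sq_nonneg _) (hp.nn y v)

theorem Sz_nonneg (hp : RP p pc) (v : List Bool) : 0 ≤ Sz p u v :=
  Finset.sum_nonneg fun y _ => div_nonneg (sq_nonneg _) (hp.nn y v)

theorem Sz_conv (hp : RP p pc) (hu : RU K p pc u uc) (v : List Bool) :
    Sz p u v + Wq p u uc v / 4 - K ^ 2 * Vl p pc v / 2 ≤
      (Sz pc uc (v ++ [false]) + Sz pc uc (v ++ [true])) / 2 := by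
  unfold Sz Wq Vl
  rw [Finset.sum_div, Finset.mul_sum, Finset.sum_div, ← Finset.sum_add_distrib,
    ← Finset.sum_sub_distrib, ← Finset.sum_add_distrib, Finset.sum_div]
  exact Finset.sum_le_sum fun y _ => psi_conv (hp.cnn _ _) (hp.cnn _ _) (hp.mp y v) (hu.mu y v)
    (hu.bd y v) (hu.cbd y _) (hu.cbd y _)

theorem Sz_rem (hK : 0 ≤ K) (hp : RP p pc) (hu : RU K p pc u uc) (v : List Bool) :
    Sz pc uc v ≤ Sz p u v + K ^ 2 * Rm p pc v := by
  unfold Sz Rm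
  rw [Finset.mul_sum, ← Finset.sum_add_distrib]
  exact Finset.sum_le_sum fun y _ => psi_rem hK (hp.nn y v) (hp.le y v) (hu.bd y v) (hu.rem y v)

theorem Wq_le (hp : RP p pc) (hu : RU K p pc u uc) (v : List Bool) (c : Bool) :
    Wq p u uc v ≤ 4 * Sz pc uc (v ++ [c]) + 2 * Sz p u v := by
  unfold Sz Wq
  rw [Finset.mul_sum, Finset.mul_sum, ← Finset.sum_add_distrib]
  refine Finset.sum_le_sum fun y _ => ?_
  have h := psi_W (u := u y v) (hp.cnn y (v ++ [c])) (hp.c2 y v c) (hu.cbd y (v ++ [c]))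
  cases c
  · exact h
  · have e : uc y (v ++ [false]) - u y v = -(uc y (v ++ [true]) - u y v) := by
      rw [hu.mu y v]; ring
    rw [e, norm_neg]; exact h

/-- a sum along the path -/
def psum (F : List Bool → ℝ) (G : List Bool → ℝ) (v : List Bool) : ℝ :=
  ∑ k ∈ Finset.range v.length, (F (v.take k) + G (v.take (k + 1)))

theorem psum_snoc (F G : List Bool → ℝ) (v : List Bool) (c : Bool) :
    psum F G (v ++ [c]) = psum F G v + (F v + G (v ++ [c])) := by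
  unfold psum
  rw [List.length_append, List.length_singleton, Finset.sum_range_succ]
  congr 1
  · refine Finset.sum_congr rfl fun k hk => ?_
    have hk' := Finset.mem_range.1 hk
    rw [List.take_append_of_le_length hk'.le, List.take_append_of_le_length hk']
  · rw [List.take_left' rfl, List.take_of_length_le (by simp)]

theorem psum_take (F G : List Bool → ℝ) (l : List Bool) {t : ℕ} (ht : t ≤ l.length) :
    psum F G (l.take t) = ∑ k ∈ Finset.range t, (F (l.take k) + G (l.take (k + 1))) := by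
  unfold psum
  rw [List.length_take, min_eq_left ht]
  refine Finset.sum_congr rfl fun k hk => ?_
  have hk' := Finset.mem_range.1 hk
  rw [List.take_take, List.take_take, min_eq_left hk'.le, min_eq_left hk']

theorem GoodSet.par {Gd : List Bool → Prop} (hG : GoodSet ε P p u Gd) {v : List Bool} {c : Bool}
    (h : Gd (v ++ [c])) : Gd v := by
  have := hG.her _ v.length h
  rwa [List.take_left' rfl] at this

open Classical in
/-- the size supermartingale -/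
def Z2 (K ε P : ℝ) (p pc : Y → List Bool → ℝ) (u uc : Y → List Bool → ℂ) (Gd : List Bool → Prop)
    (v : List Bool) : ℝ :=
  if Gd v then (1 - Sz p u v / (4 * (ε ^ 2 * P))) *
    Real.exp (psum (fun w => Wq p u uc w / (128 * (ε ^ 2 * P)) - K ^ 2 * Vl p pc w / (ε ^ 2 * P))
      (fun w => -(K ^ 2 * Rm p pc w / (ε ^ 2 * P))) v) else 0

theorem z2_scalar {h h0 h1 r0 r1 W V a0 a1 : ℝ} (hh : 3 / 4 ≤ h) (hh1 : h ≤ 1) (hr0 : 0 ≤ r0)
    (hr1 : 0 ≤ r1) (hW : 0 ≤ W) (hV : 0 ≤ V)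
    (hc : (h0 - r0 + (h1 - r1)) / 2 ≤ h - W / 16 + V / 8)
    (ha0 : a0 = 0 ∨ (3 / 4 ≤ h0 ∧ h0 ≤ 1 ∧ W ≤ 6 + 16 * r0 ∧
      a0 = h0 * Real.exp (W / 128 - V + -(4 * r0))))
    (ha1 : a1 = 0 ∨ (3 / 4 ≤ h1 ∧ h1 ≤ 1 ∧ W ≤ 6 + 16 * r1 ∧
      a1 = h1 * Real.exp (W / 128 - V + -(4 * r1)))) : (a0 + a1) / 2 ≤ h := by
  have key : ∀ h' r a : ℝ, 0 ≤ r → 3 / 4 ≤ h' → h' ≤ 1 → W ≤ 6 + 16 * r →
      a = h' * Real.exp (W / 128 - V + -(4 * r)) →
      a ≤ 11 / 10 ∧ (1 / 2 < r → a ≤ 2 / 5) ∧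
        (r ≤ 1 / 2 → a ≤ (h' - r) * Real.exp (W / 128 - V)) := by
    intro h' r a hr hl hu hw ha
    have e1 : Real.exp (W / 128 - V + -(4 * r)) ≤ 1 / (1 - 6 / 128 + 31 / 8 * r) := by
      have := Real.add_one_le_exp (-(W / 128 - V + -(4 * r)))
      rw [Real.exp_neg] at this
      have hpos := Real.exp_pos (W / 128 - V + -(4 * r))
      rw [le_div_iff₀ (by linarith)]
      have h2 : 1 - 6 / 128 + 31 / 8 * r ≤ (Real.exp (W / 128 - V + -(4 * r)))⁻¹ := by linarith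
      calc _ ≤ Real.exp (W / 128 - V + -(4 * r)) * (Real.exp (W / 128 - V + -(4 * r)))⁻¹ :=
            mul_le_mul_of_nonneg_left h2 hpos.le
        _ = 1 := mul_inv_cancel₀ hpos.ne'
    have e2 : a ≤ 1 / (1 - 6 / 128 + 31 / 8 * r) := by
      rw [ha]
      have := mul_le_mul hu e1 (Real.exp_pos _).le zero_le_one
      linarith
    refine ⟨e2.trans ?_, fun h2 => e2.trans ?_, fun h2 => ?_⟩
    · rw [div_le_iff₀ (by linarith)]; linarith
    · rw [div_le_iff₀ (by linarith)]; linarith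
    · rw [ha, Real.exp_add, mul_comm (Real.exp _), ← mul_assoc]
      refine mul_le_mul_of_nonneg_right ?_ (Real.exp_pos _).le
      have h3 := Real.add_one_le_exp (4 * r)
      rw [Real.exp_neg, ← div_eq_mul_inv, div_le_iff₀ (Real.exp_pos _)]
      have : h' ≤ (h' - r) * (4 * r + 1) := by nlinarith
      exact this.trans (mul_le_mul_of_nonneg_left h3 (by linarith))
  rcases ha0 with h2 | ⟨b1, b2, b3, b4⟩
  · rcases ha1 with h3 | ⟨c1, c2, c3, c4⟩
    · rw [h2, h3]; linarith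
    · have := (key _ _ _ hr1 c1 c2 c3 c4).1
      rw [h2]; linarith
  obtain ⟨k1, k2, k3⟩ := key _ _ _ hr0 b1 b2 b3 b4
  rcases ha1 with h3 | ⟨c1, c2, c3, c4⟩
  · rw [h3]; linarith
  obtain ⟨m1, m2, m3⟩ := key _ _ _ hr1 c1 c2 c3 c4
  rcases lt_or_ge (1 / 2) r0 with h4 | h4
  · have := k2 h4; linarith
  rcases lt_or_ge (1 / 2) r1 with h5 | h5
  · have := m2 h5; linarith
  have k4 := k3 h4
  have m4 := m3 h5
  have hE := Real.exp_pos (W / 128 - V)
  have h6 : (a0 + a1) / 2 ≤ (h - W / 16 + V / 8) * Real.exp (W / 128 - V) := by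
    have := mul_le_mul_of_nonneg_right hc hE.le
    linarith
  refine h6.trans ?_
  have h7 := Real.add_one_le_exp (-(W / 128 - V))
  have h8 : h - W / 16 + V / 8 ≤ h * Real.exp (-(W / 128 - V)) := by
    have := mul_le_mul_of_nonneg_left h7 (by linarith : (0 : ℝ) ≤ h)
    nlinarith
  calc _ ≤ h * Real.exp (-(W / 128 - V)) * Real.exp (W / 128 - V) :=
        mul_le_mul_of_nonneg_right h8 hE.le
    _ = h := by rw [mul_assoc, ← Real.exp_add]; simp

theorem h_bounds {Gd : List Bool → Prop} (hε : 0 < ε) (hP : 0 < P) (hp : RP p pc)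
    (hG : GoodSet ε P p u Gd) {v : List Bool} (hv : Gd v) :
    3 / 4 ≤ 1 - Sz p u v / (4 * (ε ^ 2 * P)) ∧ 1 - Sz p u v / (4 * (ε ^ 2 * P)) ≤ 1 := by
  have hB : 0 < ε ^ 2 * P := by positivity
  have h1 := hG.sz v hv
  have h2 := Sz_nonneg (u := u) hp v
  constructor
  · have : Sz p u v / (4 * (ε ^ 2 * P)) ≤ 1 / 4 := by
      rw [div_le_iff₀ (by positivity)]; linarith
    linarith
  · have : 0 ≤ Sz p u v / (4 * (ε ^ 2 * P)) := by positivity
    linarith

theorem Z2_nonneg {Gd : List Bool → Prop} (hε : 0 < ε) (hP : 0 < P) (hp : RP p pc)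
    (hG : GoodSet ε P p u Gd) (v : List Bool) : 0 ≤ Z2 K ε P p pc u uc Gd v := by
  unfold Z2
  split_ifs with h
  · have := (h_bounds hε hP hp hG h).1
    exact mul_nonneg (by linarith) (Real.exp_pos _).le
  · exact le_rfl

theorem Z2_nil {Gd : List Bool → Prop} (hε : 0 < ε) (hP : 0 < P) (hp : RP p pc)
    (hG : GoodSet ε P p u Gd) : Z2 K ε P p pc u uc Gd [] ≤ 1 := by
  unfold Z2
  split_ifs with h
  · have := (h_bounds hε hP hp hG h).2
    simpa [psum] using this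
  · exact zero_le_one

theorem Z2_super {Gd : List Bool → Prop} (hK : 0 ≤ K) (hε : 0 < ε) (hP : 0 < P) (hp : RP p pc)
    (hu : RU K p pc u uc) (hG : GoodSet ε P p u Gd) (v : List Bool) :
    (Z2 K ε P p pc u uc Gd (v ++ [false]) + Z2 K ε P p pc u uc Gd (v ++ [true])) / 2 ≤
      Z2 K ε P p pc u uc Gd v := by
  classical
  by_cases hv : Gd v
  swap
  · have h0 : ∀ c, ¬ Gd (v ++ [c]) := fun c h => hv (hG.par h)
    simp [Z2, hv, h0]
  have hB : 0 < ε ^ 2 * P := by positivity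
  set B := ε ^ 2 * P with hBd
  set E := psum (fun w => Wq p u uc w / (128 * B) - K ^ 2 * Vl p pc w / B)
      (fun w => -(K ^ 2 * Rm p pc w / B)) v with hE
  have hch : ∀ c, ∃ a, Z2 K ε P p pc u uc Gd (v ++ [c]) = a * Real.exp E ∧
      (a = 0 ∨ (3 / 4 ≤ 1 - Sz p u (v ++ [c]) / (4 * B) ∧ 1 - Sz p u (v ++ [c]) / (4 * B) ≤ 1 ∧
        Wq p u uc v / B ≤ 6 + 16 * (K ^ 2 * Rm p pc (v ++ [c]) / (4 * B)) ∧
        a = (1 - Sz p u (v ++ [c]) / (4 * B)) * Real.exp (Wq p u uc v / B / 128 -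
          K ^ 2 * Vl p pc v / B + -(4 * (K ^ 2 * Rm p pc (v ++ [c]) / (4 * B)))))) := by
    intro c
    by_cases hc : Gd (v ++ [c])
    · refine ⟨_, ?_, Or.inr ⟨(h_bounds hε hP hp hG hc).1, (h_bounds hε hP hp hG hc).2, ?_, rfl⟩⟩
      · unfold Z2
        rw [if_pos hc, psum_snoc, ← hBd, ← hE, mul_assoc, ← Real.exp_add]
        congr 2
        field_simp
        ring
      · have h1 := Wq_le hp hu v c
        have h2 := Sz_rem hK hp hu (v ++ [c])
        have h3 := hG.sz _ hc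
        have h4 := hG.sz _ hv
        rw [div_le_iff₀ hB]
        have : (6 + 16 * (K ^ 2 * Rm p pc (v ++ [c]) / (4 * B))) * B =
            6 * B + 4 * (K ^ 2 * Rm p pc (v ++ [c])) := by field_simp; ring
        rw [this]; linarith
    · exact ⟨0, by simp [Z2, hc], Or.inl rfl⟩
  obtain ⟨a0, e0, ha0⟩ := hch false
  obtain ⟨a1, e1, ha1⟩ := hch true
  have hr : ∀ c, 0 ≤ K ^ 2 * Rm p pc (v ++ [c]) / (4 * B) := fun c => by
    have := Rm_nonneg hp (v ++ [c]); positivity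
  have hW : 0 ≤ Wq p u uc v / B := div_nonneg (Wq_nonneg hp v) hB.le
  have hV : 0 ≤ K ^ 2 * Vl p pc v / B := by have := Vl_nonneg hp v; positivity
  have key := z2_scalar (h_bounds hε hP hp hG hv).1 (h_bounds hε hP hp hG hv).2 (hr false) (hr true)
    hW hV (by
      have h1 := Sz_conv hp hu v
      have h2 := Sz_rem hK hp hu (v ++ [false])
      have h3 := Sz_rem hK hp hu (v ++ [true])
      rw [← hBd, ← sub_nonneg]
      have : 1 - Sz p u v / (4 * B) - Wq p u uc v / B / 16 + K ^ 2 * Vl p pc v / B / 8 -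
          (1 - Sz p u (v ++ [false]) / (4 * B) - K ^ 2 * Rm p pc (v ++ [false]) / (4 * B) +
            (1 - Sz p u (v ++ [true]) / (4 * B) - K ^ 2 * Rm p pc (v ++ [true]) / (4 * B))) / 2 =
          ((Sz p u (v ++ [false]) + K ^ 2 * Rm p pc (v ++ [false]) + (Sz p u (v ++ [true]) +
            K ^ 2 * Rm p pc (v ++ [true]))) / 2 - (Sz p u v + Wq p u uc v / 4 -
              K ^ 2 * Vl p pc v / 2)) / (4 * B) := by field_simp; ring
      rw [this]
      exact div_nonneg (by linarith) (by positivity)) ha0 ha1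
  rw [e0, e1]
  have : Z2 K ε P p pc u uc Gd v = (1 - Sz p u v / (4 * B)) * Real.exp E := by
    unfold Z2; rw [if_pos hv]
  rw [this]
  have := mul_le_mul_of_nonneg_right key (Real.exp_pos E).le
  linarith

end Crest.Agent.R100.Run
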