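import Crest.Agent.R100.RunA

/-! # Row 100, RUN (helper42): the supermartingale of the shifts -/

set_option autoImplicit false

noncomputable section

namespace Crest.Agent.R100.Run

open Crest.Agent.R100 Crest.Agent.R100.Low

/-- the completed terms at the node `v` -/
def MM (D : List Bool → ℂ) (v : List Bool) : ℂ := ∑ j ∈ Finset.range (v.length - 1), tD D v j

/-- the pending term at the node `v` -/
def Pd (D : List Bool → ℂ) (v : List Bool) : ℂ :=
  if v.length = 0 then 0 else if v.getD (v.length - 1) false then 0 else D (v.take (v.length - 1))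

theorem tD_take (D : List Bool → ℂ) (l : List Bool) {k j : ℕ} (h : j + 1 < k) :
    tD D (l.take k) j = tD D l j := by
  have h1 : (l.take k).getD j false = l.getD j false := by
    simp only [List.getD_eq_getElem?_getD, List.getElem?_take, if_pos (show j < k by omega)]
  have h2 : (l.take k).getD (j + 1) false = l.getD (j + 1) false := by
    simp only [List.getD_eq_getElem?_getD, List.getElem?_take, if_pos h]
  have h3 : (l.take k).take j = l.take j := by
    rw [List.take_take, min_eq_left (by omega)]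
  rw [tD, tD, h1, h2, h3]

theorem Pd_false (D : List Bool → ℂ) (v : List Bool) : Pd D (v ++ [false]) = D v := by
  simp [Pd]

theorem Pd_true (D : List Bool → ℂ) (v : List Bool) : Pd D (v ++ [true]) = 0 := by
  simp [Pd]

theorem MM_snoc (D : List Bool → ℂ) (v : List Bool) (c : Bool) :
    MM D (v ++ [c]) = MM D v + (if c then -Pd D v else Pd D v) := by
  rcases hv : v.length with _ | m
  · have : v = [] := List.length_eq_zero_iff.1 hv
    subst this
    simp [MM, Pd]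
  have h0 : (v ++ [c]).length - 1 = m + 1 := by simp [hv]
  have h1 : MM D v = ∑ j ∈ Finset.range m, tD D (v ++ [c]) j := by
    rw [MM, hv, Nat.add_sub_cancel]
    refine Finset.sum_congr rfl fun j hj => ?_
    have := tD_take D (v ++ [c]) (k := v.length) (j := j) (by have := Finset.mem_range.1 hj; omega)
    rw [List.take_left' rfl] at this
    exact this
  have h2 : (v ++ [c]).getD m false = v.getD m false := by
    simp only [List.getD_eq_getElem?_getD, List.getElem?_append_left (show m < v.length by omega)]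
  have h3 : (v ++ [c]).getD (m + 1) false = c := by
    rw [← hv]; simp
  have h4 : (v ++ [c]).take m = v.take m := List.take_append_of_le_length (by omega)
  rw [MM, h0, Finset.sum_range_succ, ← h1, tD, h2, h3, h4, Pd, hv, if_neg (Nat.succ_ne_zero m),
    Nat.add_sub_cancel]
  cases v.getD m false <;> cases c <;> simp [sig]

theorem sum_tD_le (D : List Bool → ℂ) (l : List Bool) {t : ℕ} (ht : t ≤ l.length) :
    ‖∑ j ∈ Finset.range t, tD D l j‖ ≤ ‖MM D (l.take t)‖ + ‖Pd D (l.take t)‖ := by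
  rcases t with _ | m
  · simp only [Finset.range_zero, Finset.sum_empty, norm_zero]; positivity
  have hl : (l.take (m + 1)).length = m + 1 := by rw [List.length_take]; omega
  have h1 : MM D (l.take (m + 1)) = ∑ j ∈ Finset.range m, tD D l j := by
    rw [MM, hl, Nat.add_sub_cancel]
    exact Finset.sum_congr rfl fun j hj => tD_take D l (by have := Finset.mem_range.1 hj; omega)
  rw [Finset.sum_range_succ, ← h1]
  refine (norm_add_le _ _).trans (add_le_add le_rfl ?_)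
  have h2 : (l.take (m + 1)).getD m false = l.getD m false := by
    simp only [List.getD_eq_getElem?_getD, List.getElem?_take, if_pos (show m < m + 1 by omega)]
  have h3 : (l.take (m + 1)).take m = l.take m := by
    rw [List.take_take, min_eq_left (by omega)]
  rw [Pd, hl, if_neg (Nat.succ_ne_zero m), Nat.add_sub_cancel, h2, h3, tD]
  cases l.getD m false <;> cases l.getD (m + 1) false <;> simp [sig]

/-- the Euclidean norm of three numbers -/
def n3 (a b c : ℝ) : ℝ := √(a ^ 2 + b ^ 2 + c ^ 2)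

theorem n3_nonneg (a b c : ℝ) : 0 ≤ n3 a b c := Real.sqrt_nonneg _

theorem n3_sq (a b c : ℝ) : n3 a b c ^ 2 = a ^ 2 + b ^ 2 + c ^ 2 := Real.sq_sqrt (by positivity)

theorem le_n3 (a b c : ℝ) : a ≤ n3 a b c ∧ b ≤ n3 a b c ∧ c ≤ n3 a b c :=
  ⟨Real.le_sqrt_of_sq_le (by nlinarith [sq_nonneg b, sq_nonneg c]),
    Real.le_sqrt_of_sq_le (by nlinarith [sq_nonneg a, sq_nonneg c]),
    Real.le_sqrt_of_sq_le (by nlinarith [sq_nonneg a, sq_nonneg b])⟩

theorem n3_lip {a b c a' b' c' x y z : ℝ} (ha : 0 ≤ a) (hb : 0 ≤ b) (hc : 0 ≤ c) (hx : 0 ≤ x)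
    (hy : 0 ≤ y) (hz : 0 ≤ z) (h1 : a ≤ a' + x) (h2 : b ≤ b' + y) (h3 : c ≤ c' + z) :
    n3 a b c ≤ n3 a' b' c' + (x + y + z) := by
  obtain ⟨k1, k2, k3⟩ := le_n3 a' b' c'
  have hN := n3_nonneg a' b' c'
  have hs := n3_sq a' b' c'
  set N := n3 a' b' c'
  unfold n3
  refine Real.sqrt_le_iff.2 ⟨by positivity, ?_⟩
  have e1 : a ^ 2 ≤ (a' + x) ^ 2 := pow_le_pow_left₀ ha h1 2
  have e2 : b ^ 2 ≤ (b' + y) ^ 2 := pow_le_pow_left₀ hb h2 2
  have e3 : c ^ 2 ≤ (c' + z) ^ 2 := pow_le_pow_left₀ hc h3 2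
  have f1 := mul_le_mul_of_nonneg_right k1 hx
  have f2 := mul_le_mul_of_nonneg_right k2 hy
  have f3 := mul_le_mul_of_nonneg_right k3 hz
  nlinarith [mul_nonneg hx hy, mul_nonneg hx hz, mul_nonneg hy hz]

theorem pow_le_pow_left₀_iff_aux {a b : ℝ} (h : a ^ 2 ≤ b ^ 2) (hb : 0 ≤ b) : a ≤ b :=
  (abs_le_of_sq_le_sq' h hb).2

theorem n3_drift {ε p a b : ℝ} {M Q D : ℂ} (hε : 0 < ε) (ha : 0 ≤ a) (hb : 0 ≤ b)
    (hp : p = (a + b) / 2) (hD : p = 0 → D = 0) :
    (n3 (ε * a) ‖M + Q‖ ‖D‖ + n3 (ε * b) ‖M + -Q‖ ‖(0 : ℂ)‖) / 2 ≤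
      n3 (ε * p) ‖M‖ ‖Q‖ + (ε * ((a - p) ^ 2 / p) / 2 + ‖D‖ ^ 2 / p / (4 * ε)) := by
  have hpar : ‖M + Q‖ ^ 2 + ‖M + -Q‖ ^ 2 = 2 * (‖M‖ ^ 2 + ‖Q‖ ^ 2) := by
    have := parallelogram_law_with_norm ℝ M Q
    rw [← sub_eq_add_neg]; nlinarith
  have s1 := n3_sq (ε * a) ‖M + Q‖ ‖D‖
  have s2 := n3_sq (ε * b) ‖M + -Q‖ ‖(0 : ℂ)‖
  have s3 := n3_sq (ε * p) ‖M‖ ‖Q‖
  have hφ := (le_n3 (ε * p) ‖M‖ ‖Q‖).1
  have hφ0 := n3_nonneg (ε * p) ‖M‖ ‖Q‖
  set X := n3 (ε * a) ‖M + Q‖ ‖D‖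
  set X' := n3 (ε * b) ‖M + -Q‖ ‖(0 : ℂ)‖
  set φ := n3 (ε * p) ‖M‖ ‖Q‖
  have hb' : b = 2 * p - a := by linarith
  have hsum : (X ^ 2 + X' ^ 2) / 2 = φ ^ 2 + (ε ^ 2 * (a - p) ^ 2 + ‖D‖ ^ 2 / 2) := by
    rw [s1, s2, s3, norm_zero, hb']; nlinarith
  have hp0 : 0 ≤ p := by linarith
  have hm : ((X + X') / 2) ^ 2 ≤ (X ^ 2 + X' ^ 2) / 2 := by nlinarith [sq_nonneg (X - X')]
  rcases eq_or_lt_of_le hp0 with h | h
  · have ha0 : a = 0 := by linarith
    rw [hD h.symm, ha0, ← h] at hsum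
    rw [← h]
    simp only [div_zero, mul_zero, zero_div, add_zero]
    refine (pow_le_pow_left₀_iff_aux ?_ hφ0)
    simp only [norm_zero] at hsum
    nlinarith
  · set t := ε * ((a - p) ^ 2 / p) / 2 + ‖D‖ ^ 2 / p / (4 * ε) with ht
    have ht0 : 0 ≤ t := by positivity
    have e : 2 * (ε * p) * t = ε ^ 2 * (a - p) ^ 2 + ‖D‖ ^ 2 / 2 := by
      rw [ht]; field_simp; ring
    refine pow_le_pow_left₀_iff_aux ?_ (by positivity)
    have := mul_le_mul_of_nonneg_right hφ ht0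
    nlinarith [sq_nonneg t]

theorem sq_sum_le {Y : Type*} [Fintype Y] (x p : Y → ℝ) (hp : ∀ y, 0 ≤ p y)
    (h0 : ∀ y, p y = 0 → x y = 0) : (∑ y, x y) ^ 2 ≤ (∑ y, p y) * ∑ y, x y ^ 2 / p y := by
  have h := Finset.sum_mul_sq_le_sq_mul_sq Finset.univ (fun y => √(p y)) (fun y => x y / √(p y))
  have e1 : ∀ y, √(p y) * (x y / √(p y)) = x y := fun y => by
    rcases eq_or_lt_of_le (hp y) with h1 | h1
    · rw [h0 y h1.symm]; simp
    · have := Real.sqrt_pos.2 h1
      field_simp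
  simp only [e1, Real.sq_sqrt (hp _), div_pow] at h
  exact h

variable {Y : Type*} [Fintype Y]
variable {K ε P : ℝ} {p pc : Y → List Bool → ℝ} {u uc : Y → List Bool → ℂ}

/-- the Bellman function -/
def Phi (ε : ℝ) (p : Y → List Bool → ℝ) (D : Y → List Bool → ℂ) (v : List Bool) : ℝ :=
  ∑ y, n3 (ε * p y v) ‖MM (D y) v‖ ‖Pd (D y) v‖

/-- the credit of the pending terms -/
def Wp (D : Y → List Bool → ℂ) (v : List Bool) : ℝ := (∑ y, ‖Pd (D y) v‖) ^ 2

open Classical in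
def Z1 (ε P : ℝ) (p pc : Y → List Bool → ℝ) (u uc D : Y → List Bool → ℂ) (Gd : List Bool → Prop)
    (v : List Bool) : ℝ :=
  if Gd v then Real.exp (Phi ε p D v / (64 * ε * P) - 1 / 32 + 3 / 2 * Wp D v / (64 * ε * P) ^ 2 -
    psum (fun w => Wq p u uc w / (128 * (ε ^ 2 * P)) + Vl p pc w / P) (fun _ => 0) v) else 0

theorem Z1_nonneg (D : Y → List Bool → ℂ) (Gd : List Bool → Prop) (v : List Bool) :
    0 ≤ Z1 ε P p pc u uc D Gd v := by
  unfold Z1
  split_ifs
  · exact (Real.exp_pos _).le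
  · exact le_rfl

theorem Z1_nil (hε : 0 < ε) (hP : 0 < P) (hp : RP p pc) (D : Y → List Bool → ℂ)
    {Gd : List Bool → Prop} (hG : GoodSet ε P p u Gd) : Z1 ε P p pc u uc D Gd [] ≤ 1 := by
  unfold Z1
  split_ifs with h
  · rw [Real.exp_le_one_iff]
    have h1 : Phi ε p D [] = ε * ∑ y, p y [] := by
      rw [Phi, Finset.mul_sum]
      refine Finset.sum_congr rfl fun y _ => ?_
      simp only [MM, Pd, n3, List.length_nil, Nat.zero_sub, Finset.range_zero, Finset.sum_empty,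
        norm_zero, if_true]
      rw [show (ε * p y []) ^ 2 + 0 ^ 2 + 0 ^ 2 = (ε * p y []) ^ 2 by ring]
      exact Real.sqrt_sq (mul_nonneg hε.le (hp.nn y []))
    have h2 : Wp D [] = 0 := by simp [Wp, Pd]
    have h3 := hG.ms _ h
    have h4 : Phi ε p D [] / (64 * ε * P) ≤ 1 / 32 := by
      rw [h1, div_le_iff₀ (by positivity)]
      nlinarith [mul_le_mul_of_nonneg_left h3 hε.le]
    rw [h2]
    simp only [psum, List.length_nil, Finset.range_zero, Finset.sum_empty, mul_zero, zero_div]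
    linarith
  · exact zero_le_one

theorem avg_exp_le (x0 x1 m δ : ℝ) (hm : (x0 + x1) / 2 ≤ m) (hδ : ((x0 - x1) / 2) ^ 2 ≤ δ) :
    (Real.exp x0 + Real.exp x1) / 2 ≤ Real.exp (m + δ / 2) := by
  have h1 : (Real.exp x0 + Real.exp x1) / 2 =
      Real.exp ((x0 + x1) / 2) * Real.cosh ((x0 - x1) / 2) := by
    rw [Real.cosh_eq, mul_div_assoc', mul_add, ← Real.exp_add, ← Real.exp_add]
    congr 2 <;> congr 1 <;> ring
  rw [h1, Real.exp_add]
  refine mul_le_mul (Real.exp_le_exp.2 hm) ((Real.cosh_le_exp_half_sq _).trans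
    (Real.exp_le_exp.2 (by linarith))) (Real.cosh_pos _).le (Real.exp_pos _).le

theorem Z1_super (hε : 0 < ε) (hε1 : ε ≤ 1) (hP : 0 < P) (hp : RP p pc) (hu : RU K p pc u uc)
    (D : Y → List Bool → ℂ) (hD : ∀ y v, ‖D y v‖ ≤ ‖uc y (v ++ [false]) - u y v‖)
    {Gd : List Bool → Prop} (hG : GoodSet ε P p u Gd) (v : List Bool) :
    (Z1 ε P p pc u uc D Gd (v ++ [false]) + Z1 ε P p pc u uc D Gd (v ++ [true])) / 2 ≤
      Z1 ε P p pc u uc D Gd v := by
  classical
  by_cases hv : Gd v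
  swap
  · have h0 : ∀ c, ¬ Gd (v ++ [c]) := fun c h => hv (hG.par h)
    simp [Z1, hv, h0]
  set L := 64 * ε * P with hL
  have hL0 : 0 < L := by positivity
  set E := psum (fun w => Wq p u uc w / (128 * (ε ^ 2 * P)) + Vl p pc w / P) (fun _ => 0) v with hE
  set W := Wq p u uc v with hW
  set V := Vl p pc v with hV
  have hW0 : 0 ≤ W := Wq_nonneg hp v
  have hV0 : 0 ≤ V := Vl_nonneg hp v
  have hms := hG.ms v hv
  have hz : ∀ y, p y v = 0 → uc y (v ++ [false]) - u y v = 0 := fun y h => by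
    have h1 := hu.bd y v
    have h2 := hu.cbd y (v ++ [false])
    have h3 := hp.c2 y v false
    have h4 := hp.cnn y (v ++ [false])
    have h5 : pc y (v ++ [false]) = 0 := by linarith
    rw [h, mul_zero] at h1
    rw [h5, mul_zero] at h2
    rw [norm_le_zero_iff.1 h1, norm_le_zero_iff.1 h2, sub_zero]
  have hDz : ∀ y, p y v = 0 → D y v = 0 := fun y h => by
    have := hD y v
    rw [hz y h, norm_zero] at this
    exact norm_le_zero_iff.1 this
  have hDW : ∑ y, ‖D y v‖ ^ 2 / p y v ≤ W :=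
    Finset.sum_le_sum fun y _ => div_le_div_of_nonneg_right
      (pow_le_pow_left₀ (norm_nonneg _) (hD y v) 2) (hp.nn y v)
  have hD2 : (∑ y, ‖D y v‖) ^ 2 ≤ 2 * P * W :=
    (sq_sum_le (fun y => ‖D y v‖) (fun y => p y v) (fun y => hp.nn y v)
      (fun y h => by rw [hDz y h, norm_zero])).trans
      (mul_le_mul hms hDW (Finset.sum_nonneg fun y _ => div_nonneg (sq_nonneg _) (hp.nn y v))
        (by positivity))
  have hV2 : (∑ y, |pc y (v ++ [false]) - p y v|) ^ 2 ≤ 2 * P * V := by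
    have := sq_sum_le (fun y => |pc y (v ++ [false]) - p y v|) (fun y => p y v)
      (fun y => hp.nn y v) (fun y h => by
        have h3 := hp.c2 y v false
        have h4 := hp.cnn y (v ++ [false])
        have h5 : pc y (v ++ [false]) = 0 := by linarith
        simp [h5, h])
    simp only [sq_abs] at this
    exact this.trans (mul_le_mul_of_nonneg_right hms hV0)
  set X0 := ∑ y, n3 (ε * pc y (v ++ [false])) ‖MM (D y) v + Pd (D y) v‖ ‖D y v‖ with hX0
  set X1 := ∑ y, n3 (ε * pc y (v ++ [true])) ‖MM (D y) v + -Pd (D y) v‖ ‖(0 : ℂ)‖ with hX1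
  have mono : ∀ y c (b d : ℝ), 0 ≤ b → 0 ≤ d →
      n3 (ε * p y (v ++ [c])) b d ≤ n3 (ε * pc y (v ++ [c])) b d := fun y c b d hb hd => by
    have := n3_lip (a' := ε * pc y (v ++ [c])) (b' := b) (c' := d)
      (mul_nonneg hε.le (hp.nn y (v ++ [c]))) hb hd le_rfl le_rfl le_rfl
      (by have := mul_le_mul_of_nonneg_left (hp.le y (v ++ [c])) hε.le; linarith)
      (by linarith) (by linarith)
    linarith
  have p0 : Phi ε p D (v ++ [false]) ≤ X0 := Finset.sum_le_sum fun y _ => by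
    rw [MM_snoc, Pd_false]; exact mono y false _ _ (norm_nonneg _) (norm_nonneg _)
  have p1 : Phi ε p D (v ++ [true]) ≤ X1 := Finset.sum_le_sum fun y _ => by
    rw [MM_snoc, Pd_true]; exact mono y true _ _ (norm_nonneg _) (norm_nonneg _)
  have w0 : Wp D (v ++ [false]) ≤ 2 * P * W := by simpa only [Wp, Pd_false] using hD2
  have w1 : Wp D (v ++ [true]) ≤ 2 * P * W := by
    simp only [Wp, Pd_true, norm_zero, Finset.sum_const_zero]; nlinarith [mul_nonneg hP.le hW0]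
  have hmean : (X0 + X1) / 2 ≤ Phi ε p D v + (ε * V / 2 + W / (4 * ε)) := by
    have h1 : (X0 + X1) / 2 ≤ ∑ y, (n3 (ε * p y v) ‖MM (D y) v‖ ‖Pd (D y) v‖ +
        (ε * ((pc y (v ++ [false]) - p y v) ^ 2 / p y v) / 2 + ‖D y v‖ ^ 2 / p y v / (4 * ε))) := by
      rw [hX0, hX1, ← Finset.sum_add_distrib, Finset.sum_div]
      exact Finset.sum_le_sum fun y _ =>
        n3_drift hε (hp.cnn _ _) (hp.cnn _ _) (hp.mp y v) (hDz y)
    rw [Finset.sum_add_distrib, Finset.sum_add_distrib, ← Finset.sum_div, ← Finset.sum_div,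
      ← Finset.mul_sum] at h1
    have h2 : (∑ y, ‖D y v‖ ^ 2 / p y v) / (4 * ε) ≤ W / (4 * ε) :=
      div_le_div_of_nonneg_right hDW (by positivity)
    have h3 : V = ∑ y, (pc y (v ++ [false]) - p y v) ^ 2 / p y v := rfl
    rw [← h3] at h1
    unfold Phi
    linarith
  set T := ∑ y, (2 * (ε * |pc y (v ++ [false]) - p y v|) + 2 * ‖Pd (D y) v‖ + ‖D y v‖) with hT
  have hb : ∀ y, ‖MM (D y) v + Pd (D y) v‖ ≤ ‖MM (D y) v + -Pd (D y) v‖ + 2 * ‖Pd (D y) v‖ ∧
      ‖MM (D y) v + -Pd (D y) v‖ ≤ ‖MM (D y) v + Pd (D y) v‖ + 2 * ‖Pd (D y) v‖ := fun y => by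
    constructor
    · calc _ = ‖(MM (D y) v + -Pd (D y) v) + 2 * Pd (D y) v‖ := by ring_nf
        _ ≤ _ := (norm_add_le _ _).trans (by simp)
    · calc _ = ‖(MM (D y) v + Pd (D y) v) - 2 * Pd (D y) v‖ := by ring_nf
        _ ≤ _ := (norm_sub_le _ _).trans (by simp)
  have ha : ∀ y, ε * pc y (v ++ [false]) ≤ ε * pc y (v ++ [true]) +
        2 * (ε * |pc y (v ++ [false]) - p y v|) ∧
      ε * pc y (v ++ [true]) ≤ ε * pc y (v ++ [false]) +
        2 * (ε * |pc y (v ++ [false]) - p y v|) := fun y => by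
    have h1 := hp.mp y v
    have h2 := mul_le_mul_of_nonneg_left (le_abs_self (pc y (v ++ [false]) - p y v)) hε.le
    have h3 := mul_le_mul_of_nonneg_left (neg_abs_le (pc y (v ++ [false]) - p y v)) hε.le
    have h4 : pc y (v ++ [true]) = 2 * p y v - pc y (v ++ [false]) := by linarith
    rw [h4]
    constructor <;> nlinarith
  have d0 : X0 ≤ X1 + T := by
    rw [hX0, hX1, hT, ← Finset.sum_add_distrib]
    exact Finset.sum_le_sum fun y _ => n3_lip (mul_nonneg hε.le (hp.cnn _ _)) (norm_nonneg _)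
      (norm_nonneg _) (by positivity) (by positivity) (norm_nonneg _) (ha y).1 (hb y).1 (by simp)
  have d1 : X1 ≤ X0 + T := by
    rw [hX0, hX1, hT, ← Finset.sum_add_distrib]
    exact Finset.sum_le_sum fun y _ => n3_lip (mul_nonneg hε.le (hp.cnn _ _)) (norm_nonneg _)
      (norm_nonneg _) (by positivity) (by positivity) (norm_nonneg _) (ha y).2 (hb y).2
      (by rw [norm_zero]; positivity)
  have hT2 : T ^ 2 ≤ 12 * (ε ^ 2 * (2 * P * V)) + 12 * Wp D v + 3 * (2 * P * W) := by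
    have e : T = 2 * (ε * ∑ y, |pc y (v ++ [false]) - p y v|) + 2 * (∑ y, ‖Pd (D y) v‖) +
        ∑ y, ‖D y v‖ := by
      rw [hT, Finset.sum_add_distrib, Finset.sum_add_distrib, ← Finset.mul_sum, ← Finset.mul_sum,
        ← Finset.mul_sum]
    have h1 : (ε * ∑ y, |pc y (v ++ [false]) - p y v|) ^ 2 ≤ ε ^ 2 * (2 * P * V) := by
      rw [mul_pow]; exact mul_le_mul_of_nonneg_left hV2 (sq_nonneg _)
    rw [e, Wp]
    set A1 := ε * ∑ y, |pc y (v ++ [false]) - p y v|
    set A2 := ∑ y, ‖Pd (D y) v‖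
    set A3 := ∑ y, ‖D y v‖
    nlinarith [sq_nonneg (2 * A1 - 2 * A2), sq_nonneg (2 * A1 - A3), sq_nonneg (2 * A2 - A3)]
  set c0 := -(1 / 32) + 3 / 2 * (2 * P * W) / L ^ 2 - (E + (W / (128 * (ε ^ 2 * P)) + V / P + 0))
  have hch : ∀ (c : Bool) (X : ℝ), Phi ε p D (v ++ [c]) ≤ X → Wp D (v ++ [c]) ≤ 2 * P * W →
      Z1 ε P p pc u uc D Gd (v ++ [c]) ≤ Real.exp (X / L + c0) := fun c X h1 h2 => by
    unfold Z1
    split_ifs
    · rw [psum_snoc, ← hE, ← hL]
      refine Real.exp_le_exp.2 ?_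
      have h3 : Phi ε p D (v ++ [c]) / L ≤ X / L := div_le_div_of_nonneg_right h1 hL0.le
      have h4 : 3 / 2 * Wp D (v ++ [c]) / L ^ 2 ≤ 3 / 2 * (2 * P * W) / L ^ 2 :=
        div_le_div_of_nonneg_right (by linarith) (by positivity)
      simp only [c0]
      linarith
    · exact (Real.exp_pos _).le
  have key := avg_exp_le (X0 / L + c0) (X1 / L + c0)
    ((Phi ε p D v + (ε * V / 2 + W / (4 * ε))) / L + c0) (T ^ 2 / 4 / L ^ 2)
    (by
      have := div_le_div_of_nonneg_right hmean hL0.le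
      have e : (X0 / L + c0 + (X1 / L + c0)) / 2 = (X0 + X1) / 2 / L + c0 := by ring
      rw [e]; linarith)
    (by
      have e : ((X0 / L + c0 - (X1 / L + c0)) / 2) ^ 2 = (X0 - X1) ^ 2 / 4 / L ^ 2 := by
        field_simp; ring
      rw [e]
      have : (X0 - X1) ^ 2 ≤ T ^ 2 := sq_le_sq' (by linarith) (by linarith)
      gcongr)
  have hZ : Z1 ε P p pc u uc D Gd v = Real.exp (Phi ε p D v / L - 1 / 32 +
      3 / 2 * Wp D v / L ^ 2 - E) := by unfold Z1; rw [if_pos hv]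
  rw [hZ]
  refine le_trans (by linarith [hch false X0 p0 w0, hch true X1 p1 w1]) (key.trans ?_)
  refine Real.exp_le_exp.2 ?_
  have h5 : T ^ 2 / 4 / L ^ 2 / 2 ≤
      (12 * (ε ^ 2 * (2 * P * V)) + 12 * Wp D v + 3 * (2 * P * W)) / 4 / L ^ 2 / 2 := by gcongr
  have e1 : (12 * (ε ^ 2 * (2 * P * V)) + 12 * Wp D v + 3 * (2 * P * W)) / 4 / L ^ 2 / 2 =
      3 / 4096 * (V / P) + 3 / 2 * Wp D v / L ^ 2 + 3 / 16384 * (W / (ε ^ 2 * P)) := by
    rw [hL]; field_simp; ring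
  have e2 : (Phi ε p D v + (ε * V / 2 + W / (4 * ε))) / L =
      Phi ε p D v / L + 1 / 128 * (V / P) + 1 / 256 * (W / (ε ^ 2 * P)) := by
    rw [hL]; field_simp; ring
  have e3 : 3 / 2 * (2 * P * W) / L ^ 2 = 3 / 4096 * (W / (ε ^ 2 * P)) := by
    rw [hL]; field_simp; ring
  have e4 : W / (128 * (ε ^ 2 * P)) = 1 / 128 * (W / (ε ^ 2 * P)) := by field_simp
  have g1 : 0 ≤ V / P := by positivity
  have g2 : 0 ≤ W / (ε ^ 2 * P) := by positivity
  simp only [c0]
  rw [e2, e3, e4]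
  linarith

end Crest.Agent.R100.Run
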