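import Crest.Agent.R100.SBBasic

/-! # Row 100, STRUCT (helper8): approximate duality at a triggered node -/

set_option autoImplicit false

open MeasureTheory Set

noncomputable section

namespace Crest.Agent.R100.SB

open Crest.Agent.R100 Crest.Agent.R100.Low Crest.Agent.R100.Split Crest.Agent.R100.Life
  Crest.Agent.R100.Birth

variable {R B : ℝ} {s : St}

theorem St.OK.adv (h : s.OK R B) (hN : Num R B) (hC : Capt R) {v : List Bool}
    {c : s.Y → ℝ → ℝ} (hc : Sub s.a c) (hg : s.Go v c) {j : ℕ} {F : Finset ℤ}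
    (ht : s.Tr R v c j F) :
    ∃ (ι : Type) (_ : Fintype ι) (z : ι → ℤ) (E : ι → ℝ) (m : ℕ) (y : s.Y → Fin m → ℝ)
      (Bs : s.Y → Fin m → Set ℝ), s.Adv R v c j z E m y Bs := by
  sorry

end Crest.Agent.R100.SB
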