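import Crest.Agent.R100.SBDefs

/-! # Row 100, STRUCT (helper8): basic facts on states -/

set_option autoImplicit false

open MeasureTheory Set

noncomputable section

namespace Crest.Agent.R100.SB

open Crest.Agent.R100 Crest.Agent.R100.Low Crest.Agent.R100.Split Crest.Agent.R100.Life
  Crest.Agent.R100.Birth

variable {R B : ℝ} {s : St}

theorem St.OK.hc_mul (h : s.OK R B) {c : s.Y → ℝ → ℝ} (hc : Sub s.a c) (y : s.Y) (t : ℝ) :
    c y t = s.hc c y t * Fc s.lam s.Z (t - s.ctr y) := by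
  sorry

theorem St.OK.le_hc (h : s.OK R B) {c : s.Y → ℝ → ℝ} (hc : Sub s.a c) (y : s.Y) (t : ℝ) :
    c y t ≤ s.hc c y t ∧ s.hc c y t ≤ 2 * c y t := by
  sorry

theorem St.OK.hc_bd (h : s.OK R B) {c : s.Y → ℝ → ℝ} (hc : Sub s.a c) (y : s.Y) :
    Bd (2 * Real.exp R) (s.hc c y) := by
  sorry

theorem St.OK.hc_mono (h : s.OK R B) {c c' : s.Y → ℝ → ℝ} (hc : Sub s.a c) (hc' : Sub c c')
    (y : s.Y) (t : ℝ) : s.hc c' y t ≤ s.hc c y t := by
  sorry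

theorem St.OK.hm_mono (h : s.OK R B) {c c' : s.Y → ℝ → ℝ} (hc : Sub s.a c) (hc' : Sub c c')
    (v : List Bool) : s.hm c' v ≤ s.hm c v := by
  sorry

theorem St.OK.avn_le_hm (h : s.OK R B) {c : s.Y → ℝ → ℝ} (hc : Sub s.a c) (v : List Bool) :
    avn (tot c) s.α s.ℓ v ≤ s.hm c v ∧ s.hm c v ≤ 2 * avn (tot c) s.α s.ℓ v := by
  sorry

theorem St.OK.hm_child (h : s.OK R B) {c : s.Y → ℝ → ℝ} (hc : Sub s.a c) (v : List Bool)
    (b : Bool) : s.hm c (v ++ [b]) ≤ 2 * s.hm c v := by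
  sorry

theorem Num.dl_pos (hN : Num R B) : 0 < dl R := by
  sorry

theorem Num.K1_pos (hN : Num R B) : 0 < K1 R := by
  sorry

theorem wt_nonneg (hN : Num R B) {P μ : ℝ} (hP : 0 < P) (hPB : P ≤ 4 * B)
    (hμ : Real.exp (-(2 * R)) ≤ μ) : 0 ≤ wt R B P μ := by
  sorry

theorem St.OK.P_ge (h : s.OK R B) (hN : Num R B) : Pmin R ≤ s.P := by
  sorry

theorem St.OK.card_le (h : s.OK R B) (hN : Num R B) :
    Real.log (Fintype.card s.Y) ≤ R / mm R ^ 40 := by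
  sorry

theorem St.OK.hc_sup (h : s.OK R B) (hN : Num R B) {c : s.Y → ℝ → ℝ} (hc : Sub s.a c) (y : s.Y)
    (t : ℝ) : s.hc c y t ≤ Real.exp (3 * R) * s.P := by
  sorry

end Crest.Agent.R100.SB
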