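import Crest.Agent.R100.SBBasic

/-! # Row 100, STRUCT (helper8): birth of a new state -/

set_option autoImplicit false

open MeasureTheory Set

noncomputable section

namespace Crest.Agent.R100.SB

open Crest.Agent.R100 Crest.Agent.R100.Low Crest.Agent.R100.Split Crest.Agent.R100.Life
  Crest.Agent.R100.Birth

variable {R B : ℝ} {s : St}

open Classical in
/-- the cells that stay -/
def rest {Y : Type} {m : ℕ} (c : Y → ℝ → ℝ) (Bs : Y → Fin m → Set ℝ) (y : Y) (t : ℝ) : ℝ :=
  if ∃ k, t ∈ Bs y k then 0 else c y t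

/-- the new cells -/
def born {Y : Type} {m : ℕ} (c : Y → ℝ → ℝ) (Bs : Y → Fin m → Set ℝ) (p : Y × Fin m) : ℝ → ℝ :=
  (Bs p.1 p.2).indicator (c p.1)

section
variable {v : List Bool} {c : s.Y → ℝ → ℝ} {j : ℕ} {ι : Type} [Fintype ι] {z : ι → ℤ} {E : ι → ℝ}
  {m : ℕ} {y : s.Y → Fin m → ℝ} {Bs : s.Y → Fin m → Set ℝ}

open Classical in
theorem bc_sum {Y : Type} {m : ℕ} (c : Y → ℝ → ℝ) (Bs : Y → Fin m → Set ℝ)
    (hd : ∀ A k k', k ≠ k' → Disjoint (Bs A k) (Bs A k')) (A : Y) (t : ℝ) :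
    ∑ k, (Bs A k).indicator (c A) t = c A t - rest c Bs A t := by
  unfold rest
  by_cases h : ∃ k, t ∈ Bs A k
  · obtain ⟨k, hk⟩ := h
    rw [if_pos ⟨k, hk⟩, Finset.sum_eq_single k]
    · simp [hk]
    · intro k' _ hne
      have : t ∉ Bs A k' := fun h' => (Set.disjoint_left.1 (hd A k' k hne) h') hk
      simp [this]
    · simp
  · rw [if_neg h]
    have h' : ∀ k, t ∉ Bs A k := fun k hk => h ⟨k, hk⟩
    simp [h']

theorem bc_avn_two (f : ℝ → ℝ) (α ℓ : ℝ) (v : List Bool) :
    avn (fun t => 2 * f t) α ℓ v = 2 * avn f α ℓ v := by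
  unfold avn av
  rw [intervalIntegral.integral_const_mul, mul_div_assoc]

/-- A: the splitting of the cells -/
theorem birth_cells (h : s.OK R B) (hc : Sub s.a c) (ha : s.Adv R v c j z E m y Bs) :
    Sub c (rest c Bs) ∧ tot (born c Bs) = (fun t => tot c t - tot (rest c Bs) t) ∧
      Cells (Real.exp R) (born c Bs) ∧
      s.P / (8 * 8 ^ j) ≤ avn (tot (born c Bs)) s.α s.ℓ v := by
  classical
  have hC : Cells (Real.exp R) c := h.cells.sub hc
  have hsub : Sub c (rest c Bs) := fun A => ⟨by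
      have hs : MeasurableSet {t | ∃ k, t ∈ Bs A k} := by
        have : {t | ∃ k, t ∈ Bs A k} = ⋃ k, Bs A k := by ext t; simp
        rw [this]; exact MeasurableSet.iUnion fun k => ha.meas A k
      exact Measurable.ite hs measurable_const (hC.meas A), fun t => by
      unfold rest
      by_cases h' : ∃ k, t ∈ Bs A k
      · right; rw [if_pos h']
      · left; rw [if_neg h']⟩
  have htot : tot (born c Bs) = (fun t => tot c t - tot (rest c Bs) t) := by
    funext t
    unfold tot born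
    rw [Fintype.sum_prod_type, ← Finset.sum_sub_distrib]
    exact Finset.sum_congr rfl fun A _ => bc_sum c Bs ha.disj A t
  have hB : Cells (Real.exp R) (born c Bs) :=
    ⟨fun p => (hC.meas p.1).indicator (ha.meas p.1 p.2),
      fun p t => Set.indicator_nonneg (fun t _ => hC.nn p.1 t) t,
      fun t => by rw [htot]; exact (hC.bd_diff hsub).le t⟩
  refine ⟨hsub, htot, hB, ?_⟩
  have hb : ∀ p, Bd (Real.exp R) (born c Bs p) := fun p => ⟨hB.meas p, hB.nn p, fun t =>
    (Finset.single_le_sum (f := fun q => born c Bs q t) (fun q _ => hB.nn q t)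
      (Finset.mem_univ p)).trans (hB.le t)⟩
  have e1 := avn_dec (f := tot (born c Bs)) (h := fun _ => (0 : ℝ)) (s := Finset.univ)
    (F := born c Bs) (M := Real.exp R) ⟨measurable_const, fun _ => le_rfl,
      fun _ => (Real.exp_pos R).le⟩ (fun p _ => hb p) (fun t => by simp [tot]) s.α s.ℓ v
  have e0 : avn (fun _ => (0 : ℝ)) s.α s.ℓ v = 0 := by simp [avn, av]
  rw [e0, zero_add, Fintype.sum_prod_type] at e1
  have e2 : ∑ A, ∑ k, avn ((Bs A k).indicator (s.hc c A)) s.α s.ℓ v ≤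
      ∑ A, ∑ k, 2 * avn (born c Bs (A, k)) s.α s.ℓ v := by
    refine Finset.sum_le_sum fun A _ => Finset.sum_le_sum fun k _ => ?_
    rw [← bc_avn_two]
    have hh := h.hc_bd hc A
    refine avn_mono (M := 2 * Real.exp R) (M' := 2 * Real.exp R)
      ⟨hh.meas.indicator (ha.meas A k), fun t => Set.indicator_nonneg (fun t _ => hh.nn t) t,
        fun t => ?_⟩
      ⟨(hb (A, k)).meas.const_mul 2, fun t => mul_nonneg zero_le_two ((hb (A, k)).nn t),
        fun t => mul_le_mul_of_nonneg_left ((hb (A, k)).le t) zero_le_two⟩ (fun t => ?_) s.α h.hl v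
    · by_cases ht : t ∈ Bs A k
      · rw [Set.indicator_of_mem ht]; exact hh.le t
      · rw [Set.indicator_of_notMem ht]; positivity
    · unfold born
      by_cases ht : t ∈ Bs A k
      · simp only [Set.indicator_of_mem ht]; exact (h.le_hc hc A t).2
      · simp only [Set.indicator_of_notMem ht]; simp
  have e3 : ∑ A, ∑ k, 2 * avn (born c Bs (A, k)) s.α s.ℓ v =
      2 * avn (tot (born c Bs)) s.α s.ℓ v := by
    rw [e1, Finset.mul_sum]
    exact Finset.sum_congr rfl fun A _ => by rw [Finset.mul_sum]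
  have e4 := ha.cap
  have e5 : s.P / (8 * 8 ^ j) = s.P / (4 * 8 ^ j) / 2 := by
    rw [div_div]; congr 1; ring
  rw [e5]
  linarith

theorem h67_big (hN : Num R B) : 1000 * mm R ^ 2 ≤ R := by
  have hR := hN.R1
  have hM := hN.m30
  have hl : 0 ≤ Real.log R := Real.log_nonneg hR
  have h1 : Real.exp (mm R) = 2 + Real.log R := by
    unfold mm; exact Real.exp_log (by linarith)
  have h2 : Real.log R ≤ R - 1 := Real.log_le_sub_one_of_pos (by linarith)
  have h3 := Real.pow_div_factorial_le_exp (mm R) (by linarith) 6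
  have h4 : ((Nat.factorial 6 : ℕ) : ℝ) = 720 := by norm_num [Nat.factorial]
  rw [h4] at h3
  have h5 : (30 : ℝ) ^ 4 ≤ mm R ^ 4 := pow_le_pow_left₀ (by norm_num) hM 4
  have h6 : (30 : ℝ) ^ 2 ≤ mm R ^ 2 := pow_le_pow_left₀ (by norm_num) hM 2
  have h7 : mm R ^ 6 = mm R ^ 4 * mm R ^ 2 := by ring
  nlinarith

theorem h67_rho (hN : Num R B) :
    Real.exp ((30 * mm R + 1) * K1 R) * (4 * (1 + 2 * Real.pi * mm R ^ 70)) ≤
      Real.exp (dl R / 2) := by
  have hR := hN.R1
  have hM := hN.m30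
  have hb := h67_big hN
  have M0 : 0 < mm R := by linarith
  have M1 : 1 ≤ mm R := by linarith
  have h1 : (30 * mm R + 1) * K1 R ≤ dl R / 4 := by
    unfold K1 dl
    have e1 : mm R ^ 3 ≤ mm R ^ 41 := pow_le_pow_right₀ M1 (by norm_num)
    have e2 : 4 * (30 * mm R + 1) ≤ mm R ^ 41 := by
      have : mm R ^ 3 = mm R * mm R * mm R := by ring
      nlinarith
    have e3 : R / mm R / 4 = mm R ^ 41 / 4 * (R / mm R ^ 42) := by field_simp
    rw [e3]
    exact mul_le_mul_of_nonneg_right (by linarith) (by positivity)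
  have h2 : 4 * (1 + 2 * Real.pi * mm R ^ 70) ≤ Real.exp (dl R / 4) := by
    have e0 : mm R ≤ Real.exp (mm R) := by linarith [Real.add_one_le_exp (mm R)]
    have e1 : mm R ^ 72 ≤ Real.exp (mm R) ^ 72 := pow_le_pow_left₀ M0.le e0 72
    rw [← Real.exp_nat_mul] at e1
    have e2 : ((72 : ℕ) : ℝ) * mm R ≤ dl R / 4 := by
      unfold dl
      rw [div_div, le_div_iff₀ (by positivity)]
      push_cast
      nlinarith
    have e3 : 1 ≤ mm R ^ 70 := one_le_pow₀ M1
    have e4 : mm R ^ 72 = mm R ^ 2 * mm R ^ 70 := by ring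
    have e5 : (30 : ℝ) ^ 2 ≤ mm R ^ 2 := pow_le_pow_left₀ (by norm_num) hM 2
    have e6 : Real.pi * mm R ^ 70 ≤ 4 * mm R ^ 70 :=
      mul_le_mul_of_nonneg_right Real.pi_le_four (by positivity)
    have e7 : 4 * (1 + 2 * Real.pi * mm R ^ 70) ≤ mm R ^ 72 := by nlinarith
    exact e7.trans (e1.trans (Real.exp_le_exp.2 e2))
  calc _ ≤ Real.exp (dl R / 4) * Real.exp (dl R / 4) :=
        mul_le_mul (Real.exp_le_exp.2 h1) h2 (by positivity) (by positivity)
    _ = _ := by rw [← Real.exp_add]; congr 1; ring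

/-- B: numbers of a birth; `p` is the captured mass, `m0` the bound of the new law -/
theorem birth_num (h : s.OK R B) (hN : Num R B) (hj : (2 : ℝ) ^ j ≤ mm R ^ 3) {p m0 : ℝ} {N : ℕ}
    (hp : s.P / (8 * 8 ^ j) ≤ p)
    (hm0 : m0 = Real.exp (K1 R - 4 * (2 : ℝ) ^ ((j : ℝ) / 4) * dl R) * s.μ)
    (hm : (m : ℝ) ≤ Real.exp (K1 R)) (hNc : N = Fintype.card s.Y * m)
    (hpar : p ≤ N * (2 * Real.exp R * (1 + 2 * Real.pi * mm R ^ 70) * m0)) :
    s.P / mm R ^ 30 ≤ p ∧ Real.exp (-(2 * R)) ≤ 120 * (m0 * Real.exp (dl R)) ∧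
      wt R B (2 * p) (120 * (m0 * Real.exp (dl R))) ≤ wt R B s.P s.μ - 1 ∧
      Real.log N ≤ (30 * mm R - wt R B (2 * p) (120 * (m0 * Real.exp (dl R)))) * K1 R ∧
      N * (4 * (1 + 2 * Real.pi * mm R ^ 70) * m0 / (m0 * Real.exp (dl R))) ≤
        Real.exp (-(dl R / 2)) := by
  have hR := hN.R1
  have hM := hN.m30
  have hB := hN.B1
  have M0 : 0 < mm R := by linarith
  have M1 : 1 ≤ mm R := by linarith
  have hP := h.hP
  have hd := hN.dl_pos
  have hK := hN.K1_pos
  have hμ0 : 0 < s.μ := lt_of_lt_of_le (Real.exp_pos _) h.hμ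
  have hm00 : 0 < m0 := by rw [hm0]; positivity
  have hp0 : 0 < p := lt_of_lt_of_le (by positivity) hp
  have h120 : 0 ≤ Real.log 120 := Real.log_nonneg (by norm_num)
  have hl := hN.l120
  have c1 : s.P / mm R ^ 30 ≤ p := by
    refine le_trans ?_ hp
    refine div_le_div_of_nonneg_left hP.le (by positivity) ?_
    have e1 : (8 : ℝ) ^ j = ((2 : ℝ) ^ j) ^ 3 := by
      rw [← pow_mul, mul_comm, pow_mul]; norm_num
    have e2 : ((2 : ℝ) ^ j) ^ 3 ≤ (mm R ^ 3) ^ 3 := pow_le_pow_left₀ (by positivity) hj 3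
    have e3 : mm R ^ 10 ≤ mm R ^ 30 := pow_le_pow_right₀ M1 (by norm_num)
    have e4 : mm R ^ 10 = mm R * (mm R ^ 3) ^ 3 := by ring
    have e5 : 0 ≤ (mm R ^ 3) ^ 3 := by positivity
    rw [e1]
    nlinarith
  have hx : 1 + 0.17 * (j : ℝ) ≤ (2 : ℝ) ^ ((j : ℝ) / 4) := by
    rw [Real.rpow_def_of_pos (by norm_num)]
    have e1 := Real.add_one_le_exp (Real.log 2 * ((j : ℝ) / 4))
    have e2 := Real.log_two_gt_d9
    have e3 : (0 : ℝ) ≤ j := Nat.cast_nonneg _
    nlinarith
  have c3 : wt R B (2 * p) (120 * (m0 * Real.exp (dl R))) ≤ wt R B s.P s.μ - 1 := by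
    have e1 : Real.log (120 * (m0 * Real.exp (dl R))) =
        Real.log 120 + (K1 R - 4 * (2 : ℝ) ^ ((j : ℝ) / 4) * dl R + Real.log s.μ + dl R) := by
      rw [Real.log_mul (by norm_num) (by positivity), Real.log_mul hm00.ne' (by positivity), hm0,
        Real.log_mul (by positivity) hμ0.ne', Real.log_exp, Real.log_exp]
    have e2 : 4 * B / (2 * p) ≤ 4 * B / s.P * 2 ^ (3 * j + 2) := by
      rw [div_le_iff₀ (by positivity)] at hp ⊢
      have e8 : (2 : ℝ) ^ (3 * j + 2) = 4 * 8 ^ j := by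
        rw [pow_add, pow_mul]; norm_num; ring
      rw [e8]
      calc 4 * B = 4 * B / s.P * s.P := by field_simp
        _ ≤ 4 * B / s.P * (p * (8 * 8 ^ j)) := mul_le_mul_of_nonneg_left hp (by positivity)
        _ = _ := by ring
    have e3 : Real.logb 2 (4 * B / (2 * p)) ≤ Real.logb 2 (4 * B / s.P) + (3 * j + 2) := by
      refine (Real.logb_le_logb_of_le (by norm_num) (by positivity) e2).trans ?_
      rw [Real.logb_mul (by positivity) (by positivity), Real.logb_pow,
        Real.logb_self_eq_one (by norm_num)]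
      push_cast
      linarith
    have e4 : 10 * (2 * R + Real.log (120 * (m0 * Real.exp (dl R)))) / dl R ≤
        10 * (2 * R + Real.log s.μ) / dl R + (20 - 40 * (2 : ℝ) ^ ((j : ℝ) / 4)) := by
      rw [e1, div_add' _ _ _ hd.ne']
      refine div_le_div_of_nonneg_right ?_ hd.le
      nlinarith
    have e5 : (0 : ℝ) ≤ j := Nat.cast_nonneg _
    unfold wt
    linarith
  have hN0 : (0 : ℝ) < N := by
    rcases Nat.eq_zero_or_pos N with h0 | h0
    · rw [h0] at hpar; simp at hpar; linarith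
    · exact_mod_cast h0
  have hNe : (N : ℝ) = (Fintype.card s.Y : ℝ) * m := by rw [hNc]; push_cast; rfl
  have hcm : (Fintype.card s.Y : ℝ) ≠ 0 ∧ (m : ℝ) ≠ 0 := by
    rw [hNe] at hN0
    exact mul_ne_zero_iff.1 hN0.ne'
  have hlm : Real.log m ≤ K1 R := by
    have : (0 : ℝ) < m := lt_of_le_of_ne (Nat.cast_nonneg _) hcm.2.symm
    rwa [Real.log_le_iff_le_exp this]
  have hlN : Real.log N ≤ (30 * mm R - wt R B s.P s.μ) * K1 R + K1 R := by
    rw [hNe, Real.log_mul hcm.1 hcm.2]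
    linarith [h.card]
  have hw0 := wt_nonneg hN h.hP h.hPB h.hμ
  have hNx : (N : ℝ) ≤ Real.exp ((30 * mm R + 1) * K1 R) := by
    rw [← Real.log_le_iff_le_exp hN0]
    nlinarith
  refine ⟨c1, ?_, c3, by nlinarith, ?_⟩
  · have e1 : (30 * mm R + 1) * K1 R ≤ R / mm R ^ 40 + K1 R := by
      have : R / mm R ^ 40 = mm R ^ 2 * K1 R := by unfold K1; field_simp
      rw [this]
      have : 30 * mm R ≤ mm R ^ 2 := by nlinarith
      nlinarith
    have e2 : (N : ℝ) ≤ Real.exp (R / mm R ^ 40) * Real.exp (dl R) := by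
      rw [← Real.exp_add]
      exact hNx.trans (Real.exp_le_exp.2 (by linarith))
    have hPm : 0 < Pmin R := by unfold Pmin; positivity
    have e3 : Pmin R ≤ p * mm R ^ 30 := by
      rw [div_le_iff₀ (by positivity)] at c1
      exact (h.P_ge hN).trans c1
    have e4 : p * mm R ^ 30 ≤ Pmin R * Real.exp (2 * R) * (m0 * Real.exp (dl R)) := by
      calc p * mm R ^ 30 ≤ (Real.exp (R / mm R ^ 40) * Real.exp (dl R)) *
            (2 * Real.exp R * (1 + 2 * Real.pi * mm R ^ 70) * m0) * mm R ^ 30 := by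
            refine mul_le_mul_of_nonneg_right (hpar.trans ?_) (by positivity)
            exact mul_le_mul_of_nonneg_right e2 (by positivity)
        _ = (2 * Real.exp R * Real.exp (R / mm R ^ 40) * (1 + 2 * Real.pi * mm R ^ 70) *
            mm R ^ 30) * (m0 * Real.exp (dl R)) := by ring
        _ ≤ _ := mul_le_mul_of_nonneg_right hN.mu (by positivity)
    have e5 : 1 ≤ Real.exp (2 * R) * (m0 * Real.exp (dl R)) := by
      have := e3.trans e4
      rw [mul_assoc] at this
      exact (le_mul_iff_one_le_right hPm).1 this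
    have e6 : Real.exp (-(2 * R)) ≤ m0 * Real.exp (dl R) := by
      rw [Real.exp_neg, inv_le_iff_one_le_mul₀' (Real.exp_pos _)]
      exact e5
    have : 0 < m0 * Real.exp (dl R) := by positivity
    linarith
  · have e1 : 4 * (1 + 2 * Real.pi * mm R ^ 70) * m0 / (m0 * Real.exp (dl R)) =
        4 * (1 + 2 * Real.pi * mm R ^ 70) * Real.exp (-dl R) := by
      rw [Real.exp_neg]; field_simp
    rw [e1]
    calc _ ≤ Real.exp ((30 * mm R + 1) * K1 R) *
          (4 * (1 + 2 * Real.pi * mm R ^ 70) * Real.exp (-dl R)) :=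
          mul_le_mul_of_nonneg_right hNx (by positivity)
      _ = (Real.exp ((30 * mm R + 1) * K1 R) * (4 * (1 + 2 * Real.pi * mm R ^ 70))) *
          Real.exp (-dl R) := by ring
      _ ≤ Real.exp (dl R / 2) * Real.exp (-dl R) :=
          mul_le_mul_of_nonneg_right (h67_rho hN) (by positivity)
      _ = _ := by rw [← Real.exp_add]; congr 1; ring

/-- C: the new state (`Birth.birth` with `θ = m0 * exp (dl R)`, `P = 2 * avn`, `μ = 120 θ`,
`ρ = exp (-(dl R / 2))`, cells `born c Bs`, centres `y`) -/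
theorem birth_pc (h : s.OK R B) (hN : Num R B) (hc : Sub s.a c) (hj : (2 : ℝ) ^ j ≤ mm R ^ 3)
    (ha : s.Adv R v c j z E m y Bs) :
    s.Pc R B (Real.exp (-(dl R / 2))) v (tot (born c Bs)) ∧
      s.P / mm R ^ 30 ≤ avn (tot (born c Bs)) s.α s.ℓ v := by
  sorry

end

end Crest.Agent.R100.SB
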