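import Crest.Agent.R100.GenRec
import Crest.Agent.R100.Birth
import Crest.Agent.R100.LifeDefs

/-!
# Row 100, STRUCT (helper8): the states of the induction
-/

set_option autoImplicit false

open MeasureTheory Set

noncomputable section

namespace Crest.Agent.R100.SB

open Crest.Agent.R100 Crest.Agent.R100.Low Crest.Agent.R100.Split Crest.Agent.R100.Life
  Crest.Agent.R100.Birth

/-- the start of a life -/
structure St where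
  Y : Type
  fY : Fintype Y
  Ω : Type
  fΩ : Fintype Ω
  a : Y → ℝ → ℝ
  ctr : Y → ℝ
  lam : Ω → ℝ
  Z : Ω → ℝ
  α : ℝ
  ℓ : ℝ
  P : ℝ
  μ : ℝ
  ρ : ℝ
  Liv : ℕ → Prop

attribute [instance] St.fY St.fΩ

/-- `δ = R / m` -/
def dl (R : ℝ) : ℝ := R / mm R

/-- the cost of approximate duality -/
def K1 (R : ℝ) : ℝ := R / mm R ^ 42

/-- the least level -/
def Pmin (R : ℝ) : ℝ := (2 : ℝ) ^ (-(30 * mm R))

/-- the crude cost of a node -/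
def Cr (R B : ℝ) : ℝ := 1200000 * R ^ 2 * (B + 1)

/-- the weight of a state -/
def wt (R B P μ : ℝ) : ℝ := Real.logb 2 (4 * B / P) + 10 * (2 * R + Real.log μ) / dl R

/-- the numerical facts used (true for large `R`) -/
structure Num (R B : ℝ) : Prop where
  R1 : 1 ≤ R
  B1 : 1 ≤ B
  m30 : 30 ≤ mm R
  root : Real.logb 2 (4 * B) ≤ 10 * mm R
  sup : 2 * Real.exp R ≤ Real.exp (3 * R) * Pmin R
  junk : Cr R B * Real.exp (-(dl R / 2)) * mm R ^ 30 ≤ dl R * Pmin R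
  mu : 2 * Real.exp R * Real.exp (R / mm R ^ 40) * (1 + 2 * Real.pi * mm R ^ 70) * mm R ^ 30 ≤
    Pmin R * Real.exp (2 * R)
  rho : Real.exp (R / mm R ^ 40) * (4 * (1 + 2 * Real.pi * mm R ^ 70)) ≤ Real.exp (dl R / 2)
  l120 : Real.log 120 + K1 R ≤ dl R

/-- the cells divided by the characteristic function of the mask -/
def St.hc (s : St) (c : s.Y → ℝ → ℝ) (y : s.Y) (t : ℝ) : ℝ := c y t / Fc s.lam s.Z (t - s.ctr y)

/-- the mass of the divided cells on the node `v` -/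
def St.hm (s : St) (c : s.Y → ℝ → ℝ) (v : List Bool) : ℝ := ∑ y, avn (s.hc c y) s.α s.ℓ v

/-- the node `v` meets a cell -/
def St.Meet (s : St) (v : List Bool) : Prop :=
  ∃ y, ∃ t ∈ Icc (nd s.α s.ℓ v) (nd s.α s.ℓ v + ln s.ℓ v), s.a y t ≠ 0

open Classical in
/-- valid states -/
structure St.OK (R B : ℝ) (s : St) : Prop where
  hl : 0 < s.ℓ
  hP : 0 < s.P
  hPB : s.P ≤ 4 * B
  cells : Cells (Real.exp R) s.a
  lnn : ∀ ω, 0 ≤ s.lam ω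
  lone : ∑ ω, s.lam ω = 1
  sym : Sym s.lam s.Z
  pure : ∀ y t, s.a y t ≠ 0 → 1 / 2 ≤ Fc s.lam s.Z (t - s.ctr y)
  liv0 : s.Liv 0
  livd : ∀ j k, j ≤ k → s.Liv k → s.Liv j
  bin : ∀ k, s.Liv k → ∀ x : ℝ,
    ∑ ω, (if x ≤ s.Z ω ∧ s.Z ω ≤ x + 2 ^ k / s.ℓ then s.lam ω else 0) ≤ s.μ
  rho0 : 0 ≤ s.ρ
  death : ∀ k, ¬ s.Liv k → (∀ j, j < k → s.Liv j) →
    avg k (fun v => if s.Meet v then 1 else 0) ≤ s.ρ
  mass : s.hm s.a [] ≤ s.P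
  hμ : Real.exp (-(2 * R)) ≤ s.μ
  hw : wt R B s.P s.μ ≤ 30 * mm R
  card : Real.log (Fintype.card s.Y) ≤ (30 * mm R - wt R B s.P s.μ) * K1 R

/-- the life goes on at `v` with the cells `c` -/
def St.Go (s : St) (v : List Bool) (c : s.Y → ℝ → ℝ) : Prop := s.Liv v.length ∧ s.hm c v ≤ s.P

/-- the trigger of index `j` with the frequencies `F` -/
def St.Tr (R : ℝ) (s : St) (v : List Bool) (c : s.Y → ℝ → ℝ) (j : ℕ) (F : Finset ℤ) : Prop :=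
  (2 : ℝ) ^ j ≤ mm R ^ 3 ∧
    (∀ N ∈ F, s.P / 2 ^ j ≤ ∑ y, ‖U (cx (s.hc c y)) s.α s.ℓ (lat (kap R) s.ℓ v N) v‖) ∧
    Real.exp (4 * (2 : ℝ) ^ ((j : ℝ) / 4) * (R / mm R)) / s.μ < F.card

/-- the trigger -/
def St.Trig (R : ℝ) (s : St) (v : List Bool) (c : s.Y → ℝ → ℝ) : Prop := ∃ j F, s.Tr R v c j F

/-- the piece `r` is dead at `v` or a new state of smaller weight with death budget `≤ q` -/
def St.Pc (R B : ℝ) (s : St) (q : ℝ) (v : List Bool) (r : ℝ → ℝ) : Prop :=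
  B < avn r s.α s.ℓ v ∨ ∃ s' : St, s'.OK R B ∧ tot s'.a = r ∧ s'.α = nd s.α s.ℓ v ∧
    s'.ℓ = ln s.ℓ v ∧ wt R B s'.P s'.μ ≤ wt R B s.P s.μ - 1 ∧ s'.P ≤ 4 * avn r s.α s.ℓ v ∧ s'.ρ ≤ q

open Classical in
/-- the fraction of the descendants of `v` at the death depth that meet a cell -/
def St.rho (s : St) (v : List Bool) : ℝ :=
  if h : ∃ k, ¬ s.Liv k then
    (if v.length ≤ Nat.find h then
      avg (Nat.find h - v.length) (fun w => if s.Meet (v ++ w) then 1 else 0) else 0)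
  else 0

/-- one life of the state `s` -/
def St.Out (R B : ℝ) (s : St) (cl : List Bool → s.Y → ℝ → ℝ) (A : List Bool → Prop)
    (T : List Bool → Finset ℕ) (r : List Bool → ℕ → ℝ → ℝ) : Prop :=
  LifeOut (Real.exp R) s.α s.ℓ (s.P / mm R ^ 30) s.Go (s.Trig R)
    (s.Pc R B (Real.exp (-(dl R / 2)))) s.a cl A T r

/-- the output of approximate duality at a triggered node -/
structure St.Adv (R : ℝ) (s : St) (v : List Bool) (c : s.Y → ℝ → ℝ) (j : ℕ) {ι : Type}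
    [Fintype ι] (z : ι → ℤ) (E : ι → ℝ) (m : ℕ) (y : s.Y → Fin m → ℝ)
    (Bs : s.Y → Fin m → Set ℝ) : Prop where
  inj : Function.Injective z
  nn : ∀ i, 0 ≤ E i
  one : ∑ i, E i = 1
  le : ∀ i, E i ≤ Real.exp (K1 R - 4 * (2 : ℝ) ^ ((j : ℝ) / 4) * dl R) * s.μ
  hm : (m : ℝ) ≤ Real.exp (K1 R)
  meas : ∀ A k, MeasurableSet (Bs A k)
  disj : ∀ A k k', k ≠ k' → Disjoint (Bs A k) (Bs A k')
  pure : ∀ A k, ∀ t ∈ Bs A k, 1 - ‖Eh E z (kap R / ln s.ℓ v) (t - y A k)‖ ^ 2 ≤ 1 / 100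
  cap : s.P / (4 * 8 ^ j) ≤ ∑ A, ∑ k, avn ((Bs A k).indicator (s.hc c A)) s.α s.ℓ v

/-- the statement of `Birth.capture` at `R` -/
def Capt (R : ℝ) : Prop :=
  ∀ (P : ℝ) (Y : Type) [Fintype Y] (h : Y → ℝ → ℝ) (α ℓ : ℝ) (j : ℕ) (F : Finset ℤ),
    0 < ℓ → 0 < P → (∀ y, Measurable (h y)) → (∀ y t, 0 ≤ h y t ∧ h y t ≤ Real.exp (3 * R) * P) →
    Real.log (Fintype.card Y) ≤ R / mm R ^ 40 → ∑ y, av (h y) α ℓ ≤ P → (2 : ℝ) ^ j ≤ mm R ^ 3 →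
    F.Nonempty → Real.log F.card ≤ 10 * R →
    (∀ N ∈ F, P / 2 ^ j ≤ ∑ y, ‖cu (fun t => (h y t : ℂ)) (N * kap R / ℓ) α ℓ‖) →
    ∃ (E : F → ℝ) (m : ℕ) (c : Y → Fin m → ℝ) (Bs : Y → Fin m → Set ℝ), (∀ i, 0 ≤ E i) ∧
      ∑ i, E i = 1 ∧ (∀ i, E i ≤ Real.exp (R / mm R ^ 50) / F.card) ∧
      (m : ℝ) ≤ Real.exp (R / mm R ^ 50) ∧ (∀ y k, MeasurableSet (Bs y k)) ∧
      (∀ y k k', k ≠ k' → Disjoint (Bs y k) (Bs y k')) ∧
      (∀ y k, ∀ t ∈ Bs y k,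
        1 - ‖Eh E (fun i => i.1) (kap R / ℓ) (t - c y k)‖ ^ 2 ≤ 1 / 100) ∧
      P / (4 * 8 ^ j) ≤ ∑ y, ∑ k, av ((Bs y k).indicator (h y)) α ℓ

end Crest.Agent.R100.SB
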