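import Crest.Agent.R100.SBBasic
import Crest.Agent.R100.Mask84

/-! # Row 100, STRUCT (helper8): the cost of the life -/

set_option autoImplicit false

open MeasureTheory Set

noncomputable section

namespace Crest.Agent.R100.SB

open Crest.Agent.R100 Crest.Agent.R100.Low Crest.Agent.R100.Split Crest.Agent.R100.Life
  Crest.Agent.R100.Birth

variable {R B : ℝ} {s : St}

open Classical in
theorem life_cost (hL : LIFE) : ∃ C R₀ : ℝ, 1 ≤ C ∧ ∀ (R B : ℝ) (s : St), R₀ ≤ R → Num R B →
    s.OK R B → ∀ cl A T r, s.Out R B cl A T r →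
      Split.Life (tot s.a) (fun v => if A v then tot (cl v) else fun _ => 0) s.α s.ℓ B
        (C * dl R * s.P) := by
  sorry

end Crest.Agent.R100.SB
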