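import Crest.Agent.R100.SBDefs
import Crest.Agent.R100.Num49

/-! # Row 100, STRUCT (helper8): numerics -/

set_option autoImplicit false

open MeasureTheory Set

noncomputable section

namespace Crest.Agent.R100.SB

open Crest.Agent.R100 Crest.Agent.R100.Low Crest.Agent.R100.Split Crest.Agent.R100.Life
  Crest.Agent.R100.Birth

variable {R B : ℝ} {s : St}

theorem num_large : ∃ R₀ : ℝ, ∀ R B : ℝ, R₀ ≤ R → 1 ≤ B → B ≤ 16 * (1 + Real.log R) ^ 2 →
    Num R B := by
  have H := (Filter.eventually_ge_atTop (1 : ℝ)).and ((Num49.ev_mm 30).and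
    ((Num49.ev_exp 2 30 0 1 0 (E := 1) one_pos).and
    ((Num49.ev_exp 20400000 62 2 1 1 (E := 2) two_pos).and
    ((Num49.ev_exp 18 130 0 1 0 (E := 2) two_pos).and
    ((Num49.ev_exp 36 70 0 1 1 (E := 4) four_pos).and (Num49.ev_div' 240 0 1))))))
  obtain ⟨R₀, hR₀⟩ := Filter.eventually_atTop.mp H
  refine ⟨R₀, fun R B hR hB hB' => ?_⟩
  obtain ⟨h1, hm, e1, e2, e3, e4, e5⟩ := hR₀ R hR
  simp only [pow_zero, pow_one, mul_one, div_one] at e1 e2 e3 e4 e5
  have hm0 : 0 < mm R := by linarith
  have hm1 : 1 ≤ mm R := by linarith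
  have hpi := Real.pi_pos
  have hpi4 := Real.pi_le_four
  have hlog : 0 ≤ Real.log R := Real.log_nonneg h1
  have hem : Real.exp (mm R) = 2 + Real.log R := Num49.exp_mm h1
  have hBe : B ≤ 16 * Real.exp (2 * mm R) := by
    have e : Real.exp (2 * mm R) = (2 + Real.log R) ^ 2 := by
      rw [← hem, ← Real.exp_nat_mul]; norm_num
    rw [e]; nlinarith
  have hP : Real.exp (-(30 * mm R)) ≤ Pmin R := by
    unfold Pmin
    rw [Real.rpow_def_of_pos (by norm_num)]
    refine Real.exp_le_exp.mpr ?_
    have := Real.log_two_lt_d9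
    nlinarith
  have b5 : ∀ k : ℕ, mm R ^ k ≤ Real.exp (k * mm R) := fun k => by
    rw [Real.exp_nat_mul]
    exact pow_le_pow_left₀ (by linarith) (by linarith [Real.add_one_le_exp (mm R)]) k
  have hk : ∀ k : ℕ, 2 ≤ k → R / mm R ^ k ≤ R / mm R / 4 := fun k hk => by
    rw [div_div]
    refine div_le_div_of_nonneg_left (by linarith) (by linarith) ?_
    have : mm R ^ 2 ≤ mm R ^ k := pow_le_pow_right₀ hm1 hk
    nlinarith
  have hdR : R / mm R ≤ R := div_le_self (by linarith) hm1
  have h30 := b5 30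
  have h70 := b5 70
  push_cast at h30 h70
  have g70 : 1 ≤ mm R ^ 70 := one_le_pow₀ hm1
  have h9 : 1 + 2 * Real.pi * mm R ^ 70 ≤ 9 * Real.exp (70 * mm R) := by nlinarith
  have h90 : 0 ≤ 1 + 2 * Real.pi * mm R ^ 70 := by positivity
  refine ⟨h1, hB, hm, ?_, ?_, ?_, ?_, ?_, ?_⟩
  · rw [Real.logb, div_le_iff₀ (Real.log_pos (by norm_num))]
    have a1 : Real.log (4 * B) ≤ Real.log (64 * Real.exp (2 * mm R)) :=
      Real.log_le_log (by linarith) (by linarith)
    rw [Real.log_mul (by norm_num) (Real.exp_pos _).ne', Real.log_exp] at a1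
    have a2 := Real.log_le_sub_one_of_pos (x := 64) (by norm_num)
    have a3 := Real.log_two_gt_d9
    nlinarith
  · refine le_trans ?_ (mul_le_mul_of_nonneg_left hP (Real.exp_pos _).le)
    have a1 : 2 * Real.exp R = 2 * Real.exp (30 * mm R) * Real.exp (R - 30 * mm R) := by
      rw [mul_assoc, ← Real.exp_add]; congr 2; ring
    rw [a1]
    refine (mul_le_mul_of_nonneg_right e1 (Real.exp_pos _).le).trans ?_
    rw [← Real.exp_add, ← Real.exp_add]
    exact Real.exp_le_exp.mpr (by linarith)
  · unfold Cr dl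
    have a0 : 1 ≤ Real.exp (2 * mm R) := Real.one_le_exp (by linarith)
    have a1 : 1200000 * R ^ 2 * (B + 1) * Real.exp (-(R / mm R / 2)) * mm R ^ 30 ≤
        1200000 * R ^ 2 * (17 * Real.exp (2 * mm R)) * Real.exp (-(R / mm R / 2)) *
          Real.exp (30 * mm R) := by
      gcongr
      linarith
    have a2 : 1200000 * R ^ 2 * (17 * Real.exp (2 * mm R)) * Real.exp (-(R / mm R / 2)) *
          Real.exp (30 * mm R) = 20400000 * R ^ 2 * Real.exp (62 * mm R) *
            Real.exp (-(R / mm R / 2) - 30 * mm R) := by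
      have e : Real.exp (62 * mm R) * Real.exp (-(R / mm R / 2) - 30 * mm R) =
          Real.exp (2 * mm R) * Real.exp (-(R / mm R / 2)) * Real.exp (30 * mm R) := by
        rw [← Real.exp_add, ← Real.exp_add, ← Real.exp_add]; congr 1; ring
      rw [mul_assoc (20400000 * R ^ 2), e]; ring
    have a3 : Real.exp (R / (2 * mm R)) * Real.exp (-(R / mm R / 2) - 30 * mm R) =
        Real.exp (-(30 * mm R)) := by
      rw [← Real.exp_add]; congr 1; field_simp; ring
    have a4 := mul_le_mul_of_nonneg_right e2 (Real.exp_pos (-(R / mm R / 2) - 30 * mm R)).le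
    have a5 := Real.exp_pos (-(30 * mm R))
    rw [a3] at a4
    rw [a2] at a1
    nlinarith
  · have a1 : 2 * Real.exp R * Real.exp (R / mm R ^ 40) * (1 + 2 * Real.pi * mm R ^ 70) *
        mm R ^ 30 ≤ 2 * Real.exp R * Real.exp (R / mm R ^ 40) * (9 * Real.exp (70 * mm R)) *
          Real.exp (30 * mm R) := by gcongr
    have a2 : 2 * Real.exp R * Real.exp (R / mm R ^ 40) * (9 * Real.exp (70 * mm R)) *
          Real.exp (30 * mm R) = 18 * Real.exp (130 * mm R) *
            Real.exp (R + R / mm R ^ 40 - 30 * mm R) := by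
      have e : Real.exp (130 * mm R) * Real.exp (R + R / mm R ^ 40 - 30 * mm R) =
          Real.exp R * Real.exp (R / mm R ^ 40) * Real.exp (70 * mm R) *
            Real.exp (30 * mm R) := by
        rw [← Real.exp_add, ← Real.exp_add, ← Real.exp_add, ← Real.exp_add]; congr 1; ring
      rw [mul_assoc 18, e]; ring
    rw [a2] at a1
    refine a1.trans ((mul_le_mul_of_nonneg_right e3 (Real.exp_pos _).le).trans ?_)
    refine le_trans ?_ (mul_le_mul_of_nonneg_right hP (Real.exp_pos _).le)
    rw [← Real.exp_add, ← Real.exp_add]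
    have := hk 40 (by norm_num)
    exact Real.exp_le_exp.mpr (by linarith)
  · unfold dl
    have a1 : 4 * (1 + 2 * Real.pi * mm R ^ 70) ≤ Real.exp (R / (4 * mm R)) := by linarith
    refine (mul_le_mul_of_nonneg_left a1 (Real.exp_pos _).le).trans ?_
    rw [← Real.exp_add]
    have a2 := hk 40 (by norm_num)
    have a3 : R / (4 * mm R) = R / mm R / 4 := by field_simp
    exact Real.exp_le_exp.mpr (by linarith)
  · unfold K1 dl
    have a2 := Real.log_le_sub_one_of_pos (x := 120) (by norm_num)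
    have a3 := hk 42 (by norm_num)
    linarith

end Crest.Agent.R100.SB
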