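import Crest.Agent.R100.SBBasic
import Crest.Agent.R100.Crude

/-! # Row 100, STRUCT (helper8): death and doubling -/

set_option autoImplicit false

open MeasureTheory Set

noncomputable section

namespace Crest.Agent.R100.SB

open Crest.Agent.R100 Crest.Agent.R100.Low Crest.Agent.R100.Split Crest.Agent.R100.Life
  Crest.Agent.R100.Birth

variable {R B : ℝ} {s : St}

theorem St.rho_nonneg (s : St) (v : List Bool) : 0 ≤ s.rho v := by
  unfold St.rho
  split_ifs
  · exact avg_nonneg_len _ fun l _ => by split_ifs <;> norm_num
  · exact le_rfl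
  · exact le_rfl

theorem St.OK.rho_nil (h : s.OK R B) : s.rho [] ≤ s.ρ := by
  classical
  unfold St.rho
  split_ifs with h1 h2
  · simpa using h.death (Nat.find h1) (Nat.find_spec h1) fun j hj => not_not.1 (Nat.find_min h1 hj)
  · exact h.rho0
  · exact h.rho0

theorem St.OK.rho_mart (h : s.OK R B) {v : List Bool} (hv : s.Liv v.length) :
    (s.rho (v ++ [false]) + s.rho (v ++ [true])) / 2 ≤ s.rho v := by
  classical
  unfold St.rho
  by_cases h1 : ∃ k, ¬ s.Liv k
  · have h2 : v.length < Nat.find h1 := by
      by_contra hc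
      exact Nat.find_spec h1 (h.livd _ _ (not_lt.1 hc) hv)
    obtain ⟨m, hm⟩ := Nat.exists_eq_add_of_lt h2
    have e1 : Nat.find h1 - v.length = m + 1 := by omega
    have e2 : Nat.find h1 - (v.length + 1) = m := by omega
    have e3 : v.length + 1 ≤ Nat.find h1 := h2
    simp only [dif_pos h1, List.length_append, List.length_singleton, if_pos e3, if_pos h2.le, e1,
      e2, avg, List.append_assoc, List.singleton_append, le_refl]
  · simp only [dif_neg h1]
    norm_num

open Classical in
/-- the death budgets of the stop nodes -/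
theorem St.OK.rho_acc (h : s.OK R B) {A : List Bool → Prop} (h0 : A [])
    (hup : ∀ v c, A (v ++ [c]) → A v) (hA : ∀ v, A v → s.Liv v.length) (n : ℕ) :
    ∑ j ∈ Finset.range n, avg j (fun v => if ¬ A v ∧ A v.dropLast then s.rho v else 0) ≤ s.ρ := by
  have key : ∀ n, avg n (fun v => if A v then s.rho v else 0) +
      ∑ j ∈ Finset.range (n + 1), avg j (fun v => if ¬ A v ∧ A v.dropLast then s.rho v else 0) ≤
        s.rho [] := by
    intro n
    induction n with
    | zero => simp [avg, h0]
    | succ n ih =>
      rw [Finset.sum_range_succ]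
      have h1 : avg (n + 1) (fun v => if A v then s.rho v else 0) +
          avg (n + 1) (fun v => if ¬ A v ∧ A v.dropLast then s.rho v else 0) ≤
            avg n (fun v => if A v then s.rho v else 0) := by
        rw [← avg_add', avg_snoc]
        refine avg_mono_len n fun v _ => ?_
        simp only [List.dropLast_concat]
        by_cases hv : A v
        · have h2 := h.rho_mart (hA v hv)
          have h3 : ∀ c, ((if A (v ++ [c]) then s.rho (v ++ [c]) else 0) +
              if ¬ A (v ++ [c]) ∧ A v then s.rho (v ++ [c]) else 0) = s.rho (v ++ [c]) := by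
            intro c
            by_cases hc : A (v ++ [c]) <;> simp [hc, hv]
          rw [h3, h3, if_pos hv]
          exact h2
        · have h3 : ∀ c, ¬ A (v ++ [c]) := fun c hc => hv (hup v c hc)
          simp [h3, hv]
      linarith
  cases n with
  | zero => simpa using h.rho0
  | succ n =>
    have h1 : 0 ≤ avg n (fun v => if A v then s.rho v else 0) :=
      avg_nonneg_len _ fun l _ => by
        split_ifs
        · exact s.rho_nonneg l
        · exact le_rfl
    linarith [key n, h.rho_nil]

/-- death -/
theorem St.OK.dies (h : s.OK R B) (hN : Num R B) {c : s.Y → ℝ → ℝ} (hc : Sub s.a c)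
    {w : List Bool} {b : Bool} (hw : s.Liv w.length) (hv : ¬ s.Liv (w ++ [b]).length) :
    Cost (tot c) (nd s.α s.ℓ (w ++ [b])) (ln s.ℓ (w ++ [b])) B (Cr R B * s.rho (w ++ [b])) := by
  sorry

/-- doubling: the new state is `s` with cells `c`, top `w ++ [b]`, level `2 P`,
`ρ = s.rho (w ++ [b])`, `Liv k = s.Liv ((w ++ [b]).length + k)` -/
theorem St.OK.doubles (h : s.OK R B) (hN : Num R B) {c : s.Y → ℝ → ℝ} (hc : Sub s.a c)
    {w : List Bool} {b : Bool} (hw : s.Go w c) (hv : s.Liv (w ++ [b]).length)
    (hP : s.P < s.hm c (w ++ [b])) : s.Pc R B (s.rho (w ++ [b])) (w ++ [b]) (tot c) := by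
  sorry

end Crest.Agent.R100.SB
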