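import Crest.Agent.R100.SBNum
import Crest.Agent.R100.SBAd
import Crest.Agent.R100.SBBirth
import Crest.Agent.R100.SBLife
import Crest.Agent.R100.SBStop
import Crest.Agent.R100.MlNorm

/-! # Row 100, STRUCT (helper8): assembly -/

set_option autoImplicit false

open MeasureTheory Set

noncomputable section

namespace Crest.Agent.R100.SB

open Crest.Agent.R100 Crest.Agent.R100.Low Crest.Agent.R100.Split Crest.Agent.R100.Life
  Crest.Agent.R100.Birth

variable {R B : ℝ} {s : St}

theorem St.OK.exists_out (h : s.OK R B) (hN : Num R B) (hC : Capt R) :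
    ∃ cl A T r, s.Out R B cl A T r := by
  have hm : 0 < mm R := by linarith [hN.m30]
  obtain ⟨cl, A, T, r, ho⟩ := life_rec (M := Real.exp R) (α := s.α) (θ := s.P / mm R ^ 30)
    (Go := fun v c => Sub s.a c ∧ s.Go v c) (Trig := s.Trig R)
    (Pc := s.Pc R B (Real.exp (-(dl R / 2)))) h.hl (div_pos h.hP (by positivity)) h.cells
    ⟨Sub.refl h.cells.meas, h.liv0, h.mass⟩
    (fun v c c' _ hs hg => ⟨hg.1.trans hs, hg.2.1, (h.hm_mono hg.1 hs v).trans hg.2.2⟩)
    (fun v c hc hg ht => by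
      obtain ⟨j, F, ht⟩ := ht
      obtain ⟨ι, _, z, E, m, y, Bs, ha⟩ := h.adv hN hC hc hg.2 ht
      obtain ⟨h1, h2, -, -⟩ := birth_cells h hc ha
      obtain ⟨h3, h4⟩ := birth_pc h hN hc ht.1 ha
      rw [h2] at h3 h4
      exact ⟨_, h1, h3, h4⟩)
  refine ⟨cl, A, T, r, ho.sub, ho.dec, ho.root, ho.up, ho.her, fun v hv => (ho.go v hv).2, ho.nt,
    ho.gap, ho.dc, fun v i hi => ?_⟩
  rcases ho.pc v i hi with h1 | ⟨w, c, e, h1, h2, h3, h4, h5⟩
  · exact Or.inl h1
  · exact Or.inr ⟨w, c, e, h1, h2, fun hg => h3 ⟨ho.sub w, hg⟩, h4, h5⟩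

theorem cost_state (hL : LIFE) : ∃ C R₀ : ℝ, 1 ≤ C ∧ ∀ (R B : ℝ) (s : St), R₀ ≤ R → Num R B →
    Capt R → s.OK R B → Cost (tot s.a) s.α s.ℓ B
      (C * dl R * (2 * s.P + 8 * (30 * mm R) * av (tot s.a) s.α s.ℓ) + Cr R B * s.ρ) := by
  classical
  obtain ⟨C, R₀, hC1, hlife⟩ := life_cost hL
  refine ⟨C, R₀, hC1, fun R B s hR hN hC hs => ?_⟩
  have hm : 0 < mm R := by linarith [hN.m30]
  have hd := hN.dl_pos
  have hCr : 0 ≤ Cr R B := by unfold Cr; have := hN.B1; positivity
  have hD : 0 ≤ C * dl R := by positivity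
  have key := tree_indQ (ι := ℕ) (M := Real.exp R) (S := {s : St // s.OK R B})
    (fun s => tot s.1.a) (fun s => s.1.α) (fun s => s.1.ℓ) (fun s => s.1.P)
    (fun s => Cr R B * s.1.ρ) (fun s => ⌊wt R B s.1.P s.1.μ⌋₊) (B := B) hD (fun s => s.2.hl)
    (fun ⟨s, h⟩ => by
      obtain ⟨cl, A, T, r, ho⟩ := h.exists_out hN hC
      have hθ : 0 < s.P / mm R ^ 30 := div_pos h.hP (by positivity)
      set κ := Cr R B * Real.exp (-(dl R / 2)) / (s.P / mm R ^ 30) with hκ
      have hκ0 : 0 ≤ κ := by positivity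
      have conv : ∀ (q Jv : ℝ) (v : List Bool) (f : ℝ → ℝ), 0 ≤ Jv → Cr R B * q ≤ Jv →
          s.Pc R B q v f → Cost f (nd s.α s.ℓ v) (ln s.ℓ v) B Jv ∨
            ∃ s' : {s : St // s.OK R B}, tot s'.1.a = f ∧ s'.1.α = nd s.α s.ℓ v ∧
              s'.1.ℓ = ln s.ℓ v ∧ ⌊wt R B s'.1.P s'.1.μ⌋₊ < ⌊wt R B s.P s.μ⌋₊ ∧
              s'.1.P ≤ 4 * avn f s.α s.ℓ v ∧ Cr R B * s'.1.ρ ≤ Jv := by
        intro q Jv v f h0 hq hp
        rcases hp with hp | ⟨s', h', e1, e2, e3, hw, hP, hρ⟩
        · exact Or.inl ((Cost_dead hp).mono h0)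
        · refine Or.inr ⟨⟨s', h'⟩, e1, e2, e3, ?_, hP,
            (mul_le_mul_of_nonneg_left hρ hCr).trans hq⟩
          have h1 := wt_nonneg hN h'.hP h'.hPB h'.hμ
          have h2 : ⌊wt R B s'.P s'.μ + 1⌋₊ ≤ ⌊wt R B s.P s.μ⌋₊ := Nat.floor_le_floor (by linarith)
          rw [Nat.floor_add_one h1] at h2
          exact h2
      refine ⟨_, T, r, fun v i => if A v then κ * avn (r v i) s.α s.ℓ v else Cr R B * s.rho v,
        ho.dc, hlife R B s hR hN h cl A T r ho, fun n => ?_, fun v i hi => ?_⟩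
      · have h1 := mass_pieces ho.dc s.α h.hl n
        have h2 := h.rho_acc ho.root ho.up (fun v hv => (ho.go v hv).1) n
        have h3 : ∀ j, avg j (fun v => ∑ i ∈ T v,
            if A v then κ * avn (r v i) s.α s.ℓ v else Cr R B * s.rho v) ≤
            κ * avg j (fun v => ∑ i ∈ T v, avn (r v i) s.α s.ℓ v) +
              Cr R B * avg j (fun v => if ¬ A v ∧ A v.dropLast then s.rho v else 0) := fun j => by
          rw [← avg_mul_left, ← avg_mul_left, ← avg_add']
          refine avg_mono_len j fun v _ => ?_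
          have hn : 0 ≤ ∑ i ∈ T v, avn (r v i) s.α s.ℓ v :=
            Finset.sum_nonneg fun i hi => avn_nonneg (ho.dc.br v i hi) s.α h.hl v
          by_cases hv : A v
          · simp [hv, Finset.mul_sum]
          · simp only [if_neg hv]
            rcases (T v).eq_empty_or_nonempty with he | ⟨i, hi⟩
            · rw [he]
              have := s.rho_nonneg v
              simp only [Finset.sum_empty, mul_zero, zero_add]
              split_ifs <;> positivity
            · rcases ho.pc v i hi with h4 | ⟨w, c, e, h4, -, -, -, h5⟩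
              · exact absurd h4.1 hv
              · have h6 : A v.dropLast := by rw [e]; simpa using h4
                rw [if_pos ⟨hv, h6⟩]
                have h7 : ∑ _i ∈ T v, Cr R B * s.rho v = Cr R B * s.rho v := by rw [h5]; simp
                rw [h7]
                have := mul_nonneg hκ0 hn
                linarith
        refine (Finset.sum_le_sum fun j _ => h3 j).trans ?_
        rw [Finset.sum_add_distrib, ← Finset.mul_sum, ← Finset.mul_sum]
        have h4 : av (tot s.a) s.α s.ℓ ≤ s.P := by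
          have := (h.avn_le_hm (Sub.refl h.cells.meas) []).1
          rw [avn_nil] at this
          exact this.trans h.mass
        have h5 : κ * s.P ≤ C * dl R * s.P := by
          have e : κ * s.P = Cr R B * Real.exp (-(dl R / 2)) * mm R ^ 30 := by
            rw [hκ]; have := h.hP; field_simp
          rw [e]
          refine hN.junk.trans ?_
          have h6 := mul_le_mul_of_nonneg_left (h.P_ge hN) hd.le
          have h7 : 1 * (dl R * s.P) ≤ C * (dl R * s.P) :=
            mul_le_mul_of_nonneg_right hC1 (mul_pos hd h.hP).le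
          linarith
        have h6 := mul_le_mul_of_nonneg_left (h1.trans h4) hκ0
        have h7 := mul_le_mul_of_nonneg_left h2 hCr
        change _ ≤ C * dl R * s.P + Cr R B * s.ρ
        linarith
      · have hn := avn_nonneg (ho.dc.br v i hi) s.α h.hl v
        rcases ho.pc v i hi with ⟨h1, h2, h3⟩ | ⟨w, c, e, h1, h2, h3, h4, -⟩
        · simp only [if_pos h1]
          refine ⟨by positivity, conv _ _ v _ (by positivity) ?_ h2⟩
          have := mul_le_mul_of_nonneg_left h3 hκ0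
          rwa [hκ, div_mul_cancel₀ _ hθ.ne'] at this
        · simp only [if_neg h2]
          have h5 := mul_nonneg hCr (s.rho_nonneg v)
          refine ⟨h5, ?_⟩
          rw [h4]
          subst e
          by_cases hl : s.Liv (w ++ [c]).length
          · exact conv _ _ _ _ h5 le_rfl (h.doubles hN (ho.sub w) (ho.go w h1) hl
              (not_le.1 fun hh => h3 ⟨hl, hh⟩))
          · exact Or.inl (h.dies hN (ho.sub w) (ho.go w h1).1 hl)) ⟨s, hs⟩
  refine key.mono ?_
  have h1 : (⌊wt R B s.P s.μ⌋₊ : ℝ) ≤ 30 * mm R :=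
    (Nat.floor_le (wt_nonneg hN hs.hP hs.hPB hs.hμ)).trans hs.hw
  have h2 : 0 ≤ av (tot s.a) s.α s.ℓ := by
    have := avn_nonneg hs.cells.bd s.α hs.hl []
    rwa [avn_nil] at this
  have h3 := mul_le_mul_of_nonneg_right h1 h2
  have h4 : 2 * s.P + 8 * (⌊wt R B s.P s.μ⌋₊ : ℝ) * av (tot s.a) s.α s.ℓ ≤
      2 * s.P + 8 * (30 * mm R) * av (tot s.a) s.α s.ℓ := by nlinarith
  have := mul_le_mul_of_nonneg_left h4 hD
  change C * dl R * (2 * s.P + 8 * (⌊wt R B s.P s.μ⌋₊ : ℝ) * av (tot s.a) s.α s.ℓ) +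
    Cr R B * s.ρ ≤ _
  linarith

/-- the root state -/
def rootSt (g : ℝ → ℝ) (α ℓ : ℝ) : St where
  Y := Unit
  fY := inferInstance
  Ω := Unit
  fΩ := inferInstance
  a := fun _ => g
  ctr := fun _ => 0
  lam := fun _ => 1
  Z := fun _ => 0
  α := α
  ℓ := ℓ
  P := 1
  μ := 1
  ρ := 0
  Liv := fun _ => True

theorem root_Fc (g : ℝ → ℝ) (α ℓ τ : ℝ) : Fc (rootSt g α ℓ).lam (rootSt g α ℓ).Z τ = 1 := by
  change Fc (fun _ : Unit => (1 : ℝ)) (fun _ => 0) τ = 1
  simp [Fc]

theorem root_tot (g : ℝ → ℝ) (α ℓ : ℝ) : tot (rootSt g α ℓ).a = g := by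
  funext t
  change ∑ _y : Unit, g t = g t
  simp

theorem root_ok (hN : Num R B) {g : ℝ → ℝ} (hg : Measurable g)
    (h0 : ∀ y, 0 ≤ g y ∧ g y ≤ Real.exp R) {α ℓ : ℝ} (hℓ : 0 < ℓ) (hav : av g α ℓ ≤ 1) :
    (rootSt g α ℓ).OK R B := by
  have hm : 0 < mm R := by linarith [hN.m30]
  have hR : 0 < R := by linarith [hN.R1]
  have hw : wt R B 1 1 ≤ 30 * mm R := by
    unfold wt dl
    have e : 10 * (2 * R + Real.log 1) / (R / mm R) = 20 * mm R := by
      rw [Real.log_one]; field_simp; ring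
    rw [e, div_one]
    linarith [hN.root]
  refine ⟨hℓ, one_pos, ?_, ⟨fun _ => hg, fun _ t => (h0 t).1, fun t => ?_⟩, fun _ => zero_le_one,
    ?_, fun τ => ?_, fun y t _ => ?_, trivial, fun _ _ _ _ => trivial, fun k _ x => ?_, le_rfl,
    fun k hk => absurd trivial hk, ?_, ?_, hw, ?_⟩
  · change (1 : ℝ) ≤ 4 * B
    linarith [hN.B1]
  · rw [root_tot]; exact (h0 t).2
  · change ∑ _ω : Unit, (1 : ℝ) = 1
    simp
  · rw [root_Fc]
    change ∑ _ω : Unit, ((1 : ℝ) : ℂ) * ex 0 τ = _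
    simp [ex]
  · rw [root_Fc]; norm_num
  · change ∑ _ω : Unit, (if x ≤ 0 ∧ 0 ≤ x + 2 ^ k / ℓ then (1 : ℝ) else 0) ≤ 1
    simp only [Finset.univ_unique, Finset.sum_singleton]
    split_ifs <;> norm_num
  · have e : ∀ y, (rootSt g α ℓ).hc (rootSt g α ℓ).a y = g := fun y => by
      funext t
      unfold St.hc
      rw [root_Fc, div_one]; rfl
    unfold St.hm
    simp only [e]
    change ∑ _y : Unit, avn g α ℓ [] ≤ 1
    simpa [avn_nil] using hav
  · change Real.exp (-(2 * R)) ≤ 1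
    exact Real.exp_le_one_iff.2 (by linarith)
  · change Real.log (Fintype.card Unit) ≤ (30 * mm R - wt R B 1 1) * K1 R
    have := hN.K1_pos
    simp only [Fintype.card_unit, Nat.cast_one, Real.log_one]
    exact mul_nonneg (by linarith) this.le

theorem mlt_of_life (hL : LIFE) (hC : ∃ R₀, ∀ R, R₀ ≤ R → Capt R) : MLt := by
  obtain ⟨C, R₀, hC1, hcost⟩ := cost_state hL
  obtain ⟨R₁, hC⟩ := hC
  obtain ⟨R₂, hnum⟩ := num_large
  refine ⟨C * 242, max R₀ (max R₁ R₂), fun R B g n α ℓ ξ hR hR0 hB1 hB hg h0 hℓ hav => ?_⟩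
  have hN := hnum R B ((le_max_right _ _).trans ((le_max_right _ _).trans hR0)) hB1 hB
  rw [ca_ofReal (fun y => (h0 y).1)] at hav
  have h1 := hcost R B _ ((le_max_left _ _).trans hR0) hN
    (hC R ((le_max_left _ _).trans ((le_max_right _ _).trans hR0))) (root_ok hN hg h0 hℓ hav)
  rw [root_tot] at h1
  have h2 := h1 n (eB (fun y => (g y : ℂ)) B α ℓ) ⟨eB_norm _ _ _ _, fun v hv k hk => by
      have := eB_alive _ _ _ _ v hv k hk
      rwa [ca_ofReal (fun y => (h0 y).1)] at this, fun v => by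
      unfold eB; split_ifs <;> simp, fun v k hv => by
      have h3 := eB_alive _ _ _ _ v hv
      have h4 : AliveB (fun y => (g y : ℂ)) B α ℓ (v.take k) := fun j hj => by
        rw [List.take_take]
        exact h3 _ ((min_le_left _ _).trans (hj.trans (by simp)))
      unfold eB; rw [if_pos h4]; exact one_ne_zero⟩ ξ
  refine h2.trans ?_
  change C * dl R * (2 * 1 + 8 * (30 * mm R) * av g α ℓ) + Cr R B * 0 ≤ _
  have hm : 30 ≤ mm R := hN.m30
  have hd := hN.dl_pos
  have e : dl R * mm R = R := by unfold dl; field_simp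
  have h5 : 2 * 1 + 8 * (30 * mm R) * av g α ℓ ≤ 242 * mm R := by nlinarith
  have h6 := mul_le_mul_of_nonneg_left h5 (show 0 ≤ C * dl R by positivity)
  calc _ ≤ C * dl R * (242 * mm R) := by linarith
    _ = C * 242 * (dl R * mm R) := by ring
    _ = _ := by rw [e]

end Crest.Agent.R100.SB
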