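import Crest.Agent.R100.SepDoob

set_option autoImplicit false

open MeasureTheory Set

noncomputable section

namespace Crest.Agent.R100.Low

open Crest.Agent.R100

theorem sep_tm_take (e u : List Bool → ℂ) (l : List Bool) {k j : ℕ} (h : j + 1 < k) :
    tm e u (l.take k) j = tm e u l j := by
  have h1 : (l.take k).getD j false = l.getD j false := by
    simp only [List.getD_eq_getElem?_getD, List.getElem?_take, if_pos (show j < k by omega)]
  have h2 : (l.take k).getD (j + 1) false = l.getD (j + 1) false := by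
    simp only [List.getD_eq_getElem?_getD, List.getElem?_take, if_pos h]
  have h3 : (l.take k).take j = l.take j := by
    rw [List.take_take, min_eq_left (by omega)]
  rw [tm, tm, h1, h2, h3]

/-- the full shift at a node -/
def sepS (e u : List Bool → ℂ) (v : List Bool) : ℂ := ∑ j ∈ Finset.range (v.length - 1), tm e u v j

theorem sepS_take (e u : List Bool → ℂ) (l : List Bool) {k : ℕ} (hk : k ≤ l.length - 1) :
    sepS e u (l.take (k + 1)) = ∑ j ∈ Finset.range k, tm e u l j := by
  have : (l.take (k + 1)).length - 1 = k := by rw [List.length_take]; omega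
  rw [sepS, this]
  exact Finset.sum_congr rfl fun j hj => sep_tm_take e u l (by simpa using hj)

theorem sepS_snoc (e u : List Bool → ℂ) (v : List Bool) {m : ℕ} (hv : v.length = m + 1) (c : Bool) :
    sepS e u (v ++ [c]) = sepS e u v + (sig (v.getD m false) c : ℂ) *
      (e (v.take m) * (u (v.take m ++ [false]) - u (v.take m))) := by
  have h0 : (v ++ [c]).length - 1 = m + 1 := by simp [hv]
  have h1 : sepS e u v = ∑ j ∈ Finset.range m, tm e u (v ++ [c]) j := by
    rw [← sepS_take e u (v ++ [c]) (by omega), ← hv, List.take_left']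
    rfl
  have h2 : (v ++ [c]).getD m false = v.getD m false := by
    simp only [List.getD_eq_getElem?_getD, List.getElem?_append_left (show m < v.length by omega)]
  have h3 : (v ++ [c]).getD (m + 1) false = c := by
    rw [← hv]; simp
  have h4 : (v ++ [c]).take m = v.take m := List.take_append_of_le_length (by omega)
  rw [sepS, h0, Finset.sum_range_succ, ← h1, tm, h2, h3, h4]

theorem sepS_step (e u : List Bool → ℂ) (v : List Bool) {m : ℕ} (hv : v.length = m + 1) :
    ∃ p : ℂ, ‖p‖ ≤ ‖e (v.take m) * (u (v.take m ++ [false]) - u (v.take m))‖ ∧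
      sepS e u (v ++ [false]) = sepS e u v + p ∧ sepS e u (v ++ [true]) = sepS e u v - p := by
  rw [sepS_snoc e u v hv, sepS_snoc e u v hv]
  cases v.getD m false
  · exact ⟨_, le_rfl, by simp [sig], by simp [sig, sub_eq_add_neg]⟩
  · exact ⟨0, by simp only [norm_zero, norm_nonneg], by simp [sig], by simp [sig]⟩

theorem sepS_sub (e u : List Bool → ℂ) (v : List Bool) :
    ‖sepS e u v‖ ≤ (‖sepS e u (v ++ [false])‖ + ‖sepS e u (v ++ [true])‖) / 2 := by
  rcases hv : v.length with _ | m
  · have : sepS e u v = 0 := by simp [sepS, hv]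
    rw [this, norm_zero]
    positivity
  · obtain ⟨p, -, h1, h2⟩ := sepS_step e u v hv
    rw [h1, h2]
    have h3 := norm_add_le (sepS e u v + p) (sepS e u v - p)
    rw [show sepS e u v + p + (sepS e u v - p) = 2 * sepS e u v by ring, norm_mul] at h3
    simp only [Complex.norm_ofNat] at h3
    linarith

theorem sepS_l2 (e u : List Bool → ℂ) (χ : List Bool → ℝ)
    (h : ∀ v, ‖e v * (u (v ++ [false]) - u v)‖ ^ 2 ≤ χ v) (n : ℕ) :
    avg n (fun l => ‖sepS e u l‖ ^ 2) ≤
      avg n (fun l => ∑ k ∈ Finset.range (n - 1), χ (l.take k)) := by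
  induction n with
  | zero => simp [avg, sepS]
  | succ n ih =>
    rcases n with _ | m
    · simp [avg, sepS]
    · rw [avg_snoc, avg_snoc (m + 1) fun l => ∑ k ∈ Finset.range (m + 1 + 1 - 1), χ (l.take k)]
      have e1 : avg (m + 1) (fun v => (∑ k ∈ Finset.range (m + 1 + 1 - 1), χ ((v ++ [false]).take k) +
          ∑ k ∈ Finset.range (m + 1 + 1 - 1), χ ((v ++ [true]).take k)) / 2) =
          avg (m + 1) (fun v => ∑ k ∈ Finset.range (m + 1 - 1), χ (v.take k) + χ (v.take m)) := by
        refine avg_congr_len _ fun v hv => ?_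
        have : ∀ c : Bool, ∑ k ∈ Finset.range (m + 1 + 1 - 1), χ ((v ++ [c]).take k) =
            ∑ k ∈ Finset.range (m + 1), χ (v.take k) := fun c =>
          Finset.sum_congr rfl fun k hk => by
            rw [List.take_append_of_le_length (by have := Finset.mem_range.1 hk; omega)]
        rw [this, this, Finset.sum_range_succ, Nat.add_sub_cancel]
        ring
      rw [e1, avg_add']
      refine le_trans (avg_mono_len _ (F' := fun v => ‖sepS e u v‖ ^ 2 + χ (v.take m))
        fun v hv => ?_) (by rw [avg_add']; linarith)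
      obtain ⟨p, hp, h1, h2⟩ := sepS_step e u v hv
      have h3 := parallelogram_law_with_norm ℂ (sepS e u v) p
      have h4 := (pow_le_pow_left₀ (norm_nonneg _) hp 2).trans (h _)
      rw [h1, h2]
      nlinarith

theorem sep_abel (a : ℕ → ℝ) (b : ℕ → ℂ) (h0 : ∀ j, 0 ≤ a j) (ha : ∀ j, a j ≤ a (j + 1)) (B : ℝ)
    (t : ℕ) (hB : ∀ k ≤ t, ‖∑ j ∈ Finset.range k, b j‖ ≤ B) :
    ‖∑ j ∈ Finset.range t, (a j : ℂ) * b j‖ ≤ 2 * a t * B := by
  have hB0 : 0 ≤ B := (norm_nonneg _).trans (hB 0 (Nat.zero_le _))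
  have key : ∀ k ≤ t, ‖∑ j ∈ Finset.range k, (a j : ℂ) * b j -
      a k * ∑ j ∈ Finset.range k, b j‖ ≤ a k * B := by
    intro k
    induction k with
    | zero => intro _; simpa using mul_nonneg (h0 0) hB0
    | succ k ih =>
      intro hk
      have e1 : ∑ j ∈ Finset.range (k + 1), (a j : ℂ) * b j -
          a (k + 1) * ∑ j ∈ Finset.range (k + 1), b j =
          (∑ j ∈ Finset.range k, (a j : ℂ) * b j - a k * ∑ j ∈ Finset.range k, b j) -
            ((a (k + 1) - a k : ℝ) : ℂ) * ∑ j ∈ Finset.range (k + 1), b j := by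
        simp only [Finset.sum_range_succ]
        push_cast
        ring
      have e2 := mul_le_mul_of_nonneg_left (hB _ hk) (sub_nonneg.2 (ha k))
      rw [e1]
      refine (norm_sub_le _ _).trans ?_
      rw [norm_mul, Complex.norm_real, Real.norm_of_nonneg (sub_nonneg.2 (ha k))]
      linarith [ih (by omega)]
  have h1 := norm_add_le (∑ j ∈ Finset.range t, (a j : ℂ) * b j - a t * ∑ j ∈ Finset.range t, b j)
    (a t * ∑ j ∈ Finset.range t, b j)
  rw [sub_add_cancel, norm_mul, Complex.norm_real, Real.norm_of_nonneg (h0 t)] at h1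
  have h2 := mul_le_mul_of_nonneg_left (hB t le_rfl) (h0 t)
  linarith [key t le_rfl]

theorem sep_exG (F : List Bool → ℝ) : ∃ τ : List Bool → ℕ, ∀ (l : List Bool) (j : ℕ),
    F (l.take j) ≤ F (l.take (τ l)) := by
  have : ∀ l : List Bool, ∃ τ : ℕ, ∀ j, F (l.take j) ≤ F (l.take τ) := fun l => by
    obtain ⟨τ, -, h⟩ := Finset.exists_max_image (Finset.range (l.length + 1))
      (fun j => F (l.take j)) ⟨0, by simp⟩
    refine ⟨τ, fun j => ?_⟩
    have := h (min j l.length) (Finset.mem_range.2 (by omega))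
    rwa [← List.take_take, List.take_length] at this
  exact ⟨fun l => (this l).choose, fun l => (this l).choose_spec⟩

/-- **SEPARATED MODEL** (one label): strong `L log L → L¹` bound of the shift of a nonnegative
martingale, free windows -/
theorem sep (F : List Bool → ℝ) (h0 : ∀ v, 0 ≤ F v) (hF : MartR F) (e : List Bool → ℂ)
    (he : ∀ v, ‖e v‖ ≤ 1) (η : ℝ) (hη : 0 < η) (hη1 : η ≤ 1) (n : ℕ) (s t : List Bool → ℕ)
    (ht : ∀ l, l.length = n → t l ≤ n - 1) :
    avg n (fun l => ‖win e (fun v => (F v : ℂ)) l (s l) (t l)‖) ≤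
      40 * (Ent F n / η + η * F []) := by
  obtain ⟨τ, hτ⟩ := sep_exG F
  obtain ⟨G, hG⟩ : ∃ G : List Bool → ℝ, ∀ v, G v = F (v.take (τ v)) := ⟨_, fun _ => rfl⟩
  have G0 : ∀ v, 0 ≤ G v := fun v => hG v ▸ h0 _
  have G1 : ∀ v, F v ≤ G v := fun v => by
    have := hτ v v.length
    rwa [List.take_length, ← hG] at this
  have G2 : ∀ (l : List Bool) (j : ℕ), G (l.take j) ≤ G l := fun l j => by
    rw [hG, hG, List.take_take]
    exact hτ l _
  have G3 : ∀ (l : List Bool) (j : ℕ), G (l.take j) ≤ G (l.take (j + 1)) := fun l j => by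
    have := G2 (l.take (j + 1)) j
    rwa [List.take_take, min_eq_left (Nat.le_succ j)] at this
  have hz : ∀ v, F v = 0 → F (v ++ [false]) = 0 := fun v hv => by
    have := hF v
    linarith [h0 (v ++ [false]), h0 (v ++ [true])]
  set u : List Bool → ℂ := fun v => (F v : ℂ) with hu
  set e2 : List Bool → ℂ := fun v => e v / (Real.sqrt (G v) : ℝ) with he2
  have t1 : ∀ l j, tm e u l j = (Real.sqrt (G (l.take j)) : ℝ) * tm e2 u l j := fun l j => by
    rcases (G0 (l.take j)).eq_or_lt with h | h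
    · have h1 : F (l.take j) = 0 := le_antisymm (h ▸ G1 _) (h0 _)
      simp [tm, hu, h1, hz _ h1]
    · have h1 : ((Real.sqrt (G (l.take j)) : ℝ) : ℂ) ≠ 0 := by
        exact_mod_cast (Real.sqrt_pos.2 h).ne'
      simp only [tm, he2]
      field_simp
  have t2 : ∀ v, ‖e2 v * (u (v ++ [false]) - u v)‖ ^ 2 ≤ (F (v ++ [false]) - F v) ^ 2 / F v := by
    intro v
    rcases (h0 v).eq_or_lt with h | h
    · simp [hu, ← h, hz _ h.symm]
    · have h1 : 0 < G v := h.trans_le (G1 v)
      have h2 : ‖e v‖ ^ 2 ≤ 1 := pow_le_one₀ (norm_nonneg _) (he v)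
      simp only [he2, hu]
      rw [← Complex.ofReal_sub, norm_mul, norm_div, Complex.norm_real, Complex.norm_real, mul_pow,
        div_pow, Real.norm_eq_abs, Real.norm_eq_abs, sq_abs, sq_abs, Real.sq_sqrt h1.le,
        div_mul_eq_mul_div]
      exact div_le_div₀ (sq_nonneg _) (mul_le_of_le_one_left (sq_nonneg _) h2) h (G1 v)
  obtain ⟨σ, hσ⟩ := sep_exG fun v => ‖sepS e2 u v‖
  have p1 : ∀ l, l.length = n → ‖win e u l (s l) (t l)‖ ≤
      2 * η * F (l.take (τ l)) + 2 / η * ‖sepS e2 u (l.take (σ l))‖ ^ 2 := by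
    intro l hl
    obtain ⟨B, hB⟩ : ∃ B, B = ‖sepS e2 u (l.take (σ l))‖ := ⟨_, rfl⟩
    have B0 : 0 ≤ B := hB ▸ norm_nonneg _
    have hA := Real.sqrt_nonneg (G l)
    have q1 : ∀ k ≤ n - 1, ‖∑ j ∈ Finset.range k, tm e u l j‖ ≤ 2 * Real.sqrt (G l) * B := by
      intro k hk
      simp only [t1]
      refine (sep_abel (fun j => Real.sqrt (G (l.take j))) (tm e2 u l)
        (fun j => Real.sqrt_nonneg _) (fun j => Real.sqrt_le_sqrt (G3 l j)) B k
        fun i hi => ?_).trans ?_
      · rw [← sepS_take e2 u l (by omega), hB]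
        exact hσ l _
      · have := Real.sqrt_le_sqrt (G2 l k)
        gcongr
    have q2 : ‖win e u l (s l) (t l)‖ ≤ 4 * Real.sqrt (G l) * B := by
      rcases le_total (s l) (t l) with h | h
      · rw [win, Finset.sum_Ico_eq_sub _ h]
        refine (norm_sub_le _ _).trans ?_
        linarith [q1 _ (ht l hl), q1 _ (h.trans (ht l hl))]
      · rw [win, Finset.Ico_eq_empty_of_le h, Finset.sum_empty, norm_zero]
        positivity
    rw [← hG, ← hB]
    refine q2.trans ?_
    have q3 : 0 ≤ 2 / η * (η * Real.sqrt (G l) - B) ^ 2 := by positivity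
    have q4 : 2 / η * (η * Real.sqrt (G l) - B) ^ 2 =
        2 * η * Real.sqrt (G l) ^ 2 + 2 / η * B ^ 2 - 4 * Real.sqrt (G l) * B := by
      field_simp
      ring
    rw [q4, Real.sq_sqrt (G0 l)] at q3
    linarith
  have a1 := doob_llogl F h0 hF n τ
  have a2 := doob_l2 (fun v => ‖sepS e2 u v‖) (fun v => norm_nonneg _) (sepS_sub e2 u) n σ
  have a3 := sepS_l2 e2 u _ t2 n
  have a4 := chi_le_ent F h0 hF n
  have a5 : avg n (fun l => ∑ k ∈ Finset.range (n - 1),
      (F (l.take k ++ [false]) - F (l.take k)) ^ 2 / F (l.take k)) ≤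
      avg n (fun l => ∑ k ∈ Finset.range n,
        (F (l.take k ++ [false]) - F (l.take k)) ^ 2 / F (l.take k)) :=
    avg_mono_len n fun l _ => Finset.sum_le_sum_of_subset_of_nonneg
      (Finset.range_mono (Nat.sub_le n 1)) fun k _ _ => div_nonneg (sq_nonneg _) (h0 _)
  have a6 := Ent_nonneg F h0 hF n
  refine (avg_mono_len n p1).trans ?_
  rw [avg_add', avg_mul_left, avg_mul_left]
  have b1 := mul_le_mul_of_nonneg_left a1 (show 0 ≤ 2 * η by positivity)
  have b2 := mul_le_mul_of_nonneg_left (a2.trans (show _ ≤ 8 * Ent F n by linarith))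
    (show 0 ≤ 2 / η by positivity)
  have b3 : η * Ent F n ≤ Ent F n / η := by
    rw [le_div_iff₀ hη]
    nlinarith [mul_nonneg a6 (show 0 ≤ 1 - η * η by nlinarith)]
  have b4 : 2 / η * (8 * Ent F n) = 16 * (Ent F n / η) := by ring
  have b5 : 0 ≤ η * F [] := mul_nonneg hη.le (h0 _)
  have b6 : 0 ≤ Ent F n / η := div_nonneg a6 hη.le
  nlinarith

end Crest.Agent.R100.Low
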