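import Crest.Agent.R100.StBasic
import Crest.Agent.R100.LifeDefs
import Crest.Agent.R100.AdPlusC
import Crest.Agent.R100.Capt79
import Crest.Agent.R100.LifeBes
import Crest.Agent.R100.Num42

/-! # Row 100, STRUCT: `CapP` from approximate duality -/

set_option autoImplicit false

open MeasureTheory Set

noncomputable section

namespace Crest.Agent.R100.St

open Crest.Agent.R100 Crest.Agent.R100.Low Crest.Agent.R100.Str Crest.Agent.R100.Ent

/-- Bessel count at one interval -/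
theorem StAD_bes {Y : Type} [Fintype Y] {h : Y → ℝ → ℝ} {a l P E κ b : ℝ} (hl : 0 < l) (hP : 0 < P)
    (hE : 0 ≤ E) (hκ : 0 < κ) (hκ1 : κ ≤ 1) (hb : 0 < b) (hm : ∀ y, Measurable (h y))
    (h0 : ∀ y t, 0 ≤ h y t) (hs : ∀ y t, h y t ≤ E * P) (hmass : mass h a l ≤ P) (F : Finset ℤ)
    (hF : ∀ N ∈ F, b * P ≤ sz h a l ((N : ℝ) * κ / l)) :
    (F.card : ℝ) ≤ Fintype.card Y * (8 / κ) * E / b ^ 2 := by
  have hpi := Real.pi_pos
  have hpi3 := Real.pi_gt_three
  have hpi4 := Real.pi_le_four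
  set M := E * P with hM
  have hM0 : 0 ≤ M := by positivity
  have hη : 0 < κ / l := by positivity
  have hT : 2 * Real.pi / (κ / l) = 2 * Real.pi / κ * l := by field_simp
  have hT1 : 1 ≤ 2 * Real.pi / κ := by rw [le_div_iff₀ hκ]; linarith
  have hT8 : 2 * Real.pi / κ ≤ 8 / κ := div_le_div_of_nonneg_right (by linarith) hκ.le
  have hms : ∀ y, 0 ≤ av (h y) a l := fun y =>
    div_nonneg (intervalIntegral.integral_nonneg (by linarith) fun t _ => h0 y t) hl.le
  have hy : ∀ y, ∑ N ∈ F, ‖cu (cx (h y)) ((N : ℝ) * κ / l) a l‖ ^ 2 ≤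
      8 / κ * (M * av (h y) a l) := by
    intro y
    have hb := Life.lifeBes_bessel (hm y) (h0 y) (hs y) F hη a hl.le (by rw [hT]; nlinarith)
    have e : ∀ N : ℤ, ‖cu (cx (h y)) ((N : ℝ) * κ / l) a l‖ ^ 2 =
        ‖∫ t in a..a + l, (h y t : ℂ) * ex (κ / l * N) t‖ ^ 2 / l ^ 2 := by
      intro N
      have : (N : ℝ) * κ / l = κ / l * N := by ring
      unfold cu cx
      rw [this, norm_div, div_pow, Complex.norm_real, Real.norm_of_nonneg hl.le]
    simp only [e]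
    rw [← Finset.sum_div, div_le_iff₀ (by positivity)]
    refine hb.trans ?_
    have e2 : ∫ t in a..a + l, h y t = av (h y) a l * l := by
      unfold av; field_simp
    rw [hT, e2]
    have h0 : 0 ≤ M * av (h y) a l * l ^ 2 := by have := hms y; positivity
    have := mul_le_mul_of_nonneg_right hT8 h0
    nlinarith
  have h1 : (F.card : ℝ) * (b * P) ^ 2 ≤
      ∑ N ∈ F, (Fintype.card Y : ℝ) * ∑ y, ‖cu (cx (h y)) ((N : ℝ) * κ / l) a l‖ ^ 2 := by
    rw [← nsmul_eq_mul, ← Finset.sum_const]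
    refine Finset.sum_le_sum fun N hN => ?_
    have h2 : (b * P) ^ 2 ≤ sz h a l ((N : ℝ) * κ / l) ^ 2 :=
      pow_le_pow_left₀ (by positivity) (hF N hN) 2
    refine h2.trans ?_
    have := sq_sum_le_card_mul_sum_sq (s := (Finset.univ : Finset Y))
      (f := fun y => ‖cu (cx (h y)) ((N : ℝ) * κ / l) a l‖)
    simpa [sz] using this
  rw [← Finset.mul_sum, Finset.sum_comm] at h1
  have h3 : ∑ y, ∑ N ∈ F, ‖cu (cx (h y)) ((N : ℝ) * κ / l) a l‖ ^ 2 ≤ 8 / κ * (M * P) := by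
    refine (Finset.sum_le_sum fun y _ => hy y).trans ?_
    rw [← Finset.mul_sum, ← Finset.mul_sum]
    exact mul_le_mul_of_nonneg_left (mul_le_mul_of_nonneg_left hmass hM0) (by positivity)
  have h4 := h1.trans (mul_le_mul_of_nonneg_left h3 (Nat.cast_nonneg _))
  rw [le_div_iff₀ (by positivity)]
  have h5 : (F.card : ℝ) * b ^ 2 * P ^ 2 ≤ Fintype.card Y * (8 / κ) * E * P ^ 2 := by
    rw [hM] at h4
    nlinarith
  exact le_of_mul_le_mul_right h5 (by positivity)

open Crest.Agent.R100.Life in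
/-- from `Birth.capture` (R100/Capture.lean, helper43) and a Bessel bound `log S.card ≤ 10 R` -/
theorem capP : ∃ R₀ : ℝ, ∀ (R : ℝ) (j₀ : ℕ), R₀ ≤ R → (2 : ℝ) ^ j₀ ≤ mm R ^ 3 →
    CapP (2 * R) (R / mm R ^ 40) (kap R) (R / mm R ^ 45) j₀ := by
  obtain ⟨R₁, hcap⟩ := AdP.capture
  obtain ⟨R₂, hnum⟩ := N42.ex_of_ev (((N42.ev_mm 1).and (N42.ev_mm_pow 8 76 0)).and
    (Filter.eventually_ge_atTop 1))
  refine ⟨max R₁ R₂, fun R j₀ hR hj₀ Y _ h a l P j S hl hP hj hS hm h0 hs hc hmass hF => ?_⟩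
  obtain ⟨⟨hm1, hm76⟩, hR1⟩ := hnum R (le_of_max_le_right hR)
  rw [pow_zero, div_one] at hm76
  have hR0 : 0 ≤ R := by linarith
  have hmp : 0 < mm R := by linarith
  have hj' : (2 : ℝ) ^ j ≤ mm R ^ 3 :=
    (pow_le_pow_right₀ (by norm_num) hj).trans hj₀
  have hsy : ∀ y t, h y t ≤ Real.exp (2 * R) * P := fun y t =>
    (Finset.single_le_sum (f := fun y => h y t) (fun y _ => h0 y t) (Finset.mem_univ y)).trans
      (hs t)
  have hκ : 0 < kap R := by unfold kap; positivity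
  have hκ1 : kap R ≤ 1 := by
    unfold kap
    exact inv_le_one_of_one_le₀ (one_le_pow₀ hm1)
  have hW : R / mm R ^ 40 ≤ R := div_le_self hR0 (one_le_pow₀ hm1)
  have hW0 : 0 ≤ R / mm R ^ 40 := by positivity
  have hlogY : Real.log (Fintype.card Y) ≤ R / mm R ^ 40 := by
    rcases Nat.eq_zero_or_pos (Fintype.card Y) with h1 | h1
    · rw [h1]; simpa using hW0
    · exact (Real.log_le_iff_le_exp (by exact_mod_cast h1)).2 hc
  have hbes := StAD_bes (b := 1 / 2 ^ j) hl hP (Real.exp_pos _).le hκ hκ1 (by positivity) hm h0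
    hsy hmass S (fun N hN => by
      have := hF N hN
      rwa [div_mul_eq_mul_div, one_mul])
  have hlogS : Real.log S.card ≤ 10 * R := by
    have hS0 : (0 : ℝ) < S.card := by exact_mod_cast hS.card_pos
    rw [Real.log_le_iff_le_exp hS0]
    refine hbes.trans ?_
    have e1 : (Fintype.card Y : ℝ) * (8 / kap R) * Real.exp (2 * R) / (1 / 2 ^ j) ^ 2 =
        Fintype.card Y * (8 * mm R ^ 70 * (2 ^ j) ^ 2) * Real.exp (2 * R) := by
      unfold kap
      field_simp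
    have e2 : 8 * mm R ^ 70 * ((2 : ℝ) ^ j) ^ 2 ≤ Real.exp R := by
      have h1 : ((2 : ℝ) ^ j) ^ 2 ≤ (mm R ^ 3) ^ 2 := pow_le_pow_left₀ (by positivity) hj' 2
      have h2 : 8 * mm R ^ 70 * ((2 : ℝ) ^ j) ^ 2 ≤ 8 * mm R ^ 70 * (mm R ^ 3) ^ 2 := by gcongr
      have h3 : 8 * mm R ^ 70 * (mm R ^ 3) ^ 2 = 8 * mm R ^ 76 := by ring
      have h4 := Real.add_one_le_exp R
      linarith
    have e3 : (Fintype.card Y : ℝ) ≤ Real.exp R := hc.trans (Real.exp_le_exp.2 hW)
    rw [e1]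
    calc (Fintype.card Y : ℝ) * (8 * mm R ^ 70 * (2 ^ j) ^ 2) * Real.exp (2 * R)
        ≤ Real.exp R * Real.exp R * Real.exp (2 * R) := by gcongr
      _ = Real.exp (4 * R) := by rw [← Real.exp_add, ← Real.exp_add]; congr 1; ring
      _ ≤ Real.exp (10 * R) := Real.exp_le_exp.2 (by linarith)
  obtain ⟨E, m, c, B, hE0, hE1, hE2, hmc, hBm, hBd, hBp, hBc⟩ :=
    hcap R P Y h a l j S (le_of_max_le_left hR) hl hP hm
      (fun y t => ⟨h0 y t, (hsy y t).trans (by gcongr; linarith)⟩) hlogY hmass hj' hS hlogS hF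
  have hK : Real.exp (R / mm R ^ 50) ≤ Real.exp (R / mm R ^ 45) :=
    Real.exp_le_exp.2 (N42.div_pow_anti hR0 hm1 (by norm_num))
  refine ⟨E, Fin m, inferInstance, B, c, ⟨hE0, hE1⟩, fun k => (hE2 k).trans (by gcongr), ?_, hBm,
    hBd, fun y k t ht => ?_, ?_⟩
  · rw [Fintype.card_fin]
    exact hmc.trans hK
  · have h1 := hBp y k t ht
    have h2 : Fm E (fun k : S => ((k : ℤ) : ℝ) * kap R / l) (t - c y k) =
        Birth.Eh E (fun i => i.1) (kap R / l) (t - c y k) := by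
      unfold Fm Birth.Eh
      refine Finset.sum_congr rfl fun i _ => ?_
      congr 2
      ring
    rw [h2]
    linarith
  · unfold mass
    rw [Fintype.sum_prod_type]
    exact hBc

end Crest.Agent.R100.St
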