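import Crest.Agent.R100.StCI

/-! # Row 100, STRUCT: elementary facts on cells -/

set_option autoImplicit false

open MeasureTheory Set

noncomputable section

namespace Crest.Agent.R100.St

open Crest.Agent.R100 Crest.Agent.R100.Low Crest.Agent.R100.Str Crest.Agent.R100.Ent

variable {Y ι : Type} [Fintype Y] [Fintype ι]

theorem Sub.refl {g : ℝ → ℝ} {H : Y → ℝ → ℝ} {c : Y → ℝ} {lam z : ι → ℝ} (h : Fml g H c lam z) :
    Sub H H := ⟨h.meas, fun y t => ⟨h.nn y t, le_rfl⟩⟩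

theorem Sub.trans {H₁ H₂ H₃ : Y → ℝ → ℝ} (h : Sub H₁ H₂) (h' : Sub H₂ H₃) : Sub H₁ H₃ :=
  ⟨h.1, fun y t => ⟨(h.2 y t).1, (h.2 y t).2.trans (h'.2 y t).2⟩⟩

theorem Fml.sub {g : ℝ → ℝ} {H H₁ : Y → ℝ → ℝ} {c : Y → ℝ} {lam z : ι → ℝ} (h : Fml g H c lam z)
    (h₁ : Sub H₁ H) : Fml g H₁ c lam z := by
  refine ⟨h₁.1, fun y t => (h₁.2 y t).1, fun t => ?_, h.prob, h.im, fun y t ht => h.pure y t ?_⟩
  · exact (Finset.sum_le_sum fun y _ => (h₁.2 y t).2).trans (h.le t)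
  · intro h0
    have h2 := h₁.2 y t
    rw [h0] at h2
    exact ht (le_antisymm h2.2 h2.1)

theorem Fml.bm {g : ℝ → ℝ} {R : ℝ} (hg : Gl g R) {H : Y → ℝ → ℝ} {c : Y → ℝ} {lam z : ι → ℝ}
    (h : Fml g H c lam z) : BM (tot H) := by
  refine ⟨?_, Real.exp R, fun t => ?_⟩
  · exact Complex.measurable_ofReal.comp (Finset.measurable_sum _ fun y _ => h.meas y)
  · have h0 : 0 ≤ ∑ y, H y t := Finset.sum_nonneg fun y _ => h.nn y t
    unfold tot
    rw [Complex.norm_real, Real.norm_eq_abs, abs_of_nonneg h0]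
    exact (h.le t).trans (hg.bd t).2

private theorem b13_norm_ex (ξ y : ℝ) : ‖ex ξ y‖ = 1 := by
  unfold ex
  rw [show (-((ξ * y : ℝ) : ℂ) * Complex.I) = ((-(ξ * y) : ℝ) : ℂ) * Complex.I by push_cast; ring]
  exact Complex.norm_exp_ofReal_mul_I _

theorem Fm_re_le {lam z : ι → ℝ} (h : IsProb lam) (τ : ℝ) : (Fm lam z τ).re ≤ 1 := by
  refine (Complex.re_le_norm _).trans ?_
  unfold Fm
  refine (norm_sum_le _ _).trans ?_
  rw [← h.2]
  refine Finset.sum_le_sum fun i _ => ?_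
  rw [norm_mul, b13_norm_ex, mul_one, Complex.norm_real, Real.norm_eq_abs, abs_of_nonneg (h.1 i)]

private theorem b13_cont_Fm (lam z : ι → ℝ) : Continuous (Fm lam z) := by
  unfold Fm ex
  fun_prop

theorem Fml.dv_meas {g : ℝ → ℝ} {H : Y → ℝ → ℝ} {c : Y → ℝ} {lam z : ι → ℝ} (h : Fml g H c lam z)
    (y : Y) : Measurable (dv H c lam z y) := by
  have h1 : Continuous fun t : ℝ => (Fm lam z (t - c y)).re :=
    Complex.continuous_re.comp ((b13_cont_Fm lam z).comp (continuous_id.sub continuous_const))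
  exact (h.meas y).div h1.measurable

theorem Fml.dv_bd {g : ℝ → ℝ} {H : Y → ℝ → ℝ} {c : Y → ℝ} {lam z : ι → ℝ} (h : Fml g H c lam z)
    (y : Y) (t : ℝ) : H y t ≤ dv H c lam z y t ∧ dv H c lam z y t ≤ 2 * H y t := by
  unfold dv
  by_cases h0 : H y t = 0
  · simp [h0]
  · have h1 := h.pure y t h0
    have h2 := Fm_re_le (z := z) h.prob (t - c y)
    have h3 := h.nn y t
    have h4 : 0 < (Fm lam z (t - c y)).re := by linarith
    constructor
    · rw [le_div_iff₀ h4]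
      nlinarith
    · rw [div_le_iff₀ h4]
      nlinarith

/-- the removed part of the divided cells -/
theorem Fml.dv_sub {g : ℝ → ℝ} {H H₁ : Y → ℝ → ℝ} {c : Y → ℝ} {lam z : ι → ℝ}
    (h : Fml g H c lam z) (h₁ : Sub H₁ H) (y : Y) (t : ℝ) :
    H y t - H₁ y t ≤ dv H c lam z y t - dv H₁ c lam z y t := by
  unfold dv
  have h5 := h₁.2 y t
  by_cases h0 : H y t = 0
  · have h6 : H₁ y t = 0 := by
      rw [h0] at h5
      exact le_antisymm h5.2 h5.1
    simp [h0, h6]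
  · have h1 := h.pure y t h0
    have h2 := Fm_re_le (z := z) h.prob (t - c y)
    have h4 : 0 < (Fm lam z (t - c y)).re := by linarith
    rw [← sub_div, le_div_iff₀ h4]
    nlinarith [h5.2]

theorem stB_ii {f : ℝ → ℝ} (hf : Measurable f) {M : ℝ} (hM : ∀ t, |f t| ≤ M) (a b : ℝ) :
    IntervalIntegrable f volume a b :=
  lowFamA_bdd hf.aestronglyMeasurable (M := M) (fun t => by rw [Real.norm_eq_abs]; exact hM t) a b

/-- monotonicity of the mass with a factor -/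
theorem mass_le_mul {H H' : Y → ℝ → ℝ} {M x : ℝ} (hm : ∀ y, Measurable (H y))
    (hm' : ∀ y, Measurable (H' y)) (h0 : ∀ y t, 0 ≤ H y t) (hM : ∀ y t, |H' y t| ≤ M)
    (h : ∀ y t, H y t ≤ x * H' y t) (a : ℝ) {l : ℝ} (hl : 0 < l) :
    mass H a l ≤ x * mass H' a l := by
  unfold mass av
  rw [Finset.mul_sum]
  refine Finset.sum_le_sum fun y _ => ?_
  rw [← mul_div_assoc, ← intervalIntegral.integral_const_mul]
  refine div_le_div_of_nonneg_right ?_ hl.le
  refine intervalIntegral.integral_mono_on (by linarith) (stB_ii (hm y) (M := |x| * M)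
    (fun t => ?_) _ _) ((stB_ii (hm' y) (hM y) _ _).const_mul x) fun t _ => h y t
  rw [abs_of_nonneg (h0 y t)]
  refine (h y t).trans ((le_abs_self _).trans ?_)
  rw [abs_mul]
  exact mul_le_mul_of_nonneg_left (hM y t) (abs_nonneg x)

theorem mass_nonneg {H : Y → ℝ → ℝ} (h0 : ∀ y t, 0 ≤ H y t) (a : ℝ) {l : ℝ} (hl : 0 < l) :
    0 ≤ mass H a l := by
  unfold mass av
  exact Finset.sum_nonneg fun y _ =>
    div_nonneg (intervalIntegral.integral_nonneg (by linarith) fun t _ => h0 y t) hl.le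

theorem mass_sub {H H' : Y → ℝ → ℝ} {M : ℝ} (hm : ∀ y, Measurable (H y))
    (hm' : ∀ y, Measurable (H' y)) (hM : ∀ y t, |H y t| ≤ M) (hM' : ∀ y t, |H' y t| ≤ M)
    (a l : ℝ) : mass (fun y t => H y t - H' y t) a l = mass H a l - mass H' a l := by
  unfold mass av
  rw [← Finset.sum_sub_distrib]
  refine Finset.sum_congr rfl fun y _ => ?_
  rw [intervalIntegral.integral_sub (stB_ii (hm y) (hM y) _ _) (stB_ii (hm' y) (hM' y) _ _),
    sub_div]

/-- the mass is a martingale -/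
theorem mass_mart {H : Y → ℝ → ℝ} {M : ℝ} (hm : ∀ y, Measurable (H y)) (hM : ∀ y t, |H y t| ≤ M)
    (α : ℝ) {ℓ : ℝ} (hℓ : 0 < ℓ) (v : List Bool) :
    mass H (nd α ℓ v) (ln ℓ v) = (mass H (nd α ℓ (v ++ [false])) (ln ℓ (v ++ [false])) +
      mass H (nd α ℓ (v ++ [true])) (ln ℓ (v ++ [true]))) / 2 := by
  have hl := lowFamA_ln_pos hℓ v
  unfold mass av
  rw [← Finset.sum_add_distrib, Finset.sum_div]
  refine Finset.sum_congr rfl fun y _ => ?_
  simp only [nd_snoc, ln_snoc, lowFamA_ch_false, lowFamA_ch_true]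
  have e : nd α ℓ v + ln ℓ v / 2 + ln ℓ v / 2 = nd α ℓ v + ln ℓ v := by ring
  rw [e, ← intervalIntegral.integral_add_adjacent_intervals (b := nd α ℓ v + ln ℓ v / 2)
    (stB_ii (hm y) (hM y) _ _) (stB_ii (hm y) (hM y) _ _)]
  field_simp

theorem Fml.mass_le_ca {g : ℝ → ℝ} {R : ℝ} (hg : Gl g R) {H : Y → ℝ → ℝ} {c : Y → ℝ}
    {lam z : ι → ℝ} (h : Fml g H c lam z) (a : ℝ) {l : ℝ} (hl : 0 < l) :
    mass H a l ≤ ca (cx g) a l := by
  have hb : ∀ y t, |H y t| ≤ Real.exp R := fun y t => by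
    rw [abs_of_nonneg (h.nn y t)]
    exact (Finset.single_le_sum (f := fun y => H y t) (fun y _ => h.nn y t)
      (Finset.mem_univ y)).trans ((h.le t).trans (hg.bd t).2)
  have hgb : ∀ t, |g t| ≤ Real.exp R := fun t => by
    rw [abs_of_nonneg (hg.bd t).1]; exact (hg.bd t).2
  unfold mass av ca
  rw [← Finset.sum_div, ← intervalIntegral.integral_finsetSum
    fun y _ => stB_ii (h.meas y) (hb y) _ _]
  refine div_le_div_of_nonneg_right ?_ hl.le
  have e : (fun t => ‖cx g t‖) = g := by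
    funext t
    unfold cx
    rw [Complex.norm_real, Real.norm_of_nonneg (hg.bd t).1]
  rw [e]
  refine intervalIntegral.integral_mono_on (by linarith) (stB_ii
    (Finset.measurable_fun_sum _ fun y _ => h.meas y) (M := Real.exp R) (fun t => ?_) _ _)
    (stB_ii hg.meas hgb _ _) fun t _ => h.le t
  rw [abs_of_nonneg (Finset.sum_nonneg fun y _ => h.nn y t)]
  exact (h.le t).trans (hg.bd t).2

theorem rho_nonneg (μ : ℝ) (H : Y → ℝ → ℝ) (α ℓ : ℝ) (D : ℕ) : 0 ≤ rho μ H α ℓ D := by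
  unfold rho
  split_ifs
  · exact avg_nonneg_len D fun v _ => by split_ifs <;> norm_num
  · exact le_rfl

theorem rho_mono (μ : ℝ) {H₁ H : Y → ℝ → ℝ} (h : Sub H₁ H) (α ℓ : ℝ) (D : ℕ) :
    rho μ H₁ α ℓ D ≤ rho μ H α ℓ D := by
  unfold rho
  split_ifs
  · refine avg_mono_len D fun v _ => ?_
    by_cases h1 : meet H₁ (nd α ℓ v) (ln ℓ v)
    · have h2 : meet H (nd α ℓ v) (ln ℓ v) := by
        obtain ⟨y, t, ht, hy⟩ := h1
        refine ⟨y, t, ht, fun h0 => hy (le_antisymm ?_ (h.2 y t).1)⟩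
        rw [← h0]; exact (h.2 y t).2
      rw [if_pos h1, if_pos h2]
    · rw [if_neg h1]
      split_ifs <;> norm_num
  · exact le_rfl

theorem rho_zero (μ α ℓ : ℝ) (D : ℕ) : rho μ (fun (_ : Y) (_ : ℝ) => (0 : ℝ)) α ℓ D = 0 := by
  unfold rho
  split_ifs
  · rw [avg_congr_len D (F' := fun _ => 0) fun v _ => if_neg (by simp [meet]), avg_const]
  · rfl

theorem rho_mart (μ : ℝ) (H : Y → ℝ → ℝ) (α ℓ : ℝ) (v : List Bool) (D : ℕ) :
    rho μ H (nd α ℓ v) (ln ℓ v) (D + 1) =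
      (rho μ H (nd α ℓ (v ++ [false])) (ln ℓ (v ++ [false])) D +
        rho μ H (nd α ℓ (v ++ [true])) (ln ℓ (v ++ [true])) D) / 2 := by
  have e : ∀ (l : ℝ) (c : Bool) (u : List Bool), ln l (c :: u) = ln (l / 2) u := fun l c u => by
    simp only [ln, List.length_cons, pow_succ]; ring
  unfold rho
  split_ifs
  · rw [nd_snoc, nd_snoc, ln_snoc, ln_snoc]
    simp only [avg, nd]
    congr 2 <;> exact avg_congr_len D fun u _ => by rw [e]; congr
  · norm_num

theorem Conc.mono {lam z : ι → ℝ} (hl : IsProb lam) {h h' μ : ℝ} (hc : Conc lam z h μ)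
    (hh : h ≤ h') : Conc lam z h' μ := by
  intro β
  refine le_trans (Finset.sum_le_sum fun i _ => ?_) (hc β)
  by_cases h1 : |z i - β| * h' ≤ 1
  · have h2 : |z i - β| * h ≤ 1 := (mul_le_mul_of_nonneg_left hh (abs_nonneg _)).trans h1
    simp [h1, h2]
  · rw [if_neg h1]
    split_ifs
    · exact hl.1 i
    · exact le_rfl

theorem Conc.of_one {lam z : ι → ℝ} (hl : IsProb lam) (h : ℝ) {μ : ℝ} (hμ : 1 ≤ μ) :
    Conc lam z h μ := by
  intro β
  refine le_trans ?_ hμ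
  rw [← hl.2]
  refine Finset.sum_le_sum fun i _ => ?_
  split_ifs
  · exact le_rfl
  · exact hl.1 i

end Crest.Agent.R100.St
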