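import Crest.Agent.R100.StBasic
import Crest.Agent.R100.Birth

/-! # Row 100, STRUCT: birth of a family, death depth -/

set_option autoImplicit false

open MeasureTheory Set

noncomputable section

namespace Crest.Agent.R100.St

open Crest.Agent.R100 Crest.Agent.R100.Low Crest.Agent.R100.Str Crest.Agent.R100.Ent

variable {Y ι : Type} [Fintype Y] [Fintype ι]

open Classical in
/-- the symmetric mask conditioned on the light bins, and the death depth -/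
theorem birth {E : ι → ℝ} (hE : IsProb E) (kz : ι → ℤ) (hkz : Function.Injective kz)
    {m₀ κ δ ℓ : ℝ} (α : ℝ) (hm : ∀ i, E i ≤ m₀) (hℓ : 0 < ℓ) (hκ : 0 < κ) (hκ1 : κ ≤ 1) :
    ∃ (ι' : Type) (_ : Fintype ι') (lam z : ι' → ℝ) (D : ℕ), IsProb lam ∧
      (∀ τ, (Fm lam z τ).im = 0) ∧
      (∀ τ, 99 / 100 ≤ ‖Fm E (fun i => (kz i : ℝ) * κ / ℓ) τ‖ ^ 2 → 1 / 2 ≤ (Fm lam z τ).re) ∧
      (0 < D → Conc lam z (2 * ℓ / 2 ^ D) (300 * m₀ * Real.exp δ)) ∧
      (300 * m₀ * Real.exp δ < 1 → ∀ t₀ : ℝ,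
        avg D (fun v => if ∃ t ∈ Icc (nd α ℓ v) (nd α ℓ v + ln ℓ v),
          99 / 100 ≤ ‖Fm E (fun i => (kz i : ℝ) * κ / ℓ) (t - t₀)‖ ^ 2 then 1 else 0) ≤
            30 / κ * Real.exp (-δ)) := by
  have hm0 : 0 < m₀ := by
    by_contra hneg
    have h1 : ∑ i, E i ≤ ∑ _i : ι, (0 : ℝ) := Finset.sum_le_sum fun i _ => by
      linarith [hm i, not_lt.1 hneg]
    rw [hE.one] at h1
    simp at h1
    linarith
  have hh : 0 < κ / ℓ := div_pos hκ hℓ
  have hed : 0 < Real.exp δ := Real.exp_pos δ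
  have hθ : 0 < m₀ * Real.exp δ := mul_pos hm0 hed
  obtain ⟨P, Z, Liv, hP0, hP1, hsym, hmono, hlow, hwin, hdead⟩ :=
    Birth.birth hE.nn hE.one hkz hm hh α hℓ hθ
  have hEh : ∀ τ, Birth.Eh E kz (κ / ℓ) τ = Fm E (fun i => (kz i : ℝ) * κ / ℓ) τ := fun τ => by
    unfold Birth.Eh Fm
    refine Finset.sum_congr rfl fun i _ => ?_
    rw [show κ / ℓ * (kz i : ℝ) = (kz i : ℝ) * κ / ℓ by ring]
  have hF : ∀ τ, Fm P Z τ = (Birth.Fc P Z τ : ℂ) := fun τ => hsym τ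
  have him : ∀ τ, (Fm P Z τ).im = 0 := fun τ => by rw [hF, Complex.ofReal_im]
  have hre : ∀ τ, 99 / 100 ≤ ‖Fm E (fun i => (kz i : ℝ) * κ / ℓ) τ‖ ^ 2 →
      1 / 2 ≤ (Fm P Z τ).re := fun τ hτ => by
    rw [hF, Complex.ofReal_re]
    have := hlow τ
    rw [hEh] at this
    linarith
  by_cases hall : ∀ k, Liv k
  · refine ⟨(ι × ι) × Bool, inferInstance, P, Z, 0, ⟨hP0, hP1⟩, him, hre,
      fun h0 => absurd h0 (lt_irrefl 0), fun hlt => ?_⟩
    exfalso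
    set R : ℝ := ∑ ω, |Z ω| with hR
    have hZR : ∀ ω, |Z ω| ≤ R := fun ω =>
      Finset.single_le_sum (f := fun ω => |Z ω|) (fun _ _ => abs_nonneg _) (Finset.mem_univ ω)
    obtain ⟨k, hk⟩ := pow_unbounded_of_one_lt (2 * R * ℓ) (one_lt_two (α := ℝ))
    have hk' : 2 * R ≤ 2 ^ k / ℓ := by
      rw [le_div_iff₀ hℓ]; exact hk.le
    have hw := hwin k (hall k) (-R)
    have he : ∑ ω, (if -R ≤ Z ω ∧ Z ω ≤ -R + 2 ^ k / ℓ then P ω else 0) = ∑ ω, P ω := by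
      refine Finset.sum_congr rfl fun ω _ => if_pos ?_
      have := abs_le.1 (hZR ω)
      constructor <;> linarith [this.1, this.2]
    rw [he, hP1] at hw
    nlinarith
  · have hex : ∃ k, ¬ Liv k := not_forall.1 hall
    refine ⟨(ι × ι) × Bool, inferInstance, P, Z, Nat.find hex, ⟨hP0, hP1⟩, him, hre,
      fun hD β => ?_, fun _ t₀ => ?_⟩
    · obtain ⟨d, hd⟩ : ∃ d, Nat.find hex = d + 1 := ⟨Nat.find hex - 1, by omega⟩
      have hL : Liv d := by
        by_contra hn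
        have := Nat.find_min' hex hn
        omega
      rw [hd]
      have h2 : (0 : ℝ) < 2 ^ d := by positivity
      have hw1 := hwin d hL (β - 2 ^ d / ℓ)
      have hw2 := hwin d hL β
      have hle : ∑ ω, (if |Z ω - β| * (2 * ℓ / 2 ^ (d + 1)) ≤ 1 then P ω else 0) ≤
          ∑ ω, ((if β - 2 ^ d / ℓ ≤ Z ω ∧ Z ω ≤ β - 2 ^ d / ℓ + 2 ^ d / ℓ then P ω else 0) +
            (if β ≤ Z ω ∧ Z ω ≤ β + 2 ^ d / ℓ then P ω else 0)) := by
        refine Finset.sum_le_sum fun ω _ => ?_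
        have hp := hP0 ω
        by_cases hc : |Z ω - β| * (2 * ℓ / 2 ^ (d + 1)) ≤ 1
        · have hc' : |Z ω - β| ≤ 2 ^ d / ℓ := by
            rw [le_div_iff₀ hℓ]
            have e : 2 * ℓ / 2 ^ (d + 1) = ℓ / 2 ^ d := by
              rw [pow_succ]; field_simp
            rw [e, ← mul_div_assoc, div_le_one h2] at hc
            exact hc
          rw [if_pos hc]
          obtain ⟨a1, a2⟩ := abs_le.1 hc'
          by_cases hb : β ≤ Z ω
          · rw [if_pos (show β ≤ Z ω ∧ Z ω ≤ β + 2 ^ d / ℓ from ⟨hb, by linarith⟩)]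
            split_ifs <;> linarith
          · rw [if_pos (show β - 2 ^ d / ℓ ≤ Z ω ∧ Z ω ≤ β - 2 ^ d / ℓ + 2 ^ d / ℓ from
              ⟨by linarith, by linarith [not_le.1 hb]⟩)]
            split_ifs <;> linarith
        · rw [if_neg hc]
          split_ifs <;> linarith
      rw [Finset.sum_add_distrib] at hle
      nlinarith
    · have hd := hdead (Nat.find hex) (Nat.find_spec hex) t₀
        (fun v => ∃ t ∈ Icc (nd α ℓ v) (nd α ℓ v + ln ℓ v),
          99 / 100 ≤ ‖Fm E (fun i => (kz i : ℝ) * κ / ℓ) (t - t₀)‖ ^ 2)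
        (fun v _ hv => by
          obtain ⟨t, ht, hv⟩ := hv
          exact ⟨t, ht, by rw [hEh]; linarith⟩)
      have e1 : κ / ℓ * ℓ = κ := by field_simp
      rw [e1] at hd
      have e2 : 4 * (1 + 2 * Real.pi / κ) * m₀ / (m₀ * Real.exp δ) =
          (4 * κ + 8 * Real.pi) / κ * Real.exp (-δ) := by
        rw [Real.exp_neg]; field_simp; ring
      rw [e2] at hd
      refine le_trans (le_of_eq ?_) (hd.trans ?_)
      · congr
      · have hpi := Real.pi_lt_d2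
        have : (4 * κ + 8 * Real.pi) / κ ≤ 30 / κ :=
          div_le_div_of_nonneg_right (by linarith) hκ.le
        exact mul_le_mul_of_nonneg_right this (Real.exp_pos _).le

/-- Parseval at the birth -/
theorem birth_lb {E : ι → ℝ} (hE : IsProb E) (kz : ι → ℤ) (hkz : Function.Injective kz)
    {m₀ κ ℓ X : ℝ} (α : ℝ) (hm : ∀ i, E i ≤ m₀) (hℓ : 0 < ℓ) (hκ : 0 < κ) (hκ1 : κ ≤ 1)
    {H : Y → ℝ → ℝ} {c : Y → ℝ} (hH : ∀ y, Measurable (H y)) (hX : ∀ y t, 0 ≤ H y t ∧ H y t ≤ X)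
    (hp : ∀ y t, H y t ≠ 0 → 1 / 2 ≤ ‖Fm E (fun i => (kz i : ℝ) * κ / ℓ) (t - c y)‖ ^ 2) :
    mass H α ℓ ≤ Fintype.card Y * X * (15 / κ) * m₀ := by
  have hF : ∀ τ, Birth.Eh E kz (κ / ℓ) τ = Fm E (fun i => (kz i : ℝ) * κ / ℓ) τ := fun τ =>
    Finset.sum_congr rfl fun i _ => by
      rw [show κ / ℓ * (kz i : ℝ) = (kz i : ℝ) * κ / ℓ by ring]
  have hm0 : 0 ≤ m₀ := by
    by_contra hneg
    have : ∑ i, E i ≤ ∑ _i : ι, (0 : ℝ) := Finset.sum_le_sum fun i _ => by linarith [hm i]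
    rw [hE.2, Finset.sum_const_zero] at this
    linarith
  have h1 : ∀ y, av (H y) α ℓ ≤ X * (15 / κ) * m₀ := fun y => by
    have hX0 : 0 ≤ X := (hX y 0).1.trans (hX y 0).2
    have h2 := Birth.birth_mass hE.1 hE.2 hkz hm (div_pos hκ hℓ) α hℓ (c y) (hH y) hX0 (hX y)
      (fun t _ ht => by rw [hF]; exact hp y t ht)
    refine h2.trans (mul_le_mul_of_nonneg_right ?_ hm0)
    have h3 : 2 * (1 + 2 * Real.pi / (κ / ℓ * ℓ)) ≤ 15 / κ := by
      rw [div_mul_cancel₀ _ hℓ.ne', le_div_iff₀ hκ]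
      have h4 : 2 * (1 + 2 * Real.pi / κ) * κ = 2 * κ + 4 * Real.pi := by field_simp; ring
      rw [h4]
      linarith [Real.pi_lt_d2]
    nlinarith [mul_le_mul_of_nonneg_left h3 hX0]
  calc mass H α ℓ ≤ ∑ _y : Y, X * (15 / κ) * m₀ := Finset.sum_le_sum fun y _ => h1 y
    _ = _ := by rw [Finset.sum_const, Finset.card_univ, nsmul_eq_mul]; ring

end Crest.Agent.R100.St
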