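import Crest.Agent.R100.StDefs

/-! # Row 100, STRUCT: the cost functional `CI` -/

set_option autoImplicit false

open MeasureTheory Set

noncomputable section

namespace Crest.Agent.R100.St

open Crest.Agent.R100 Crest.Agent.R100.Low Crest.Agent.R100.Str Crest.Agent.R100.Ent

variable {Y ι : Type} [Fintype Y] [Fintype ι]

theorem ind_norm (A : List Bool → Prop) (v : List Bool) : ‖ind A v‖ ≤ 1 := by
  unfold ind; split_ifs <;> simp

theorem ind_ne {A : List Bool → Prop} {v : List Bool} (h : ind A v ≠ 0) : A v := by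
  by_contra hv
  exact h (by simp [ind, hv])

theorem CI.mono {g f : ℝ → ℂ} {B α ℓ x x' : ℝ} (h : CI g B f α ℓ x) (hx : x ≤ x') :
    CI g B f α ℓ x' := fun n ξ A he he' => (h n ξ A he he').trans hx

theorem CI.zero (g : ℝ → ℂ) (B α ℓ : ℝ) : CI g B 0 α ℓ 0 := by
  intro n ξ e _ _
  simp [U_zero, win, tm_zero, avg_const]

theorem CI.dead {g : ℝ → ℂ} {B α ℓ : ℝ} (h : B < ca g α ℓ) (f : ℝ → ℂ) : CI g B f α ℓ 0 := by
  intro n ξ A _ he'
  have : ∀ v, ind A v = 0 := fun v => by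
    by_contra hv
    exact absurd (he' v (ind_ne hv)).root (not_le.2 h)
  simp [win, tm, this, avg_const]

theorem CI.add {g f f' : ℝ → ℂ} {B α ℓ x x' : ℝ} (hf : BM f) (hf' : BM f') (h : CI g B f α ℓ x)
    (h' : CI g B f' α ℓ x') : CI g B (f + f') α ℓ (x + x') := by
  intro n ξ A he he'
  refine le_trans ?_ (add_le_add (h n ξ A he he') (h' n ξ A he he'))
  rw [← avg_add']
  refine avg_mono_len n fun l _ => ?_
  rw [U_add hf hf', win_add]
  exact norm_add_le _ _

theorem CI.congr {g f f' : ℝ → ℂ} {B α ℓ x : ℝ} (h : CI g B f α ℓ x)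
    (hff : ∀ ξ v, U f' α ℓ ξ v = U f α ℓ ξ v) : CI g B f' α ℓ x := by
  intro n ξ A he he'
  have : ∀ ξ, U f' α ℓ ξ = U f α ℓ ξ := fun ξ => funext (hff ξ)
  simpa only [this] using h n ξ A he he'

theorem CI.node_bound {g : ℝ → ℂ} {B α ℓ : ℝ} (Rm : List Bool → ℝ → ℂ) (bd : List Bool → ℝ)
    (j n : ℕ) (hj : j < n) (h : ∀ v, v.length = j → CI g B (Rm v) (nd α ℓ v) (ln ℓ v) (bd v))
    (ξ : List Bool → ℝ) (A : List Bool → Prop) (he : ∀ v k, A v → A (v.take k))
    (he' : ∀ v, A v → AlB g B α ℓ v) :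
    avg n (fun l => ‖win (ind A) (U (Rm (l.take j)) α ℓ (ξ l)) l j (n - 1)‖) ≤ avg j bd := by
  obtain ⟨m, rfl⟩ := Nat.exists_eq_add_of_lt hj
  rw [add_assoc, avg_split]
  refine avg_mono_len j fun v hv => ?_
  refine le_trans (le_of_eq ?_) (h v hv (m + 1) (fun w => ξ (v ++ w)) (fun x => A (v ++ x))
    (fun x k hx => by have := he _ (v.length + k) hx; rwa [take_app] at this)
    (fun x hx => (he' _ hx).append))
  refine avg_congr_len _ fun w _ => ?_
  have h1 : (v ++ w).take j = v := by rw [← hv]; simp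
  have h2 := win_append (ind A) (U (Rm v) α ℓ (ξ (v ++ w))) v w 0 m
  rw [hv] at h2
  simp only [h1, add_zero, U_append] at h2 ⊢
  have h3 : j + (m + 1) - 1 = j + m := by omega
  rw [h3, h2]; rfl

/-- **Decomposition**: cost of `f₀` ≤ cost of the life + costs of the removed pieces. -/
theorem CI.decomp {g : ℝ → ℂ} {B α ℓ x₀ x₁ : ℝ} {F Rm : List Bool → ℝ → ℂ} {f₀ : ℝ → ℂ}
    (hF : ∀ v, BM (F v)) (hR : ∀ v, BM (Rm v)) (h0 : f₀ = F [] + Rm [])
    (hs : ∀ v c, F v = F (v ++ [c]) + Rm (v ++ [c])) (bd : List Bool → ℝ)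
    (hbd : ∀ v, CI g B (Rm v) (nd α ℓ v) (ln ℓ v) (bd v))
    (hlife : ∀ (n : ℕ) (ξ : List Bool → ℝ) (A : List Bool → Prop), (∀ v k, A v → A (v.take k)) →
      (∀ v, A v → AlB g B α ℓ v) →
      avg n (fun l => ‖∑ k ∈ Finset.range (n - 1),
        tm (ind A) (U (F (l.take k)) α ℓ (ξ l)) l k‖) ≤ x₀)
    (hsum : ∀ n, ∑ j ∈ Finset.range n, avg j bd ≤ x₁) : CI g B f₀ α ℓ (x₀ + x₁) := by
  intro n ξ A he he'
  have key : ∀ l : List Bool, l.length = n → win (ind A) (U f₀ α ℓ (ξ l)) l 0 (n - 1) =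
      ∑ k ∈ Finset.range (n - 1), tm (ind A) (U (F (l.take k)) α ℓ (ξ l)) l k +
        ∑ j ∈ Finset.range (n - 1), win (ind A) (U (Rm (l.take j)) α ℓ (ξ l)) l j (n - 1) := by
    intro l hl
    simp only [win, Finset.range_eq_Ico]
    rw [Finset.sum_Ico_Ico_comm, ← Finset.sum_add_distrib]
    refine Finset.sum_congr rfl fun k hk => ?_
    have hk' : k ≤ l.length := by
      have := (Finset.mem_Ico.1 hk).2
      omega
    rw [tele h0 hs l k hk', U_add (hF _) (BM.sum _ fun j _ => hR _), U_sum _ (fun j _ => hR _),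
      tm_add, tm_sum, Finset.range_eq_Ico]
  calc avg n (fun l => ‖win (ind A) (U f₀ α ℓ (ξ l)) l 0 (n - 1)‖)
      ≤ avg n (fun l => ‖∑ k ∈ Finset.range (n - 1), tm (ind A) (U (F (l.take k)) α ℓ (ξ l)) l k‖ +
        ∑ j ∈ Finset.range (n - 1),
          ‖win (ind A) (U (Rm (l.take j)) α ℓ (ξ l)) l j (n - 1)‖) := by
        refine avg_mono_len n fun l hl => ?_
        rw [key l hl]
        exact (norm_add_le _ _).trans (add_le_add le_rfl (norm_sum_le _ _))
    _ ≤ x₀ + x₁ := by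
        rw [avg_add', avg_sum]
        refine add_le_add (hlife n ξ A he he') (le_trans ?_ (hsum (n - 1)))
        refine Finset.sum_le_sum fun j hj => ?_
        have : j < n := by
          have := Finset.mem_range.1 hj
          omega
        exact CI.node_bound Rm bd j n this (fun v _ => hbd v) ξ A he he'

end Crest.Agent.R100.St
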