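import Crest.Agent.R100.StBirth

/-! # Row 100, STRUCT: one capture -/

set_option autoImplicit false

open MeasureTheory Set

noncomputable section

namespace Crest.Agent.R100.St

open Crest.Agent.R100 Crest.Agent.R100.Low Crest.Agent.R100.Str Crest.Agent.R100.Ent

variable {Y ι : Type} [Fintype Y] [Fintype ι]

theorem cap_ii {f : ℝ → ℝ} {M : ℝ} (hm : Measurable f) (hM : ∀ t, |f t| ≤ M) (a b : ℝ) :
    IntervalIntegrable f volume a b :=
  (intervalIntegrable_const (c := M)).mono_fun' hm.aestronglyMeasurable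
    (Filter.Eventually.of_forall hM)

theorem cap_ind_sum {C : Type} [Fintype C] {Q : C → Set ℝ}
    (hd : ∀ c c', c ≠ c' → Disjoint (Q c) (Q c')) {f : ℝ → ℝ} {t : ℝ} (h0 : 0 ≤ f t) :
    ∑ c, (Q c).indicator f t ≤ f t := by
  classical
  by_cases h : ∃ c, t ∈ Q c
  · obtain ⟨c, hc⟩ := h
    rw [Finset.sum_eq_single c (fun c' _ h' => indicator_of_notMem
      (fun h2 => Set.disjoint_left.1 (hd c' c h') h2 hc) _) (by simp), indicator_of_mem hc]
  · push_neg at h
    rw [Finset.sum_eq_zero fun c _ => indicator_of_notMem (h c) _]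
    exact h0

theorem cap_mass {C : Type} [Fintype C] {H : Y × C → ℝ → ℝ} {M : ℝ} (hm : ∀ p, Measurable (H p))
    (hM : ∀ p t, |H p t| ≤ M) (a l : ℝ) :
    mass (fun y t => ∑ c, H (y, c) t) a l = mass H a l := by
  unfold mass av
  rw [Fintype.sum_prod_type]
  refine Finset.sum_congr rfl fun y _ => ?_
  rw [intervalIntegral.integral_finset_sum fun c _ => cap_ii (hm _) (hM _) _ _, Finset.sum_div]

open Classical in
theorem cap_rho {μ α ℓ X : ℝ} {H : Y → ℝ → ℝ} {D : ℕ} (p : Y → ℝ → Prop)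
    (hp : ∀ y t, H y t ≠ 0 → p y t) (hX : 0 ≤ X)
    (h : μ < 1 → ∀ y, avg D (fun v => if ∃ t ∈ Icc (nd α ℓ v) (nd α ℓ v + ln ℓ v), p y t
      then 1 else 0) ≤ X) : rho μ H α ℓ D ≤ Fintype.card Y * X := by
  unfold rho
  split_ifs with h1
  · refine le_trans (avg_mono_len D (F' := fun v => ∑ y, if ∃ t ∈ Icc (nd α ℓ v)
      (nd α ℓ v + ln ℓ v), p y t then (1 : ℝ) else 0) fun v _ => ?_) ?_
    · split_ifs with h2
      · obtain ⟨y, t, ht, h3⟩ := h2
        refine le_trans ?_ (Finset.single_le_sum (f := fun y => if ∃ t ∈ Icc (nd α ℓ v)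
          (nd α ℓ v + ln ℓ v), p y t then (1 : ℝ) else 0)
          (fun y _ => by positivity) (Finset.mem_univ y))
        simp only [if_pos (⟨t, ht, hp y t h3⟩ : ∃ t ∈ Icc (nd α ℓ v) (nd α ℓ v + ln ℓ v), p y t),
          le_refl]
      · exact Finset.sum_nonneg fun y _ => by positivity
    · rw [avg_sum]
      refine (Finset.sum_le_sum fun y _ => h h1 y).trans ?_
      simp
  · positivity

/-- A trigger of index `j` gives a family on `Y × C` (cells `(Q y c).indicator (H₁ y)`), mass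
`m' ≥ P / (4 * 8 ^ j)`, level `P' = m'`, `i' = i + 3 j + 2`, `k' = k - (j + 1)`; `k ≤ j` contradicts
`birth_lb`. -/
theorem onecap {g : ℝ → ℝ} {R B δ κ K CL : ℝ} {j₀ k₀ I₀ k i : ℕ} (hg : Gl g R)
    (hp : Par R B δ κ K CL j₀ k₀ I₀) (hC : CapP (2 * R) (k₀ * K) κ K j₀) (hk : k ≤ k₀) (hi : i + 3 * k ≤ I₀)
    (ih : ∀ k' i', k' < k → i' + 3 * k' ≤ I₀ → Claim g R B δ K CL k₀ k' i')
    {H : Y → ℝ → ℝ} {c : Y → ℝ} {lam z : ι → ℝ} (h : Fml g H c lam z) {P μ : ℝ} (hP : 0 < P)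
    (hμ0 : 0 < μ) (hB : B ≤ 2 ^ i * P) (hμ : μ ≤ Real.exp (k * δ - R))
    (hY : (Fintype.card Y : ℝ) ≤ Real.exp ((k₀ - k : ℝ) * K)) :
    OneCap g B κ μ δ P (2 * CL * δ * (3 * i + 9 * k)) j₀ H c lam z := by
  classical
  intro H₁ a l hl hs hm hnt
  have h₁ := h.sub hs
  unfold NoTrig at hnt
  push_neg at hnt
  obtain ⟨j, hj, S, hS, hcard⟩ := hnt
  have hR0 : 0 < Real.exp R := Real.exp_pos R
  have hδ := hp.δ1
  have hK := hp.K0
  have hκ := hp.κ0
  have hCL := hp.CL1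
  have hSc : (0 : ℝ) < S.card := by
    by_contra h0
    have := Real.exp_pos (((j : ℝ) + 3) * δ)
    nlinarith [not_lt.1 h0]
  have hSne : S.Nonempty := Finset.card_pos.1 (by exact_mod_cast hSc)
  have hHb : ∀ y t, 0 ≤ H₁ y t ∧ H₁ y t ≤ Real.exp R := fun y t =>
    ⟨h₁.nn y t, ((Finset.single_le_sum (f := fun y => H₁ y t) (fun y _ => h₁.nn y t)
      (Finset.mem_univ y)).trans (h₁.le t)).trans (hg.bd t).2⟩
  have hHa : ∀ y t, |H₁ y t| ≤ Real.exp R := fun y t => by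
    rw [abs_of_nonneg (hHb y t).1]; exact (hHb y t).2
  have hiI : (2 : ℝ) ^ i ≤ 2 ^ I₀ := pow_le_pow_right₀ one_le_two (by omega)
  have hP1 : 1 ≤ 2 ^ I₀ * P := by nlinarith [hp.B1]
  have hP2 : 1 ≤ Real.exp R * P := by nlinarith [hp.hI]
  have hkk : (k : ℝ) ≤ k₀ := by exact_mod_cast hk
  have hk0 : (0 : ℝ) ≤ k := Nat.cast_nonneg k
  have hj0 : (0 : ℝ) ≤ j := Nat.cast_nonneg j
  obtain ⟨E, C, _, Q, τ, hE, hEm, hCc, hQm, hQd, hQp, hcap⟩ :=
    hC Y (dv H₁ c lam z) a l (2 * P) j S hl (by positivity) hj hSne h₁.dv_meas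
      (fun y t => (h₁.nn y t).trans (h₁.dv_bd y t).1)
      (fun t => by
        have h1 : ∑ y, dv H₁ c lam z y t ≤ ∑ y, 2 * H₁ y t :=
          Finset.sum_le_sum fun y _ => (h₁.dv_bd y t).2
        rw [← Finset.mul_sum] at h1
        have h2 := (h₁.le t).trans (hg.bd t).2
        rw [two_mul R, Real.exp_add]
        nlinarith)
      (hY.trans (Real.exp_le_exp.2 (by nlinarith)))
      ((mass_le_mul (x := 2) h₁.dv_meas h₁.meas (fun y t => (h₁.nn y t).trans (h₁.dv_bd y t).1) hHa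
        (fun y t => (h₁.dv_bd y t).2) a hl).trans (by linarith)) hS
  set H' : Y × C → ℝ → ℝ := fun p => (Q p.1 p.2).indicator (H₁ p.1) with hH'
  have hH'm : ∀ p, Measurable (H' p) := fun p => (h₁.meas p.1).indicator (hQm _ _)
  have hH'b : ∀ p t, 0 ≤ H' p t ∧ H' p t ≤ Real.exp R := fun p t =>
    ⟨indicator_nonneg (fun t _ => h₁.nn _ t) t,
      (indicator_le_self' (fun t _ => h₁.nn _ t) t).trans (hHb _ t).2⟩
  have hH'a : ∀ p t, |H' p t| ≤ Real.exp R := fun p t => by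
    rw [abs_of_nonneg (hH'b p t).1]; exact (hH'b p t).2
  have hH'Q : ∀ p t, H' p t ≠ 0 → t ∈ Q p.1 p.2 := fun p t h0 => by
    by_contra h1
    exact h0 (indicator_of_notMem h1 _)
  have hsum : ∀ y t, 0 ≤ ∑ c, H' (y, c) t ∧ ∑ c, H' (y, c) t ≤ H₁ y t := fun y t =>
    ⟨Finset.sum_nonneg fun c _ => (hH'b _ t).1, cap_ind_sum (hQd y) (h₁.nn y t)⟩
  set m : ℝ := mass H' a l with hmdef
  have hm1 : P / (4 * 8 ^ j) ≤ m := by
    have h1 := mass_le_mul (x := 2)
      (H := fun p : Y × C => (Q p.1 p.2).indicator (dv H₁ c lam z p.1)) (H' := H')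
      (fun p => (h₁.dv_meas p.1).indicator (hQm _ _)) hH'm
      (fun p t => indicator_nonneg (fun t _ => (h₁.nn _ t).trans (h₁.dv_bd _ t).1) t) hH'a
      (fun p t => by
        by_cases ht : t ∈ Q p.1 p.2
        · simp only [hH', indicator_of_mem ht]; exact (h₁.dv_bd _ t).2
        · simp only [hH', indicator_of_notMem ht]; simp) a hl
    have h2 : 2 * P / (4 * 8 ^ j) = 2 * (P / (4 * 8 ^ j)) := by ring
    linarith
  have h8 : (8 : ℝ) ^ j ≤ 8 ^ j₀ := pow_le_pow_right₀ (by norm_num) hj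
  have hm2 : P / (4 * 8 ^ j₀) ≤ m :=
    (div_le_div_of_nonneg_left hP.le (by positivity) (by linarith)).trans hm1
  have hm0 : 0 < m := lt_of_lt_of_le (by positivity) hm2
  have hm3 : 1 ≤ 4 * 8 ^ j₀ * 2 ^ I₀ * m := by
    rw [div_le_iff₀ (by positivity)] at hm2
    have : (0 : ℝ) < 2 ^ I₀ := by positivity
    nlinarith
  -- the numerical constant
  set N : ℝ := Real.exp ((k₀ + 2) * K) * (120 / κ) * 8 ^ j₀ * 2 ^ I₀ with hN
  have hCr : 1 ≤ Cr R B := by unfold Cr; nlinarith [hp.R1, hp.B1]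
  have hbig : Cr R B * N * 300 ≤ Real.exp δ := by
    refine le_trans (le_of_eq ?_) hp.big
    rw [hN]; unfold Cr; ring
  have hN0 : 0 ≤ N := by positivity
  have hk00 : (0 : ℝ) ≤ k₀ := Nat.cast_nonneg k₀
  have hNK : Real.exp K ≤ N := by
    have h1 : Real.exp K ≤ Real.exp ((k₀ + 2) * K) := Real.exp_le_exp.2 (by nlinarith)
    have h2 : (1 : ℝ) ≤ 120 / κ := by rw [le_div_iff₀ hκ]; linarith [hp.κ1]
    have h3 : (1 : ℝ) ≤ 8 ^ j₀ := one_le_pow₀ (by norm_num)
    have h4 : (1 : ℝ) ≤ 2 ^ I₀ := one_le_pow₀ (by norm_num)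
    have h5 := Real.exp_pos K
    calc Real.exp K = Real.exp K * 1 * 1 * 1 := by ring
      _ ≤ N := by rw [hN]; gcongr
  have hcY : (Fintype.card (Y × C) : ℝ) ≤ Real.exp ((k₀ - k + 1) * K) := by
    rw [Fintype.card_prod, Nat.cast_mul, add_mul, one_mul, Real.exp_add]
    exact mul_le_mul hY hCc (Nat.cast_nonneg _) (Real.exp_pos _).le
  have hcY' : (Fintype.card (Y × C) : ℝ) * Real.exp K ≤ Real.exp ((k₀ + 2) * K) := by
    refine (mul_le_mul_of_nonneg_right hcY (Real.exp_pos K).le).trans ?_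
    rw [← Real.exp_add]
    exact Real.exp_le_exp.2 (by nlinarith)
  set m₀ : ℝ := Real.exp K / S.card with hm₀
  have hm₀0 : 0 < m₀ := div_pos (Real.exp_pos K) hSc
  have hm₀1 : m₀ ≤ Real.exp K * Real.exp ((k - (j + 3)) * δ - R) := by
    rw [hm₀, div_le_iff₀ hSc, mul_assoc]
    refine le_mul_of_one_le_right (Real.exp_pos K).le ?_
    have h1 : Real.exp (((j : ℝ) + 3) * δ) ≤ S.card * Real.exp (k * δ - R) :=
      hcard.le.trans (mul_le_mul_of_nonneg_left hμ hSc.le)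
    have h2 : Real.exp (k * δ - R) = Real.exp ((k - (j + 3)) * δ - R) * Real.exp ((j + 3) * δ) := by
      rw [← Real.exp_add]; congr 1; ring
    rw [h2, ← mul_assoc] at h1
    have h3 := Real.exp_pos (((j : ℝ) + 3) * δ)
    have h4 := le_of_mul_le_mul_right (by simpa using h1 :
      1 * Real.exp (((j : ℝ) + 3) * δ) ≤ S.card * Real.exp ((k - (j + 3)) * δ - R) *
        Real.exp ((j + 3) * δ)) h3
    linarith
  have hjk : j < k := by
    by_contra hjk
    have hkj : (k : ℝ) ≤ j := by exact_mod_cast not_lt.1 hjk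
    have h1 := birth_lb hE (fun k : S => (k : ℤ)) Subtype.val_injective a hEm hl hκ hp.κ1
      (H := H') (c := fun p => τ p.1 p.2) hH'm hH'b
      (fun p t h0 => le_trans (by norm_num) (hQp _ _ t (hH'Q p t h0)))
    have h2 : Real.exp R * m₀ ≤ Real.exp K * Real.exp (-δ) := by
      refine (mul_le_mul_of_nonneg_left hm₀1 hR0.le).trans ?_
      rw [mul_left_comm, ← Real.exp_add]
      exact mul_le_mul_of_nonneg_left (Real.exp_le_exp.2 (by nlinarith)) (Real.exp_pos K).le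
    have h3 : m ≤ Real.exp ((k₀ + 2) * K) * (15 / κ) * Real.exp (-δ) := by
      refine h1.trans ?_
      calc (Fintype.card (Y × C) : ℝ) * Real.exp R * (15 / κ) * m₀
          = Fintype.card (Y × C) * (Real.exp R * m₀) * (15 / κ) := by ring
        _ ≤ Fintype.card (Y × C) * (Real.exp K * Real.exp (-δ)) * (15 / κ) := by gcongr
        _ = Fintype.card (Y × C) * Real.exp K * (15 / κ) * Real.exp (-δ) := by ring
        _ ≤ _ := by gcongr
    have h4 : 4 * 8 ^ j₀ * 2 ^ I₀ * m ≤ N / 2 * Real.exp (-δ) := by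
      refine (mul_le_mul_of_nonneg_left h3 (by positivity)).trans (le_of_eq ?_)
      rw [hN]; ring
    have h5 : Real.exp δ * Real.exp (-δ) = 1 := by rw [← Real.exp_add]; simp
    have h6 := Real.exp_pos (-δ)
    have h7 : N * 300 ≤ Real.exp δ := by nlinarith
    nlinarith
  obtain ⟨ι', _, lam', z', D, hl', him, hre, hconc, hdeath⟩ :=
    birth hE (fun k : S => (k : ℤ)) Subtype.val_injective (δ := δ) a hEm hl hκ hp.κ1
  obtain ⟨k', rfl⟩ : ∃ k', k = k' + (j + 1) := ⟨k - (j + 1), by omega⟩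
  have hF : Fml g H' (fun p => τ p.1 p.2) lam' z' :=
    ⟨hH'm, fun p t => (hH'b p t).1, fun t => by
      rw [Fintype.sum_prod_type]
      exact (Finset.sum_le_sum fun y _ => (hsum y t).2).trans (h₁.le t), hl', him,
      fun p t h0 => hre _ (hQp _ _ t (hH'Q p t h0))⟩
  have hcl := ih k' (i + 3 * j + 2) (by omega) (by omega) (Y × C) ι' H' (fun p => τ p.1 p.2) lam' z'
    a l m (300 * m₀ * Real.exp δ) D hF hl hm0 (by positivity) le_rfl
    (by
      rw [div_le_iff₀ (by positivity)] at hm1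
      have e : (2 : ℝ) ^ (i + 3 * j + 2) * m = 2 ^ i * (m * (4 * 8 ^ j)) := by
        rw [pow_add, pow_add, pow_mul]; norm_num; ring
      rw [e]
      exact hB.trans (mul_le_mul_of_nonneg_left hm1 (by positivity)))
    (by
      have h1 : 300 * Real.exp K ≤ Real.exp δ := by nlinarith
      have h2 : Real.exp (k' * δ - R) =
          Real.exp δ * Real.exp ((((k' + (j + 1) : ℕ) : ℝ) - (j + 3)) * δ - R) * Real.exp δ := by
        rw [← Real.exp_add, ← Real.exp_add]; congr 1; push_cast; ring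
      rw [h2]
      refine mul_le_mul_of_nonneg_right ?_ (Real.exp_pos δ).le
      have h3 := Real.exp_pos ((((k' + (j + 1) : ℕ) : ℝ) - (j + 3)) * δ - R)
      nlinarith)
    (hcY.trans (Real.exp_le_exp.2 (by push_cast; nlinarith))) (fun _ h0 => hconc h0)
  have hrho := cap_rho (μ := 300 * m₀ * Real.exp δ) (α := a) (ℓ := l) (H := H') (D := D)
    (X := 30 / κ * Real.exp (-δ))
    (fun p t => 99 / 100 ≤ ‖Fm E (fun i : S => ((i : ℤ) : ℝ) * κ / l) (t - τ p.1 p.2)‖ ^ 2)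
    (fun p t h0 => hQp _ _ t (hH'Q p t h0)) (by positivity) (fun h1 p => hdeath h1 _)
  have hrho2 : Cr R B * rho (300 * m₀ * Real.exp δ) H' a l D ≤ m := by
    have h1 : (Fintype.card (Y × C) : ℝ) ≤ Real.exp ((k₀ + 2) * K) :=
      (le_mul_of_one_le_right (Nat.cast_nonneg _) (Real.one_le_exp hK)).trans hcY'
    have h2 : rho (300 * m₀ * Real.exp δ) H' a l D ≤
        Real.exp ((k₀ + 2) * K) * (30 / κ * Real.exp (-δ)) := hrho.trans (by gcongr)
    have h3 : Real.exp ((k₀ + 2) * K) * (30 / κ * Real.exp (-δ)) ≤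
        Real.exp ((k₀ + 2) * K) * (30 / κ * Real.exp (-δ)) * (4 * 8 ^ j₀ * 2 ^ I₀ * m) :=
      le_mul_of_one_le_right (by positivity) hm3
    have h4 : Real.exp ((k₀ + 2) * K) * (30 / κ * Real.exp (-δ)) * (4 * 8 ^ j₀ * 2 ^ I₀ * m) =
        N * Real.exp (-δ) * m := by rw [hN]; ring
    have h5 : Real.exp δ * Real.exp (-δ) = 1 := by rw [← Real.exp_add]; simp
    have h6 := Real.exp_pos (-δ)
    have h7 : Cr R B * N * Real.exp (-δ) ≤ 1 := by
      have : Cr R B * N ≤ Real.exp δ := by nlinarith [mul_nonneg (zero_le_one.trans hCr) hN0]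
      nlinarith
    calc Cr R B * rho (300 * m₀ * Real.exp δ) H' a l D ≤ Cr R B * (N * Real.exp (-δ) * m) :=
          mul_le_mul_of_nonneg_left (h2.trans (h3.trans_eq h4)) (zero_le_one.trans hCr)
      _ = Cr R B * N * Real.exp (-δ) * m := by ring
      _ ≤ m := mul_le_of_le_one_left hm0.le h7
  have hmass : mass H₁ a l - mass (fun y t => H₁ y t - ∑ c, H' (y, c) t) a l = m := by
    rw [mass_sub (M := Real.exp R) h₁.meas (fun y => Finset.measurable_sum _ fun c _ => hH'm _) hHa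
      (fun y t => by rw [abs_of_nonneg (hsum y t).1]; exact (hsum y t).2.trans (hHb y t).2),
      cap_mass hH'm hH'a]
    ring
  refine ⟨fun y t => H₁ y t - ∑ c, H' (y, c) t,
    ⟨fun y => (h₁.meas y).sub (Finset.measurable_sum _ fun c _ => hH'm _),
      fun y t => ⟨sub_nonneg.2 (hsum y t).2, sub_le_self _ (hsum y t).1⟩⟩, by rw [hmass]; exact hm2, ?_⟩
  have htot : tot H₁ - tot (fun y t => H₁ y t - ∑ c, H' (y, c) t) = tot H' := by
    funext t
    simp only [tot, Pi.sub_apply, Finset.sum_sub_distrib, Fintype.sum_prod_type]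
    push_cast
    ring
  rw [htot, hmass]
  refine hcl.mono ?_
  rw [← hmdef]
  push_cast
  have h1 : m ≤ CL * δ * m := le_mul_of_one_le_left hm0.le (by nlinarith)
  nlinarith

end Crest.Agent.R100.St
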