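import Crest.Agent.R100.StBasic

/-! # Row 100, STRUCT: cleaning of a node -/

set_option autoImplicit false

open MeasureTheory Set

noncomputable section

namespace Crest.Agent.R100.St

open Crest.Agent.R100 Crest.Agent.R100.Low Crest.Agent.R100.Str Crest.Agent.R100.Ent

variable {Y ι : Type} [Fintype Y] [Fintype ι]

/-- induction on `⌊mass / (P / (4 * 8 ^ j₀))⌋` -/
theorem clean_of_one {g : ℝ → ℝ} {R B κ μ δ P x : ℝ} {j₀ : ℕ} (hg : Gl g R) {H : Y → ℝ → ℝ}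
    {c : Y → ℝ} {lam z : ι → ℝ} (h : Fml g H c lam z) (hP : 0 < P)
    (h1 : OneCap g B κ μ δ P x j₀ H c lam z) : Clean g B κ μ δ P x j₀ H c lam z := by
  have hq : 0 < P / (4 * 8 ^ j₀) := by positivity
  have hbm : ∀ {H₁ H₂ : Y → ℝ → ℝ}, Sub H₁ H → Sub H₂ H → BM (tot H₁ - tot H₂) := by
    intro H₁ H₂ s₁ s₂
    obtain ⟨m₁, M₁, b₁⟩ := (h.sub s₁).bm hg
    obtain ⟨m₂, M₂, b₂⟩ := (h.sub s₂).bm hg
    exact ⟨m₁.sub m₂, M₁ + M₂, fun t => (norm_sub_le _ _).trans (add_le_add (b₁ t) (b₂ t))⟩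
  have key : ∀ (N : ℕ) (H₁ : Y → ℝ → ℝ) (a l : ℝ), 0 < l → Sub H₁ H → mass H₁ a l ≤ P →
      mass H₁ a l < N * (P / (4 * 8 ^ j₀)) →
      ∃ H₂, Sub H₂ H₁ ∧ NoTrig (dv H₂ c lam z) a l κ μ δ (2 * P) j₀ ∧
        (H₂ = H₁ ∨ P / (4 * 8 ^ j₀) ≤ mass H₁ a l - mass H₂ a l) ∧
          CI (cx g) B (tot H₁ - tot H₂) a l (x * (mass H₁ a l - mass H₂ a l)) := by
    intro N
    induction N with
    | zero =>
      intro H₁ a l hl s₁ _ hN
      have := mass_nonneg (fun y t => (s₁.2 y t).1) a hl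
      simp only [Nat.cast_zero, zero_mul] at hN
      linarith
    | succ N ih =>
      intro H₁ a l hl s₁ hm hN
      by_cases hT : NoTrig (dv H₁ c lam z) a l κ μ δ (2 * P) j₀
      · refine ⟨H₁, ⟨s₁.1, fun y t => ⟨(s₁.2 y t).1, le_rfl⟩⟩, hT, Or.inl rfl, ?_⟩
        simp only [sub_self, mul_zero]
        exact CI.zero _ _ _ _
      · obtain ⟨H₂, s₂, hd, hc⟩ := h1 H₁ a l hl s₁ hm hT
        push_cast at hN
        obtain ⟨H₃, s₃, hT₃, hd₃, hc₃⟩ := ih H₂ a l hl (s₂.trans s₁) (by linarith) (by linarith)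
        refine ⟨H₃, s₃.trans s₂, hT₃, Or.inr ?_, ?_⟩
        · rcases hd₃ with rfl | hd₃
          · exact hd
          · linarith
        · have := CI.add (hbm s₁ (s₂.trans s₁)) (hbm (s₂.trans s₁) (s₃.trans (s₂.trans s₁))) hc hc₃
          rw [sub_add_sub_cancel] at this
          exact this.mono (le_of_eq (by ring))
  intro H₁ a l hl s₁ hm
  obtain ⟨N, hN⟩ := exists_nat_gt (mass H₁ a l / (P / (4 * 8 ^ j₀)))
  exact key N H₁ a l hl s₁ hm ((div_lt_iff₀ hq).1 hN)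

end Crest.Agent.R100.St
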