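import Crest.Agent.R100.StBasic
import Crest.Agent.R100.Crude

/-! # Row 100, STRUCT: the crude bound at the death depth -/

set_option autoImplicit false

open MeasureTheory Set

noncomputable section

namespace Crest.Agent.R100.St

open Crest.Agent.R100 Crest.Agent.R100.Low Crest.Agent.R100.Str Crest.Agent.R100.Ent

variable {Y ι : Type} [Fintype Y] [Fintype ι]

private theorem stDeath_nd_sub : ∀ (u : List Bool) (α ℓ : ℝ), 0 < ℓ →
    α ≤ nd α ℓ u ∧ nd α ℓ u + ln ℓ u ≤ α + ℓ
  | [], α, ℓ, _ => by simp [nd, ln]
  | c :: u, α, ℓ, h => by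
    have := stDeath_nd_sub u (ch c α ℓ) (ℓ / 2) (by positivity)
    have h2 : ln ℓ (c :: u) = ln (ℓ / 2) u := by
      simp only [ln, List.length_cons, pow_succ]; ring
    rw [h2]
    simp only [nd]
    cases c <;> simp only [ch, if_true, Bool.false_eq_true, if_false] at this ⊢ <;>
      constructor <;> linarith [this.1, this.2]

theorem death {g : ℝ → ℝ} {R B μ : ℝ} (hg : Gl g R) (hR : 1 ≤ R) (hB : 1 ≤ B) (hμ : μ < 1)
    {H : Y → ℝ → ℝ} {c : Y → ℝ} {lam z : ι → ℝ} (h : Fml g H c lam z) (a : ℝ) {l : ℝ}
    (hl : 0 < l) : CI (cx g) B (tot H) a l (Cr R B * rho μ H a l 0) := by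
  classical
  have hrho : rho μ H a l 0 = if meet H a l then 1 else 0 := by
    simp [rho, hμ, avg, nd, ln]
  rw [hrho]
  have hnn : ∀ t, 0 ≤ ∑ y, H y t := fun t => Finset.sum_nonneg fun y _ => h.nn y t
  have hnorm : ∀ t, ‖tot H t‖ = ∑ y, H y t := fun t => by
    rw [tot, Complex.norm_real, Real.norm_of_nonneg (hnn t)]
  by_cases hm : meet H a l
  · rw [if_pos hm, mul_one]
    by_cases hd : B < ca (cx g) a l
    · refine (CI.dead hd _).mono ?_
      unfold Cr; positivity
    · push Not at hd
      have hb := h.bm hg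
      have hM : ∀ y, ‖tot H y‖ ≤ Real.exp R := fun t => by
        rw [hnorm]; exact (h.le t).trans (hg.bd t).2
      have hca : ca (tot H) a l ≤ ca (cx g) a l := by
        unfold ca
        refine div_le_div_of_nonneg_right ?_ hl.le
        have hgm : Measurable fun y => ‖cx g y‖ :=
          (Complex.measurable_ofReal.comp hg.meas).norm
        have hgn : ∀ t, ‖cx g t‖ = g t := fun t => by
          rw [cx, Complex.norm_real, Real.norm_of_nonneg (hg.bd t).1]
        have hi : ∀ (f : ℝ → ℝ), Measurable f → (∀ t, ‖f t‖ ≤ Real.exp R) →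
            IntervalIntegrable f volume a (a + l) := fun f hf hb =>
          (intervalIntegrable_const (c := Real.exp R)).mono_fun' hf.aestronglyMeasurable
            (Filter.Eventually.of_forall hb)
        refine intervalIntegral.integral_mono_on (by linarith)
          (hi _ hb.1.norm fun t => by rw [norm_norm]; exact hM t)
          (hi _ hgm fun t => by rw [norm_norm, hgn]; exact (hg.bd t).2) fun t _ => ?_
        rw [hnorm, hgn]; exact h.le t
      intro n ξ A _ _
      refine (crude hb.1 hR hM a hl (ind A) (ind_norm A) n ξ (fun _ => 0) (fun _ => n - 1)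
        (fun _ _ => le_rfl)).trans ?_
      have he : Real.exp (-R) ≤ 1 := Real.exp_le_one_iff.2 (by linarith)
      unfold Cr
      refine mul_le_mul_of_nonneg_left (by linarith) (by positivity)
  · rw [if_neg hm, mul_zero]
    refine (CI.zero (cx g) B a l).congr fun ξ v => ?_
    have hs := stDeath_nd_sub v a l hl
    have hlv : 0 < ln l v := by unfold ln; positivity
    unfold U cu
    congr 1
    refine intervalIntegral.integral_congr fun t ht => ?_
    rw [uIcc_of_le (by linarith)] at ht
    have h0 : ∀ y, H y t = 0 := fun y => by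
      by_contra hy
      exact hm ⟨y, t, ⟨by linarith [ht.1, hs.1], by linarith [ht.2, hs.2]⟩, hy⟩
    simp [tot, h0]

end Crest.Agent.R100.St
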