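import Crest.Agent.R100.Str15
import Crest.Agent.R100.AdEntDefs

/-!
# Row 100, STRUCT (helper83): definitions. Families with a death depth.
-/

set_option autoImplicit false

open MeasureTheory Set

noncomputable section

namespace Crest.Agent.R100.St

open Crest.Agent.R100 Crest.Agent.R100.Low Crest.Agent.R100.Str Crest.Agent.R100.Ent

/-- all prefix averages of `‖g‖` are at most `B` -/
def AlB (g : ℝ → ℂ) (B α ℓ : ℝ) (v : List Bool) : Prop :=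
  ∀ k, k ≤ v.length → ca g (nd α ℓ (v.take k)) (ln ℓ (v.take k)) ≤ B

theorem AlB.append {g : ℝ → ℂ} {B α ℓ : ℝ} {v w : List Bool} (h : AlB g B α ℓ (v ++ w)) :
    AlB g B (nd α ℓ v) (ln ℓ v) w := by
  intro k hk
  have := h (v.length + k) (by simp [hk])
  rwa [take_app, famA_nd_append, ln_append] at this

theorem AlB.take {g : ℝ → ℂ} {B α ℓ : ℝ} {v : List Bool} (h : AlB g B α ℓ v) (j : ℕ) :
    AlB g B α ℓ (v.take j) := by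
  intro k hk
  have h1 : k ≤ j := hk.trans (by simp)
  have h2 : k ≤ v.length := hk.trans (by simp)
  rw [List.take_take, min_eq_left h1]
  exact h k h2

theorem AlB.root {g : ℝ → ℂ} {B α ℓ : ℝ} {v : List Bool} (h : AlB g B α ℓ v) : ca g α ℓ ≤ B := by
  simpa [nd, ln] using h 0 (Nat.zero_le _)

theorem AlB.self {g : ℝ → ℂ} {B α ℓ : ℝ} {v : List Bool} (h : AlB g B α ℓ v) :
    ca g (nd α ℓ v) (ln ℓ v) ≤ B := by
  simpa using h v.length le_rfl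

open Classical in
/-- the indicator of a set of nodes -/
def ind (A : List Bool → Prop) (v : List Bool) : ℂ := if A v then 1 else 0

/-- the cost of `f` below `[α, α+ℓ)`, on hereditary sets of nodes alive for `g`, is at most `x` -/
def CI (g : ℝ → ℂ) (B : ℝ) (f : ℝ → ℂ) (α ℓ x : ℝ) : Prop :=
  ∀ (n : ℕ) (ξ : List Bool → ℝ) (A : List Bool → Prop), (∀ v k, A v → A (v.take k)) →
    (∀ v, A v → AlB g B α ℓ v) →
      avg n (fun l => ‖win (ind A) (U f α ℓ (ξ l)) l 0 (n - 1)‖) ≤ x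

variable {Y ι : Type} [Fintype Y] [Fintype ι]

/-- the transform of the mask -/
def Fm (lam z : ι → ℝ) (τ : ℝ) : ℂ := ∑ i, (lam i : ℂ) * ex (z i) τ

/-- complexification -/
def cx (f : ℝ → ℝ) (t : ℝ) : ℂ := (f t : ℂ)

/-- the sum of the cells -/
def tot (H : Y → ℝ → ℝ) (t : ℝ) : ℂ := ((∑ y, H y t : ℝ) : ℂ)

/-- the mass on `[a, a+lam)` -/
def mass (H : Y → ℝ → ℝ) (a lam : ℝ) : ℝ := ∑ y, av (H y) a lam

/-- the `ℓ¹` size at the frequency `ξ` -/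
def sz (H : Y → ℝ → ℝ) (a lam ξ : ℝ) : ℝ := ∑ y, ‖cu (cx (H y)) ξ a lam‖

/-- the cells divided by the transform of the mask -/
def dv (H : Y → ℝ → ℝ) (c : Y → ℝ) (lam z : ι → ℝ) (y : Y) (t : ℝ) : ℝ :=
  H y t / (Fm lam z (t - c y)).re

open Classical in
/-- every frequency interval of radius `1/h` has mass at most `μ` -/
def Conc (lam z : ι → ℝ) (h μ : ℝ) : Prop :=
  ∀ β : ℝ, ∑ i, (if |z i - β| * h ≤ 1 then lam i else 0) ≤ μ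

/-- no trigger on `[a, a+lam)` -/
def NoTrig (h : Y → ℝ → ℝ) (a lam κ μ δ P : ℝ) (j₀ : ℕ) : Prop :=
  ∀ j : ℕ, j ≤ j₀ → ∀ S : Finset ℤ, (∀ k ∈ S, P / 2 ^ j ≤ sz h a lam ((k : ℝ) * κ / lam)) →
    (S.card : ℝ) * μ ≤ Real.exp ((j + 3) * δ)

/-- some cell meets the closed interval -/
def meet (H : Y → ℝ → ℝ) (a lam : ℝ) : Prop := ∃ y, ∃ t ∈ Icc a (a + lam), H y t ≠ 0

open Classical in
/-- the fraction of the nodes of the death depth that meet the family -/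
def rho (μ : ℝ) (H : Y → ℝ → ℝ) (α ℓ : ℝ) (D : ℕ) : ℝ :=
  if μ < 1 then avg D (fun v => if meet H (nd α ℓ v) (ln ℓ v) then 1 else 0) else 0

/-- cells below `g`, a real mask transform, purity `1/2` -/
structure Fml (g : ℝ → ℝ) (H : Y → ℝ → ℝ) (c : Y → ℝ) (lam z : ι → ℝ) : Prop where
  meas : ∀ y, Measurable (H y)
  nn : ∀ y t, 0 ≤ H y t
  le : ∀ t, ∑ y, H y t ≤ g t
  prob : IsProb lam
  im : ∀ τ, (Fm lam z τ).im = 0
  pure : ∀ y t, H y t ≠ 0 → 1 / 2 ≤ (Fm lam z (t - c y)).re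

/-- the population before the removals at the node `v` -/
def pre (G₀ : Y → ℝ → ℝ) (G : List Bool → Y → ℝ → ℝ) (v : List Bool) : Y → ℝ → ℝ :=
  if v = [] then G₀ else G v.dropLast

/-- **One life** (the form used by STRUCT). -/
def LifeP (R W δ κ ρ CL : ℝ) (j₀ : ℕ) : Prop :=
  ∀ (Y ι : Type) [Fintype Y] [Fintype ι] (G₀ : Y → ℝ → ℝ) (G : List Bool → Y → ℝ → ℝ)
    (α ℓ P μ : ℝ) (lam z : ι → ℝ) (A : List Bool → Prop) (φ : Y → ι → ℂ),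
    0 < ℓ → 0 < P → 0 < μ → (∀ y, Measurable (G₀ y)) → (∀ v y, Measurable (G v y)) →
    (∀ v y t, 0 ≤ G v y t ∧ G v y t ≤ pre G₀ G v y t) →
    (∀ t, ∑ y, G₀ y t ≤ Real.exp R * P) → (Fintype.card Y : ℝ) ≤ Real.exp W →
    (∀ v k, A v → A (v.take k)) →
    (∀ v, A v → mass (pre G₀ G v) (nd α ℓ v) (ln ℓ v) ≤ P) →
    (∀ v, A v → G v = pre G₀ G v ∨
      ρ * P ≤ mass (pre G₀ G v) (nd α ℓ v) (ln ℓ v) - mass (G v) (nd α ℓ v) (ln ℓ v)) →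
    IsProb lam → (∀ v, A v → Conc lam z (ln ℓ v) μ) →
    (∀ v, A v → NoTrig (G v) (nd α ℓ v) (ln ℓ v) κ μ δ P j₀) → (∀ y i, ‖φ y i‖ ≤ 1) →
    ∀ (n : ℕ) (ξ : List Bool → ℝ),
      avg n (fun l => ∑ i, lam i * ‖∑ k ∈ Finset.range (n - 1), ∑ y,
        φ y i * tm (ind A) (U (cx (G (l.take k) y)) α ℓ (ξ l + z i)) l k‖) ≤ CL * P * δ

/-- **Capture** (approximate duality at one node). -/
def CapP (R W κ K : ℝ) (j₀ : ℕ) : Prop :=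
  ∀ (Y : Type) [Fintype Y] (h : Y → ℝ → ℝ) (a lam P : ℝ) (j : ℕ) (S : Finset ℤ),
    0 < lam → 0 < P → j ≤ j₀ → S.Nonempty → (∀ y, Measurable (h y)) → (∀ y t, 0 ≤ h y t) →
    (∀ t, ∑ y, h y t ≤ Real.exp R * P) → (Fintype.card Y : ℝ) ≤ Real.exp W → mass h a lam ≤ P →
    (∀ k ∈ S, P / 2 ^ j ≤ sz h a lam ((k : ℝ) * κ / lam)) →
    ∃ (E : S → ℝ) (C : Type) (_ : Fintype C) (Q : Y → C → Set ℝ) (τ : Y → C → ℝ),
      IsProb E ∧ (∀ k, E k ≤ Real.exp K / S.card) ∧ (Fintype.card C : ℝ) ≤ Real.exp K ∧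
      (∀ y c, MeasurableSet (Q y c)) ∧ (∀ y c c', c ≠ c' → Disjoint (Q y c) (Q y c')) ∧
      (∀ y c, ∀ t ∈ Q y c,
        99 / 100 ≤ ‖Fm E (fun k : S => ((k : ℤ) : ℝ) * κ / lam) (t - τ y c)‖ ^ 2) ∧
      P / (4 * 8 ^ j) ≤ mass (fun p : Y × C => (Q p.1 p.2).indicator (h p.1)) a lam

/-- the numerical conditions -/
structure Par (R B δ κ K CL : ℝ) (j₀ k₀ I₀ : ℕ) : Prop where
  R1 : 1 ≤ R
  B1 : 1 ≤ B
  δ1 : 1 ≤ δ
  κ0 : 0 < κ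
  κ1 : κ ≤ 1
  K0 : 0 ≤ K
  CL1 : 1 ≤ CL
  hI : (2 : ℝ) ^ I₀ ≤ Real.exp R
  hW : k₀ * K ≤ 2 * R
  big : 1200000 * R ^ 2 * (B + 1) * Real.exp ((k₀ + 2) * K) * (120 / κ) * 8 ^ j₀ * 2 ^ I₀ * 300 ≤
    Real.exp δ

/-- the crude constant -/
def Cr (R B : ℝ) : ℝ := 1200000 * R ^ 2 * (B + 1)

/-- **The claim** for `k` units of potential and `i` doublings. -/
def Claim (g : ℝ → ℝ) (R B δ K CL : ℝ) (k₀ k i : ℕ) : Prop :=
  ∀ (Y ι : Type) [Fintype Y] [Fintype ι] (H : Y → ℝ → ℝ) (c : Y → ℝ) (lam z : ι → ℝ)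
    (α ℓ P μ : ℝ) (D : ℕ), Fml g H c lam z → 0 < ℓ → 0 < P → 0 < μ → mass H α ℓ ≤ P →
    B ≤ 2 ^ i * P → μ ≤ Real.exp (k * δ - R) → (Fintype.card Y : ℝ) ≤ Real.exp ((k₀ - k : ℝ) * K) →
    (μ < 1 → 0 < D → Conc lam z (2 * ℓ / 2 ^ D) μ) →
      CI (cx g) B (tot H) α ℓ
        (2 * CL * δ * (P + mass H α ℓ * (3 * i + 9 * k)) + Cr R B * rho μ H α ℓ D)

/-- `H'` is a part of `H` -/
def Sub (H' H : Y → ℝ → ℝ) : Prop := (∀ y, Measurable (H' y)) ∧ ∀ y t, 0 ≤ H' y t ∧ H' y t ≤ H y t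

/-- one capture at the interval `[a, a+lam')`: cost `x` per unit of removed mass -/
def OneCap (g : ℝ → ℝ) (B κ μ δ P x : ℝ) (j₀ : ℕ) (H : Y → ℝ → ℝ) (c : Y → ℝ) (lam z : ι → ℝ) :
    Prop :=
  ∀ (H₁ : Y → ℝ → ℝ) (a l : ℝ), 0 < l → Sub H₁ H → mass H₁ a l ≤ P →
    ¬NoTrig (dv H₁ c lam z) a l κ μ δ (2 * P) j₀ →
      ∃ H₂, Sub H₂ H₁ ∧ P / (4 * 8 ^ j₀) ≤ mass H₁ a l - mass H₂ a l ∧
        CI (cx g) B (tot H₁ - tot H₂) a l (x * (mass H₁ a l - mass H₂ a l))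

/-- cleaning of an interval -/
def Clean (g : ℝ → ℝ) (B κ μ δ P x : ℝ) (j₀ : ℕ) (H : Y → ℝ → ℝ) (c : Y → ℝ) (lam z : ι → ℝ) :
    Prop :=
  ∀ (H₁ : Y → ℝ → ℝ) (a l : ℝ), 0 < l → Sub H₁ H → mass H₁ a l ≤ P →
    ∃ H₂, Sub H₂ H₁ ∧ NoTrig (dv H₂ c lam z) a l κ μ δ (2 * P) j₀ ∧
      (H₂ = H₁ ∨ P / (4 * 8 ^ j₀) ≤ mass H₁ a l - mass H₂ a l) ∧
        CI (cx g) B (tot H₁ - tot H₂) a l (x * (mass H₁ a l - mass H₂ a l))

/-- the cost after a doubling -/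
def Dbl (g : ℝ → ℝ) (B μ P x X : ℝ) (H : Y → ℝ → ℝ) (lam z : ι → ℝ) : Prop :=
  ∀ (H₁ : Y → ℝ → ℝ) (a l : ℝ) (D : ℕ), 0 < l → Sub H₁ H → P < mass H₁ a l → mass H₁ a l ≤ 2 * P →
    (μ < 1 → 0 < D → Conc lam z (2 * l / 2 ^ D) μ) →
      CI (cx g) B (tot H₁) a l (x * mass H₁ a l + X * rho μ H₁ a l D)

/-- the global function -/
structure Gl (g : ℝ → ℝ) (R : ℝ) : Prop where
  meas : Measurable g
  bd : ∀ t, 0 ≤ g t ∧ g t ≤ Real.exp R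

end Crest.Agent.R100.St
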