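import Crest.Agent.R100.StMask
import Crest.Agent.R100.StDeath

/-! # Row 100, STRUCT: one life -/

set_option autoImplicit false

open MeasureTheory Set

noncomputable section

namespace Crest.Agent.R100.St

open Crest.Agent.R100 Crest.Agent.R100.Low Crest.Agent.R100.Str Crest.Agent.R100.Ent

variable {Y ι : Type} [Fintype Y] [Fintype ι]

theorem step_rec {X : Type} (x₀ : X) (f : List Bool → X → X) :
    ∃ G : List Bool → X, G [] = f [] x₀ ∧ ∀ v c, G (v ++ [c]) = f (v ++ [c]) (G v) := by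
  let g : List Bool → X := fun r => List.rec (f [] x₀) (fun c r ih => f (c :: r).reverse ih) r
  exact ⟨fun v => g v.reverse, rfl, fun v c => by simp [g]⟩

theorem pre_nil (G₀ : Y → ℝ → ℝ) (G : List Bool → Y → ℝ → ℝ) : pre G₀ G [] = G₀ := by simp [pre]

theorem pre_snoc (G₀ : Y → ℝ → ℝ) (G : List Bool → Y → ℝ → ℝ) (v : List Bool) (c : Bool) :
    pre G₀ G (v ++ [c]) = G v := by simp [pre]

theorem step_abs {g : ℝ → ℝ} {R : ℝ} (hg : Gl g R) {H : Y → ℝ → ℝ} {c : Y → ℝ} {lam z : ι → ℝ}
    (h : Fml g H c lam z) (y : Y) (t : ℝ) : |H y t| ≤ Real.exp R := by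
  rw [abs_of_nonneg (h.nn y t)]
  exact ((Finset.single_le_sum (fun y _ => h.nn y t) (Finset.mem_univ y)).trans (h.le t)).trans
    (hg.bd t).2

theorem step_abs_dv {g : ℝ → ℝ} {R : ℝ} (hg : Gl g R) {H : Y → ℝ → ℝ} {c : Y → ℝ}
    {lam z : ι → ℝ} (h : Fml g H c lam z) (y : Y) (t : ℝ) :
    |dv H c lam z y t| ≤ 2 * Real.exp R := by
  have h1 := h.dv_bd y t
  have h2 := (le_abs_self _).trans (step_abs hg h y t)
  rw [abs_of_nonneg ((h.nn y t).trans h1.1)]
  linarith [h1.2]

theorem step_mass_mono {g : ℝ → ℝ} {R : ℝ} (hg : Gl g R) {H H₁ : Y → ℝ → ℝ} {c : Y → ℝ}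
    {lam z : ι → ℝ} (h : Fml g H c lam z) (h₁ : Sub H₁ H) (a : ℝ) {l : ℝ} (hl : 0 < l) :
    mass H₁ a l ≤ mass H a l := by
  have := mass_le_mul (x := 1) h₁.1 h.meas (fun y t => (h₁.2 y t).1) (step_abs hg h)
    (fun y t => by rw [one_mul]; exact (h₁.2 y t).2) a hl
  rwa [one_mul] at this

theorem step_gap {g : ℝ → ℝ} {R : ℝ} (hg : Gl g R) {H H₁ : Y → ℝ → ℝ} {c : Y → ℝ}
    {lam z : ι → ℝ} (h : Fml g H c lam z) (h₁ : Sub H₁ H) (a : ℝ) {l : ℝ} (hl : 0 < l) :
    mass H a l - mass H₁ a l ≤ mass (dv H c lam z) a l - mass (dv H₁ c lam z) a l := by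
  have h' := h.sub h₁
  rw [← mass_sub h.meas h'.meas (step_abs hg h) (step_abs hg h'),
    ← mass_sub h.dv_meas h'.dv_meas (step_abs_dv hg h) (step_abs_dv hg h')]
  have := mass_le_mul (x := 1) (M := 2 * Real.exp R + 2 * Real.exp R)
    (H := fun y t => H y t - H₁ y t) (H' := fun y t => dv H c lam z y t - dv H₁ c lam z y t)
    (fun y => (h.meas y).sub (h'.meas y)) (fun y => (h.dv_meas y).sub (h'.dv_meas y))
    (fun y t => sub_nonneg.2 (h₁.2 y t).2)
    (fun y t => (abs_sub _ _).trans (add_le_add (step_abs_dv hg h y t) (step_abs_dv hg h' y t)))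
    (fun y t => by rw [one_mul]; exact h.dv_sub h₁ y t) a hl
  rwa [one_mul] at this

theorem step_tot_zero : tot (fun (_ : Y) (_ : ℝ) => (0 : ℝ)) = 0 := by
  funext t; simp [tot]

theorem step_mass_zero (a l : ℝ) : mass (fun (_ : Y) (_ : ℝ) => (0 : ℝ)) a l = 0 := by
  simp [mass, av]

theorem step_bm_sub {f f' : ℝ → ℂ} (h : BM f) (h' : BM f') : BM (f - f') := by
  obtain ⟨hm, M, hM⟩ := h
  obtain ⟨hm', M', hM'⟩ := h'
  exact ⟨hm.sub hm', M + M', fun y => (norm_sub_le _ _).trans (add_le_add (hM y) (hM' y))⟩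

theorem step_norm_ex (ξ y : ℝ) : ‖ex ξ y‖ = 1 := by
  unfold ex
  rw [← Complex.ofReal_neg, Complex.norm_exp_ofReal_mul_I]

/-- `G v` = the cleaned part of `pre H G v` if `mass ≤ P` and `¬(μ < 1 ∧ D ≤ v.length)`, else `0`;
`CI.decomp` with `F v = tot (G v)`, `Rm v = tot (pre H G v) - tot (G v)`; `mass_abs` twice. -/
theorem step {g : ℝ → ℝ} {R W B δ κ CL x P μ α ℓ : ℝ} {j₀ D : ℕ} (hg : Gl g R) (hR : 1 ≤ R)
    (hB : 1 ≤ B) (hL : LifeP (2 * R) W δ κ (1 / (8 * 8 ^ j₀)) CL j₀)
    {H : Y → ℝ → ℝ} {c : Y → ℝ} {lam z : ι → ℝ} (h : Fml g H c lam z) (hℓ : 0 < ℓ) (hP : 0 < P)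
    (hμ : 0 < μ) (hx : 0 ≤ x) (hPR : 1 ≤ Real.exp R * P) (hY : (Fintype.card Y : ℝ) ≤ Real.exp W)
    (hm : mass H α ℓ ≤ P) (hc : μ < 1 → 0 < D → Conc lam z (2 * ℓ / 2 ^ D) μ)
    (hcl : Clean g B κ μ δ P x j₀ H c lam z) (hd : Dbl g B μ P x (Cr R B) H lam z) :
    CI (cx g) B (tot H) α ℓ (CL * (2 * P) * δ + (x * mass H α ℓ + Cr R B * rho μ H α ℓ D)) := by
  classical
  choose! cl hcl using hcl
  set ok : List Bool → (Y → ℝ → ℝ) → Prop := fun v H₁ =>
    mass H₁ (nd α ℓ v) (ln ℓ v) ≤ P ∧ ¬(μ < 1 ∧ D ≤ v.length) with hok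
  obtain ⟨G, hG0, hGs⟩ := step_rec H
    (fun v H₁ => if ok v H₁ then cl H₁ (nd α ℓ v) (ln ℓ v) else fun _ _ => 0)
  have hG : ∀ v, G v = if ok v (pre H G v) then cl (pre H G v) (nd α ℓ v) (ln ℓ v)
      else fun _ _ => 0 := by
    intro v
    induction v using List.reverseRecOn with
    | nil => rw [pre_nil]; exact hG0
    | append_singleton v c _ => rw [pre_snoc]; exact hGs v c
  have hl := lowFamA_ln_pos hℓ
  have hz : ∀ {H₁ : Y → ℝ → ℝ}, Sub H₁ H → Sub (fun _ _ => 0) H₁ :=
    fun h₁ => ⟨fun _ => measurable_const, fun y t => ⟨le_rfl, (h₁.2 y t).1⟩⟩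
  have hGp : ∀ v, Sub (pre H G v) H → Sub (G v) (pre H G v) := by
    intro v hv
    rw [hG v]
    split_ifs with h1
    · exact (hcl _ _ _ (hl v) hv h1.1).1
    · exact hz hv
  have hp : ∀ v, Sub (pre H G v) H := by
    intro v
    induction v using List.reverseRecOn with
    | nil => rw [pre_nil]; exact Sub.refl h
    | append_singleton v c ih => rw [pre_snoc]; exact (hGp v ih).trans ih
  have hGp' : ∀ v, Sub (G v) (pre H G v) := fun v => hGp v (hp v)
  have hGH : ∀ v, Sub (G v) H := fun v => (hGp' v).trans (hp v)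
  have hGok : ∀ v, ok v (pre H G v) → G v = cl (pre H G v) (nd α ℓ v) (ln ℓ v) :=
    fun v h1 => by rw [hG v, if_pos h1]
  have hGno : ∀ v, ¬ok v (pre H G v) → G v = fun _ _ => 0 := fun v h1 => by rw [hG v, if_neg h1]
  have hmono : ∀ v w, Sub (G (v ++ w)) (G v) := by
    intro v w
    induction w using List.reverseRecOn with
    | nil => rw [List.append_nil]; exact Sub.refl (h.sub (hGH v))
    | append_singleton w c ih =>
      have := hGp' (v ++ w ++ [c])
      rw [pre_snoc] at this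
      rw [← List.append_assoc]
      exact this.trans ih
  have hdead : ∀ (v : List Bool) (k : ℕ), ¬ok (v.take k) (pre H G (v.take k)) →
      G v = fun _ _ => 0 := by
    intro v k h1
    have h2 := hmono (v.take k) (v.drop k)
    rw [List.take_append_drop, hGno _ h1] at h2
    funext y t
    exact le_antisymm (h2.2 y t).2 (h2.2 y t).1
  have hm0 : ∀ {H₁ : Y → ℝ → ℝ}, Sub H₁ H → ∀ v, 0 ≤ mass H₁ (nd α ℓ v) (ln ℓ v) :=
    fun h₁ v => mass_nonneg (fun y t => (h₁.2 y t).1) _ (hl v)
  have hGm : ∀ v, mass (G v) (nd α ℓ v) (ln ℓ v) ≤ mass (pre H G v) (nd α ℓ v) (ln ℓ v) :=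
    fun v => step_mass_mono hg (h.sub (hp v)) (hGp' v) _ (hl v)
  have hGP : ∀ v, mass (G v) (nd α ℓ v) (ln ℓ v) ≤ P := by
    intro v
    by_cases h1 : ok v (pre H G v)
    · exact (hGm v).trans h1.1
    · rw [hGno v h1, step_mass_zero]; exact hP.le
  have hmart : ∀ v, mass (G v) (nd α ℓ v) (ln ℓ v) =
      (mass (G v) (nd α ℓ (v ++ [false])) (ln ℓ (v ++ [false])) +
        mass (G v) (nd α ℓ (v ++ [true])) (ln ℓ (v ++ [true]))) / 2 :=
    fun v => mass_mart (hGH v).1 (step_abs hg (h.sub (hGH v))) α hℓ v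
  have hroot : nd α ℓ [] = α ∧ ln ℓ [] = ℓ := by simp [nd, ln]
  have hp2 : ∀ v, mass (pre H G v) (nd α ℓ v) (ln ℓ v) ≤ 2 * P := by
    intro v
    induction v using List.reverseRecOn with
    | nil => rw [pre_nil, hroot.1, hroot.2]; linarith
    | append_singleton v c _ =>
      rw [pre_snoc]
      have h1 := hmart v
      have h2 := hGP v
      have h3 := hm0 (hGH v) (v ++ [false])
      have h4 := hm0 (hGH v) (v ++ [true])
      cases c <;> linarith
  have hCr : 0 ≤ Cr R B := by unfold Cr; positivity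
  have hlen : ∀ v : List Bool, v.length ≤ D → 2 * ln ℓ v / 2 ^ (D - v.length) = 2 * ℓ / 2 ^ D := by
    intro v hv
    obtain ⟨m, hm⟩ := Nat.exists_eq_add_of_le hv
    rw [hm, Nat.add_sub_cancel_left, pow_add]
    unfold ln
    field_simp
  refine CI.decomp (F := fun v => tot (G v)) (Rm := fun v => tot (pre H G v) - tot (G v))
    (fun v => (h.sub (hGH v)).bm hg)
    (fun v => step_bm_sub ((h.sub (hp v)).bm hg) ((h.sub (hGH v)).bm hg))
    (by simp [pre_nil]) (fun v c => by simp [pre_snoc])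
    (fun v => x * (mass (pre H G v) (nd α ℓ v) (ln ℓ v) - mass (G v) (nd α ℓ v) (ln ℓ v)) +
      Cr R B * (rho μ (pre H G v) (nd α ℓ v) (ln ℓ v) (D - v.length) -
        rho μ (G v) (nd α ℓ v) (ln ℓ v) (D - v.length))) (fun v => ?_) ?_ (fun n => ?_)
  · by_cases h1 : ok v (pre H G v)
    · have h2 := (hcl _ _ _ (hl v) (hp v) h1.1).2.2.2
      rw [← hGok v h1] at h2
      refine h2.mono (le_add_of_nonneg_right (mul_nonneg hCr (sub_nonneg.2 ?_)))
      exact rho_mono μ (hGp' v) _ _ _
    · simp only [hGno v h1, step_tot_zero, step_mass_zero, rho_zero, sub_zero]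
      by_cases h2 : μ < 1 ∧ D ≤ v.length
      · rw [Nat.sub_eq_zero_of_le h2.2]
        exact (death hg hR hB h2.1 (h.sub (hp v)) _ (hl v)).mono
          (le_add_of_nonneg_left (mul_nonneg hx (hm0 (hp v) v)))
      · have h3 : P < mass (pre H G v) (nd α ℓ v) (ln ℓ v) := by
          by_contra h4
          exact h1 ⟨not_lt.1 h4, h2⟩
        refine hd _ _ _ _ (hl v) (hp v) h3 (hp2 v) fun h4 h5 => ?_
        rw [hlen v (by omega)]
        exact hc h4 (by omega)
  · intro n ξ A hA _
    set A' : List Bool → Prop := fun v => A v ∧ ∀ k, ok (v.take k) (pre H G (v.take k)) with hA'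
    have hA'ok : ∀ v, A' v → ok v (pre H G v) := fun v hv => by
      simpa using hv.2 v.length
    have hpre : ∀ v, pre (dv H c lam z) (fun v => dv (G v) c lam z) v =
        dv (pre H G v) c lam z := fun v => by
      unfold pre; split_ifs <;> rfl
    have key := hL Y ι (dv H c lam z) (fun v => dv (G v) c lam z) α ℓ (2 * P) μ lam z A'
      (fun y i => ex (z i) (-(c y))) hℓ (by positivity) hμ h.dv_meas
      (fun v => (h.sub (hGH v)).dv_meas)
      (fun v y t => by
        rw [hpre]
        have h1 := (h.sub (hGH v)).dv_bd y t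
        have h2 := (h.sub (hp v)).dv_sub (hGp' v) y t
        have h3 := (hGp' v).2 y t
        exact ⟨h3.1.trans h1.1, by linarith [h3.2]⟩)
      (fun t => by
        have h1 : ∑ y, dv H c lam z y t ≤ ∑ y, 2 * H y t :=
          Finset.sum_le_sum fun y _ => (h.dv_bd y t).2
        rw [← Finset.mul_sum] at h1
        have h2 := (h.le t).trans (hg.bd t).2
        have h3 : Real.exp (2 * R) = Real.exp R * Real.exp R := by rw [← Real.exp_add, two_mul]
        have h4 := mul_le_mul_of_nonneg_left hPR (Real.exp_pos R).le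
        rw [h3]; nlinarith)
      hY
      (fun v k hv => ⟨hA v k hv.1, fun j => by rw [List.take_take]; exact hv.2 _⟩)
      (fun v hv => by
        rw [hpre]
        have h1 := h.sub (hp v)
        have h2 := mass_le_mul (x := 2) h1.dv_meas h1.meas
          (fun y t => (h1.nn y t).trans (h1.dv_bd y t).1) (step_abs hg h1)
          (fun y t => (h1.dv_bd y t).2) (nd α ℓ v) (hl v)
        linarith [(hA'ok v hv).1])
      (fun v hv => by
        rw [hpre]
        have h1 := hA'ok v hv
        have h2 := (hcl _ _ _ (hl v) (hp v) h1.1).2.2.1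
        rw [← hGok v h1] at h2
        rcases h2 with h2 | h2
        · left; simp only [h2]
        · right
          refine le_trans (le_of_eq ?_) (h2.trans (step_gap hg (h.sub (hp v)) (hGp' v) _ (hl v)))
          field_simp; norm_num)
      h.prob
      (fun v hv => by
        by_cases h1 : μ < 1
        · have h2 : v.length < D := by
            by_contra h3
            exact (hA'ok v hv).2 ⟨h1, not_lt.1 h3⟩
          refine (hc h1 (by omega)).mono h.prob ?_
          rw [← hlen v h2.le, div_le_iff₀ (by positivity), mul_comm]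
          refine mul_le_mul_of_nonneg_left ?_ (hl v).le
          calc (2 : ℝ) = 2 ^ 1 := by norm_num
            _ ≤ _ := pow_le_pow_right₀ one_le_two (by omega)
        · exact Conc.of_one h.prob _ (not_lt.1 h1))
      (fun v hv => by
        have h1 := hA'ok v hv
        have h2 := (hcl _ _ _ (hl v) (hp v) h1.1).2.1
        rwa [← hGok v h1] at h2)
      (fun y i => (step_norm_ex _ _).le) n ξ
    refine le_trans (avg_mono_len n fun l _ => ?_) key
    have h1 : ∀ k, tm (ind A) (U (tot (G (l.take k))) α ℓ (ξ l)) l k =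
        tm (ind A') (U (tot (G (l.take k))) α ℓ (ξ l)) l k := by
      intro k
      by_cases h2 : ∀ j, ok ((l.take k).take j) (pre H G ((l.take k).take j))
      · have : ind A (l.take k) = ind A' (l.take k) := by
          unfold ind
          congr 1
          exact propext ⟨fun h3 => ⟨h3, h2⟩, fun h3 => h3.1⟩
        simp only [tm, this]
      · obtain ⟨j, hj⟩ := not_forall.1 h2
        rw [hdead _ j hj, step_tot_zero, U_zero, tm_zero, tm_zero]
    simp only [h1, fun k => mask_tm hg (h.sub (hGH (l.take k))) α ℓ (ξ l) (ind A') l k]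
    rw [Finset.sum_comm]
    refine (norm_sum_le _ _).trans (Finset.sum_le_sum fun i _ => le_of_eq ?_)
    rw [← Finset.mul_sum, norm_mul, Complex.norm_real, Real.norm_of_nonneg (h.prob.nn i)]
  · simp only [avg_add', avg_mul_left, Finset.sum_add_distrib, ← Finset.mul_sum]
    refine add_le_add (mul_le_mul_of_nonneg_left ?_ hx) (mul_le_mul_of_nonneg_left ?_ hCr)
    · refine mass_abs (m := fun v => mass (G v) (nd α ℓ v) (ln ℓ v)) (fun v => hm0 (hGH v) v)
        (fun v => sub_nonneg.2 (hGm v)) ?_ (fun v => ?_) n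
      · simp only [pre_nil, hroot.1, hroot.2]; linarith
      · simp only [pre_snoc]; linarith [hmart v]
    · refine mass_abs (m := fun v => rho μ (G v) (nd α ℓ v) (ln ℓ v) (D - v.length))
        (fun v => rho_nonneg _ _ _ _ _) (fun v => sub_nonneg.2 (rho_mono μ (hGp' v) _ _ _)) ?_
        (fun v => ?_) n
      · simp only [pre_nil, hroot.1, hroot.2, List.length_nil, Nat.sub_zero]; linarith
      · simp only [pre_snoc, List.length_append, List.length_singleton]
        by_cases h1 : ok v (pre H G v)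
        · by_cases h2 : μ < 1
          · have h3 : v.length < D := by
              by_contra h3
              exact h1.2 ⟨h2, not_lt.1 h3⟩
            have h4 : D - v.length = D - (v.length + 1) + 1 := by omega
            rw [h4, rho_mart]; linarith
          · simp [rho, h2]
        · simp [hGno v h1, rho_zero]

end Crest.Agent.R100.St
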