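import Crest.Agent.R100.StClean
import Crest.Agent.R100.StCap
import Crest.Agent.R100.StStep

/-! # Row 100, STRUCT: the double induction -/

set_option autoImplicit false

open MeasureTheory Set

noncomputable section

namespace Crest.Agent.R100.St

open Crest.Agent.R100 Crest.Agent.R100.Low Crest.Agent.R100.Str Crest.Agent.R100.Ent

theorem LifeP.monoW {R W W' δ κ ρ CL : ℝ} {j₀ : ℕ} (h : LifeP R W δ κ ρ CL j₀) (hW : W' ≤ W) :
    LifeP R W' δ κ ρ CL j₀ :=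
  fun Y ι _ _ G₀ G α ℓ P μ lam z A φ h1 h2 h3 h4 h5 h6 h7 h8 =>
    h Y ι G₀ G α ℓ P μ lam z A φ h1 h2 h3 h4 h5 h6 h7 (h8.trans (Real.exp_le_exp.2 hW))

theorem CapP.monoW {R W W' κ K : ℝ} {j₀ : ℕ} (h : CapP R W κ K j₀) (hW : W' ≤ W) :
    CapP R W' κ K j₀ :=
  fun Y _ H a l P j S h1 h2 h3 h4 h5 h6 h7 h8 =>
    h Y H a l P j S h1 h2 h3 h4 h5 h6 h7 (h8.trans (Real.exp_le_exp.2 hW))

theorem claim_step {g : ℝ → ℝ} {R B δ κ K CL : ℝ} {j₀ k₀ I₀ k i : ℕ} (hg : Gl g R)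
    (hp : Par R B δ κ K CL j₀ k₀ I₀) (hL : LifeP (2 * R) (k₀ * K) δ κ (1 / (8 * 8 ^ j₀)) CL j₀)
    (hC : CapP (2 * R) (k₀ * K) κ K j₀) (hk : k ≤ k₀) (hi : i + 3 * k ≤ I₀)
    (ih : ∀ k' i', k' < k → i' + 3 * k' ≤ I₀ → Claim g R B δ K CL k₀ k' i')
    (ih2 : ∀ i', i' < i → Claim g R B δ K CL k₀ k i') : Claim g R B δ K CL k₀ k i := by
  intro Y ι _ _ H c lam z α ℓ P μ D h hℓ hP hμ0 hm hB hμ hY hc
  have hδ : 0 ≤ δ := by linarith [hp.δ1]
  have hCL : 0 ≤ CL := by linarith [hp.CL1]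
  have hcl := clean_of_one hg h hP (onecap hg hp hC hk hi ih h hP hμ0 hB hμ hY)
  have hPR : 1 ≤ Real.exp R * P := by
    have h1 : (2 : ℝ) ^ i ≤ 2 ^ I₀ := pow_le_pow_right₀ one_le_two (by omega)
    have h2 := mul_le_mul_of_nonneg_right (h1.trans hp.hI) hP.le
    linarith [hp.B1]
  have hY' : (Fintype.card Y : ℝ) ≤ Real.exp (k₀ * K) := by
    refine hY.trans (Real.exp_le_exp.2 (mul_le_mul_of_nonneg_right ?_ hp.K0))
    have : (0 : ℝ) ≤ k := Nat.cast_nonneg k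
    linarith
  have hCr : 0 ≤ Cr R B := by
    have := hp.B1
    unfold Cr; positivity
  have hd : Dbl g B μ P (2 * CL * δ * (3 * i + 9 * k)) (Cr R B) H lam z := by
    intro H₁ a l D' hl hs h1 h2 hc'
    have hm0 : 0 ≤ mass H₁ a l := hP.le.trans h1.le
    have hr := mul_nonneg hCr (rho_nonneg μ H₁ a l D')
    rcases Nat.eq_zero_or_pos i with h0 | h0
    · subst h0
      refine (CI.dead ?_ _).mono (by positivity)
      have := (h.sub hs).mass_le_ca hg a hl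
      rw [pow_zero, one_mul] at hB
      linarith
    · obtain ⟨i', rfl⟩ : ∃ i', i = i' + 1 := ⟨i - 1, by omega⟩
      refine (ih2 i' (Nat.lt_succ_self _) Y ι H₁ c lam z a l (2 * P) μ D' (h.sub hs) hl
        (by positivity) hμ0 h2 (by rw [pow_succ] at hB; linarith) hμ hY hc').mono ?_
      have h3 : 2 * P + mass H₁ a l * (3 * (i' : ℝ) + 9 * k) ≤
          (3 * ((i' + 1 : ℕ) : ℝ) + 9 * k) * mass H₁ a l := by
        push_cast; nlinarith
      have h4 := mul_le_mul_of_nonneg_left h3 (by positivity : 0 ≤ 2 * CL * δ)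
      nlinarith
  refine (step hg hp.R1 hp.B1 hL h hℓ hP hμ0 (by positivity) hPR hY' hm hc hcl hd).mono
    (le_of_eq ?_)
  ring

theorem claim_all {g : ℝ → ℝ} {R B δ κ K CL : ℝ} {j₀ k₀ I₀ : ℕ} (hg : Gl g R)
    (hp : Par R B δ κ K CL j₀ k₀ I₀) (hL : LifeP (2 * R) (k₀ * K) δ κ (1 / (8 * 8 ^ j₀)) CL j₀)
    (hC : CapP (2 * R) (k₀ * K) κ K j₀) (k : ℕ) : k ≤ k₀ → ∀ i, i + 3 * k ≤ I₀ →
      Claim g R B δ K CL k₀ k i := by
  induction k using Nat.strong_induction_on with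
  | _ k ihk =>
    intro hk i
    induction i using Nat.strong_induction_on with
    | _ i ihi =>
      intro hi
      exact claim_step hg hp hL hC hk hi (fun k' i' h1 h2 => ihk k' h1 (by omega) i' h2)
        (fun i' h1 => ihi i' h1 (by omega))

theorem root {g : ℝ → ℝ} {R B δ κ K CL : ℝ} {j₀ k₀ i₀ : ℕ} (hg : Gl g R)
    (hp : Par R B δ κ K CL j₀ k₀ (i₀ + 3 * k₀))
    (hL : LifeP (2 * R) (k₀ * K) δ κ (1 / (8 * 8 ^ j₀)) CL j₀) (hC : CapP (2 * R) (k₀ * K) κ K j₀)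
    (hB : B ≤ 2 ^ i₀) (hR : R ≤ k₀ * δ) (α : ℝ) {ℓ : ℝ} (hℓ : 0 < ℓ) (hav : av g α ℓ ≤ 1) :
    CI (cx g) B (cx g) α ℓ (2 * CL * δ * (1 + (3 * i₀ + 9 * k₀))) := by
  have hδ : 0 ≤ δ := by linarith [hp.δ1]
  have hCL : 0 ≤ CL := by linarith [hp.CL1]
  have hF : ∀ τ, Fm (fun _ : Unit => (1 : ℝ)) (fun _ => (0 : ℝ)) τ = 1 := fun τ => by
    simp [Fm, ex]
  have h : Fml g (fun _ : Unit => g) (fun _ => 0) (fun _ : Unit => (1 : ℝ)) (fun _ => 0) :=
    ⟨fun _ => hg.meas, fun _ t => (hg.bd t).1, fun t => by simp, ⟨fun _ => zero_le_one, by simp⟩,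
      fun τ => by rw [hF]; simp, fun _ t _ => by rw [hF]; norm_num⟩
  have hm : mass (fun _ : Unit => g) α ℓ = av g α ℓ := by simp [mass]
  have h1 := claim_all hg hp hL hC k₀ le_rfl i₀ le_rfl Unit Unit _ _ _ _ α ℓ 1 1 0 h hℓ one_pos
    one_pos (hm.le.trans hav) (by simpa using hB) (Real.one_le_exp (by linarith)) (by simp)
    (fun h => absurd h (lt_irrefl _))
  have ht : tot (fun _ : Unit => g) = cx g := by funext t; simp [tot, cx]
  rw [ht] at h1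
  refine h1.mono ?_
  have hr : rho 1 (fun _ : Unit => g) α ℓ 0 = 0 := by simp [rho]
  rw [hr, mul_zero, add_zero, hm]
  refine mul_le_mul_of_nonneg_left ?_ (by positivity)
  have : (0 : ℝ) ≤ 3 * i₀ + 9 * k₀ := by positivity
  nlinarith

end Crest.Agent.R100.St
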