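import Crest.Agent.R100.StBasic
import Crest.Agent.R100.LifeDefs
import Crest.Agent.R100.Num49

/-! # Row 100, STRUCT: `LifeP` from `LIFE` -/

set_option autoImplicit false

open MeasureTheory Set

noncomputable section

namespace Crest.Agent.R100.St

open Crest.Agent.R100 Crest.Agent.R100.Low Crest.Agent.R100.Str Crest.Agent.R100.Ent

theorem stLife_pow : ∀ j : ℕ, (j + 3) ^ 4 ≤ 256 * 2 ^ j := by
  have h : ∀ j : ℕ, (j + 6) ^ 4 ≤ 256 * 2 ^ (j + 3) := by
    intro j
    induction j with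
    | zero => norm_num
    | succ j ih =>
      have h1 : (j + 1 + 6) ^ 4 ≤ 2 * (j + 6) ^ 4 := by
        have : 2 * (j + 6) ^ 4 = (j + 1 + 6) ^ 4 + (j ^ 4 + 20 * j ^ 3 + 138 * j ^ 2 + 356 * j + 191) := by
          ring
        omega
      have h2 : 256 * 2 ^ (j + 1 + 3) = 2 * (256 * 2 ^ (j + 3)) := by ring
      omega
  intro j
  match j with
  | 0 => norm_num
  | 1 => norm_num
  | 2 => norm_num
  | j + 3 => exact h j

theorem stLife_le (j : ℕ) : ((j : ℝ) + 3) ≤ 4 * (2 : ℝ) ^ ((j : ℝ) / 4) := by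
  have h0 : (0 : ℝ) ≤ 4 * (2 : ℝ) ^ ((j : ℝ) / 4) := by positivity
  refine le_of_pow_le_pow_left₀ (n := 4) (by norm_num) h0 ?_
  have h1 : ((2 : ℝ) ^ ((j : ℝ) / 4)) ^ 4 = 2 ^ j := by
    rw [← Real.rpow_natCast, ← Real.rpow_mul (by norm_num), ← Real.rpow_natCast]
    congr 1
    push_cast; ring
  rw [mul_pow, h1]
  have h2 : (((j + 3) ^ 4 : ℕ) : ℝ) ≤ ((256 * 2 ^ j : ℕ) : ℝ) := Nat.cast_le.2 (stLife_pow j)
  push_cast at h2
  norm_num
  linarith

theorem stLife_pre {Y : Type} (G₀ : Y → ℝ → ℝ) (G : List Bool → Y → ℝ → ℝ) (v : List Bool)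
    (c : Bool) : pre G₀ G (v ++ [c]) = G v := by
  simp [pre]

open Crest.Agent.R100.Life in
/-- `h y v = G v y`; `(j+3)^4 ≤ 256 * 2^j`; `8 * 8^j₀ ≤ 8 mm^9 ≤ mm^30`. -/
theorem lifeP_of_LIFE (h : LIFE) : ∃ CL R₀ : ℝ, 1 ≤ CL ∧ ∀ (R : ℝ) (j₀ : ℕ), R₀ ≤ R →
    (2 : ℝ) ^ j₀ ≤ mm R ^ 3 → mm R ^ 3 < 2 ^ (j₀ + 1) →
      LifeP (2 * R) (R / mm R ^ 40) (R / mm R) (kap R) (1 / (8 * 8 ^ j₀)) CL j₀ := by
  obtain ⟨C, R₀, hC⟩ := h
  obtain ⟨R₁, hR₁⟩ := Filter.eventually_atTop.1 (Num49.ev_mm 2)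
  refine ⟨max C 1, max (max R₀ R₁) 1, le_max_right _ _, fun R j₀ hR hj1 hj2 => ?_⟩
  have hR0 : R₀ ≤ R := le_trans (le_trans (le_max_left _ _) (le_max_left _ _)) hR
  have hm : 2 ≤ mm R := hR₁ R (le_trans (le_trans (le_max_right _ _) (le_max_left _ _)) hR)
  have hR1 : 1 ≤ R := le_trans (le_max_right _ _) hR
  have hm0 : 0 < mm R := by linarith
  have hδ : 0 ≤ R / mm R := by positivity
  intro Y ι _ _ G₀ G α ℓ P μ lam z A φ hℓ hP hμ _ hGm hG hsup hcard hher hmass hgap hprob hconc
    hnt hφ n ξ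
  have hρ : P / mm R ^ 30 ≤ 1 / (8 * 8 ^ j₀) * P := by
    have h1 : (8 : ℝ) ^ j₀ = (2 ^ j₀) ^ 3 := by
      rw [← pow_mul, mul_comm, pow_mul]; norm_num
    have h2 : ((2 : ℝ) ^ j₀) ^ 3 ≤ (mm R ^ 3) ^ 3 := pow_le_pow_left₀ (by positivity) hj1 3
    have h3 : (2 : ℝ) ^ 21 ≤ mm R ^ 21 := pow_le_pow_left₀ (by norm_num) hm 21
    have h4 : 8 * (8 : ℝ) ^ j₀ ≤ mm R ^ 30 := by
      have h5 : mm R ^ 30 = mm R ^ 21 * (mm R ^ 3) ^ 3 := by ring
      have h6 : (0 : ℝ) ≤ (mm R ^ 3) ^ 3 := by positivity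
      rw [h5, h1]
      have h7 : (8 : ℝ) ≤ mm R ^ 21 := le_trans (by norm_num) h3
      exact mul_le_mul h7 h2 (by positivity) (by positivity)
    rw [one_div, inv_mul_eq_div]
    exact div_le_div_of_nonneg_left hP.le (by positivity) h4
  have hρ0 : 0 ≤ 1 / (8 * 8 ^ j₀) * P := by positivity
  have hD : Data R P μ (fun y v => G v y) α ℓ A lam z :=
    { hl := hℓ
      hP := hP
      hμ := hμ
      meas := fun y v => hGm v y
      nn := fun y v t => (hG v y t).1
      dec := fun y v c t => by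
        have := (hG (v ++ [c]) y t).2
        rwa [stLife_pre] at this
      sup := fun y t => by
        have h0 : ∀ y', G [] y' t ≤ G₀ y' t := fun y' => by
          have := (hG [] y' t).2
          simpa [pre] using this
        have h1 : G₀ y t ≤ ∑ y', G₀ y' t :=
          Finset.single_le_sum (f := fun y' => G₀ y' t)
            (fun y' _ => (hG [] y' t).1.trans (h0 y')) (Finset.mem_univ y)
        have h2 : Real.exp (2 * R) * P ≤ Real.exp (3 * R) * P :=
          mul_le_mul_of_nonneg_right (Real.exp_le_exp.2 (by linarith)) hP.le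
        exact (h0 y).trans (h1.trans ((hsup t).trans h2))
      card := by
        rcases Nat.eq_zero_or_pos (Fintype.card Y) with h0 | h0
        · rw [h0, Nat.cast_zero, Real.log_zero]; positivity
        · exact (Real.log_le_iff_le_exp (by exact_mod_cast h0)).2 hcard
      her := hher
      mass := fun v hv => by
        have h1 := hmass v hv
        show mass (G v) (nd α ℓ v) (ln ℓ v) ≤ P
        rcases hgap v hv with h2 | h2
        · rw [h2]; exact h1
        · linarith
      gap := fun v c hv => by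
        rcases hgap _ hv with h2 | h2
        · left
          intro y
          rw [stLife_pre] at h2
          show G (v ++ [c]) y = G v y
          rw [h2]
        · right
          rw [stLife_pre] at h2
          rw [Finset.sum_sub_distrib]
          exact hρ.trans h2
      lnn := hprob.1
      lone := hprob.2
      bin := fun v hv a => by
        refine le_trans (Finset.sum_le_sum fun ω _ => ?_) (hconc v hv a)
        have hl : 0 < ln ℓ v := by unfold ln; positivity
        by_cases h1 : a ≤ z ω ∧ z ω ≤ a + 1 / ln ℓ v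
        · have h2 : |z ω - a| * ln ℓ v ≤ 1 := by
            rw [abs_of_nonneg (by linarith [h1.1]), ← le_div_iff₀ hl]
            linarith [h1.2]
          rw [if_pos h1, if_pos h2]
        · rw [if_neg h1]
          split_ifs
          · exact hprob.1 ω
          · exact le_rfl
      cnt := fun v hv j hj F hF => by
        have h1 : j ≤ j₀ := by
          have h2 : (2 : ℝ) ^ j < 2 ^ (j₀ + 1) := lt_of_le_of_lt hj hj2
          have := (pow_lt_pow_iff_right₀ (by norm_num : (1 : ℝ) < 2)).1 h2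
          omega
        have h3 := hnt v hv j h1 F hF
        rw [le_div_iff₀ hμ]
        exact h3.trans (Real.exp_le_exp.2 (mul_le_mul_of_nonneg_right (stLife_le j) hδ)) }
  have key := hC R P μ Y ι (fun y v => G v y) α ℓ A lam z (fun i y => φ y i) n ξ hR0 hD
    (fun i y => hφ y i)
  have e : ∀ (i : ι) (l : List Bool), (∑ k ∈ Finset.range (n - 1), ∑ y,
      φ y i * tm (ind A) (U (cx (G (l.take k) y)) α ℓ (ξ l + z i)) l k) =
      Wn (fun y v => G v y) α ℓ A (fun y => φ y i) (ξ l + z i) l 0 (n - 1) := by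
    intro i l
    unfold Wn Run.wD
    rw [Finset.range_eq_Ico]
    refine Finset.sum_congr rfl fun k _ => ?_
    unfold Run.tD tm ind
    by_cases hA : A (l.take k)
    · simp only [if_pos hA, Finset.mul_sum, one_mul]
      refine Finset.sum_congr rfl fun y _ => ?_
      unfold dd cf cx
      ring
    · simp [if_neg hA]
  simp only [e]
  rw [avg_sum]
  simp only [avg_mul_left]
  refine key.trans ?_
  exact mul_le_mul_of_nonneg_right (mul_le_mul_of_nonneg_right (le_max_left _ _) hP.le) hδ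

end Crest.Agent.R100.St
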