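import Crest.Agent.R100.StBasic

/-! # Row 100, STRUCT: the exact mask identity -/

set_option autoImplicit false

open MeasureTheory Set

noncomputable section

namespace Crest.Agent.R100.St

open Crest.Agent.R100 Crest.Agent.R100.Low Crest.Agent.R100.Str Crest.Agent.R100.Ent

variable {Y ι : Type} [Fintype Y] [Fintype ι]

private theorem msk_ex (ξ z t c : ℝ) : ex z (t - c) * ex ξ t = ex z (-c) * ex (ξ + z) t := by
  unfold ex
  rw [← Complex.exp_add, ← Complex.exp_add]
  congr 1
  push_cast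
  ring

private theorem msk_pt {g : ℝ → ℝ} {H : Y → ℝ → ℝ} {c : Y → ℝ} {lam z : ι → ℝ}
    (h : Fml g H c lam z) (y : Y) (t : ℝ) :
    (H y t : ℂ) = (dv H c lam z y t : ℂ) * Fm lam z (t - c y) := by
  have e : Fm lam z (t - c y) = ((Fm lam z (t - c y)).re : ℂ) :=
    Complex.ext (by simp) (by simp [h.im])
  rw [e, ← Complex.ofReal_mul]
  congr 1
  unfold dv
  by_cases h0 : H y t = 0
  · simp [h0]
  · have := h.pure y t h0
    rw [div_mul_cancel₀ _ (by linarith)]

theorem mask_id {g : ℝ → ℝ} {R : ℝ} (hg : Gl g R) {H : Y → ℝ → ℝ} {c : Y → ℝ} {lam z : ι → ℝ}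
    (h : Fml g H c lam z) (α ℓ ξ : ℝ) (v : List Bool) :
    U (tot H) α ℓ ξ v = ∑ i, (lam i : ℂ) * ∑ y,
      ex (z i) (-(c y)) * U (cx (dv H c lam z y)) α ℓ (ξ + z i) v := by
  have hi : ∀ (y : Y) (ζ a b : ℝ),
      IntervalIntegrable (fun t => cx (dv H c lam z y) t * ex ζ t) volume a b :=
    fun y ζ a b => lowFamA_int (f := cx (dv H c lam z y))
      (Complex.measurable_ofReal.comp (h.dv_meas y)) (M := 2 * Real.exp R)
      (fun t => by
        have a1 := h.dv_bd y t
        have a2 : H y t ≤ ∑ y, H y t :=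
          Finset.single_le_sum (f := fun y => H y t) (fun y _ => h.nn y t) (Finset.mem_univ y)
        unfold cx
        rw [Complex.norm_real, Real.norm_of_nonneg ((h.nn y t).trans a1.1)]
        linarith [a1.2, h.le t, (hg.bd t).2]) ζ a b
  have e : ∀ t, tot H t * ex ξ t = ∑ i, ∑ y,
      (lam i : ℂ) * ex (z i) (-c y) * (cx (dv H c lam z y) t * ex (ξ + z i) t) := fun t => by
    unfold tot
    rw [Complex.ofReal_sum, Finset.sum_comm, Finset.sum_mul]
    refine Finset.sum_congr rfl fun y _ => ?_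
    rw [msk_pt h y t]
    unfold Fm cx
    rw [Finset.mul_sum, Finset.sum_mul]
    refine Finset.sum_congr rfl fun i _ => ?_
    linear_combination (dv H c lam z y t : ℂ) * (lam i : ℂ) * msk_ex ξ (z i) t (c y)
  unfold U cu
  simp only [e]
  rw [intervalIntegral.integral_finsetSum fun i _ => by
    simpa [Finset.sum_fn] using IntervalIntegrable.sum Finset.univ
      (f := fun y t => (lam i : ℂ) * ex (z i) (-c y) * (cx (dv H c lam z y) t * ex (ξ + z i) t))
      fun y _ => (hi y _ _ _).const_mul _, Finset.sum_div]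
  refine Finset.sum_congr rfl fun i _ => ?_
  rw [intervalIntegral.integral_finsetSum fun y _ => (hi y _ _ _).const_mul _, Finset.sum_div,
    Finset.mul_sum]
  refine Finset.sum_congr rfl fun y _ => ?_
  rw [intervalIntegral.integral_const_mul]
  ring

theorem mask_tm {g : ℝ → ℝ} {R : ℝ} (hg : Gl g R) {H : Y → ℝ → ℝ} {c : Y → ℝ} {lam z : ι → ℝ}
    (h : Fml g H c lam z) (α ℓ ξ : ℝ) (e : List Bool → ℂ) (l : List Bool) (k : ℕ) :
    tm e (U (tot H) α ℓ ξ) l k = ∑ i, (lam i : ℂ) * ∑ y,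
      ex (z i) (-(c y)) * tm e (U (cx (dv H c lam z y)) α ℓ (ξ + z i)) l k := by
  unfold tm
  rw [mask_id hg h, mask_id hg h, ← Finset.sum_sub_distrib, Finset.mul_sum, Finset.mul_sum]
  refine Finset.sum_congr rfl fun i _ => ?_
  rw [← mul_sub, ← Finset.sum_sub_distrib, Finset.mul_sum, Finset.mul_sum, Finset.mul_sum,
    Finset.mul_sum]
  refine Finset.sum_congr rfl fun y _ => ?_
  ring

end Crest.Agent.R100.St
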