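import Crest.Agent.R100.StBasic
import Crest.Agent.R100.MlDefs
import Crest.Agent.R100.MlNorm

/-! # Row 100, STRUCT: normalisation `b = 1` -/

set_option autoImplicit false

open MeasureTheory Set

noncomputable section

namespace Crest.Agent.R100.St

open Crest.Agent.R100 Crest.Agent.R100.Low Crest.Agent.R100.Str Crest.Agent.R100.Ent

/-- apply the hypothesis to `g / b`, `B / b`, `A = AlB (cx (g / b)) (B / b) α ℓ`; compare `Ts_eq`. -/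
theorem ml_of_CI (h : ∃ C R₀ : ℝ, ∀ (R B : ℝ) (g : ℝ → ℝ) (α ℓ : ℝ), 1 ≤ R → R₀ ≤ R → 1 ≤ B →
    B ≤ 16 * (1 + Real.log R) ^ 2 → Gl g R → 0 < ℓ → av g α ℓ ≤ 1 →
      CI (cx g) B (cx g) α ℓ (C * R)) : ML := by
  obtain ⟨C, R₀, h⟩ := h
  refine ML_of_MLt ⟨C, R₀, fun R B g n α ℓ ξ hR hR₀ hB hB' hg h0 hℓ hca => ?_⟩
  rw [ca_ofReal (fun y => (h0 y).1)] at hca
  exact h R B g α ℓ hR hR₀ hB hB' ⟨hg, h0⟩ hℓ hca n ξ (AlB (cx g) B α ℓ)
    (fun v k hv => AlB.take hv k) (fun _ hv => hv)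

end Crest.Agent.R100.St
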