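import Crest.Agent.R100.StDefs
import Crest.Agent.R100.LifeDefs
import Crest.Agent.R100.Num49

/-! # Row 100, STRUCT: numerics -/

set_option autoImplicit false

open MeasureTheory Set

noncomputable section

namespace Crest.Agent.R100.St

open Crest.Agent.R100 Crest.Agent.R100.Low Crest.Agent.R100.Str Crest.Agent.R100.Ent

open Crest.Agent.R100.Life in
/-- `k₀ = ⌈mm R⌉₊`, `i₀` least with `B ≤ 2 ^ i₀`, `j₀ = Nat.log 2 ⌊mm R ^ 3⌋₊`. -/
theorem numerics (CL : ℝ) (hCL : 1 ≤ CL) : ∃ R₀ : ℝ, ∀ R B : ℝ, R₀ ≤ R → 1 ≤ B →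
    B ≤ 16 * (1 + Real.log R) ^ 2 → ∃ j₀ k₀ i₀ : ℕ,
      Par R B (R / mm R) (kap R) (R / mm R ^ 45) CL j₀ k₀ (i₀ + 3 * k₀) ∧
      (2 : ℝ) ^ j₀ ≤ mm R ^ 3 ∧ mm R ^ 3 < 2 ^ (j₀ + 1) ∧ B ≤ 2 ^ i₀ ∧ R ≤ k₀ * (R / mm R) ∧
      k₀ * (R / mm R ^ 45) ≤ R / mm R ^ 40 ∧
      (R / mm R) * (1 + (3 * i₀ + 9 * k₀)) ≤ 100 * R := by
  have hev := ((Num49.ev_mm 8).and (Num49.ev_div' 14 1 0)).and
    (((Num49.ev_div' 1 0 1).and (Filter.eventually_ge_atTop (1 : ℝ))).and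
      (Num49.ev_exp (1200000 * 17 * 120 * 300) 95 2 1 1 (E := 2) (by norm_num)))
  obtain ⟨R₀, hR₀⟩ := Filter.eventually_atTop.1 hev
  refine ⟨R₀, fun R B hR hB1 hB => ?_⟩
  obtain ⟨⟨hm, h14⟩, ⟨hδ, hR1⟩, hbig⟩ := hR₀ R hR
  have hexp := Num49.exp_mm hR1
  have hL : 0 ≤ Real.log R := Real.log_nonneg hR1
  have hkap : kap R = (mm R ^ 70)⁻¹ := rfl
  rw [hkap]
  generalize mm R = m at *
  simp only [pow_zero, pow_one, div_one, mul_one] at h14 hδ hbig
  have hm0 : 0 < m := by linarith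
  have hm1 : 1 ≤ m := by linarith
  have hR0 : 0 < R := by linarith
  obtain ⟨j₀, hj1, hj2⟩ := exists_nat_pow_near (x := m ^ 3) (y := (2 : ℝ)) (one_le_pow₀ hm1)
    (by norm_num)
  have hk1 : m ≤ (⌈m⌉₊ : ℝ) := Nat.le_ceil m
  have hk2 : (⌈m⌉₊ : ℝ) ≤ m + 1 := (Nat.ceil_lt_add_one hm0.le).le
  have hi1 : 4 + 3 * m ≤ (⌈4 + 3 * m⌉₊ : ℝ) := Nat.le_ceil _
  have hi2 : (⌈4 + 3 * m⌉₊ : ℝ) ≤ 4 + 3 * m + 1 := (Nat.ceil_lt_add_one (by linarith)).le
  generalize ⌈m⌉₊ = k₀ at hk1 hk2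
  generalize ⌈4 + 3 * m⌉₊ = i₀ at hi1 hi2
  have hB2 : B ≤ 16 * Real.exp (2 * m) := by
    have e : Real.exp (2 * m) = (2 + Real.log R) ^ 2 := by
      rw [← hexp, ← Real.exp_nat_mul]; norm_num
    rw [e]; nlinarith
  have hl2 : (0.69 : ℝ) < Real.log 2 := by linarith [Real.log_two_gt_d9]
  have hl2' : Real.log 2 ≤ 1 := by linarith [Real.log_two_lt_d9]
  have hpow : ∀ n : ℕ, (2 : ℝ) ^ n = Real.exp (n * Real.log 2) := fun n => by
    rw [Real.exp_nat_mul, Real.exp_log (by norm_num)]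
  have hBi : B ≤ 2 ^ i₀ := by
    refine hB2.trans ?_
    have e : (16 : ℝ) = Real.exp (4 * Real.log 2) := by
      have := hpow 4
      norm_num at this ⊢
      exact this
    rw [hpow, e, ← Real.exp_add]
    apply Real.exp_le_exp.2
    nlinarith
  have hI : (2 : ℝ) ^ (i₀ + 3 * k₀) ≤ Real.exp (14 * m) := by
    rw [hpow]
    apply Real.exp_le_exp.2
    push_cast
    have h0 : (0 : ℝ) ≤ (i₀ : ℝ) + 3 * k₀ := by positivity
    nlinarith
  have hp5 : m + 1 ≤ m ^ 5 := by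
    have h1 : m ^ 2 ≤ m ^ 5 := pow_le_pow_right₀ hm1 (by norm_num)
    nlinarith
  have hK40 : (k₀ : ℝ) * (R / m ^ 45) ≤ R / m ^ 40 := by
    have e : R / m ^ 40 = m ^ 5 * (R / m ^ 45) := by field_simp
    rw [e]
    exact mul_le_mul_of_nonneg_right (hk2.trans hp5) (by positivity)
  have h40 : R / m ^ 40 ≤ R := div_le_self hR0.le (one_le_pow₀ hm1)
  refine ⟨j₀, k₀, i₀, ⟨hR1, hB1, hδ, by positivity, inv_le_one_of_one_le₀ (one_le_pow₀ hm1),
    by positivity, hCL, hI.trans (Real.exp_le_exp.2 h14), by linarith, ?_⟩, hj1, hj2, hBi, ?_,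
    hK40, ?_⟩
  · have hme : m ≤ Real.exp m := by linarith [Real.add_one_le_exp m]
    have a1 : B + 1 ≤ 17 * Real.exp (2 * m) := by
      have : 1 ≤ Real.exp (2 * m) := Real.one_le_exp (by linarith)
      linarith
    have a2 : Real.exp ((k₀ + 2) * (R / m ^ 45)) ≤ Real.exp (R / (2 * m)) := by
      apply Real.exp_le_exp.2
      have e : R / (2 * m) = (m ^ 44 / 2) * (R / m ^ 45) := by field_simp
      rw [e]
      refine mul_le_mul_of_nonneg_right ?_ (by positivity)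
      have h1 : m ^ 2 ≤ m ^ 44 := pow_le_pow_right₀ hm1 (by norm_num)
      nlinarith
    have a3 : 120 / (m ^ 70)⁻¹ ≤ 120 * Real.exp (70 * m) := by
      rw [div_inv_eq_mul]
      have : m ^ 70 ≤ Real.exp (70 * m) := by
        have h := pow_le_pow_left₀ hm0.le hme 70
        rwa [← Real.exp_nat_mul] at h
      linarith
    have a4 : (8 : ℝ) ^ j₀ ≤ Real.exp (9 * m) := by
      have e : (8 : ℝ) ^ j₀ = (2 ^ j₀) ^ 3 := by
        rw [← pow_mul, mul_comm, pow_mul]; norm_num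
      have h1 : ((2 : ℝ) ^ j₀) ^ 3 ≤ (m ^ 3) ^ 3 := pow_le_pow_left₀ (by positivity) hj1 3
      have h2 : m ^ 9 ≤ Real.exp (9 * m) := by
        have h := pow_le_pow_left₀ hm0.le hme 9
        rwa [← Real.exp_nat_mul] at h
      rw [e]
      refine h1.trans ?_
      rw [← pow_mul]
      exact h2
    have e1 : Real.exp (R / m) = Real.exp (R / (2 * m)) * Real.exp (R / (2 * m)) := by
      rw [← Real.exp_add]; congr 1; field_simp; ring
    have e2 : Real.exp (95 * m) = Real.exp (2 * m) * Real.exp (70 * m) * Real.exp (9 * m) *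
        Real.exp (14 * m) := by
      rw [← Real.exp_add, ← Real.exp_add, ← Real.exp_add]; congr 1; ring
    calc 1200000 * R ^ 2 * (B + 1) * Real.exp ((k₀ + 2) * (R / m ^ 45)) * (120 / (m ^ 70)⁻¹) *
          8 ^ j₀ * 2 ^ (i₀ + 3 * k₀) * 300
        ≤ 1200000 * R ^ 2 * (17 * Real.exp (2 * m)) * Real.exp (R / (2 * m)) *
          (120 * Real.exp (70 * m)) * Real.exp (9 * m) * Real.exp (14 * m) * 300 := by
          gcongr
      _ = (1200000 * 17 * 120 * 300 * R ^ 2 * Real.exp (95 * m)) * Real.exp (R / (2 * m)) := by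
          rw [e2]; ring
      _ ≤ Real.exp (R / (2 * m)) * Real.exp (R / (2 * m)) := by gcongr
      _ = Real.exp (R / m) := e1.symm
  · calc R = m * (R / m) := by field_simp
      _ ≤ k₀ * (R / m) := mul_le_mul_of_nonneg_right hk1 (by positivity)
  · calc R / m * (1 + (3 * i₀ + 9 * k₀)) ≤ R / m * (100 * m) :=
          mul_le_mul_of_nonneg_left (by linarith) (by positivity)
      _ = 100 * R := by field_simp

end Crest.Agent.R100.St
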