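import Crest.Agent.R100.StInd
import Crest.Agent.R100.StLife
import Crest.Agent.R100.StAD
import Crest.Agent.R100.StNum
import Crest.Agent.R100.StNorm

/-! # Row 100, STRUCT: `ML` from `LIFE` -/

set_option autoImplicit false

open MeasureTheory Set

noncomputable section

namespace Crest.Agent.R100.St

open Crest.Agent.R100 Crest.Agent.R100.Low Crest.Agent.R100.Str Crest.Agent.R100.Ent

theorem ml_of_LIFE (h : Life.LIFE) : ML := by
  obtain ⟨CL, R₁, hCL, h1⟩ := lifeP_of_LIFE h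
  obtain ⟨R₂, h2⟩ := capP
  obtain ⟨R₃, h3⟩ := numerics CL hCL
  refine ml_of_CI ⟨200 * CL, max R₁ (max R₂ R₃), fun R B g α ℓ _ hR hB hB' hg hℓ hav => ?_⟩
  simp only [max_le_iff] at hR
  obtain ⟨j₀, k₀, i₀, hp, a1, a2, a3, a4, a5, a6⟩ := h3 R B hR.2.2 hB hB'
  refine (root hg hp ((h1 R j₀ hR.1 a1 a2).monoW a5) ((h2 R j₀ hR.2.1 a1).monoW a5) a3 a4 α hℓ hav).mono ?_
  have := mul_le_mul_of_nonneg_left a6 (by linarith : 0 ≤ 2 * CL)
  nlinarith

end Crest.Agent.R100.St
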