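import Crest.Agent.R100.Top88B

/-! # Row 100, STRUCT (helper88): one life of a state, and the top -/

set_option autoImplicit false

open MeasureTheory Set

noncomputable section

namespace Crest.Agent.R100.T88

open Crest.Agent.R100 Crest.Agent.R100.Low Crest.Agent.R100.Run Crest.Agent.R100.Life
  Crest.Agent.R100.Split Crest.Agent.R100.Birth

variable {R B : ℝ}

/-- the life goes on -/
def Go (s : St R B) (v : List Bool) (cl : s.Y → ℝ → ℝ) : Prop :=
  s.Liv v.length ∧ ∑ y, av (s.hc cl y) (nd s.α s.ℓ v) (ln s.ℓ v) ≤ s.P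

/-- the trigger -/
def Trig (s : St R B) (v : List Bool) (cl : s.Y → ℝ → ℝ) : Prop :=
  ∃ (j : ℕ) (F : Finset ℤ), (2 : ℝ) ^ j ≤ mm R ^ 3 ∧
    (∀ N ∈ F, s.P / 2 ^ j ≤ ∑ y, ‖cu (fun t => (s.hc cl y t : ℂ)) (N * kap R / ln s.ℓ v)
      (nd s.α s.ℓ v) (ln s.ℓ v)‖) ∧
    Real.exp (4 * (2 : ℝ) ^ ((j : ℝ) / 4) * (R / mm R)) / s.μ < F.card

theorem av_sub {M M' : ℝ} {f g : ℝ → ℝ} (hf : Bd M f) (hg : Bd M' g) (α ℓ : ℝ) :
    av (fun t => f t - g t) α ℓ = av f α ℓ - av g α ℓ := by
  unfold av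
  rw [intervalIntegral.integral_sub (hf.ii _ _) (hg.ii _ _), sub_div]

theorem St.hc_dec (s : St R B) {cl cl' : s.Y → ℝ → ℝ} (h : Sub s.a cl) (h' : Sub cl cl') (y : s.Y)
    (t : ℝ) : cl y t - cl' y t ≤ s.hc cl y t - s.hc cl' y t := by
  rcases (h' y).2 t with h1 | h1
  · unfold St.hc; rw [h1]; simp
  · have := (s.hc_bd h y t).1
    have e : s.hc cl' y t = 0 := by unfold St.hc; rw [h1, zero_div]
    rw [e, h1]; linarith

theorem St.hc_le (s : St R B) {cl cl' : s.Y → ℝ → ℝ} (h : Sub s.a cl) (h' : Sub cl cl') (y : s.Y)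
    (t : ℝ) : s.hc cl' y t ≤ s.hc cl y t := by
  have h1 := s.hc_dec h h' y t
  have h2 := (h'.le (s.cells.sub h).nn y t).2
  linarith

theorem data88 (hb : Big R B) (s : St R B) {Pq : List Bool → (ℝ → ℝ) → Prop}
    {cl : List Bool → s.Y → ℝ → ℝ} {A : List Bool → Prop} {T : List Bool → Finset ℕ}
    {r : List Bool → ℕ → ℝ → ℝ}
    (ho : LifeOut (Real.exp R) s.α s.ℓ (s.P / mm R ^ 30)
      (fun v c => Sub s.a c ∧ Go s v c) (Trig s) Pq s.a cl A T r) :
    Data R s.P s.μ (fun y v => s.hc (cl v) y) s.α s.ℓ A s.lam s.Z where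
  hl := s.hl
  hP := s.hP
  hμ := s.μ_pos
  meas := fun y v => s.hc_meas (ho.sub v) y
  nn := fun y v => (s.hc_Bd (ho.sub v) y).nn
  dec := fun y v c t => s.hc_le (ho.sub v) (ho.dec v c) y t
  sup := fun y t => s.hc_sup hb (ho.sub []) y t
  card := s.card_le hb
  her := ho.her
  mass := fun v hv => (ho.go v hv).2.2
  gap := fun v c hv => by
    rcases ho.gap v c hv with h | h
    · exact Or.inl fun y => by rw [h]
    · refine Or.inr (h.trans ?_)
      have h1 := s.cells.sub (ho.sub v)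
      have h2 := s.cells.sub (ho.sub (v ++ [c]))
      unfold avn ms
      rw [av_sub h1.bd h2.bd]
      have e1 := av_sum Finset.univ (fun y _ => cell_bd h1 y) (nd s.α s.ℓ (v ++ [c]))
        (ln s.ℓ (v ++ [c]))
      have e2 := av_sum Finset.univ (fun y _ => cell_bd h2 y) (nd s.α s.ℓ (v ++ [c]))
        (ln s.ℓ (v ++ [c]))
      unfold tot
      rw [e1, e2, ← Finset.sum_sub_distrib]
      refine Finset.sum_le_sum fun y _ => ?_
      rw [← av_sub (cell_bd h1 y) (cell_bd h2 y),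
        ← av_sub (s.hc_Bd (ho.sub v) y) (s.hc_Bd (ho.sub (v ++ [c])) y)]
      refine av_mono (M := Real.exp R) (M' := 2 * Real.exp R)
        ⟨(h1.meas y).sub (h2.meas y), fun t => sub_nonneg.2 ((ho.dec v c).le h1.nn y t).2,
          fun t => (sub_le_self _ (h2.nn y t)).trans (cell_le h1 y t)⟩
        ⟨(s.hc_meas (ho.sub v) y).sub (s.hc_meas (ho.sub (v ++ [c])) y),
          fun t => sub_nonneg.2 (s.hc_le (ho.sub v) (ho.dec v c) y t),
          fun t => (sub_le_self _ ((s.hc_Bd (ho.sub (v ++ [c])) y).nn t)).trans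
            ((s.hc_Bd (ho.sub v) y).le t)⟩
        (fun t => s.hc_dec (ho.sub v) (ho.dec v c) y t) _ (lowFamA_ln_pos s.hl _)
  lnn := s.lnn
  lone := s.lone
  bin := fun v hv a => by
    have e : 1 / ln s.ℓ v = 2 ^ v.length / s.ℓ := by rw [ln]; field_simp
    rw [e]
    convert s.bin _ (ho.go v hv).2.1 a
  cnt := fun v hv j hj F hF => by
    by_contra hc
    exact ho.nt v hv ⟨j, F, hj, hF, not_le.1 hc⟩

open Classical in
theorem stop_sum {A : List Bool → Prop} {rho : List Bool → ℝ} (h0 : A [])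
    (up : ∀ v c, A (v ++ [c]) → A v) (rnn : ∀ v, 0 ≤ rho v)
    (hm : ∀ v, A v → (rho (v ++ [false]) + rho (v ++ [true])) / 2 ≤ rho v) (n : ℕ) :
    ∑ j ∈ Finset.range n, avg j (fun v => if ¬A v ∧ A v.dropLast then rho v else 0) ≤ rho [] := by
  have key : ∀ n, ∑ j ∈ Finset.range (n + 1),
      avg j (fun v => if ¬A v ∧ A v.dropLast then rho v else 0) +
        avg n (fun v => if A v then rho v else 0) ≤ rho [] := by
    intro n
    induction n with
    | zero => simp [avg, h0]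
    | succ n ih =>
      rw [Finset.sum_range_succ, add_assoc, ← avg_add', avg_snoc]
      refine le_trans (add_le_add le_rfl (avg_mono_len n fun v _ => ?_)) ih
      simp only [List.dropLast_concat]
      by_cases hv : A v
      · have h1 : ∀ c, ((if ¬A (v ++ [c]) ∧ A v then rho (v ++ [c]) else 0) +
            if A (v ++ [c]) then rho (v ++ [c]) else 0) = rho (v ++ [c]) := fun c => by
          by_cases hc : A (v ++ [c]) <;> simp [hc, hv]
        rw [h1, h1, if_pos hv]
        exact hm v hv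
      · have h1 : ∀ c, ¬A (v ++ [c]) := fun c hc => hv (up v c hc)
        simp [hv, h1]
  cases n with
  | zero => simpa using rnn []
  | succ n =>
    have := avg_nonneg_len n (F := fun v => if A v then rho v else 0)
      fun l _ => by split_ifs; exacts [rnn _, le_rfl]
    linarith [key n]

open Classical in
theorem hstep (hb : Big R B) (hC : Cap R) {Dc : ℝ} (hD : 1 ≤ Dc)
    (hL : ∀ (P μ : ℝ) (Y Ω : Type) [Fintype Y] [Fintype Ω]
      (h : Y → List Bool → ℝ → ℝ) (α ℓ : ℝ) (A : List Bool → Prop) (lam Z : Ω → ℝ) (c : Y → ℝ)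
      (H : List Bool → ℝ → ℝ), Data R P μ h α ℓ A lam Z →
      (∀ v, A v → ∀ t, (H v t : ℂ) = ∑ y, (h y v t : ℂ) * ∑ ω, (lam ω : ℂ) * ex (Z ω) (t - c y)) →
      (∀ v, ¬ A v → ∀ t, H v t = 0) → ∀ (n : ℕ) (ξ : List Bool → ℝ) (e : List Bool → ℂ),
      (∀ v, e v = 0 ∨ e v = 1) → (∀ v k, e v ≠ 0 → e (v.take k) ≠ 0) →
      avg n (fun l => ‖wD (fun v => e v * (U (fun t => (H v t : ℂ)) α ℓ (ξ l) (v ++ [false]) -
        U (fun t => (H v t : ℂ)) α ℓ (ξ l) v)) l 0 (n - 1)‖) ≤ Dc * P) (s : St R B) :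
    ∃ (H : List Bool → ℝ → ℝ) (T : List Bool → Finset ℕ)
      (r : List Bool → ℕ → ℝ → ℝ) (J : List Bool → ℕ → ℝ), Dec (Real.exp R) (tot s.a) H T r ∧
      Life (tot s.a) H s.α s.ℓ B (Dc * s.P) ∧
      (∀ n, ∑ j ∈ Finset.range n, avg j (fun v => ∑ i ∈ T v, J v i) ≤
        Dc * s.P + 60000 * R * B * s.rho []) ∧
      ∀ v, ∀ i ∈ T v, 0 ≤ J v i ∧ (Cost (r v i) (nd s.α s.ℓ v) (ln s.ℓ v) B (J v i) ∨
        ∃ s' : St R B, tot s'.a = r v i ∧ s'.α = nd s.α s.ℓ v ∧ s'.ℓ = ln s.ℓ v ∧ s'.rk < s.rk ∧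
          s'.P ≤ 4 * avn (r v i) s.α s.ℓ v ∧ 60000 * R * B * s'.rho [] ≤ J v i) := by
  have hm := hb.m2
  have hR := hb.h1
  have hB := hb.B1
  have hP := s.hP
  have hℓ := s.hl
  have hCr : 0 ≤ 60000 * R * B := by positivity
  have hrefl : Sub s.a s.a := Sub.refl s.cells.meas
  obtain ⟨cl, A, T, r, ho⟩ := life_rec (M := Real.exp R) (α := s.α) (θ := s.P / mm R ^ 30)
    (Go := fun v c => Sub s.a c ∧ Go s v c) (Trig := Trig s)
    (Pc := fun v r => Pc s (nd s.α s.ℓ v) (ln s.ℓ v) r) hℓ (by positivity) s.cells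
    ⟨hrefl, s.liv0, by simp only [nd, ln, List.length_nil, pow_zero, div_one]; exact s.mass⟩
    (fun v c c' _ h2 h3 => ⟨h3.1.trans h2, h3.2.1, le_trans (Finset.sum_le_sum fun y _ =>
      av_mono (s.hc_Bd (h3.1.trans h2) y) (s.hc_Bd h3.1 y) (s.hc_le h3.1 h2 y) _
        (lowFamA_ln_pos hℓ v)) h3.2.2⟩)
    (fun v c h1 h2 ⟨j, F, h3, h4, h5⟩ =>
      birth88 hb hC s h1 _ (lowFamA_ln_pos hℓ v) h2.2.2 h3 h4 h5)
  refine ⟨fun v => if A v then tot (cl v) else fun _ => 0, T, r,
    fun v i => if A v then Dc * avn (r v i) s.α s.ℓ v else 60000 * R * B * s.rho v, ho.dc,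
    fun n e he ξ => ?_, fun n => ?_, fun v i hi => ?_⟩
  · refine hL s.P s.μ s.Y s.Ω _ s.α s.ℓ A s.lam s.Z s.c _ (data88 hb s ho) (fun v hv t => ?_)
      (fun v hv t => by simp only [if_neg hv]) n ξ e he.ind he.her
    simp only [if_pos hv, tot]
    push_cast
    refine Finset.sum_congr rfl fun y _ => ?_
    rw [s.sym, ← Complex.ofReal_mul]
    congr 1
    unfold St.hc
    by_cases h0 : cl v y t = 0
    · simp [h0]
    · have := s.F_ge (ho.sub v) h0
      rw [div_mul_cancel₀ _ (by linarith)]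
  · have h1 := mass_pieces ho.dc s.α hℓ n
    have h2 := stop_sum ho.root ho.up s.rnn (fun v hv => s.rmart v (ho.go v hv).2.1) n
    have h3 : av (tot s.a) s.α s.ℓ ≤ s.P := (s.mass_bd hrefl s.α hℓ).1.trans s.mass
    refine le_trans ?_ (add_le_add (mul_le_mul_of_nonneg_left (h1.trans h3) (by linarith))
      (mul_le_mul_of_nonneg_left h2 hCr))
    rw [Finset.mul_sum, Finset.mul_sum, ← Finset.sum_add_distrib]
    refine Finset.sum_le_sum fun j _ => ?_
    rw [← avg_mul_left, ← avg_mul_left, ← avg_add']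
    refine avg_mono_len j fun v _ => ?_
    have h4 : 0 ≤ ∑ i ∈ T v, avn (r v i) s.α s.ℓ v :=
      Finset.sum_nonneg fun i hi => avn_nonneg (ho.dc.br v i hi) _ hℓ v
    by_cases hv : A v
    · simp only [hv, if_true, not_true, false_and, if_false, mul_zero, add_zero, Finset.mul_sum,
        le_refl]
    · simp only [hv, if_false, not_false_iff, true_and]
      have h5 : 0 ≤ Dc * ∑ i ∈ T v, avn (r v i) s.α s.ℓ v := mul_nonneg (by linarith) h4
      rcases (T v).eq_empty_or_nonempty with h6 | ⟨i, hi⟩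
      · rw [h6, Finset.sum_empty, Finset.sum_empty, mul_zero, zero_add]
        refine mul_nonneg hCr ?_
        split_ifs
        exacts [s.rnn v, le_rfl]
      · rcases ho.pc v i hi with h7 | ⟨w, c, rfl, h8, -, -, -, h9⟩
        · exact absurd h7.1 hv
        · rw [List.dropLast_concat, if_pos h8]
          have : ∑ _i ∈ T (w ++ [c]), 60000 * R * B * s.rho (w ++ [c]) =
              60000 * R * B * s.rho (w ++ [c]) := by rw [h9, Finset.sum_singleton]
          linarith
  · have h0 := avn_nonneg (ho.dc.br v i hi) s.α hℓ v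
    rcases ho.pc v i hi with ⟨hv, h1, -⟩ | ⟨w, c, rfl, h8, hv, h1, h2, -⟩
    · simp only [if_pos hv]
      have h3 : avn (r v i) s.α s.ℓ v ≤ Dc * avn (r v i) s.α s.ℓ v := by nlinarith
      refine ⟨h0.trans h3, ?_⟩
      rcases h1 with h1 | ⟨s', e1, e2, e3, e4, e5, e6⟩
      · exact Or.inl (h1.mono (h0.trans h3))
      · exact Or.inr ⟨s', e1, e2, e3, e4, e5, e6.trans h3⟩
    · simp only [if_neg hv]
      have hJ : 0 ≤ 60000 * R * B * s.rho (w ++ [c]) := mul_nonneg hCr (s.rnn _)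
      refine ⟨hJ, ?_⟩
      rw [h2]
      obtain ⟨g1, g2, g3⟩ := ho.go w h8
      by_cases hdB : B < avn (tot (cl w)) s.α s.ℓ (w ++ [c])
      · exact Or.inl ((Cost_dead hdB).mono hJ)
      by_cases hLv : s.Liv (w ++ [c]).length
      · obtain ⟨s', e1, e2, e3, e4, e5, e6⟩ := double88 hb s g1 w c g3 hLv
          (not_le.1 fun h => h1 ⟨g1, hLv, h⟩) (not_lt.1 hdB)
        exact Or.inr ⟨s', e1, e2, e3, e4, e5, by rw [e6]⟩
      · refine Or.inl ((cost_death66 (s.cells.sub g1).bd hR hB _ (lowFamA_ln_pos hℓ _)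
          (1 ≤ s.rho (w ++ [c])) fun t t1 t2 t3 => ?_).mono ?_)
        · refine s.rdead w c g2 (by simpa using hLv) ?_
          obtain ⟨y, -, hy⟩ := Finset.exists_ne_zero_of_sum_ne_zero t3
          refine ⟨y, t, ⟨t1, t2⟩, fun e => hy ?_⟩
          rcases (g1 y).2 t with h | h
          · rw [h, e]
          · exact h
        · refine mul_le_mul_of_nonneg_left ?_ hCr
          split_ifs with h
          exacts [h, s.rnn _]

/-- **STRUCT** -/
theorem mlt88 (hL : LIFE) (hC : ∃ R₀, ∀ R, R₀ ≤ R → Cap R) : MLt := by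
  obtain ⟨C, R₁, hL⟩ := bridge_LIFE hL
  obtain ⟨R₂, hC⟩ := hC
  obtain ⟨R₃, hb⟩ := ev_big
  refine ⟨1000 * max C 1, max R₁ (max R₂ R₃), fun R B g n α ℓ ξ hR hR0 hB1 hB2 hg hg0 hℓ hca => ?_⟩
  replace hb := hb R B ((le_max_right _ _).trans ((le_max_right _ _).trans hR0)) hB1 hB2
  replace hC := hC R ((le_max_left _ _).trans ((le_max_right _ _).trans hR0))
  have hm := hb.m2
  obtain ⟨hd1, hd2⟩ := hb.del
  have hC1 : 1 ≤ max C 1 := le_max_right _ _
  have hD : 1 ≤ max C 1 * (R / mm R) := by nlinarith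
  have hF : ∀ τ, Fc (fun _ : Unit => (1 : ℝ)) (fun _ => 0) τ = 1 := fun τ => by simp [Fc]
  have hav : av g α ℓ ≤ 1 := by rwa [ca_ofReal fun y => (hg0 y).1] at hca
  have hA : 120 * mm R ≤ A0 R := Nat.le_ceil _
  let s₀ : St R B := {
    Y := Unit, Ω := Unit, a := fun _ => g, c := fun _ => 0, lam := fun _ => 1, Z := fun _ => 0
    α := α, ℓ := ℓ, P := 1, μ := 1, Liv := fun _ => True, rho := fun _ => 0, rk := A0 R
    cells := ⟨fun _ => hg, fun _ t => (hg0 t).1, fun t => by simpa [tot] using (hg0 t).2⟩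
    lnn := fun _ => zero_le_one, lone := by simp
    sym := fun τ => by rw [hF]; simp [ex]
    pure := fun _ t _ => by rw [hF]; norm_num
    hl := hℓ, hP := one_pos, hPB := by linarith
    hμ := Real.exp_le_one_iff.2 (by linarith), liv0 := trivial
    bin := fun k _ x => by
      rw [Fintype.sum_unique]; split_ifs <;> norm_num
    rnn := fun _ => le_rfl, rmart := fun _ _ => by norm_num
    rdead := fun _ _ _ h => absurd trivial h
    mass := by simpa [hF] using hav
    hrk := by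
      have h1 : Real.log (4 * B / 1) ≤ 6 * mm R := by
        rw [Real.log_le_iff_le_exp (by positivity)]
        have h2 := hb.B2
        have h3 := hb.pow_le 6
        have h4 : Real.exp (6 * mm R) = Real.exp (4 * mm R) * Real.exp (2 * mm R) := by
          rw [← Real.exp_add]; ring_nf
        have h5 : (64 : ℝ) ≤ Real.exp (4 * mm R) := by
          have h6 := Real.add_one_le_exp (mm R)
          have h7 : Real.exp (4 * mm R) = Real.exp (mm R) ^ 4 := by
            rw [← Real.exp_nat_mul]; norm_num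
          have h8 : (3 : ℝ) ^ 4 ≤ Real.exp (mm R) ^ 4 :=
            pow_le_pow_left₀ (by norm_num) (by linarith) 4
          rw [h7]; linarith
        have := Real.exp_pos (2 * mm R)
        nlinarith
      have h2 : (5 * R + Real.log 1) / (R / mm R) = 5 * mm R := by
        rw [Real.log_one]; field_simp; ring
      rw [h2]; linarith
    hrk0 := le_rfl
    card := by simp }
  have key := tree_indQ (M := Real.exp R) (ι := ℕ) (fun s : St R B => tot s.a) St.α St.ℓ St.P
    (fun s => 60000 * R * B * s.rho []) St.rk (B := B) (Dc := max C 1 * (R / mm R)) (by linarith)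
    St.hl (hstep hb hC hD fun P μ Y Ω _ _ h α ℓ A lam Z c H h1 h2 h3 n ξ e h4 h5 => by
      refine (hL R P μ Y Ω h α ℓ A lam Z c H ((le_max_left _ _).trans hR0) h1 h2 h3 n ξ e h4
        h5).trans ?_
      have := h1.hP
      have h6 : C ≤ max C 1 := le_max_left _ _
      have h7 : 0 ≤ P * (R / mm R) := by positivity
      nlinarith) s₀
  have e0 : tot s₀.a = g := by funext t; simp [tot, s₀]
  rw [e0] at key
  have h1 := key n (eB (fun y => (g y : ℂ)) B α ℓ) ⟨eB_norm _ _ _ _, fun v hv k hk => by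
    have := eB_alive _ _ _ _ v hv k hk
    rwa [ca_ofReal fun y => (hg0 y).1] at this, fun v => by unfold eB; split_ifs <;> simp,
    fun v k hv => by
      have h2 := eB_alive _ _ _ _ v hv
      have h3 : AliveB (fun y => (g y : ℂ)) B α ℓ (v.take k) := fun j hj => by
        rw [List.take_take]
        exact h2 _ ((min_le_left j k).trans (hj.trans (List.length_take_le' k v)))
      unfold eB
      rw [if_pos h3]; exact one_ne_zero⟩ ξ
  refine h1.trans ?_
  show max C 1 * (R / mm R) * (2 * 1 + 8 * (A0 R : ℝ) * av g α ℓ) + 60000 * R * B * 0 ≤ _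
  have h2 := hb.A0_le
  have h3 : (A0 R : ℝ) * av g α ℓ ≤ 121 * mm R :=
    (mul_le_of_le_one_right (Nat.cast_nonneg _) hav).trans h2
  have h4 : 2 * 1 + 8 * (A0 R : ℝ) * av g α ℓ ≤ 1000 * mm R := by linarith
  have h5 : R / mm R * (1000 * mm R) = 1000 * R := by field_simp
  calc _ ≤ max C 1 * (R / mm R) * (1000 * mm R) + 60000 * R * B * 0 :=
        add_le_add (mul_le_mul_of_nonneg_left h4 (by linarith)) le_rfl
    _ = 1000 * max C 1 * R := by rw [mul_assoc, h5]; ring

end Crest.Agent.R100.T88
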