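import Crest.Agent.R100.GenRec
import Crest.Agent.R100.Mask84
import Crest.Agent.R100.Birth
import Crest.Agent.R100.MlNorm
import Crest.Agent.R100.Crude66b

/-! # Row 100, STRUCT (helper88): states, numerics, births -/

set_option autoImplicit false

open MeasureTheory Set

noncomputable section

namespace Crest.Agent.R100.T88

open Crest.Agent.R100 Crest.Agent.R100.Low Crest.Agent.R100.Run Crest.Agent.R100.Life
  Crest.Agent.R100.Split Crest.Agent.R100.Birth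

/-- the capture property at `R` -/
def Cap (R : ℝ) : Prop :=
  ∀ (P : ℝ) (Y : Type) [Fintype Y] (h : Y → ℝ → ℝ) (α ℓ : ℝ) (j : ℕ) (F : Finset ℤ),
    0 < ℓ → 0 < P → (∀ y, Measurable (h y)) →
    (∀ y t, 0 ≤ h y t ∧ h y t ≤ Real.exp (3 * R) * P) →
    Real.log (Fintype.card Y) ≤ R / mm R ^ 40 → ∑ y, av (h y) α ℓ ≤ P → (2 : ℝ) ^ j ≤ mm R ^ 3 →
    F.Nonempty → Real.log F.card ≤ 10 * R →
    (∀ N ∈ F, P / 2 ^ j ≤ ∑ y, ‖cu (fun t => (h y t : ℂ)) (N * kap R / ℓ) α ℓ‖) →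
    ∃ (E : F → ℝ) (m : ℕ) (c : Y → Fin m → ℝ) (B : Y → Fin m → Set ℝ), (∀ i, 0 ≤ E i) ∧
      ∑ i, E i = 1 ∧ (∀ i, E i ≤ Real.exp (R / mm R ^ 50) / F.card) ∧
      (m : ℝ) ≤ Real.exp (R / mm R ^ 50) ∧ (∀ y k, MeasurableSet (B y k)) ∧
      (∀ y k k', k ≠ k' → Disjoint (B y k) (B y k')) ∧
      (∀ y k, ∀ t ∈ B y k, 1 - ‖Eh E (fun i => i.1) (kap R / ℓ) (t - c y k)‖ ^ 2 ≤ 1 / 100) ∧
      P / (4 * 8 ^ j) ≤ ∑ y, ∑ k, av ((B y k).indicator (h y)) α ℓ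

/-- `R` is large -/
structure Big (R B : ℝ) : Prop where
  h1 : 1 ≤ R
  m2 : 2 ≤ mm R
  big : Real.log R + 300 * mm R ≤ R / mm R / 2
  B1 : 1 ≤ B
  B2 : B ≤ 16 * Real.exp (2 * mm R)

theorem ev_big : ∃ R₀ : ℝ, ∀ R B, R₀ ≤ R → 1 ≤ B → B ≤ 16 * (1 + Real.log R) ^ 2 → Big R B := by
  refine ⟨Real.exp 200, fun R B hR hB1 hB2 => ?_⟩
  have hR0 : 0 < R := lt_of_lt_of_le (Real.exp_pos _) hR
  have hu : 200 ≤ Real.log R := (Real.le_log_iff_exp_le hR0).2 hR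
  set u := Real.log R with hu'
  have hL : 0 < 2 + u := by linarith
  have hm : mm R ≤ 2 + u := by
    unfold mm; have := Real.log_le_sub_one_of_pos hL; linarith
  have hem : Real.exp (mm R) = 2 + u := by unfold mm; exact Real.exp_log hL
  have hm2 : 2 ≤ mm R := by
    unfold mm
    rw [Real.le_log_iff_exp_le hL]
    have h1 : Real.exp 1 ≤ 3 := by have := Real.exp_one_lt_d9; linarith
    have h2 : Real.exp 2 = Real.exp 1 * Real.exp 1 := by rw [← Real.exp_add]; norm_num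
    have := Real.exp_pos 1
    nlinarith
  have hRu : u ^ 4 / 24 ≤ R := by
    have := Real.pow_div_factorial_le_exp u (by linarith) 4
    rw [hu', Real.exp_log hR0] at this
    simpa [Nat.factorial] using this
  refine ⟨by nlinarith [pow_le_pow_left₀ (by norm_num : (0 : ℝ) ≤ 200) hu 4], hm2, ?_, hB1, ?_⟩
  · rw [div_div, le_div_iff₀ (by linarith)]
    have h1 : (u + 300 * mm R) * (mm R * 2) ≤ (301 * (2 + u)) * ((2 + u) * 2) := by
      apply mul_le_mul <;> linarith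
    have h2 : (2 + u) ^ 2 ≤ 2 * u ^ 2 := by nlinarith
    have h3 : 40000 ≤ u ^ 2 := by nlinarith
    have h4 : u ^ 4 = u ^ 2 * u ^ 2 := by ring
    nlinarith
  · rw [show 2 * mm R = mm R + mm R by ring, Real.exp_add, hem]
    nlinarith

/-- the top rank -/
def A0 (R : ℝ) : ℕ := ⌈120 * mm R⌉₊

theorem Big.A0_le {R B : ℝ} (h : Big R B) : (A0 R : ℝ) ≤ 121 * mm R := by
  have := Nat.ceil_lt_add_one (show 0 ≤ 120 * mm R by linarith [h.m2])
  unfold A0; linarith [h.m2]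

theorem Big.del {R B : ℝ} (h : Big R B) : 600 * mm R ≤ R / mm R ∧ R / mm R ≤ R := by
  have := Real.log_nonneg h.h1
  refine ⟨by linarith [h.big], div_le_self (by linarith [h.h1]) (by linarith [h.m2])⟩

theorem Big.pow_le {R B : ℝ} (h : Big R B) (k : ℕ) : mm R ^ k ≤ Real.exp (k * mm R) := by
  rw [Real.exp_nat_mul]
  exact pow_le_pow_left₀ (by linarith [h.m2]) (by linarith [Real.add_one_le_exp (mm R)]) k

theorem Big.div_pow {R B : ℝ} (h : Big R B) {k : ℕ} (hk : 3 ≤ k) : R / mm R ^ k ≤ R / mm R / 4 := by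
  have hm := h.m2
  rw [div_div]
  refine div_le_div_of_nonneg_left (by linarith [h.h1]) (by positivity) ?_
  calc mm R * 4 ≤ mm R ^ 3 := by nlinarith [mul_le_mul hm hm (by norm_num) (by linarith)]
    _ ≤ mm R ^ k := pow_le_pow_right₀ (by linarith) hk

theorem Big.kap_le {R B : ℝ} (h : Big R B) {ℓ : ℝ} (hℓ : 0 < ℓ) :
    1 + 2 * Real.pi / (kap R / ℓ * ℓ) ≤ Real.exp (72 * mm R) := by
  have hm := h.m2
  have h1 := h.pow_le 72
  have h2 : 1 ≤ mm R ^ 70 := one_le_pow₀ (by linarith)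
  have h3 : 8 * mm R ^ 70 ≤ 2 * mm R ^ 72 := by
    have : mm R ^ 72 = mm R ^ 70 * (mm R * mm R) := by ring
    nlinarith [mul_le_mul hm hm (by norm_num) (by linarith)]
  rw [div_mul_cancel₀ _ hℓ.ne', kap, div_inv_eq_mul]
  have := Real.pi_lt_d2
  have h4 : Real.exp (72 * mm R) = Real.exp (mm R) * Real.exp (71 * mm R) := by
    rw [← Real.exp_add]; ring_nf
  have h5 := h.pow_le 71
  have h6 : mm R ^ 71 = mm R * mm R ^ 70 := by ring
  have h7 : 4 ≤ Real.exp (mm R) := by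
    have := Real.add_one_le_exp (mm R / 2)
    have e : Real.exp (mm R) = Real.exp (mm R / 2) * Real.exp (mm R / 2) := by
      rw [← Real.exp_add]; ring_nf
    nlinarith
  push_cast at h5
  have h8 : 2 * mm R ^ 70 ≤ Real.exp (71 * mm R) := by nlinarith
  have h9 : 4 * (2 * mm R ^ 70) ≤ Real.exp (mm R) * Real.exp (71 * mm R) :=
    mul_le_mul h7 h8 (by positivity) (by positivity)
  have h10 : Real.pi * mm R ^ 70 ≤ 3.15 * mm R ^ 70 :=
    mul_le_mul_of_nonneg_right this.le (by positivity)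
  rw [h4]
  linarith

/-- a state: cells, mask, top, level, bin bound, death depth and measure, rank -/
structure St (R B : ℝ) where
  Y : Type
  [fy : Fintype Y]
  Ω : Type
  [fo : Fintype Ω]
  a : Y → ℝ → ℝ
  c : Y → ℝ
  lam : Ω → ℝ
  Z : Ω → ℝ
  α : ℝ
  ℓ : ℝ
  P : ℝ
  μ : ℝ
  Liv : ℕ → Prop
  rho : List Bool → ℝ
  rk : ℕ
  cells : Cells (Real.exp R) a
  lnn : ∀ ω, 0 ≤ lam ω
  lone : ∑ ω, lam ω = 1
  sym : Sym lam Z
  pure : ∀ y t, a y t ≠ 0 → 1 / 2 ≤ Fc lam Z (t - c y)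
  hl : 0 < ℓ
  hP : 0 < P
  hPB : P ≤ 4 * B
  hμ : Real.exp (-(5 * R)) ≤ μ
  liv0 : Liv 0
  bin : ∀ k, Liv k → ∀ x : ℝ,
    ∑ ω, (if x ≤ Z ω ∧ Z ω ≤ x + 2 ^ k / ℓ then lam ω else 0) ≤ μ
  rnn : ∀ v, 0 ≤ rho v
  rmart : ∀ v, Liv v.length → (rho (v ++ [false]) + rho (v ++ [true])) / 2 ≤ rho v
  rdead : ∀ v c, Liv v.length → ¬Liv (v.length + 1) →
    (∃ y, ∃ t ∈ Icc (nd α ℓ (v ++ [c])) (nd α ℓ (v ++ [c]) + ln ℓ (v ++ [c])), a y t ≠ 0) →
      1 ≤ rho (v ++ [c])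
  mass : ∑ y, av (fun t => a y t / Fc lam Z (t - c y)) α ℓ ≤ P
  hrk : 2 * Real.log (4 * B / P) + 20 * ((5 * R + Real.log μ) / (R / mm R)) ≤ rk
  hrk0 : rk ≤ A0 R
  card : Real.log (Fintype.card Y) ≤ ((A0 R : ℝ) - rk) * (R / mm R ^ 50)

attribute [instance] St.fy St.fo

variable {R B : ℝ}

theorem St.μ_pos (s : St R B) : 0 < s.μ := lt_of_lt_of_le (Real.exp_pos _) s.hμ

theorem St.a_nn (hb : Big R B) (s : St R B) : 0 ≤ (5 * R + Real.log s.μ) / (R / mm R) := by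
  have h1 : -(5 * R) ≤ Real.log s.μ := (Real.le_log_iff_exp_le s.μ_pos).2 s.hμ
  have := hb.del.1
  have := hb.m2
  exact div_nonneg (by linarith) (by linarith)

theorem St.P_ge (hb : Big R B) (s : St R B) : Real.exp (-(121 * mm R)) ≤ s.P := by
  have h1 := s.a_nn hb
  have h2 := s.hrk
  have h3 : (s.rk : ℝ) ≤ A0 R := by exact_mod_cast s.hrk0
  have h4 := hb.A0_le
  have hP := s.hP
  have hB := hb.B1
  have hm := hb.m2
  rw [Real.log_div (by positivity) hP.ne'] at h2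
  have h5 : 0 ≤ Real.log (4 * B) := Real.log_nonneg (by linarith)
  rw [← Real.le_log_iff_exp_le hP]
  linarith

theorem St.card_le (hb : Big R B) (s : St R B) :
    Real.log (Fintype.card s.Y) ≤ R / mm R ^ 40 := by
  have hm := hb.m2
  have hR := hb.h1
  have h1 : ((A0 R : ℝ) - s.rk) * (R / mm R ^ 50) ≤ (121 * mm R) * (R / mm R ^ 50) := by
    have := hb.A0_le
    have : (0 : ℝ) ≤ s.rk := Nat.cast_nonneg _
    exact mul_le_mul_of_nonneg_right (by linarith) (by positivity)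
  refine s.card.trans (h1.trans ?_)
  have h2 : 121 * mm R ≤ mm R ^ 10 := by
    have : (2 : ℝ) ^ 9 ≤ mm R ^ 9 := pow_le_pow_left₀ (by norm_num) hm 9
    have e : mm R ^ 10 = mm R ^ 9 * mm R := by ring
    nlinarith
  calc 121 * mm R * (R / mm R ^ 50) ≤ mm R ^ 10 * (R / mm R ^ 50) :=
        mul_le_mul_of_nonneg_right h2 (by positivity)
    _ = R / mm R ^ 40 := by field_simp

/-- the masked cells -/
def St.hc (s : St R B) (cl : s.Y → ℝ → ℝ) (y : s.Y) (t : ℝ) : ℝ := cl y t / Fc s.lam s.Z (t - s.c y)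

theorem St.F_ge (s : St R B) {cl : s.Y → ℝ → ℝ} (h : Sub s.a cl) {y : s.Y} {t : ℝ}
    (h0 : cl y t ≠ 0) : 1 / 2 ≤ Fc s.lam s.Z (t - s.c y) := by
  refine s.pure y t fun e => h0 ?_
  rcases (h y).2 t with h1 | h1
  · rw [h1, e]
  · exact h1

theorem St.hc_bd (s : St R B) {cl : s.Y → ℝ → ℝ} (h : Sub s.a cl) (y : s.Y) (t : ℝ) :
    cl y t ≤ s.hc cl y t ∧ s.hc cl y t ≤ 2 * cl y t := by
  unfold St.hc
  by_cases h0 : cl y t = 0
  · simp [h0]
  have h1 := s.F_ge h h0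
  have h2 := Fc_le_one (Z := s.Z) s.lnn s.lone (t - s.c y)
  have h3 := (h.le s.cells.nn y t).1
  rw [le_div_iff₀ (by linarith), div_le_iff₀ (by linarith)]
  constructor <;> nlinarith

theorem St.hc_meas (s : St R B) {cl : s.Y → ℝ → ℝ} (h : Sub s.a cl) (y : s.Y) :
    Measurable (s.hc cl y) :=
  (h y).1.div ((Fc_cont s.lam s.Z).comp (continuous_id.sub continuous_const)).measurable

theorem cell_le {Y : Type*} [Fintype Y] {M : ℝ} {c : Y → ℝ → ℝ} (h : Cells M c) (y : Y) (t : ℝ) :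
    c y t ≤ M :=
  (Finset.single_le_sum (f := fun y => c y t) (fun y _ => h.nn y t) (Finset.mem_univ y)).trans
    (h.le t)

theorem cell_bd {Y : Type*} [Fintype Y] {M : ℝ} {c : Y → ℝ → ℝ} (h : Cells M c) (y : Y) :
    Bd M (c y) := ⟨h.meas y, h.nn y, cell_le h y⟩

theorem St.hc_Bd (s : St R B) {cl : s.Y → ℝ → ℝ} (h : Sub s.a cl) (y : s.Y) :
    Bd (2 * Real.exp R) (s.hc cl y) :=
  ⟨s.hc_meas h y, fun t => ((h.le s.cells.nn y t).1).trans (s.hc_bd h y t).1,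
    fun t => (s.hc_bd h y t).2.trans (by linarith [cell_le (s.cells.sub h) y t])⟩

theorem St.hc_sup (hb : Big R B) (s : St R B) {cl : s.Y → ℝ → ℝ} (h : Sub s.a cl) (y : s.Y)
    (t : ℝ) : s.hc cl y t ≤ Real.exp (3 * R) * s.P := by
  refine ((s.hc_Bd h y).le t).trans ?_
  have h1 := s.P_ge hb
  have h2 := hb.del
  have hm := hb.m2
  have h3 : 2 * Real.exp R ≤ Real.exp (3 * R) * Real.exp (-(121 * mm R)) := by
    rw [← Real.exp_add]
    have h4 : Real.exp (1 + R) ≤ Real.exp (3 * R + -(121 * mm R)) :=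
      Real.exp_le_exp.2 (by linarith [h2.1, h2.2])
    rw [Real.exp_add] at h4
    have := Real.add_one_le_exp 1
    have := Real.exp_pos R
    nlinarith
  exact h3.trans (mul_le_mul_of_nonneg_left h1 (Real.exp_pos _).le)

theorem av_sum {ι : Type*} {M : ℝ} (S : Finset ι) {F : ι → ℝ → ℝ} (h : ∀ i ∈ S, Bd M (F i))
    (α ℓ : ℝ) : av (fun t => ∑ i ∈ S, F i t) α ℓ = ∑ i ∈ S, av (F i) α ℓ := by
  unfold av
  rw [intervalIntegral.integral_finsetSum fun i hi => (h i hi).ii _ _, Finset.sum_div]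

theorem av_mono {M M' : ℝ} {f g : ℝ → ℝ} (hf : Bd M f) (hg : Bd M' g) (h : ∀ y, f y ≤ g y) (α : ℝ)
    {ℓ : ℝ} (hℓ : 0 < ℓ) : av f α ℓ ≤ av g α ℓ := by
  have := avn_mono hf hg h α hℓ []
  rwa [avn_nil, avn_nil] at this

theorem av_two (f : ℝ → ℝ) (α ℓ : ℝ) : av (fun t => 2 * f t) α ℓ = 2 * av f α ℓ := by
  unfold av
  rw [intervalIntegral.integral_const_mul, mul_div_assoc]

theorem Bd.two {M : ℝ} {f : ℝ → ℝ} (h : Bd M f) : Bd (2 * M) (fun t => 2 * f t) :=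
  ⟨h.meas.const_mul _, fun t => by linarith [h.nn t], fun t => by linarith [h.le t]⟩

/-- masked mass and true mass -/
theorem St.mass_bd (s : St R B) {cl : s.Y → ℝ → ℝ} (h : Sub s.a cl) (α : ℝ) {ℓ : ℝ} (hℓ : 0 < ℓ) :
    av (tot cl) α ℓ ≤ ∑ y, av (s.hc cl y) α ℓ ∧
      ∑ y, av (s.hc cl y) α ℓ ≤ 2 * av (tot cl) α ℓ := by
  have hc := s.cells.sub h
  have e : av (tot cl) α ℓ = ∑ y, av (cl y) α ℓ := av_sum _ (fun y _ => cell_bd hc y) α ℓ
  rw [e, Finset.mul_sum]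
  refine ⟨Finset.sum_le_sum fun y _ => av_mono (cell_bd hc y) (s.hc_Bd h y)
    (fun t => (s.hc_bd h y t).1) α hℓ, Finset.sum_le_sum fun y _ => ?_⟩
  rw [← av_two]
  exact av_mono (s.hc_Bd h y) (Bd.two (cell_bd hc y)) (fun t => (s.hc_bd h y t).2) α hℓ

end Crest.Agent.R100.T88
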