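import Crest.Agent.R100.Top88A

/-! # Row 100, STRUCT (helper88): births and doublings -/

set_option autoImplicit false

open MeasureTheory Set

noncomputable section

namespace Crest.Agent.R100.T88

open Crest.Agent.R100 Crest.Agent.R100.Low Crest.Agent.R100.Run Crest.Agent.R100.Life
  Crest.Agent.R100.Split Crest.Agent.R100.Birth

variable {R B : ℝ}

open Classical in
theorem exists_rho (Liv : ℕ → Prop) (hdown : ∀ j k, j ≤ k → Liv k → Liv j)
    (meets : List Bool → Prop) {σ : ℝ} (hσ : 0 ≤ σ)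
    (h : ∀ k, ¬Liv k → avg k (fun v => if meets v then 1 else 0) ≤ σ) :
    ∃ rho : List Bool → ℝ, (∀ v, 0 ≤ rho v) ∧
      (∀ v, Liv v.length → (rho (v ++ [false]) + rho (v ++ [true])) / 2 ≤ rho v) ∧
      (∀ v c, Liv v.length → ¬Liv (v.length + 1) → meets (v ++ [c]) → 1 ≤ rho (v ++ [c])) ∧
      rho [] ≤ σ := by
  by_cases hex : ∃ k, ¬Liv k
  · have hd := Nat.find_spec hex
    have hlt : ∀ k, Liv k → k < Nat.find hex := fun k hk => by
      by_contra hc
      exact hd (hdown _ _ (not_lt.1 hc) hk)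
    refine ⟨fun v => avg (Nat.find hex - v.length) (fun w => if meets (v ++ w) then 1 else 0),
      fun v => avg_nonneg_len _ fun l _ => by split_ifs <;> norm_num, fun v hv => ?_,
      fun v c hv hv' hm => ?_, by simpa using h _ hd⟩
    · have := hlt _ hv
      obtain ⟨k, hk⟩ : ∃ k, Nat.find hex - v.length = k + 1 := ⟨Nat.find hex - v.length - 1, by omega⟩
      have e : ∀ c : Bool, Nat.find hex - (v ++ [c]).length = k := fun c => by
        rw [List.length_append, List.length_singleton]; omega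
      simp only [e, hk, avg, List.append_assoc, List.singleton_append, le_refl]
    · have h1 := Nat.find_min' hex hv'
      have e : Nat.find hex - (v ++ [c]).length = 0 := by
        rw [List.length_append, List.length_singleton]; omega
      simp only [e, avg, List.append_nil, hm, if_true, le_refl]
  · exact ⟨fun _ => 0, fun _ => le_rfl, fun _ _ => by norm_num,
      fun v _ _ hv => absurd ⟨_, hv⟩ hex, hσ⟩

theorem mass_two {Y Ω : Type} [Fintype Y] [Fintype Ω] {M : ℝ} {a : Y → ℝ → ℝ} (ha : Cells M a)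
    (c : Y → ℝ) (lam Z : Ω → ℝ) (hp : ∀ y t, a y t ≠ 0 → 1 / 2 ≤ Fc lam Z (t - c y)) (α : ℝ)
    {ℓ : ℝ} (hℓ : 0 < ℓ) :
    ∑ y, av (fun t => a y t / Fc lam Z (t - c y)) α ℓ ≤ 2 * av (tot a) α ℓ := by
  have e : av (tot a) α ℓ = ∑ y, av (a y) α ℓ := av_sum _ (fun y _ => cell_bd ha y) α ℓ
  rw [e, Finset.mul_sum]
  refine Finset.sum_le_sum fun y _ => ?_
  have hb : ∀ t, 0 ≤ a y t / Fc lam Z (t - c y) ∧ a y t / Fc lam Z (t - c y) ≤ 2 * a y t := by
    intro t
    by_cases h0 : a y t = 0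
    · simp [h0]
    have h1 := hp y t h0
    have h3 := ha.nn y t
    rw [div_le_iff₀ (by linarith)]
    exact ⟨div_nonneg h3 (by linarith), by nlinarith⟩
  rw [← av_two]
  exact av_mono (M := 2 * M) ⟨(ha.meas y).div
    ((Fc_cont lam Z).comp (continuous_id.sub continuous_const)).measurable, fun t => (hb t).1,
    fun t => (hb t).2.trans (by linarith [cell_le ha y t])⟩ (Bd.two (cell_bd ha y))
    (fun t => (hb t).2) α hℓ

theorem rpow_bd (hb : Big R B) {j : ℕ} (hj : (2 : ℝ) ^ j ≤ mm R ^ 3) :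
    1 + (j : ℝ) / 6 ≤ (2 : ℝ) ^ ((j : ℝ) / 4) ∧ (2 : ℝ) ^ ((j : ℝ) / 4) ≤ mm R := by
  have hm := hb.m2
  constructor
  · rw [Real.rpow_def_of_pos (by norm_num)]
    have h1 := Real.add_one_le_exp (Real.log 2 * ((j : ℝ) / 4))
    have h2 := Real.log_two_gt_d9
    have h3 : (0 : ℝ) ≤ j := Nat.cast_nonneg j
    nlinarith
  · have e : ((2 : ℝ) ^ ((j : ℝ) / 4)) ^ 4 = 2 ^ j := by
      rw [← Real.rpow_natCast, ← Real.rpow_mul (by norm_num), ← Real.rpow_natCast]
      congr 1; push_cast; ring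
    have h4 : mm R ^ 3 ≤ mm R ^ 4 := pow_le_pow_right₀ (by linarith) (by norm_num)
    exact le_of_pow_le_pow_left₀ (n := 4) (by norm_num) (by linarith) (by rw [e]; linarith)

/-- a piece: free, or a state of smaller rank -/
def Pc (s : St R B) (α ℓ : ℝ) (r : ℝ → ℝ) : Prop :=
  Cost r α ℓ B 0 ∨ ∃ s' : St R B, tot s'.a = r ∧ s'.α = α ∧ s'.ℓ = ℓ ∧ s'.rk < s.rk ∧
    s'.P ≤ 4 * av r α ℓ ∧ 60000 * R * B * s'.rho [] ≤ av r α ℓ

theorem num_sig (hb : Big R B) {N x : ℝ} (hN0 : 0 ≤ N) (hN : N ≤ Real.exp (R / mm R / 2)) (hx0 : 0 ≤ x)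
    (hx : x ≤ Real.exp (72 * mm R)) :
    60000 * R * B * (N * (4 * x * Real.exp (-(R / mm R)))) ≤ Real.exp (-(151 * mm R)) := by
  have hm := hb.m2
  have hR := hb.h1
  have hB := hb.B1
  have h1 : (3840000 : ℝ) ≤ Real.exp (22 * mm R) := by
    have h2 := hb.pow_le 22
    have h3 : (2 : ℝ) ^ 22 ≤ mm R ^ 22 := pow_le_pow_left₀ (by norm_num) hm 22
    push_cast at h2
    norm_num at h3
    linarith
  have h2 : R = Real.exp (Real.log R) := (Real.exp_log (by linarith)).symm
  calc 60000 * R * B * (N * (4 * x * Real.exp (-(R / mm R))))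
      ≤ 60000 * R * (16 * Real.exp (2 * mm R)) * (Real.exp (R / mm R / 2) *
        (4 * Real.exp (72 * mm R) * Real.exp (-(R / mm R)))) := by
        have := hb.B2
        gcongr
    _ = 3840000 * (R * (Real.exp (2 * mm R) * (Real.exp (R / mm R / 2) *
        (Real.exp (72 * mm R) * Real.exp (-(R / mm R)))))) := by ring
    _ ≤ Real.exp (22 * mm R) * (Real.exp (Real.log R) * (Real.exp (2 * mm R) *
        (Real.exp (R / mm R / 2) * (Real.exp (72 * mm R) * Real.exp (-(R / mm R)))))) := by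
        rw [← h2]; gcongr
    _ ≤ Real.exp (-(151 * mm R)) := by
        simp only [← Real.exp_add]
        exact Real.exp_le_exp.2 (by linarith [hb.big])

open Classical in
theorem birth88 (hb : Big R B) (hC : Cap R) (s : St R B) {cl : s.Y → ℝ → ℝ} (hs : Sub s.a cl)
    (α : ℝ) {ℓ : ℝ} (hℓ : 0 < ℓ) (hmass : ∑ y, av (s.hc cl y) α ℓ ≤ s.P) {j : ℕ} {F : Finset ℤ}
    (hj : (2 : ℝ) ^ j ≤ mm R ^ 3)
    (hF : ∀ N ∈ F, s.P / 2 ^ j ≤ ∑ y, ‖cu (fun t => (s.hc cl y t : ℂ)) (N * kap R / ℓ) α ℓ‖)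
    (hcard : Real.exp (4 * (2 : ℝ) ^ ((j : ℝ) / 4) * (R / mm R)) / s.μ < F.card) :
    ∃ c', Sub cl c' ∧ Pc s α ℓ (fun t => tot cl t - tot c' t) ∧
      s.P / mm R ^ 30 ≤ av (fun t => tot cl t - tot c' t) α ℓ := by
  have hm := hb.m2
  have hR := hb.h1
  have hB := hb.B1
  have hP := s.hP
  have hμ := s.μ_pos
  obtain ⟨hd1, hd2⟩ := hb.del
  obtain ⟨x1, x2⟩ := rpow_bd hb hj
  set x := (2 : ℝ) ^ ((j : ℝ) / 4) with hx
  set δ := R / mm R with hδ
  have hδ0 : 0 < δ := by linarith
  set K := R / mm R ^ 50 with hK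
  have hK0 : 0 ≤ K := by positivity
  have hKδ : K ≤ δ / 4 := hb.div_pow (by norm_num)
  set T := Real.exp (4 * x * δ) / s.μ with hT
  have hT0 : 0 < T := by positivity
  have hτ : 4 * x * δ ≤ 4 * R := by
    have : mm R * δ = R := by rw [hδ]; field_simp
    nlinarith
  have hT1 : T + 1 ≤ Real.exp (10 * R) := by
    have h1 : T ≤ Real.exp (9 * R) := by
      rw [hT, div_le_iff₀ hμ]
      calc Real.exp (4 * x * δ) ≤ Real.exp (9 * R) * Real.exp (-(5 * R)) := by
            rw [← Real.exp_add]; exact Real.exp_le_exp.2 (by linarith)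
        _ ≤ _ := mul_le_mul_of_nonneg_left s.hμ (Real.exp_pos _).le
    have h2 : Real.exp (10 * R) = Real.exp (9 * R) * Real.exp R := by rw [← Real.exp_add]; ring_nf
    have h3 := Real.add_one_le_exp R
    have h4 := Real.add_one_le_exp (9 * R)
    nlinarith
  obtain ⟨F', hF'F, hF'⟩ := Finset.exists_subset_card_eq (s := F) (n := ⌊T⌋₊ + 1)
    ((Nat.floor_lt hT0.le).2 hcard)
  have hn0 : T < F'.card := by rw [hF']; push_cast; exact Nat.lt_floor_add_one T
  have hn1 : (F'.card : ℝ) ≤ T + 1 := by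
    rw [hF']; push_cast; linarith [Nat.floor_le hT0.le]
  have hcl := s.cells.sub hs
  obtain ⟨E, m, c, D, E0, E1, Em, hmK, Dm, Dd, Dp, Dc⟩ := hC s.P s.Y (s.hc cl) α ℓ j F' hℓ hP
    (s.hc_meas hs) (fun y t => ⟨(s.hc_Bd hs y).nn t, s.hc_sup hb hs y t⟩) (s.card_le hb) hmass hj
    (Finset.card_pos.1 (by omega)) (by
      rw [Real.log_le_iff_le_exp (by linarith)]; linarith) (fun N hN => hF N (hF'F hN))
  set m0 := Real.exp K / F'.card with hm0
  have hm00 : 0 < m0 := div_pos (Real.exp_pos _) (by linarith)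
  have hκ : 0 < kap R / ℓ := by unfold kap; positivity
  obtain ⟨lam, Z, Liv, l0, l1, lS, ldown, lF, lbin, ldead⟩ := birth E0 E1
    (a := fun i : F' => i.1) Subtype.val_injective Em hκ α hℓ (θ := m0 * Real.exp δ) (by positivity)
  set a' : s.Y × Fin m → ℝ → ℝ := fun p => (D p.1 p.2).indicator (cl p.1) with ha'
  set c' : s.Y → ℝ → ℝ := fun y => (⋃ k, D y k)ᶜ.indicator (cl y) with hc'
  have hsub : Sub cl c' := fun y => ⟨(hcl.meas y).indicator (MeasurableSet.iUnion (Dm y)).compl,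
    fun t => by
      by_cases ht : t ∈ (⋃ k, D y k)ᶜ
      · exact Or.inl (indicator_of_mem ht _)
      · exact Or.inr (indicator_of_notMem ht _)⟩
  have hr : (fun t => tot cl t - tot c' t) = tot a' := by
    funext t
    unfold tot
    rw [Fintype.sum_prod_type, ← Finset.sum_sub_distrib]
    refine Finset.sum_congr rfl fun y _ => ?_
    by_cases ht : t ∈ ⋃ k, D y k
    · obtain ⟨k, hk⟩ := mem_iUnion.1 ht
      rw [Finset.sum_eq_single k (fun k' _ hne => indicator_of_notMem
        (fun h' => disjoint_left.1 (Dd y k' k hne) h' hk) _) (by simp)]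
      simp only [ha', hc']
      rw [indicator_of_mem hk, indicator_of_notMem (by simpa using ht), sub_zero]
    · rw [Finset.sum_eq_zero fun k _ => indicator_of_notMem
        (fun h' => ht (mem_iUnion.2 ⟨k, h'⟩)) _]
      simp only [hc']
      rw [indicator_of_mem (by simpa using ht), sub_self]
  have hca : Cells (Real.exp R) a' := ⟨fun p => (hcl.meas p.1).indicator (Dm p.1 p.2),
    fun p t => indicator_nonneg (fun t _ => hcl.nn p.1 t) t,
    fun t => by rw [← hr]; exact (hcl.bd_diff hsub).le t⟩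
  have hmem : ∀ p t, a' p t ≠ 0 → t ∈ D p.1 p.2 := fun p t h => by
    by_contra h'
    exact h (indicator_of_notMem h' _)
  set p := av (tot a') α ℓ with hp
  have hpe : p = ∑ q, av (a' q) α ℓ := av_sum _ (fun y _ => cell_bd hca y) α ℓ
  have hp1 : s.P / (4 * 8 ^ j) ≤ 2 * p := by
    refine Dc.trans ?_
    rw [hpe, Fintype.sum_prod_type, Finset.mul_sum]
    refine Finset.sum_le_sum fun y _ => ?_
    rw [Finset.mul_sum]
    refine Finset.sum_le_sum fun k _ => ?_
    rw [← av_two]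
    refine av_mono (M := 2 * Real.exp R) ⟨(s.hc_meas hs y).indicator (Dm y k),
      fun t => indicator_nonneg (fun t _ => (s.hc_Bd hs y).nn t) t,
      fun t => (indicator_le_self' (fun t _ => (s.hc_Bd hs y).nn t) t).trans
        ((s.hc_Bd hs y).le t)⟩ (Bd.two (cell_bd hca (y, k))) (fun t => ?_) α hℓ
    simp only [ha']
    by_cases ht : t ∈ D y k
    · rw [indicator_of_mem ht, indicator_of_mem ht]; exact (s.hc_bd hs y t).2
    · rw [indicator_of_notMem ht, indicator_of_notMem ht]; norm_num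
  have h8 : (0 : ℝ) < 8 ^ j := by positivity
  have hp2 : s.P / mm R ^ 30 ≤ p := by
    have e8 : (8 : ℝ) ^ j = (2 ^ j) ^ 3 := by rw [← pow_mul, mul_comm, pow_mul]; norm_num
    have h1 : (8 : ℝ) ^ j ≤ mm R ^ 9 := by
      rw [e8, show 9 = 3 * 3 by norm_num, pow_mul]
      exact pow_le_pow_left₀ (by positivity) hj 3
    have h2 : (2 : ℝ) ^ 21 ≤ mm R ^ 21 := pow_le_pow_left₀ (by norm_num) hm 21
    have h3 : 8 * 8 ^ j ≤ mm R ^ 30 := by
      have : mm R ^ 30 = mm R ^ 21 * mm R ^ 9 := by ring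
      rw [this]
      exact mul_le_mul (by linarith) h1 h8.le (by positivity)
    have h4 : s.P / mm R ^ 30 ≤ s.P / (8 * 8 ^ j) :=
      div_le_div_of_nonneg_left hP.le (by positivity) h3
    have h5 : s.P / (4 * 8 ^ j) = 2 * (s.P / (8 * 8 ^ j)) := by field_simp; norm_num
    linarith
  have hp3 : Real.exp (-(151 * mm R)) ≤ p := by
    refine le_trans ?_ hp2
    rw [le_div_iff₀ (by positivity)]
    have h1 := hb.pow_le 30
    push_cast at h1
    calc Real.exp (-(151 * mm R)) * mm R ^ 30 ≤ Real.exp (-(151 * mm R)) * Real.exp (30 * mm R) :=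
          mul_le_mul_of_nonneg_left h1 (Real.exp_pos _).le
      _ = Real.exp (-(121 * mm R)) := by rw [← Real.exp_add]; ring_nf
      _ ≤ s.P := s.P_ge hb
  have hp0 : 0 < p := lt_of_lt_of_le (Real.exp_pos _) hp3
  refine ⟨c', hsub, ?_, by rw [hr]; exact hp2⟩
  rw [hr]
  by_cases hpB : B < p
  · exact Or.inl (Cost_dead hpB)
  -- the number of cells
  have hrk0 : (s.rk : ℝ) ≤ A0 R := by exact_mod_cast s.hrk0
  have hlog : Real.log (Fintype.card (s.Y × Fin m)) ≤ Real.log (Fintype.card s.Y) + K := by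
    rw [Fintype.card_prod, Fintype.card_fin, Nat.cast_mul]
    have h0 := Real.log_natCast_nonneg (Fintype.card s.Y)
    by_cases h1 : (Fintype.card s.Y : ℝ) = 0
    · rw [h1, zero_mul, Real.log_zero]; linarith
    by_cases h2 : (m : ℝ) = 0
    · rw [h2, mul_zero, Real.log_zero]; linarith
    rw [Real.log_mul h1 h2]
    have : Real.log m ≤ K := by
      rw [Real.log_le_iff_le_exp (lt_of_le_of_ne (Nat.cast_nonneg _) (Ne.symm h2))]; exact hmK
    linarith
  have hN : (Fintype.card (s.Y × Fin m) : ℝ) ≤ Real.exp (δ / 2) := by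
    refine (Real.le_exp_log _).trans (Real.exp_le_exp.2 ?_)
    have h1 := s.card_le hb
    have h2 : R / mm R ^ 40 ≤ δ / 4 := hb.div_pow (by norm_num)
    linarith
  have hk1 := hb.kap_le hℓ
  have hk0 : 0 ≤ 1 + 2 * Real.pi / (kap R / ℓ * ℓ) := by have := Real.pi_pos; positivity
  set κ' := 1 + 2 * Real.pi / (kap R / ℓ * ℓ) with hκ'
  -- the death measure
  set meets : List Bool → Prop := fun v =>
    ∃ q, ∃ t ∈ Icc (nd α ℓ v) (nd α ℓ v + ln ℓ v), a' q t ≠ 0 with hmeets
  have hdead : ∀ k, ¬Liv k → avg k (fun v => if meets v then 1 else 0) ≤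
      Fintype.card (s.Y × Fin m) * (4 * κ' * Real.exp (-δ)) := by
    intro k hk
    have h1 : ∀ q : s.Y × Fin m, avg k (fun v =>
        if ∃ t ∈ Icc (nd α ℓ v) (nd α ℓ v + ln ℓ v), a' q t ≠ 0 then 1 else 0) ≤
        4 * κ' * Real.exp (-δ) := fun q => by
      have := ldead k hk (c q.1 q.2) (fun v => ∃ t ∈ Icc (nd α ℓ v) (nd α ℓ v + ln ℓ v), a' q t ≠ 0)
        (fun v _ ⟨t, h1, h2⟩ => ⟨t, h1, Dp q.1 q.2 t (hmem q t h2)⟩)
      refine le_trans (le_of_eq (by congr)) (this.trans (le_of_eq ?_))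
      rw [Real.exp_neg]; field_simp
    refine le_trans ?_ ((Finset.sum_le_sum fun q _ => h1 q).trans (le_of_eq (by
      rw [Finset.sum_const, Finset.card_univ, nsmul_eq_mul])))
    rw [← avg_sum]
    refine avg_mono_len k fun v _ => ?_
    have h2 : ∀ q ∈ (Finset.univ : Finset (s.Y × Fin m)), (0 : ℝ) ≤
        if ∃ t ∈ Icc (nd α ℓ v) (nd α ℓ v + ln ℓ v), a' q t ≠ 0 then 1 else 0 :=
      fun q _ => by split_ifs <;> norm_num
    by_cases hv : meets v
    · rw [if_pos hv]
      obtain ⟨q, hq⟩ := hv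
      refine le_trans (le_of_eq (if_pos hq).symm) (Finset.single_le_sum h2 (Finset.mem_univ q))
    · rw [if_neg hv]; exact Finset.sum_nonneg h2
  have hsig := num_sig hb (Nat.cast_nonneg _) hN hk0 hk1
  by_cases hL0 : Liv 0
  swap
  · refine Or.inl (cost_vanish66 B hℓ fun t h1 h2 => ?_)
    have h3 := hdead 0 hL0
    have h4 : Real.exp (-(151 * mm R)) ≤ 1 := Real.exp_le_one_iff.2 (by linarith)
    have h5 : ¬meets [] := fun h => by
      simp only [avg, if_pos h] at h3
      have h6 : 60000 * R * B * 1 ≤ 60000 * R * B *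
        (Fintype.card (s.Y × Fin m) * (4 * κ' * Real.exp (-δ))) :=
        mul_le_mul_of_nonneg_left h3 (by positivity)
      nlinarith
    refine Finset.sum_eq_zero fun q _ => ?_
    by_contra h6
    exact h5 ⟨q, t, by simpa [nd, ln] using ⟨h1, h2⟩, h6⟩
  obtain ⟨rho, r0, r1, r2, r3⟩ := exists_rho Liv ldown meets
    (σ := Fintype.card (s.Y × Fin m) * (4 * κ' * Real.exp (-δ))) (by positivity)
    (fun k hk => by convert hdead k hk)
  have hpure : ∀ q t, a' q t ≠ 0 → 1 / 2 ≤ Fc lam Z (t - c q.1 q.2) := fun q t h => by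
    have h1 := lF (t - c q.1 q.2)
    have h2 := Dp q.1 q.2 t (hmem q t h)
    linarith
  -- the new bin bound
  have hμ' : Real.exp (-(5 * R)) ≤ 120 * (m0 * Real.exp δ) := by
    have h1 : p ≤ Fintype.card (s.Y × Fin m) * (2 * Real.exp R * κ' * m0) := by
      rw [hpe, ← Finset.card_univ, ← nsmul_eq_mul, ← Finset.sum_const]
      refine Finset.sum_le_sum fun q _ => birth_mass E0 E1 (a := fun i : F' => i.1)
        Subtype.val_injective Em hκ α hℓ (c q.1 q.2) (hca.meas q) (Real.exp_pos R).le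
        (fun t => ⟨hca.nn q t, cell_le hca q t⟩) fun t _ h => ?_
      have := Dp q.1 q.2 t (hmem q t h)
      linarith
    have h2 : p ≤ Real.exp δ * (2 * Real.exp R * Real.exp (72 * mm R) * m0) := by
      refine h1.trans ?_
      have : Real.exp (δ / 2) ≤ Real.exp δ := Real.exp_le_exp.2 (by linarith)
      gcongr
      linarith
    have h3 : Real.exp (-(5 * R)) * (Real.exp R * Real.exp (72 * mm R)) ≤
        Real.exp (-(151 * mm R)) := by
      simp only [← Real.exp_add]; exact Real.exp_le_exp.2 (by linarith)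
    have h4 : 0 < Real.exp R * Real.exp (72 * mm R) := by positivity
    refine le_of_mul_le_mul_right ?_ h4
    have h5 : 0 < m0 * Real.exp δ * (Real.exp R * Real.exp (72 * mm R)) := by positivity
    nlinarith
  have hlm : Real.log (120 * (m0 * Real.exp δ)) ≤ Real.log s.μ - 4 * x * δ + 3 / 2 * δ := by
    have h1 : m0 ≤ Real.exp K / T := div_le_div_of_nonneg_left (Real.exp_pos _).le hT0 hn0.le
    have h2 : Real.log m0 ≤ K - (4 * x * δ - Real.log s.μ) := by
      have := Real.log_le_log hm00 h1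
      rwa [Real.log_div (Real.exp_pos _).ne' hT0.ne', hT, Real.log_div (Real.exp_pos _).ne' hμ.ne',
        Real.log_exp, Real.log_exp] at this
    have h3 : Real.log 120 ≤ 119 := by
      have := Real.log_le_sub_one_of_pos (show (0 : ℝ) < 120 by norm_num); linarith
    rw [Real.log_mul (by norm_num) (by positivity), Real.log_mul hm00.ne' (Real.exp_pos _).ne',
      Real.log_exp]
    linarith
  have hlp : Real.log (4 * B / (2 * p)) ≤ Real.log (4 * B / s.P) + (2 + 3 * j) * 0.7 := by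
    have h1 : 4 * B / (2 * p) ≤ 4 * B / s.P * (4 * 8 ^ j) := by
      refine (div_le_div_of_nonneg_left (by positivity) (by positivity) hp1).trans (le_of_eq ?_)
      field_simp
    have h2 := Real.log_le_log (by positivity) h1
    have e : (4 : ℝ) * 8 ^ j = 2 ^ (2 + 3 * j) := by rw [pow_add, pow_mul]; norm_num
    rw [Real.log_mul (by positivity) (by positivity), e, Real.log_pow] at h2
    have h3 := Real.log_two_lt_d9
    have h4 : (0 : ℝ) ≤ j := Nat.cast_nonneg j
    push_cast at h2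
    nlinarith
  have hrank : 2 * Real.log (4 * B / (2 * p)) +
      20 * ((5 * R + Real.log (120 * (m0 * Real.exp δ))) / δ) ≤ s.rk - 1 := by
    have h1 : (5 * R + Real.log (120 * (m0 * Real.exp δ))) / δ ≤
        (5 * R + Real.log s.μ) / δ - 4 * x + 3 / 2 := by
      rw [div_le_iff₀ hδ0]
      have : ((5 * R + Real.log s.μ) / δ - 4 * x + 3 / 2) * δ =
        5 * R + Real.log s.μ - 4 * x * δ + 3 / 2 * δ := by field_simp
      linarith
    have h2 := s.hrk
    rw [← hδ] at h2
    have h4 : (0 : ℝ) ≤ j := Nat.cast_nonneg j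
    linarith
  have hrk1 : 1 ≤ s.rk := by
    have h1 : 0 ≤ Real.log (4 * B / (2 * p)) :=
      Real.log_nonneg (by rw [le_div_iff₀ (by positivity)]; linarith)
    have h2 : -(5 * R) ≤ Real.log (120 * (m0 * Real.exp δ)) :=
      (Real.le_log_iff_exp_le (by positivity)).2 hμ'
    have h3 : 0 ≤ (5 * R + Real.log (120 * (m0 * Real.exp δ))) / δ :=
      div_nonneg (by linarith) hδ0.le
    have : (1 : ℝ) ≤ s.rk := by linarith
    exact_mod_cast this
  have hc1 : ((s.rk - 1 : ℕ) : ℝ) = s.rk - 1 := by rw [Nat.cast_sub hrk1, Nat.cast_one]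
  refine Or.inr ⟨{
    Y := s.Y × Fin m, Ω := (F' × F') × Bool, a := a', c := fun q => c q.1 q.2
    lam := lam, Z := Z, α := α, ℓ := ℓ, P := 2 * p, μ := 120 * (m0 * Real.exp δ), Liv := Liv
    rho := rho, rk := s.rk - 1, cells := hca, lnn := l0, lone := l1, sym := lS, pure := hpure
    hl := hℓ, hP := by positivity, hPB := by linarith, hμ := hμ', liv0 := hL0, bin := lbin
    rnn := r0, rmart := r1, rdead := r2, mass := mass_two hca _ lam Z hpure α hℓ
    hrk := by rw [hc1]; exact hrank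
    hrk0 := by have := s.hrk0; omega
    card := by rw [hc1]; have := s.card; linarith }, rfl, rfl, rfl, ?_, ?_, ?_⟩
  · show s.rk - 1 < s.rk
    omega
  · show 2 * p ≤ 4 * p
    linarith
  · show 60000 * R * B * rho [] ≤ p
    exact (mul_le_mul_of_nonneg_left r3 (by positivity)).trans (hsig.trans hp3)

theorem double88 (hb : Big R B) (s : St R B) {cl : s.Y → ℝ → ℝ} (hs : Sub s.a cl) (w : List Bool)
    (c : Bool) (hw : ∑ y, av (s.hc cl y) (nd s.α s.ℓ w) (ln s.ℓ w) ≤ s.P)
    (hL : s.Liv (w ++ [c]).length)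
    (hv : s.P < ∑ y, av (s.hc cl y) (nd s.α s.ℓ (w ++ [c])) (ln s.ℓ (w ++ [c])))
    (hB : avn (tot cl) s.α s.ℓ (w ++ [c]) ≤ B) :
    ∃ s' : St R B, tot s'.a = tot cl ∧ s'.α = nd s.α s.ℓ (w ++ [c]) ∧ s'.ℓ = ln s.ℓ (w ++ [c]) ∧
      s'.rk < s.rk ∧ s'.P ≤ 4 * avn (tot cl) s.α s.ℓ (w ++ [c]) ∧ s'.rho [] = s.rho (w ++ [c]) := by
  have hP := s.hP
  have hℓ := s.hl
  have hB1 := hb.B1
  set v := w ++ [c] with hvd
  have hl := lowFamA_ln_pos hℓ v
  have h1 := (s.mass_bd hs (nd s.α s.ℓ v) hl).2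
  have h2 : 2 * s.P ≤ 4 * avn (tot cl) s.α s.ℓ v := by unfold avn; linarith
  have hne : ∀ y t, cl y t ≠ 0 → s.a y t ≠ 0 := fun y t h e => h (by
    rcases (hs y).2 t with h1 | h1
    · rw [h1, e]
    · exact h1)
  have hrank : 2 * Real.log (4 * B / (2 * s.P)) + 20 * ((5 * R + Real.log s.μ) / (R / mm R)) ≤
      s.rk - 1 := by
    have e : 4 * B / (2 * s.P) = 4 * B / s.P / 2 := by field_simp
    rw [e, Real.log_div (by positivity) (by norm_num)]
    have := Real.log_two_gt_d9
    linarith [s.hrk]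
  have hrk1 : 1 ≤ s.rk := by
    have h3 : 0 ≤ Real.log (4 * B / (2 * s.P)) :=
      Real.log_nonneg (by rw [le_div_iff₀ (by positivity)]; linarith)
    have : (1 : ℝ) ≤ s.rk := by linarith [s.a_nn hb]
    exact_mod_cast this
  have hc1 : ((s.rk - 1 : ℕ) : ℝ) = s.rk - 1 := by rw [Nat.cast_sub hrk1, Nat.cast_one]
  refine ⟨{
    Y := s.Y, Ω := s.Ω, a := cl, c := s.c, lam := s.lam, Z := s.Z, α := nd s.α s.ℓ v
    ℓ := ln s.ℓ v, P := 2 * s.P, μ := s.μ, Liv := fun k => s.Liv (v.length + k)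
    rho := fun x => s.rho (v ++ x), rk := s.rk - 1, cells := s.cells.sub hs, lnn := s.lnn
    lone := s.lone, sym := s.sym, pure := fun y t h => s.pure y t (hne y t h)
    hl := hl, hP := by positivity, hPB := by linarith, hμ := s.hμ, liv0 := hL
    bin := fun k hk x => ?_
    rnn := fun x => s.rnn _
    rmart := fun x hx => ?_
    rdead := fun x d h3 h4 h5 => ?_
    mass := ?_
    hrk := by rw [hc1]; exact hrank
    hrk0 := by have := s.hrk0; omega
    card := ?_ }, rfl, rfl, rfl, ?_, h2, by simp⟩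
  · have e : (2 : ℝ) ^ k / ln s.ℓ v = 2 ^ (v.length + k) / s.ℓ := by
      rw [ln, pow_add]; field_simp
    rw [e]; exact s.bin _ hk x
  · have := s.rmart (v ++ x) (by rwa [List.length_append])
    simpa only [List.append_assoc] using this
  · rw [← List.append_assoc]
    refine s.rdead (v ++ x) d (by rwa [List.length_append])
      (by rwa [List.length_append, add_assoc]) ?_
    obtain ⟨y, t, h6, h7⟩ := h5
    refine ⟨y, t, ?_, hne y t h7⟩
    rwa [List.append_assoc, famA_nd_append v, Split.ln_append s.ℓ v]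
  · refine le_trans ?_ (mul_le_mul_of_nonneg_left hw (by norm_num))
    rw [Finset.mul_sum]
    refine Finset.sum_le_sum fun y _ => ?_
    have e1 := avn_mart (s.hc_Bd hs y) s.α hℓ w
    have e2 := avn_nonneg (s.hc_Bd hs y) s.α hℓ (w ++ [false])
    have e3 := avn_nonneg (s.hc_Bd hs y) s.α hℓ (w ++ [true])
    show avn (s.hc cl y) s.α s.ℓ (w ++ [c]) ≤ 2 * avn (s.hc cl y) s.α s.ℓ w
    cases c <;> linarith
  · rw [hc1]
    refine s.card.trans (mul_le_mul_of_nonneg_right (by linarith) ?_)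
    have := hb.m2
    have := hb.h1
    positivity
  · show s.rk - 1 < s.rk
    omega

end Crest.Agent.R100.T88
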