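import Crest.Agent.R100.AdEnt
import Crest.Agent.R100.OutDefs

/-! # Row 100, (U): the affine entropy uncertainty inequality (helper5) -/

set_option autoImplicit false

noncomputable section

namespace Crest.Agent.R100.U5

open Finset MeasureTheory Crest.Agent.R100.Ent Real

variable {Ω S : Type*} [Fintype Ω]

theorem normsq (a : Ω → ℝ) (k : Ω → ℤ) (θ : ℝ) :
    ‖∑ ω, (a ω : ℂ) * Complex.exp (((k ω * θ : ℝ) : ℂ) * Complex.I)‖ ^ 2 =
      ∑ ω, ∑ ω', a ω * a ω' * cos (((k ω - k ω' : ℤ) : ℝ) * θ) := by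
  rw [Complex.sq_norm, Complex.normSq_apply, Complex.re_sum, Complex.im_sum, sum_mul_sum,
    sum_mul_sum, ← sum_add_distrib]
  refine sum_congr rfl fun ω _ => ?_
  rw [← sum_add_distrib]
  refine sum_congr rfl fun ω' _ => ?_
  simp only [Complex.re_ofReal_mul, Complex.im_ofReal_mul, Complex.exp_ofReal_mul_I_re,
    Complex.exp_ofReal_mul_I_im]
  push_cast
  rw [sub_mul, cos_sub]
  ring

theorem int_cos (n : ℤ) : ∫ θ in (-π)..π, cos ((n : ℝ) * θ) = if n = 0 then 2 * π else 0 := by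
  split_ifs with h
  · subst h; simp; ring
  · have hn : (n : ℝ) ≠ 0 := by exact_mod_cast h
    rw [intervalIntegral.integral_comp_mul_left (fun x => cos x) hn, integral_cos, mul_neg,
      sin_neg, Real.sin_int_mul_pi]
    simp

theorem parseval (a : Ω → ℝ) (k : Ω → ℤ) :
    ∫ θ in (-π)..π, ‖∑ ω, (a ω : ℂ) * Complex.exp (((k ω * θ : ℝ) : ℂ) * Complex.I)‖ ^ 2 =
      2 * π * ∑ ω, a ω * ∑ ω', if k ω' = k ω then a ω' else 0 := by
  simp_rw [normsq]
  rw [intervalIntegral.integral_finsetSum (fun ω _ => Continuous.intervalIntegrable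
    (by fun_prop) _ _), mul_sum]
  refine sum_congr rfl fun ω _ => ?_
  rw [intervalIntegral.integral_finsetSum (fun ω _ => Continuous.intervalIntegrable
    (by fun_prop) _ _), mul_sum, mul_sum]
  refine sum_congr rfl fun ω' _ => ?_
  rw [intervalIntegral.integral_const_mul, int_cos]
  by_cases h : k ω' = k ω
  · simp [h]; ring
  · rw [if_neg h, if_neg (fun h' => h (by omega))]; simp

theorem light {P : Ω → ℝ} (hP : IsProb P) (k : Ω → ℤ) (j : Ω → S) {M e : ℝ} (hM : 1 ≤ M)
    {T : Set ℝ} (hT : MeasurableSet T) (hT1 : T ⊆ Set.Icc (-π) π) (hT0 : 0 < volume.real T)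
    (h : ∀ θ ∈ T, ∃ φ : S → ℂ, (∀ s, ‖φ s‖ ≤ 1) ∧
      1 - e ≤ ∑ ω, P ω * (φ (j ω) * Complex.exp (((k ω * θ : ℝ) : ℂ) * Complex.I)).re)
    (E : Ω → Prop) [DecidablePred E]
    (hE : ∀ ω, E ω → law P (fun ω => (k ω, j ω)) (k ω, j ω) ≤
      volume.real T / (2 * π * M) * law P j (j ω)) :
    ∑ ω, (if E ω then P ω else 0) ≤ 2 * e + 1 / M := by
  classical
  set F := univ.image j with hF
  have hFm : ∀ ω, j ω ∈ F := fun ω => mem_image_of_mem j (mem_univ ω)
  set V := volume.real T with hV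
  set a : S → Ω → ℝ := fun s ω => if E ω ∧ j ω = s then P ω else 0 with ha
  have a0 : ∀ s ω, 0 ≤ a s ω := fun s ω => by
    simp only [ha]; split_ifs; exacts [hP.nn ω, le_rfl]
  set p : S → ℝ → ℂ := fun s θ =>
    ∑ ω, (a s ω : ℂ) * Complex.exp (((k ω * θ : ℝ) : ℂ) * Complex.I) with hp
  set L := law P j with hL
  have L0 : ∀ s, 0 ≤ L s := law_nonneg hP.nn j
  have L1 : ∑ s ∈ F, L s = 1 := by
    have := sum_law P j (fun _ => 1) F hFm
    simp only [mul_one] at this
    rw [← this, hP.one]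
  set PE := ∑ ω, (if E ω then P ω else 0) with hPE
  have sa : ∑ s ∈ F, ∑ ω, a s ω = PE := by
    rw [sum_comm]
    refine sum_congr rfl fun ω _ => ?_
    by_cases hω : E ω
    · simp [ha, hω, hFm ω]
    · simp [ha, hω]
  have pL : ∀ s θ, ‖p s θ‖ ≤ L s := by
    intro s θ
    refine (norm_sum_le _ _).trans ?_
    simp only [hL, law]
    refine sum_le_sum fun ω _ => ?_
    rw [norm_mul, Complex.norm_exp_ofReal_mul_I, mul_one, Complex.norm_real,
      Real.norm_of_nonneg (a0 s ω)]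
    simp only [ha]
    by_cases h1 : j ω = s
    · simp only [h1, and_true, if_true]; split_ifs; exacts [le_rfl, hP.nn ω]
    · simp [h1]
  have M0 : 0 < M := by linarith
  have amgm : ∀ s θ, ‖p s θ‖ ≤ M / (2 * L s) * ‖p s θ‖ ^ 2 + L s / (2 * M) := by
    intro s θ
    rcases (L0 s).eq_or_lt with h0 | h0
    · have := pL s θ
      rw [← h0] at this ⊢
      simpa using this
    · have e1 : M / (2 * L s) * ‖p s θ‖ ^ 2 + L s / (2 * M) - ‖p s θ‖ =
          (M * ‖p s θ‖ - L s) ^ 2 / (2 * M * L s) := by field_simp; ring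
      have : 0 ≤ (M * ‖p s θ‖ - L s) ^ 2 / (2 * M * L s) := by positivity
      linarith
  set Q : ℝ → ℝ := fun θ => ∑ s ∈ F, M / (2 * L s) * ‖p s θ‖ ^ 2 with hQ
  have Qc : Continuous Q := by simp only [hQ, hp]; fun_prop
  have Q0 : ∀ θ, 0 ≤ Q θ := fun θ => sum_nonneg fun s _ => by have := L0 s; positivity
  have low : ∀ θ ∈ T, PE - e - 1 / (2 * M) ≤ Q θ := by
    intro θ hθ
    obtain ⟨φ, hφ, h1⟩ := h θ hθ
    have h2 : ∑ ω, P ω * (φ (j ω) * Complex.exp (((k ω * θ : ℝ) : ℂ) * Complex.I)).re ≤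
        ∑ ω, (P ω - (if E ω then P ω else 0) + ∑ s ∈ F,
          (φ s * ((a s ω : ℂ) * Complex.exp (((k ω * θ : ℝ) : ℂ) * Complex.I))).re) := by
      refine sum_le_sum fun ω _ => ?_
      by_cases hω : E ω
      · rw [sum_eq_single (j ω) (fun s _ hs => by simp [ha, hs.symm]) (fun h => (h (hFm ω)).elim)]
        simp only [ha, hω, if_true, true_and, sub_self, zero_add]
        rw [mul_left_comm, Complex.re_ofReal_mul]
      · have : (φ (j ω) * Complex.exp (((k ω * θ : ℝ) : ℂ) * Complex.I)).re ≤ 1 := by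
          refine (Complex.re_le_norm _).trans ?_
          rw [norm_mul, Complex.norm_exp_ofReal_mul_I, mul_one]; exact hφ _
        simp only [ha, hω, if_false, false_and, sub_zero, Complex.ofReal_zero, zero_mul, mul_zero,
          Complex.zero_re, sum_const_zero, add_zero]
        exact mul_le_of_le_one_right (hP.nn ω) this
    rw [sum_add_distrib, sum_sub_distrib, hP.one, sum_comm] at h2
    have h3 : ∑ s ∈ F, ∑ ω,
        (φ s * ((a s ω : ℂ) * Complex.exp (((k ω * θ : ℝ) : ℂ) * Complex.I))).re ≤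
        ∑ s ∈ F, (M / (2 * L s) * ‖p s θ‖ ^ 2 + L s / (2 * M)) := by
      refine sum_le_sum fun s _ => ?_
      rw [← Complex.re_sum, ← mul_sum]
      refine (Complex.re_le_norm _).trans (le_trans ?_ (amgm s θ))
      rw [norm_mul]
      exact mul_le_of_le_one_left (norm_nonneg _) (hφ s)
    rw [sum_add_distrib, ← sum_div, L1] at h3
    simp only [hQ]
    linarith
  have fin : volume T ≠ ⊤ := ((measure_mono hT1).trans_lt measure_Icc_lt_top).ne
  have i1 : (PE - e - 1 / (2 * M)) * V ≤ ∫ θ in T, Q θ :=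
    setIntegral_ge_of_const_le_real hT fin low (Qc.continuousOn.integrableOn_Icc.mono_set hT1)
  have i2 : ∫ θ in T, Q θ ≤ ∫ θ in (-π)..π, Q θ := by
    rw [intervalIntegral.integral_of_le (by linarith [pi_pos]), ← integral_Icc_eq_integral_Ioc]
    exact setIntegral_mono_set Qc.continuousOn.integrableOn_Icc (Filter.Eventually.of_forall Q0)
      hT1.eventuallyLE
  have i3 : ∫ θ in (-π)..π, Q θ ≤ V / 2 * PE := by
    simp only [hQ]
    rw [intervalIntegral.integral_finsetSum (fun s _ => Continuous.intervalIntegrable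
      (by simp only [hp]; fun_prop) _ _), ← sa, mul_sum]
    refine sum_le_sum fun s _ => ?_
    rw [intervalIntegral.integral_const_mul]
    simp only [hp]
    rw [parseval]
    have b1 : ∑ ω, a s ω * (∑ ω', if k ω' = k ω then a s ω' else 0) ≤
        ∑ ω, a s ω * (V / (2 * π * M) * L s) := by
      refine sum_le_sum fun ω _ => ?_
      by_cases hω : E ω ∧ j ω = s
      · obtain ⟨hω1, hω2⟩ := hω
        subst hω2
        refine mul_le_mul_of_nonneg_left (le_trans ?_ (hE ω hω1)) (a0 _ ω)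
        simp only [law]
        refine sum_le_sum fun ω' _ => ?_
        simp only [ha, Prod.mk.injEq]
        have := hP.nn ω'
        split_ifs with c1 c2 c3 <;> first | exact le_rfl | exact this | skip
        exact (c3 ⟨c1, c2.2⟩).elim
      · simp [ha, hω]
    rw [← sum_mul] at b1
    have b2 : 0 ≤ ∑ ω, a s ω := sum_nonneg fun ω _ => a0 s ω
    have := L0 s
    have := pi_pos
    calc _ ≤ M / (2 * L s) * (2 * π * ((∑ ω, a s ω) * (V / (2 * π * M) * L s))) := by gcongr
      _ = V / 2 * (∑ ω, a s ω) * (L s / L s) := by field_simp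
      _ ≤ V / 2 * (∑ ω, a s ω) * 1 := by gcongr; exact div_self_le_one _
      _ = _ := mul_one _
  have i4 : (PE - e - 1 / (2 * M)) * V ≤ PE / 2 * V := by linarith
  have i5 := le_of_mul_le_mul_right i4 hT0
  have : 1 / M = 2 * (1 / (2 * M)) := by field_simp
  linarith

/-- **(U)**, conditional form -/
theorem unc_cond {P : Ω → ℝ} (hP : IsProb P) (k : Ω → ℤ) (j : Ω → S) {M e : ℝ} (hM : 1 ≤ M)
    (hc : (Fintype.card Ω : ℝ) ≤ exp M)
    {T : Set ℝ} (hT : MeasurableSet T) (hT1 : T ⊆ Set.Icc (-π) π) (hT0 : 0 < volume.real T)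
    (h : ∀ θ ∈ T, ∃ φ : S → ℂ, (∀ s, ‖φ s‖ ≤ 1) ∧
      1 - e ≤ ∑ ω, P ω * (φ (j ω) * Complex.exp (((k ω * θ : ℝ) : ℂ) * Complex.I)).re) :
    ent P (fun ω => (k ω, j ω)) - ent P j ≤ log (2 * π * M / volume.real T) + 2 * e * M + 2 := by
  classical
  set V := volume.real T with hV
  have M0 : 0 < M := by linarith
  have hpi := pi_pos
  have V1 : V ≤ 2 * π := by
    have := measureReal_mono (μ := volume) hT1 measure_Icc_lt_top.ne
    rw [Real.volume_real_Icc_of_le (by linarith)] at this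
    linarith
  set A := fun ω => law P (fun ω => (k ω, j ω)) (k ω, j ω) with hA
  set B := fun ω => law P j (j ω) with hB
  set E : Ω → Prop := fun ω => A ω ≤ V / (2 * π * M) * B ω with hE
  have hl := light hP k j hM hT hT1 hT0 h E (fun ω hω => hω)
  have lg0 : 0 ≤ log (2 * π * M / V) := by
    apply log_nonneg
    rw [le_div_iff₀ hT0]
    nlinarith
  have B1 : ∀ ω, B ω ≤ 1 := fun ω => by
    rw [← hP.one]
    simp only [hB, law]
    refine sum_le_sum fun ω' _ => ?_
    split_ifs; exacts [le_rfl, hP.nn _]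
  have key : ∀ ω, P ω * log (B ω) - P ω * log (A ω) ≤
      P ω * log (2 * π * M / V) + (if E ω then P ω else 0) * M + exp (-M) := by
    intro ω
    have e0 := exp_pos (-M)
    rcases (hP.nn ω).eq_or_lt with h0 | h0
    · rw [← h0]; simp [e0.le]
    have A1 : P ω ≤ A ω := le_law hP.nn (fun ω => (k ω, j ω)) ω
    have A0 : 0 < A ω := h0.trans_le A1
    have B0 : 0 < B ω := h0.trans_le (le_law hP.nn j ω)
    rw [← mul_sub, ← log_div B0.ne' A0.ne']
    by_cases hω : E ω
    · rw [if_pos hω]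
      have c1 : log (B ω / A ω) ≤ M + exp (-M) * (B ω / A ω) := by
        have := log_le_sub_one_of_pos (x := exp (-M) * (B ω / A ω)) (by positivity)
        rw [log_mul e0.ne' (by positivity), log_exp] at this
        linarith
      have c2 : P ω * (B ω / A ω) ≤ 1 := by
        rw [← mul_div_assoc, div_le_one A0]
        calc _ ≤ A ω * 1 := by gcongr; exact B1 ω
          _ = _ := mul_one _
      have c3 := mul_le_mul_of_nonneg_left c1 h0.le
      have c4 := mul_le_mul_of_nonneg_left c2 e0.le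
      have c5 := mul_nonneg h0.le lg0
      linarith
    · rw [if_neg hω]
      have c1 : log (B ω / A ω) ≤ log (2 * π * M / V) := by
        apply log_le_log (by positivity)
        simp only [hE, not_le] at hω
        rw [div_mul_eq_mul_div, div_lt_iff₀ (by positivity)] at hω
        rw [div_le_div_iff₀ A0 hT0]
        linarith
      have c3 := mul_le_mul_of_nonneg_left c1 h0.le
      linarith
  have s := sum_le_sum fun ω (_ : ω ∈ univ) => key ω
  rw [sum_sub_distrib, sum_add_distrib, sum_add_distrib, ← sum_mul, ← sum_mul, hP.one, sum_const,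
    card_univ, nsmul_eq_mul] at s
  have t1 : (Fintype.card Ω : ℝ) * exp (-M) ≤ 1 := by
    calc _ ≤ exp M * exp (-M) := by gcongr
      _ = 1 := by rw [← exp_add]; simp
  have t2 := mul_le_mul_of_nonneg_right hl M0.le
  have t3 : (2 * e + 1 / M) * M = 2 * e * M + 1 := by field_simp
  unfold ent
  simp only [hA, hB] at s
  linarith

theorem ent_le_pair {S' : Type*} {P : Ω → ℝ} (hP : ∀ ω, 0 ≤ P ω) (k : Ω → S') (j : Ω → S) :
    ent P k ≤ ent P (fun ω => (k ω, j ω)) := by
  classical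
  unfold ent
  refine neg_le_neg (sum_le_sum fun ω _ => ?_)
  rcases (hP ω).eq_or_lt with h0 | h0
  · rw [← h0]; simp
  refine mul_le_mul_of_nonneg_left (log_le_log
    (h0.trans_le (le_law hP (fun ω => (k ω, j ω)) ω)) ?_) h0.le
  simp only [law]
  refine sum_le_sum fun ω' _ => ?_
  simp only [Prod.mk.injEq]
  have := hP ω'
  split_ifs with c1 c2 <;> first | exact le_rfl | exact this | exact (c2 c1.1).elim

theorem floor_err (Z : ℝ) {κ l u : ℝ} (hκ : 0 < κ) (hl : 0 ≤ l) (hu : |u| ≤ l) :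
    |(Z - (⌊Z * l / κ⌋ : ℝ) * (κ / l)) * u| ≤ κ := by
  rcases hl.eq_or_lt with h0 | h0
  · have : u = 0 := by rw [← h0] at hu; exact abs_nonpos_iff.1 hu
    rw [this]; simp [hκ.le]
  have e : Z - (⌊Z * l / κ⌋ : ℝ) * (κ / l) = Int.fract (Z * l / κ) * (κ / l) := by
    rw [Int.fract]; field_simp
  rw [e, abs_mul, abs_mul, abs_of_nonneg (Int.fract_nonneg _), abs_of_pos (by positivity)]
  calc _ ≤ 1 * (κ / l) * l := by gcongr; exact (Int.fract_lt_one _).le
    _ = κ := by field_simp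

/-- **(U)** for the lattice roundings of a real random frequency -/
theorem unc_floor {P : Ω → ℝ} (hP : IsProb P) (Z : Ω → ℝ) {M κ lI lJ g t0 : ℝ} (hM : 1 ≤ M)
    (hc : (Fintype.card Ω : ℝ) ≤ exp M) (hκ : 0 < κ) (hκ1 : κ ≤ 1) (hI : 0 < lI) (hJ : 0 ≤ lJ)
    {B : Set ℝ} (hB : MeasurableSet B) (hB1 : B ⊆ Set.Icc (t0 - lI) (t0 + lI))
    (hB0 : 0 < volume.real B)
    (h : ∀ t ∈ B, ∃ t1, |t - t1| ≤ lJ ∧ ∑ ω, P ω * ‖1 - ex (Z ω) (t1 - t0)‖ ≤ g) :
    ent P (fun ω => ⌊Z ω * lI / κ⌋) - ent P (fun ω => ⌊Z ω * lJ / κ⌋) ≤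
      log (2 * π * M * lI / (κ * volume.real B)) + 2 * (g + 2 * κ) * M + 2 := by
  set T : Set ℝ := (fun θ => -(lI / κ) * θ) ⁻¹' ((fun y => t0 + y) ⁻¹' B) with hT
  have hne : -(lI / κ) ≠ 0 := neg_ne_zero.2 (by positivity)
  have hv : volume.real T = κ / lI * volume.real B := by
    rw [hT, Measure.real, Real.volume_preimage_mul_left hne, measure_preimage_add,
      ENNReal.toReal_mul, ENNReal.toReal_ofReal (abs_nonneg _), inv_neg, abs_neg, inv_div,
      abs_of_pos (by positivity)]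
    rfl
  have hTm : MeasurableSet T :=
    (measurable_const_mul _) ((measurable_const_add t0) hB)
  have habs : ∀ θ ∈ T, |-(lI / κ) * θ| ≤ lI := fun θ hθ => by
    have := hB1 hθ
    rw [abs_le]
    constructor <;> linarith [this.1, this.2]
  have hT1 : T ⊆ Set.Icc (-π) π := fun θ hθ => by
    have a1 := habs θ hθ
    rw [abs_mul, abs_neg, abs_of_pos (by positivity), div_mul_eq_mul_div, div_le_iff₀ hκ] at a1
    have a2 : |θ| ≤ κ := le_of_mul_le_mul_left a1 hI
    have := pi_gt_three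
    exact abs_le.1 (by linarith)
  have main := unc_cond hP (fun ω => ⌊Z ω * lI / κ⌋) (fun ω => ⌊Z ω * lJ / κ⌋) (e := g + 2 * κ)
    hM hc hTm hT1 (by rw [hv]; positivity) (fun θ hθ => by
      obtain ⟨t1, h1, h2⟩ := h _ hθ
      set τ := -(lI / κ) * θ with hτ
      refine ⟨fun s => Complex.exp ((((s : ℝ) * (κ / lJ) * (t0 + τ - t1) : ℝ) : ℂ) * Complex.I),
        fun s => (Complex.norm_exp_ofReal_mul_I _).le, ?_⟩
      have k1 : ∀ ω, P ω - P ω * ‖1 - ex (Z ω) (t1 - t0)‖ - P ω * (2 * κ) ≤ P ω *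
          (Complex.exp ((((⌊Z ω * lJ / κ⌋ : ℝ) * (κ / lJ) * (t0 + τ - t1) : ℝ) : ℂ) * Complex.I) *
            Complex.exp ((((⌊Z ω * lI / κ⌋ : ℤ) * θ : ℝ) : ℂ) * Complex.I)).re := by
        intro ω
        have e1 := floor_err (Z ω) hκ hI.le (habs θ hθ)
        have e2 := floor_err (Z ω) hκ hJ h1
        set η := (Z ω - (⌊Z ω * lI / κ⌋ : ℝ) * (κ / lI)) * τ -
          (Z ω - (⌊Z ω * lJ / κ⌋ : ℝ) * (κ / lJ)) * (t0 + τ - t1) with hη
        have e3 : |η| ≤ 2 * κ := (abs_sub _ _).trans (by linarith)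
        have e4 : Complex.exp ((((⌊Z ω * lJ / κ⌋ : ℝ) * (κ / lJ) * (t0 + τ - t1) : ℝ) : ℂ) *
            Complex.I) * Complex.exp ((((⌊Z ω * lI / κ⌋ : ℤ) * θ : ℝ) : ℂ) * Complex.I) =
            ex (Z ω) (t1 - t0) * Complex.exp (Complex.I * (η : ℂ)) := by
          unfold ex
          rw [← Complex.exp_add, ← Complex.exp_add]
          congr 1
          have : (⌊Z ω * lJ / κ⌋ : ℝ) * (κ / lJ) * (t0 + τ - t1) + (⌊Z ω * lI / κ⌋ : ℝ) * θ =
              -(Z ω * (t1 - t0)) + η := by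
            have a1 : κ / lI * τ = -θ := by rw [hτ]; field_simp
            rw [hη]
            linear_combination (⌊Z ω * lI / κ⌋ : ℝ) * a1
          rw [← add_mul, ← Complex.ofReal_add, this]
          push_cast
          ring
        rw [e4]
        have n1 : ‖ex (Z ω) (t1 - t0)‖ = 1 := by
          unfold ex
          rw [← Complex.ofReal_neg]; exact Complex.norm_exp_ofReal_mul_I _
        have e5 : ‖1 - ex (Z ω) (t1 - t0) * Complex.exp (Complex.I * (η : ℂ))‖ ≤
            ‖1 - ex (Z ω) (t1 - t0)‖ + 2 * κ := by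
          calc _ = ‖(1 - ex (Z ω) (t1 - t0)) -
                ex (Z ω) (t1 - t0) * (Complex.exp (Complex.I * (η : ℂ)) - 1)‖ := by congr 1; ring
            _ ≤ _ := norm_sub_le _ _
            _ ≤ _ := by
              rw [norm_mul, n1, one_mul]
              gcongr
              exact Real.norm_exp_I_mul_ofReal_sub_one_le.trans e3
        have e6 := (Complex.re_le_norm _).trans e5
        rw [Complex.sub_re, Complex.one_re] at e6
        rw [← mul_one_sub, ← mul_sub]
        exact mul_le_mul_of_nonneg_left (by linarith) (hP.nn ω)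
      have s := sum_le_sum fun ω (_ : ω ∈ univ) => k1 ω
      rw [sum_sub_distrib, sum_sub_distrib, ← sum_mul, hP.one] at s
      linarith)
  have e : 2 * π * M / volume.real T = 2 * π * M * lI / (κ * volume.real B) := by
    rw [hv]; field_simp
  rw [e] at main
  linarith [ent_le_pair hP.nn (fun ω => ⌊Z ω * lI / κ⌋) (fun ω => ⌊Z ω * lJ / κ⌋)]

theorem ent_const {P : Ω → ℝ} (hP : IsProb P) (s : S) : ent P (fun _ => s) = 0 := by
  simp [ent, law, hP.one]

/-- **(U)**, absolute form -/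
theorem unc_abs {P : Ω → ℝ} (hP : IsProb P) (Z : Ω → ℝ) {M κ lI g t0 : ℝ} (hM : 1 ≤ M)
    (hc : (Fintype.card Ω : ℝ) ≤ exp M) (hκ : 0 < κ) (hκ1 : κ ≤ 1) (hI : 0 < lI)
    {B : Set ℝ} (hB : MeasurableSet B) (hB1 : B ⊆ Set.Icc (t0 - lI) (t0 + lI))
    (hB0 : 0 < volume.real B)
    (h : ∀ t ∈ B, ∑ ω, P ω * ‖1 - ex (Z ω) (t - t0)‖ ≤ g) :
    ent P (fun ω => ⌊Z ω * lI / κ⌋) ≤
      log (2 * π * M * lI / (κ * volume.real B)) + 2 * (g + 2 * κ) * M + 2 := by
  have := unc_floor hP Z hM hc hκ hκ1 hI le_rfl hB hB1 hB0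
    (fun t ht => ⟨t, by simp, h t ht⟩)
  simp only [mul_zero, zero_div] at this
  rwa [ent_const hP, sub_zero] at this

end Crest.Agent.R100.U5
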